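-- KEEP
import Claimed.Prelude.Def_0450

/-!
# Row 278, S0522: the roof

`eg_roof`: the frozen conclusion of S0522 follows from

* contract A (`EgCoreA`): a monomial up-set `M` that contains the pure powers and has the Hilbert
  function of `I`;
* contract B (`EgCL`): Clements--Lindstrom for the box `x_i ^ a_i`, `i < c`.

Everything else (API of the definitions of `Claims.C0450`) is proved here.
-/

set_option autoImplicit false
open Claims Claims.C0450
open MvPolynomial

namespace Claimed.Agent.R278

section api

variable {F : Type} [Field F] {n : ℕ}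

/-- exponent vectors as a set of finitely supported functions -/
def egFs (T : Set (Fin n → ℕ)) : Set (Fin n →₀ ℕ) := {s | (⇑s) ∈ T}

theorem eg_span_eq (T : Set (Fin n → ℕ)) :
    Submodule.span F
        ((fun m : Fin n → ℕ => monomial (Finsupp.equivFunOnFinite.symm m) (1 : F)) '' T)
      = restrictSupport F (egFs T) := by
  rw [restrictSupport_eq_span]
  congr 1
  ext p
  constructor
  · rintro ⟨m, hm, rfl⟩
    exact ⟨Finsupp.equivFunOnFinite.symm m, by simpa [egFs] using hm, rfl⟩
  · rintro ⟨s, hs, rfl⟩
    refine ⟨⇑s, hs, ?_⟩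
    simp

theorem eg_restrict_inf (s t : Set (Fin n →₀ ℕ)) :
    restrictSupport F s ⊓ restrictSupport F t = restrictSupport F (s ∩ t) := by
  ext p
  simp [mem_restrictSupport_iff, Set.subset_inter_iff]

theorem eg_homog_eq (d : ℕ) :
    homogeneousSubmodule (Fin n) F d = restrictSupport F {s | s.degree = d} :=
  homogeneousSubmodule_eq_finsupp_supported (Fin n) F d

theorem eg_finrank_restrict (s : Set (Fin n →₀ ℕ)) :
    Module.finrank F (restrictSupport F s) = Nat.card s :=
  Module.finrank_eq_nat_card_basis (basisRestrictSupport F s)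

open Classical in
theorem eg_card_deg (T : Set (Fin n → ℕ)) (d : ℕ) :
    Nat.card (egFs T ∩ {s | s.degree = d} : Set (Fin n →₀ ℕ))
      = ((Finset.Nat.antidiagonalTuple n d).filter (· ∈ T)).card := by
  rw [← Nat.card_eq_finsetCard]
  refine Nat.card_congr ⟨fun s => ⟨⇑s.1, ?_⟩, fun m => ⟨Finsupp.equivFunOnFinite.symm m.1, ?_⟩,
    ?_, ?_⟩
  · obtain ⟨s, hs1, hs2⟩ := s
    simp only [Finset.mem_filter, Finset.Nat.mem_antidiagonalTuple]
    refine ⟨?_, hs1⟩
    simpa [Finsupp.degree_eq_sum] using hs2
  · obtain ⟨m, hm⟩ := m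
    simp only [Finset.mem_filter, Finset.Nat.mem_antidiagonalTuple] at hm
    refine ⟨by simpa [egFs] using hm.2, ?_⟩
    simpa [Finsupp.degree_eq_sum] using hm.1
  · intro s; ext; simp
  · intro m; ext; simp

open Classical in
theorem eg_finrank_span (T : Set (Fin n → ℕ)) (d : ℕ) :
    Module.finrank F (Submodule.span F
        ((fun m : Fin n → ℕ => monomial (Finsupp.equivFunOnFinite.symm m) (1 : F)) '' T) ⊓
          homogeneousSubmodule (Fin n) F d : Submodule F (MvPolynomial (Fin n) F))
      = ((Finset.Nat.antidiagonalTuple n d).filter (· ∈ T)).card := by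
  rw [eg_span_eq, eg_homog_eq, eg_restrict_inf, eg_finrank_restrict, eg_card_deg]

/-- a set closed under raising one exponent by one is an upper set -/
theorem eg_upper (T : Set (Fin n → ℕ))
    (hT : ∀ m ∈ T, ∀ i, Function.update m i (m i + 1) ∈ T) : IsUpperSet (egFs T) := by
  have key : ∀ r : Fin n →₀ ℕ, ∀ s : Fin n →₀ ℕ, s ∈ egFs T → s + r ∈ egFs T := by
    intro r
    induction r using Finsupp.induction_linear with
    | zero => intro s hs; simpa using hs
    | add f g hf hg => intro s hs; rw [← add_assoc]; exact hg _ (hf _ hs)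
    | single i b =>
      induction b with
      | zero => intro s hs; simpa using hs
      | succ b ih =>
        intro s hs
        have h1 := hT _ (ih s hs) i
        have h2 : (⇑(s + Finsupp.single i (b + 1)) : Fin n → ℕ)
            = Function.update (⇑(s + Finsupp.single i b)) i ((s + Finsupp.single i b) i + 1) := by
          funext j
          by_cases hj : j = i
          · subst hj; simp [add_assoc]
          · simp [Function.update_of_ne hj, Ne.symm hj]
        show (⇑(s + Finsupp.single i (b + 1)) : Fin n → ℕ) ∈ T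
        rw [h2]; exact h1
  intro s t hst hs
  obtain ⟨r, rfl⟩ := exists_add_of_le hst
  exact key r s hs

theorem eg_span_ideal (T : Set (Fin n → ℕ))
    (hT : ∀ m ∈ T, ∀ i, Function.update m i (m i + 1) ∈ T) :
    ∃ J : Ideal (MvPolynomial (Fin n) F), J.restrictScalars F = Submodule.span F
        ((fun m : Fin n → ℕ => monomial (Finsupp.equivFunOnFinite.symm m) (1 : F)) '' T) :=
  ⟨restrictSupportIdeal F (egFs T) (eg_upper T hT), by
    rw [eg_span_eq, restrictScalars_restrictSupportIdeal]⟩

end api

section rank

/-- in a finite set of a linear order, the elements with fewer than `q` larger elements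
are `min q (card)` in number -/
theorem eg_rank_card {α : Type*} [LinearOrder α] (S : Finset α) (q : ℕ) :
    (S.filter fun x => (S.filter fun y => x < y).card < q).card = min q S.card := by
  induction S using Finset.induction_on_min generalizing q with
  | empty => simp
  | insert a S ha ih =>
    have haS : a ∉ S := fun h => lt_irrefl _ (ha a h)
    have h1 : ∀ x ∈ S, ((insert a S).filter fun y => x < y) = S.filter fun y => x < y := by
      intro x hx
      rw [Finset.filter_insert, if_neg (not_lt.mpr (ha x hx).le)]
    have h2 : ((insert a S).filter fun y => a < y) = S := by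
      rw [Finset.filter_insert, if_neg (lt_irrefl _)]
      exact Finset.filter_true_of_mem ha
    rw [Finset.filter_insert, h2, Finset.card_insert_of_notMem haS]
    have h3 : (S.filter fun x => ((insert a S).filter fun y => x < y).card < q)
        = S.filter fun x => (S.filter fun y => x < y).card < q := by
      apply Finset.filter_congr
      intro x hx
      rw [h1 x hx]
    rw [h3]
    split_ifs with hq
    · rw [Finset.card_insert_of_notMem (by simp [haS]), ih]
      omega
    · rw [ih]; omega

theorem eg_rank_card_emb {β α : Type*} [LinearOrder α] (e : β ↪ α) (S : Finset β) (q : ℕ) :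
    (S.filter fun x => (S.filter fun y => e x < e y).card < q).card = min q S.card := by
  have h := eg_rank_card (S.map e) q
  simp only [Finset.filter_map, Finset.card_map] at h
  exact h

theorem eg_lexGt_iff {n : ℕ} (m' m : Fin n → ℕ) : lexGt m' m = true ↔ toLex m < toLex m' := by
  unfold lexGt
  rw [decide_eq_true_iff]
  constructor
  · rintro ⟨i, h1, h2⟩
    exact ⟨i, fun j hj => (h1 j hj).symm, h2⟩
  · rintro ⟨i, h1, h2⟩
    exact ⟨i, fun j hj => (h1 j hj).symm, h2⟩

end rank

section contracts

variable {n c : ℕ}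

/-- the first `q` monomials of degree `d`, in the lexicographic order, outside the pure powers -/
def egLex (hc : c ≤ n) (a : Fin c → ℕ) (d q : ℕ) : Finset (Fin n → ℕ) :=
  (nonPowerMonomials hc a d).filter fun m =>
    ((nonPowerMonomials hc a d).filter fun m' => lexGt m' m = true).card < q

/-- the upper shadow inside the box -/
def egShadow (hc : c ≤ n) (a : Fin c → ℕ) (d : ℕ) (A : Finset (Fin n → ℕ)) :
    Finset (Fin n → ℕ) :=
  (nonPowerMonomials hc a (d + 1)).filter fun m' =>
    ∃ m ∈ A, ∃ i, m' = Function.update m i (m i + 1)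

/-- **Contract B** (Clements--Lindstrom): the shadow of the lex segment of the size of `A` lies in
the lex segment of the size of the shadow of `A`. -/
def EgCL (hc : c ≤ n) (a : Fin c → ℕ) : Prop :=
  ∀ (d : ℕ) (A : Finset (Fin n → ℕ)), A ⊆ nonPowerMonomials hc a d →
    egShadow hc a d (egLex hc a d A.card) ⊆ egLex hc a (d + 1) (egShadow hc a d A).card

open Classical in
/-- **Contract A** (the EGH core): a monomial up-set that contains the pure powers and has the
Hilbert function of `I`. -/
def EgCoreA {F : Type} [Field F] (hc : c ≤ n) (a : Fin c → ℕ)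
    (I : Ideal (MvPolynomial (Fin n) F)) : Prop :=
  ∃ M : Set (Fin n → ℕ), (∀ m ∈ M, ∀ i, Function.update m i (m i + 1) ∈ M) ∧
    (∀ m, inPowers hc a m = true → m ∈ M) ∧
    ∀ d : ℕ, Module.finrank F (degPart I d)
      = ((Finset.Nat.antidiagonalTuple n d).filter (· ∈ M)).card

theorem eg_card_egLex (hc : c ≤ n) (a : Fin c → ℕ) (d q : ℕ) :
    (egLex hc a d q).card = min q (nonPowerMonomials hc a d).card := by
  classical
  have h := eg_rank_card_emb (β := Fin n → ℕ) (α := Lex (Fin n → ℕ))
    ⟨toLex, toLex.injective⟩ (nonPowerMonomials hc a d) q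
  rw [← h]
  unfold egLex
  congr 1
  ext x
  simp only [Finset.mem_filter, eg_lexGt_iff, Function.Embedding.coeFn_mk]
  refine and_congr_right fun _ => ?_
  convert Iff.rfl
  rfl

theorem eg_egLex_mono (hc : c ≤ n) (a : Fin c → ℕ) (d : ℕ) {q q' : ℕ} (h : q ≤ q') :
    egLex hc a d q ⊆ egLex hc a d q' := by
  intro m hm
  unfold egLex at hm ⊢
  rw [Finset.mem_filter] at hm ⊢
  exact ⟨hm.1, hm.2.trans_le h⟩

theorem eg_lexSegment_eq {F : Type} [Field F] (hc : c ≤ n) (a : Fin c → ℕ)
    (I : Ideal (MvPolynomial (Fin n) F)) (d : ℕ) :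
    lexSegment hc a I d = egLex hc a d (qDim hc a I d).toNat := by
  unfold lexSegment egLex
  apply Finset.filter_congr
  intro m _
  exact Int.lt_toNat.symm

theorem eg_inPowers_update (hc : c ≤ n) (a : Fin c → ℕ) (m : Fin n → ℕ) (i : Fin n)
    (h : inPowers hc a m = true) : inPowers hc a (Function.update m i (m i + 1)) = true := by
  unfold inPowers at h ⊢
  rw [decide_eq_true_iff] at h ⊢
  obtain ⟨j, hj⟩ := h
  refine ⟨j, hj.trans ?_⟩
  by_cases hij : Fin.castLE hc j = i
  · subst hij; simp
  · simp [Function.update_of_ne hij]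

theorem eg_sum_update (m : Fin n → ℕ) (i : Fin n) :
    ∑ j, Function.update m i (m i + 1) j = (∑ j, m j) + 1 := by
  have h : Function.update m i (m i + 1) = m + Pi.single i 1 := by
    funext j
    by_cases hj : j = i
    · subst hj; simp
    · simp [hj]
  rw [h]
  simp [Finset.sum_add_distrib]

end contracts

section roof

variable {F : Type} [Field F] {n c : ℕ}

open Classical in
/-- **The roof of S0522**: the frozen conclusion from the two contracts. -/
theorem eg_roof (hc : c ≤ n) (a : Fin c → ℕ) (I : Ideal (MvPolynomial (Fin n) F))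
    (hB : EgCL hc a) (hA : EgCoreA hc a I) :
    (∀ d : ℕ, 0 ≤ qDim hc a I d ∧ qDim hc a I d ≤ (nonPowerMonomials hc a d).card) ∧
      (∃ J : Ideal (MvPolynomial (Fin n) F),
        J.restrictScalars F = Submodule.span F (lppMonomials hc a I)) ∧
      ∀ d : ℕ, Module.finrank F (degPart I d) =
        Module.finrank F (Submodule.span F (lppMonomials hc a I) ⊓
          homogeneousSubmodule (Fin n) F d : Submodule F (MvPolynomial (Fin n) F)) := by
  obtain ⟨M, hMup, hMP, hMdim⟩ := hA
  -- the part of `M` outside the powers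
  set A : ℕ → Finset (Fin n → ℕ) := fun d => (nonPowerMonomials hc a d).filter (· ∈ M) with hAdef
  have hAsub : ∀ d, A d ⊆ nonPowerMonomials hc a d := fun d => Finset.filter_subset _ _
  -- splitting of `M_d`
  have hsplit : ∀ d, ((Finset.Nat.antidiagonalTuple n d).filter (· ∈ M)).card
      = ((Finset.Nat.antidiagonalTuple n d).filter fun m => inPowers hc a m = true).card
        + (A d).card := by
    intro d
    rw [← Finset.card_union_of_disjoint]
    · congr 1
      ext m
      simp only [hAdef, nonPowerMonomials, Finset.mem_filter, Finset.mem_union]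
      constructor
      · rintro ⟨h1, h2⟩
        cases h : inPowers hc a m
        · exact Or.inr ⟨⟨h1, rfl⟩, h2⟩
        · exact Or.inl ⟨h1, rfl⟩
      · rintro (⟨h1, h2⟩ | ⟨⟨h1, _⟩, h2⟩)
        · exact ⟨h1, hMP m h2⟩
        · exact ⟨h1, h2⟩
    · rw [Finset.disjoint_left]
      intro m h1 h2
      simp only [hAdef, nonPowerMonomials, Finset.mem_filter] at h1 h2
      rw [h1.2] at h2
      exact absurd h2.1.2 (by simp)
  have hq : ∀ d, qDim hc a I d = ((A d).card : ℤ) := by
    intro d
    unfold qDim
    rw [hMdim d, hsplit d]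
    push_cast
    ring
  have hqNat : ∀ d, (qDim hc a I d).toNat = (A d).card := by
    intro d; rw [hq d]; simp
  have hseg : ∀ d, lexSegment hc a I d = egLex hc a d (A d).card := by
    intro d; rw [eg_lexSegment_eq, hqNat]
  have hAcard : ∀ d, (A d).card ≤ (nonPowerMonomials hc a d).card :=
    fun d => Finset.card_le_card (hAsub d)
  -- the exponent set of the lex-plus-powers span
  set T : Set (Fin n → ℕ) := {m | inPowers hc a m = true ∨ m ∈ lexSegment hc a I (∑ i, m i)}
    with hTdef
  have hTup : ∀ m ∈ T, ∀ i, Function.update m i (m i + 1) ∈ T := by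
    intro m hm i
    rcases hm with hm | hm
    · exact Or.inl (eg_inPowers_update hc a m i hm)
    · cases hP : inPowers hc a (Function.update m i (m i + 1))
      · right
        rw [eg_sum_update, hseg]
        rw [hseg] at hm
        set d := ∑ j, m j with hd
        have h1 : Function.update m i (m i + 1) ∈ egShadow hc a d (egLex hc a d (A d).card) := by
          unfold egShadow
          rw [Finset.mem_filter]
          refine ⟨?_, m, hm, i, rfl⟩
          unfold nonPowerMonomials
          rw [Finset.mem_filter, Finset.Nat.mem_antidiagonalTuple]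
          exact ⟨by rw [eg_sum_update], hP⟩
        have h2 := hB d (A d) (hAsub d) h1
        refine eg_egLex_mono hc a (d + 1) (Finset.card_le_card ?_) h2
        intro m' hm'
        unfold egShadow at hm'
        rw [Finset.mem_filter] at hm'
        obtain ⟨h3, m0, hm0, j, rfl⟩ := hm'
        simp only [hAdef, Finset.mem_filter] at hm0 ⊢
        exact ⟨h3, hMup m0 hm0.2 j⟩
      · exact Or.inl hP
  have hlpp : lppMonomials hc a I
      = (fun m : Fin n → ℕ => monomial (Finsupp.equivFunOnFinite.symm m) (1 : F)) '' T := rfl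
  refine ⟨fun d => ⟨?_, ?_⟩, ?_, fun d => ?_⟩
  · rw [hq d]; positivity
  · rw [hq d]; exact_mod_cast hAcard d
  · rw [hlpp]; exact eg_span_ideal T hTup
  · rw [hlpp, eg_finrank_span, hMdim d, hsplit d]
    rw [← Nat.min_eq_left (hAcard d), ← eg_card_egLex hc a d (A d).card,
      ← Finset.card_union_of_disjoint]
    · congr 1
      ext m
      simp only [Finset.mem_filter, Finset.mem_union, Finset.Nat.mem_antidiagonalTuple, hTdef,
        Set.mem_ofPred_eq]
      constructor
      · rintro (⟨h1, h2⟩ | h)
        · exact ⟨h1, Or.inl h2⟩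
        · have h1 : ∑ i, m i = d := by
            have := (Finset.mem_filter.mp h).1
            unfold nonPowerMonomials at this
            rw [Finset.mem_filter, Finset.Nat.mem_antidiagonalTuple] at this
            exact this.1
          exact ⟨h1, Or.inr (by rw [h1, hseg]; exact h)⟩
      · rintro ⟨h1, h2 | h2⟩
        · exact Or.inl ⟨h1, h2⟩
        · rw [h1, hseg] at h2
          exact Or.inr h2
    · rw [Finset.disjoint_left]
      intro m h1 h2
      have h3 := (Finset.mem_filter.mp h2).1
      unfold nonPowerMonomials at h3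
      rw [Finset.mem_filter] at h1 h3
      rw [h1.2] at h3
      exact absurd h3.2 (by simp)

/-- The two contracts at the hypotheses of the frozen statement give the frozen conclusion. -/
theorem eg_S0522_of_contracts
    (hCL : ∀ (n c : ℕ) (hc : c ≤ n) (a : Fin c → ℕ), Monotone a → EgCL hc a)
    (hEGH : ∀ (F : Type) [Field F] [CharZero F] (n c : ℕ) (_ : 1 ≤ c) (hc : c ≤ n)
      (a : Fin c → ℕ) (_ : ∀ i, 2 ≤ a i) (_ : Monotone a)
      (I : Ideal (MvPolynomial (Fin n) F)) (_ : IsHomogeneousIdeal I)
      (f : Fin c → MvPolynomial (Fin n) F)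
      (_ : ∀ i, f i ∈ homogeneousSubmodule (Fin n) F (a i)) (_ : ∀ i, f i ∈ I)
      (_ : RingTheory.Sequence.IsRegular (MvPolynomial (Fin n) F) (List.ofFn f)),
      EgCoreA hc a I)
    (F : Type) [Field F] [CharZero F] (n c : ℕ) (hc1 : 1 ≤ c) (hc : c ≤ n)
    (a : Fin c → ℕ) (ha : ∀ i, 2 ≤ a i) (hmono : Monotone a)
    (I : Ideal (MvPolynomial (Fin n) F)) (hI : IsHomogeneousIdeal I)
    (f : Fin c → MvPolynomial (Fin n) F) (hfdeg : ∀ i, f i ∈ homogeneousSubmodule (Fin n) F (a i))
    (hfI : ∀ i, f i ∈ I) (hreg : RingTheory.Sequence.IsRegular (MvPolynomial (Fin n) F) (List.ofFn f)) :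
    (∀ d : ℕ, 0 ≤ qDim hc a I d ∧ qDim hc a I d ≤ (nonPowerMonomials hc a d).card) ∧
      (∃ J : Ideal (MvPolynomial (Fin n) F),
        J.restrictScalars F = Submodule.span F (lppMonomials hc a I)) ∧
      ∀ d : ℕ, Module.finrank F (degPart I d) =
        Module.finrank F (Submodule.span F (lppMonomials hc a I) ⊓
          homogeneousSubmodule (Fin n) F d : Submodule F (MvPolynomial (Fin n) F)) :=
  eg_roof hc a I (hCL n c hc a hmono) (hEGH F n c hc1 hc a ha hmono I hI f hfdeg hfI hreg)

/-- function form of `eg_upper` -/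
theorem eg_upper_fun (T : Set (Fin n → ℕ))
    (hT : ∀ m ∈ T, ∀ i, Function.update m i (m i + 1) ∈ T) {m m' : Fin n → ℕ} (hm : m ∈ T)
    (hle : m ≤ m') : m' ∈ T := by
  have h := eg_upper T hT (a := Finsupp.equivFunOnFinite.symm m)
    (b := Finsupp.equivFunOnFinite.symm m') (by intro i; simpa using hle i)
    (by simpa [egFs] using hm)
  simpa [egFs] using h

open Classical in
/-- glue: the shape of `eg2_extract` (Sec2Box, pen 246) gives contract A in the case `c = n`. -/
theorem eg_coreA_of_extract (a : Fin n → ℕ) (I : Ideal (MvPolynomial (Fin n) F))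
    (h : ∃ E : Set (Fin n → ℕ), (∀ m ∈ E, ∀ j, Function.update m j (m j + 1) ∈ E) ∧
      (∀ i, Pi.single i (a i) ∈ E) ∧
      ∀ d : ℕ, Set.ncard {m | m ∈ E ∧ ∑ i, m i = d} = Module.finrank F (degPart I d)) :
    EgCoreA (le_refl n) a I := by
  obtain ⟨E, h1, h2, h3⟩ := h
  refine ⟨E, h1, ?_, fun d => ?_⟩
  · intro m hm
    unfold inPowers at hm
    rw [decide_eq_true_iff] at hm
    obtain ⟨i, hi⟩ := hm
    refine eg_upper_fun E h1 (h2 i) ?_
    intro j
    by_cases hj : j = i
    · subst hj; simpa using hi
    · simp [hj]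
  · rw [← h3 d, ← Set.ncard_coe_finset]
    congr 1
    ext m
    simp [Finset.Nat.mem_antidiagonalTuple, and_comm]

end roof

end Claimed.Agent.R278
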