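-- KEEP
import Mathlib
import Claimed.Prelude.Def_0450

/-!
# Row 278 (S0522, S0523), `R278/Sec2Box` : THE BOX and Section 2 of the EGH paper      (pen helper246, prefix `eg2`)

* `Eg2Box F n a I` : THE BOX = what Section 2 of *Commuting division-coefficient forms ...* really needs of its Theorem 1.1:
  a division ring `D` over `F`, linear forms `t_i = ∑_j τ i j x_j` of `D[x]` (central variables) which commute pairwise, form a left basis of `D[x]_1`
  (`σ τ = 1`), and satisfy `t_i ^ a_i - ∑_{d > i} C_d t_d ∈ D · I` with `C_d` homogeneous of degree `a_i - 1`.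
* `eg2_extract` (Proposition `prop:monomial-reduction`): BOX ⇒ an upward closed set `E` of exponents, containing `a_i e_i`, with `#E_d = dim_F I_d`.
  PROVED here, no gap: `eg2e_card` (elimination over a division ring), `eg2b_finrank` (extension of the coefficients keeps the dimension),
  `eg2T`, `eg2Psi` (the substitution `x^α ↦ t^α`, bijective on each degree), `eg2x_deg` (`D · I` is graded), `eg2Key` (last coordinate first).
-/

set_option autoImplicit false

open MvPolynomial

noncomputable section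

namespace Claimed.Agent.R278

open Claims.C0450

/-- `D[x_1, …, x_n]` with central variables. -/
abbrev Eg2N (D : Type) [Ring D] (n : ℕ) : Type := AddMonoidAlgebra D (Fin n →₀ ℕ)

/-- the linear form `∑_j τ_j x_j` -/
def eg2Lin {D : Type} [Ring D] {n : ℕ} (τ : Fin n → D) : Eg2N D n :=
  ∑ j, AddMonoidAlgebra.single (Finsupp.single j 1) (τ j)

/-- extension of the coefficients `F[x] → D[x]` -/
def eg2Iota (F D : Type) [Field F] [Ring D] [Algebra F D] (n : ℕ) :
    MvPolynomial (Fin n) F →+* Eg2N D n :=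
  AddMonoidAlgebra.mapRingHom (Fin n →₀ ℕ) (algebraMap F D)

/-- `D · I`: the left `D`-span of `I` in `D[x]` -/
def eg2Ext {F : Type} (D : Type) [Field F] [Ring D] [Algebra F D] {n : ℕ}
    (I : Ideal (MvPolynomial (Fin n) F)) : Submodule D (Eg2N D n) :=
  Submodule.span D (eg2Iota F D n '' (I : Set (MvPolynomial (Fin n) F)))

/-- the homogeneous piece `D[x]_e` -/
def eg2Deg (D : Type) [Ring D] (n e : ℕ) : Submodule D (Eg2N D n) where
  carrier := {x | ∀ α : Fin n →₀ ℕ, x.coeff α ≠ 0 → ∑ i, α i = e}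
  add_mem' := by
    intro x y hx hy α h
    by_contra hne
    have h1 : x.coeff α = 0 := by by_contra h1; exact hne (hx α h1)
    have h2 : y.coeff α = 0 := by by_contra h2; exact hne (hy α h2)
    exact h (by simp [h1, h2])
  zero_mem' := by intro α h; simp at h
  smul_mem' := by
    intro c x hx α h
    refine hx α fun h0 => h ?_
    simp [h0]

/-- **THE BOX.** -/
def Eg2Box (F : Type) [Field F] (n : ℕ) (a : Fin n → ℕ) (I : Ideal (MvPolynomial (Fin n) F)) : Prop :=
  ∃ (D : Type) (_ : DivisionRing D) (_ : Algebra F D) (τ σ : Fin n → Fin n → D),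
    (∀ i k, ∑ j, σ i j * τ j k = if i = k then 1 else 0) ∧
    (∀ i k, Commute (eg2Lin (τ i)) (eg2Lin (τ k))) ∧
    ∀ i, ∃ C : Fin n → Eg2N D n, (∀ d, d ≤ i → C d = 0) ∧ (∀ d, C d ∈ eg2Deg D n (a i - 1)) ∧
      eg2Lin (τ i) ^ a i - ∑ d, C d * eg2Lin (τ d) ∈ eg2Ext D I

/-- L-ELIM: over a division ring, the number of least indices of a subspace is its dimension. -/
theorem eg2e_card {K κ ο V : Type*} [DivisionRing K] [AddCommGroup V] [Module K V] [LinearOrder ο]
    (key : κ → ο) (hkey : Function.Injective key) (co : κ → V →ₗ[K] K) (B : Finset κ)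
    (W : Submodule K V) (hW : ∀ w ∈ W, (∀ i ∈ B, co i w = 0) → w = 0) :
    Set.ncard {i | i ∈ B ∧ ∃ w ∈ W, co i w ≠ 0 ∧ ∀ j ∈ B, co j w ≠ 0 → key i ≤ key j}
      = Module.finrank K W := by
  classical
  set E : Set κ := {i | i ∈ B ∧ ∃ w ∈ W, co i w ≠ 0 ∧ ∀ j ∈ B, co j w ≠ 0 → key i ≤ key j} with hE
  have hEB : E ⊆ (B : Set κ) := fun i hi => hi.1
  have hEfin : E.Finite := B.finite_toSet.subset hEB
  have : Fintype E := hEfin.fintype
  -- the projection to the coordinates in `E`
  let P : W →ₗ[K] (E → K) :=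
    { toFun := fun w e => co e (w : V)
      map_add' := by intro x y; ext e; simp
      map_smul' := by intro c x; ext e; simp }
  have hP : Function.Injective P := by
    refine (injective_iff_map_eq_zero P).2 ?_
    rintro ⟨w, hw⟩ h0
    by_contra hne
    have hw0 : w ≠ 0 := fun h => hne (by simp [h])
    have hsup : (B.filter fun i => co i w ≠ 0).Nonempty := by
      by_contra hemp
      rw [Finset.not_nonempty_iff_eq_empty] at hemp
      refine hw0 (hW w hw fun i hi => ?_)
      by_contra hi0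
      have : i ∈ B.filter fun i => co i w ≠ 0 := Finset.mem_filter.2 ⟨hi, hi0⟩
      rw [hemp] at this
      simp at this
    obtain ⟨i, hi, hmin⟩ := Finset.exists_min_image _ key hsup
    have hiE : i ∈ E := ⟨(Finset.mem_filter.1 hi).1, w, hw, (Finset.mem_filter.1 hi).2,
      fun j hjB hj => hmin j (Finset.mem_filter.2 ⟨hjB, hj⟩)⟩
    have := congrFun h0 ⟨i, hiE⟩
    exact (Finset.mem_filter.1 hi).2 this
  have : Module.Finite K W := Module.Finite.of_injective P hP
  have h1 : Module.finrank K W ≤ Fintype.card E := by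
    have := LinearMap.finrank_le_finrank_of_injective hP
    simpa using this
  -- a triangular family
  have hch : ∀ e : E, ∃ w : W, co e (w : V) ≠ 0 ∧ ∀ j ∈ B, co j (w : V) ≠ 0 → key e ≤ key j := by
    rintro ⟨e, -, w, hw, h1, h2⟩
    exact ⟨⟨w, hw⟩, h1, h2⟩
  choose v hv1 hv2 using hch
  have hli : LinearIndependent K v := by
    refine linearIndependent_iff'.2 ?_
    intro s g hsum e he
    by_contra hge
    have hne : (s.filter fun e => g e ≠ 0).Nonempty := ⟨e, Finset.mem_filter.2 ⟨he, hge⟩⟩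
    obtain ⟨e0, he0, hmin⟩ := Finset.exists_min_image _ (fun e : E => key e) hne
    have he0s := (Finset.mem_filter.1 he0).1
    have hg0 := (Finset.mem_filter.1 he0).2
    have hcoord : (∑ e ∈ s, g e * co e0 ((v e : W) : V)) = 0 := by
      have := congrArg (fun w : W => co e0 (w : V)) hsum
      simpa using this
    rw [Finset.sum_eq_single_of_mem e0 he0s] at hcoord
    · rcases mul_eq_zero.1 hcoord with h | h
      · exact hg0 h
      · exact hv1 e0 h
    · intro e' he' hne'
      by_cases hg : g e' = 0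
      · simp [hg]
      · have hle : key e0 ≤ key e' := hmin e' (Finset.mem_filter.2 ⟨he', hg⟩)
        have hz : co e0 ((v e' : W) : V) = 0 := by
          by_contra hnz
          have hle2 := hv2 e' e0 (hEB e0.2) hnz
          have : key (e' : κ) = key (e0 : κ) := le_antisymm hle2 hle
          exact hne' (Subtype.ext (hkey this))
        simp [hz]
  have h2 : Fintype.card E ≤ Module.finrank K W := hli.fintype_card_le_finrank
  rw [Set.ncard_eq_toFinset_card' E, Set.toFinset_card]
  exact le_antisymm h2 h1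

section basechange

variable {F D : Type} [Field F] [DivisionRing D] [Algebra F D] {n : ℕ}

theorem eg2b_coeff (p : MvPolynomial (Fin n) F) (α : Fin n →₀ ℕ) :
    (eg2Iota F D n p).coeff α = algebraMap F D (MvPolynomial.coeff α p) :=
  AddMonoidAlgebra.coeff_mapRingHom _ _ _

/-- L-BC: `F`-linearly independent polynomials stay left linearly independent over `D`. -/
theorem eg2b_li {κ : Type*} (u : κ → MvPolynomial (Fin n) F) (hu : LinearIndependent F u) :
    LinearIndependent D (fun k => eg2Iota F D n (u k)) := by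
  classical
  refine linearIndependent_iff'.2 ?_
  intro s g hsum k hk
  refine (Module.forall_dual_apply_eq_zero_iff F (g k)).1 fun φ => ?_
  have h0 : ∑ k ∈ s, φ (g k) • u k = 0 := by
    ext α
    have h1 := congrArg (fun x : Eg2N D n => φ (x.coeff α)) hsum
    simp only [AddMonoidAlgebra.coeff_sum, AddMonoidAlgebra.coeff_smul, Finsupp.finsetSum_apply,
      Finsupp.smul_apply, eg2b_coeff, map_sum, AddMonoidAlgebra.coeff_zero, Finsupp.zero_apply,
      map_zero, smul_eq_mul] at h1
    rw [MvPolynomial.coeff_sum, MvPolynomial.coeff_zero, ← h1]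
    refine Finset.sum_congr rfl fun j _ => ?_
    rw [MvPolynomial.coeff_smul, ← Algebra.commutes, ← Algebra.smul_def, map_smul, smul_eq_mul,
      smul_eq_mul, mul_comm]
  exact linearIndependent_iff'.1 hu s (fun k => φ (g k)) h0 k hk

/-- the dimension does not change under the extension of the coefficients -/
theorem eg2b_finrank (U : Submodule F (MvPolynomial (Fin n) F)) [Module.Finite F U] :
    Module.finrank D (Submodule.span D (eg2Iota F D n '' (U : Set (MvPolynomial (Fin n) F))))
      = Module.finrank F U := by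
  classical
  let b := Module.finBasis F U
  have hli : LinearIndependent F (fun k => (b k : MvPolynomial (Fin n) F)) :=
    b.linearIndependent.map' U.subtype U.ker_subtype
  have hD := eg2b_li (D := D) _ hli
  have hspan : Submodule.span D (eg2Iota F D n '' (U : Set (MvPolynomial (Fin n) F)))
      = Submodule.span D (Set.range fun k => eg2Iota F D n (b k : MvPolynomial (Fin n) F)) := by
    apply le_antisymm
    · rw [Submodule.span_le]
      rintro _ ⟨p, hp, rfl⟩
      have hrep := b.sum_repr ⟨p, hp⟩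
      have hp' : p = ∑ k, b.repr ⟨p, hp⟩ k • (b k : MvPolynomial (Fin n) F) := by
        have := congrArg (fun x : U => (x : MvPolynomial (Fin n) F)) hrep
        rw [Submodule.coe_sum] at this
        exact this.symm
      rw [hp', map_sum]
      refine Submodule.sum_mem _ fun k _ => ?_
      have : eg2Iota F D n (b.repr ⟨p, hp⟩ k • (b k : MvPolynomial (Fin n) F))
          = algebraMap F D (b.repr ⟨p, hp⟩ k) • eg2Iota F D n (b k : MvPolynomial (Fin n) F) := by
        ext α
        rw [eg2b_coeff, MvPolynomial.coeff_smul, AddMonoidAlgebra.coeff_smul, Finsupp.smul_apply,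
          eg2b_coeff, smul_eq_mul, smul_eq_mul, map_mul]
      rw [this]
      exact Submodule.smul_mem _ _ (Submodule.subset_span ⟨k, rfl⟩)
    · rw [Submodule.span_le]
      rintro _ ⟨k, rfl⟩
      exact Submodule.subset_span ⟨_, (b k).2, rfl⟩
  rw [hspan, finrank_span_eq_card hD, Fintype.card_fin]

end basechange

section graded

variable {D : Type} [Ring D] {n : ℕ}

theorem eg2d_single (α : Fin n →₀ ℕ) (c : D) {e : ℕ} (h : ∑ i, α i = e) :
    AddMonoidAlgebra.single α c ∈ eg2Deg D n e := by
  classical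
  intro β hβ
  rw [AddMonoidAlgebra.coeff_single, Finsupp.single_apply] at hβ
  split_ifs at hβ with h1
  · rw [← h1]; exact h
  · exact absurd rfl hβ

theorem eg2d_mul {x y : Eg2N D n} {d e : ℕ} (hx : x ∈ eg2Deg D n d) (hy : y ∈ eg2Deg D n e) :
    x * y ∈ eg2Deg D n (d + e) := by
  rw [AddMonoidAlgebra.mul_def]
  refine Submodule.sum_mem _ fun α hα => Submodule.sum_mem _ fun β hβ => eg2d_single _ _ ?_
  have h1 := hx α (Finsupp.mem_support_iff.1 hα)
  have h2 := hy β (Finsupp.mem_support_iff.1 hβ)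
  simp [Finset.sum_add_distrib, h1, h2]

theorem eg2d_one : (1 : Eg2N D n) ∈ eg2Deg D n 0 := by
  rw [AddMonoidAlgebra.one_def]
  exact eg2d_single _ _ (by simp)

theorem eg2d_pow {x : Eg2N D n} (hx : x ∈ eg2Deg D n 1) (k : ℕ) : x ^ k ∈ eg2Deg D n k := by
  induction k with
  | zero => simpa using eg2d_one
  | succ k ih => rw [pow_succ]; exact eg2d_mul ih hx

theorem eg2d_lin (τ : Fin n → D) : eg2Lin τ ∈ eg2Deg D n 1 :=
  Submodule.sum_mem _ fun j _ => eg2d_single _ _ (by simp [Finsupp.single_apply])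

/-- a submodule that contains the monomials of degree `d` contains `D[x]_d` -/
theorem eg2d_le (S : Submodule D (Eg2N D n)) (d : ℕ)
    (h : ∀ α : Fin n →₀ ℕ, ∑ i, α i = d → AddMonoidAlgebra.single α (1 : D) ∈ S) :
    eg2Deg D n d ≤ S := by
  intro y hy
  rw [← AddMonoidAlgebra.sum_coeff_single y]
  refine Submodule.sum_mem _ fun α hα => ?_
  have h1 := h α (hy α (Finsupp.mem_support_iff.1 hα))
  have h2 : AddMonoidAlgebra.single α (y.coeff α) = y.coeff α • AddMonoidAlgebra.single α (1 : D) := by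
    rw [AddMonoidAlgebra.smul_single', mul_one]
  rw [h2]
  exact S.smul_mem _ h1

/-- the monomials are central -/
theorem eg2d_central (α : Fin n →₀ ℕ) (x : Eg2N D n) :
    Commute (AddMonoidAlgebra.single α (1 : D)) x :=
  AddMonoidAlgebra.single_commute (fun _ => AddCommute.all _ _) (fun _ => Commute.one_left _) x

theorem eg2d_smul_eq (c : D) (x : Eg2N D n) : c • x = AddMonoidAlgebra.single 0 c * x := by
  induction x using AddMonoidAlgebra.induction_linear with
  | zero => simp
  | add f g hf hg => rw [smul_add, mul_add, hf, hg]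
  | single α r => rw [AddMonoidAlgebra.smul_single', AddMonoidAlgebra.single_mul_single, zero_add]

theorem eg2d_mono_mul_smul (α : Fin n →₀ ℕ) (c : D) (x : Eg2N D n) :
    AddMonoidAlgebra.single α (1 : D) * (c • x) = c • (AddMonoidAlgebra.single α (1 : D) * x) := by
  rw [eg2d_smul_eq, eg2d_smul_eq, ← mul_assoc, ← mul_assoc, (eg2d_central α _).eq]

/-- the exponents of degree `d` -/
def eg2B (n d : ℕ) : Finset (Fin n →₀ ℕ) := (Finset.univ : Finset (Fin n)).finsuppAntidiag d

theorem eg2B_mem {d : ℕ} {α : Fin n →₀ ℕ} : α ∈ eg2B n d ↔ ∑ i, α i = d := by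
  simp [eg2B, Finset.mem_finsuppAntidiag]

/-- the coefficient functionals -/
def eg2Co (D : Type) [Ring D] {n : ℕ} (α : Fin n →₀ ℕ) : Eg2N D n →ₗ[D] D :=
  (Finsupp.lapply α) ∘ₗ (AddMonoidAlgebra.coeffLinearEquiv D).toLinearMap

@[simp] theorem eg2Co_apply (α : Fin n →₀ ℕ) (x : Eg2N D n) : eg2Co D α x = x.coeff α := rfl

end graded

section tmono

variable {D : Type} [Ring D] {n : ℕ}

theorem eg2T_comm (t : Fin n → Eg2N D n) (hc : ∀ i k, Commute (t i) (t k)) (α : Fin n →₀ ℕ) :
    ((Finset.univ : Finset (Fin n)) : Set (Fin n)).Pairwise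
      (Function.onFun Commute fun i => t i ^ α i) :=
  fun i _ k _ _ => (hc i k).pow_pow _ _

/-- the ordered monomials `t^α` in pairwise commuting elements -/
def eg2T (t : Fin n → Eg2N D n) (hc : ∀ i k, Commute (t i) (t k)) (α : Fin n →₀ ℕ) : Eg2N D n :=
  Finset.univ.noncommProd (fun i => t i ^ α i) (eg2T_comm t hc α)

variable (t : Fin n → Eg2N D n) (hc : ∀ i k, Commute (t i) (t k))

theorem eg2T_add (α β : Fin n →₀ ℕ) : eg2T t hc (α + β) = eg2T t hc α * eg2T t hc β := by
  unfold eg2T
  rw [← Finset.noncommProd_mul_distrib (fun i => t i ^ α i) (fun i => t i ^ β i)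
    (eg2T_comm t hc α) (eg2T_comm t hc β) (fun i _ k _ _ => (hc i k).pow_pow _ _)]
  refine Finset.noncommProd_congr rfl (fun i _ => ?_) _
  simp [pow_add]

theorem eg2T_single (j : Fin n) (a : ℕ) : eg2T t hc (Finsupp.single j a) = t j ^ a := by
  classical
  unfold eg2T
  have hsub : ((Finset.univ.erase j : Finset (Fin n)) : Set (Fin n)).Pairwise
      (Function.onFun Commute fun i => t i ^ (Finsupp.single j a) i) :=
    fun i _ k _ _ => (hc i k).pow_pow _ _
  rw [← Finset.mul_noncommProd_erase Finset.univ (Finset.mem_univ j) _ _ hsub]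
  rw [Finset.noncommProd_eq_pow_card _ _ _ 1]
  · simp
  · intro i hi
    have : j ≠ i := fun h => (Finset.mem_erase.1 hi).1 h.symm
    simp [this]

theorem eg2T_zero : eg2T t hc 0 = 1 := by
  unfold eg2T
  rw [Finset.noncommProd_eq_pow_card _ _ _ 1]
  · simp
  · intro i _; simp

theorem eg2T_deg (ht : ∀ i, t i ∈ eg2Deg D n 1) (α : Fin n →₀ ℕ) :
    eg2T t hc α ∈ eg2Deg D n (∑ i, α i) := by
  induction α using Finsupp.induction_linear with
  | zero => rw [eg2T_zero]; simpa using eg2d_one
  | add f g hf hg =>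
    rw [eg2T_add]
    have := eg2d_mul hf hg
    simpa [Finset.sum_add_distrib] using this
  | single j a =>
    rw [eg2T_single]
    have := eg2d_pow (ht j) a
    simpa [Finsupp.single_apply] using this

/-- the left `D`-linear substitution `x^α ↦ t^α` -/
def eg2Psi : Eg2N D n →ₗ[D] Eg2N D n :=
  (Finsupp.linearCombination D (eg2T t hc)) ∘ₗ (AddMonoidAlgebra.coeffLinearEquiv D).toLinearMap

theorem eg2Psi_single (α : Fin n →₀ ℕ) (c : D) :
    eg2Psi t hc (AddMonoidAlgebra.single α c) = c • eg2T t hc α := by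
  show Finsupp.linearCombination D (eg2T t hc) (Finsupp.single α c) = _
  rw [Finsupp.linearCombination_single]

theorem eg2Psi_mul_X (f : Eg2N D n) (j : Fin n) :
    eg2Psi t hc (f * AddMonoidAlgebra.single (Finsupp.single j 1) 1) = eg2Psi t hc f * t j := by
  induction f using AddMonoidAlgebra.induction_linear with
  | zero => simp
  | add f g hf hg => rw [add_mul, map_add, map_add, add_mul, hf, hg]
  | single α r =>
    rw [AddMonoidAlgebra.single_mul_single, eg2Psi_single, eg2Psi_single, eg2T_add, eg2T_single,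
      pow_one, mul_one, smul_mul_assoc]

theorem eg2Psi_deg (ht : ∀ i, t i ∈ eg2Deg D n 1) {d : ℕ} {f : Eg2N D n}
    (hf : f ∈ eg2Deg D n d) : eg2Psi t hc f ∈ eg2Deg D n d := by
  have : eg2Deg D n d ≤ (eg2Deg D n d).comap (eg2Psi t hc) := by
    refine eg2d_le _ d fun α hα => ?_
    rw [Submodule.mem_comap, eg2Psi_single, one_smul, ← hα]
    exact eg2T_deg t hc ht α
  exact this hf

end tmono

section bij

variable {D : Type} [DivisionRing D] {n : ℕ} (τ σ : Fin n → Fin n → D)

theorem eg2X_eq (hσ : ∀ i k, ∑ j, σ i j * τ j k = if i = k then 1 else 0) (j : Fin n) :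
    AddMonoidAlgebra.single (Finsupp.single j 1) (1 : D) = ∑ i, σ j i • eg2Lin (τ i) := by
  classical
  unfold eg2Lin
  simp_rw [Finset.smul_sum, AddMonoidAlgebra.smul_single']
  rw [Finset.sum_comm]
  have h1 : ∀ k, ∑ i, AddMonoidAlgebra.single (Finsupp.single k 1) (σ j i * τ i k)
      = AddMonoidAlgebra.single (Finsupp.single k 1) (if j = k then (1 : D) else 0) := by
    intro k
    rw [← hσ j k]
    exact (map_sum (AddMonoidAlgebra.singleAddHom (Finsupp.single k 1)) _ _).symm
  simp_rw [h1]
  rw [Finset.sum_eq_single j]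
  · simp
  · intro k _ hk
    simp [Ne.symm hk]
  · intro h; exact absurd (Finset.mem_univ j) h

theorem eg2d_finite (d : ℕ) : Module.Finite D (eg2Deg D n d) := by
  classical
  have hle : eg2Deg D n d ≤ Submodule.span D
      (((eg2B n d).image fun α => AddMonoidAlgebra.single α (1 : D) : Finset (Eg2N D n)) :
        Set (Eg2N D n)) := by
    refine eg2d_le _ d fun α hα => Submodule.subset_span ?_
    rw [Finset.mem_coe, Finset.mem_image]
    exact ⟨α, eg2B_mem.2 hα, rfl⟩
  exact Submodule.finiteDimensional_of_le hle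

variable (hσ : ∀ i k, ∑ j, σ i j * τ j k = if i = k then 1 else 0)
  (hc : ∀ i k, Commute (eg2Lin (τ i)) (eg2Lin (τ k)))

include hσ in
theorem eg2Psi_surj (d : ℕ) :
    eg2Deg D n d ≤ (eg2Deg D n d).map (eg2Psi (fun i => eg2Lin (τ i)) hc) := by
  induction d with
  | zero =>
    refine eg2d_le _ 0 fun α hα => ?_
    have h0 : α = 0 := by
      ext i
      have := (Finset.sum_eq_zero_iff.1 hα) i (Finset.mem_univ i)
      simpa using this
    subst h0
    refine ⟨AddMonoidAlgebra.single 0 1, eg2d_single _ _ (by simp), ?_⟩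
    rw [eg2Psi_single, eg2T_zero, one_smul]
    rfl
  | succ d ih =>
    refine eg2d_le _ (d + 1) fun α hα => ?_
    obtain ⟨j, hj⟩ : ∃ j, α j ≠ 0 := by
      by_contra h
      push Not at h
      simp [h] at hα
    obtain ⟨α', hα'⟩ : ∃ α' : Fin n →₀ ℕ, α = α' + Finsupp.single j 1 := by
      refine ⟨α - Finsupp.single j 1, (tsub_add_cancel_of_le ?_).symm⟩
      rw [Finsupp.single_le_iff]
      exact Nat.one_le_iff_ne_zero.2 hj
    have hdeg : ∑ i, α' i = d := by
      rw [hα'] at hα
      simp [Finset.sum_add_distrib, Finsupp.single_apply] at hα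
      exact hα
    obtain ⟨f, hf, hfe⟩ := ih (eg2d_single α' (1 : D) hdeg)
    have hsplit : AddMonoidAlgebra.single α (1 : D)
        = AddMonoidAlgebra.single α' (1 : D) * AddMonoidAlgebra.single (Finsupp.single j 1) 1 := by
      rw [AddMonoidAlgebra.single_mul_single, mul_one, hα']
    rw [hsplit, eg2X_eq τ σ hσ j, Finset.mul_sum]
    refine Submodule.sum_mem _ fun i _ => ?_
    rw [eg2d_mono_mul_smul]
    refine Submodule.smul_mem _ _ ?_
    rw [← hfe]
    have := eg2Psi_mul_X (fun i => eg2Lin (τ i)) hc f i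
    rw [← this]
    exact ⟨_, eg2d_mul hf (eg2d_single _ _ (by simp [Finsupp.single_apply])), rfl⟩

include hσ in
theorem eg2Psi_inj (d : ℕ) {f : Eg2N D n} (hf : f ∈ eg2Deg D n d)
    (h0 : eg2Psi (fun i => eg2Lin (τ i)) hc f = 0) : f = 0 := by
  have := eg2d_finite (D := D) (n := n) d
  let R : eg2Deg D n d →ₗ[D] eg2Deg D n d :=
    (eg2Psi (fun i => eg2Lin (τ i)) hc).restrict
      (fun x hx => eg2Psi_deg _ hc (fun i => eg2d_lin (τ i)) hx)
  have hs : Function.Surjective R := by
    rintro ⟨y, hy⟩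
    obtain ⟨x, hx, hxy⟩ := eg2Psi_surj τ σ hσ hc d hy
    exact ⟨⟨x, hx⟩, Subtype.ext hxy⟩
  have hi : Function.Injective R := LinearMap.injective_iff_surjective.2 hs
  have h1 : R ⟨f, hf⟩ = R 0 := by
    rw [map_zero]
    exact Subtype.ext h0
  have := hi h1
  exact congrArg Subtype.val this

end bij

section ext

variable {F D : Type} [Field F] [DivisionRing D] [Algebra F D] {n : ℕ}

theorem eg2i_single (α : Fin n →₀ ℕ) (c : F) :
    eg2Iota F D n (MvPolynomial.monomial α c) = AddMonoidAlgebra.single α (algebraMap F D c) :=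
  AddMonoidAlgebra.mapRingHom_single _ _ _

/-- polynomials with coefficients in `F` are central in `D[x]` -/
theorem eg2i_central (g : MvPolynomial (Fin n) F) (z : Eg2N D n) :
    Commute (eg2Iota F D n g) z := by
  induction g using MvPolynomial.induction_on' with
  | monomial u a =>
    rw [eg2i_single]
    exact AddMonoidAlgebra.single_commute (fun _ => AddCommute.all _ _)
      (fun r => Algebra.commutes a r) z
  | add p q hp hq => rw [map_add]; exact hp.add_left hq

/-- `D · I` is a right ideal of `D[x]` -/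
theorem eg2x_mul_mem (I : Ideal (MvPolynomial (Fin n) F)) {y : Eg2N D n} (hy : y ∈ eg2Ext D I)
    (z : Eg2N D n) : y * z ∈ eg2Ext D I := by
  induction z using AddMonoidAlgebra.induction_linear with
  | zero => simp
  | add f g hf hg => rw [mul_add]; exact add_mem hf hg
  | single β c =>
    unfold eg2Ext at hy ⊢
    induction hy using Submodule.span_induction with
    | mem x hx =>
      obtain ⟨g, hg, rfl⟩ := hx
      have h1 : eg2Iota F D n g * AddMonoidAlgebra.single β c
          = c • eg2Iota F D n (MvPolynomial.monomial β 1 * g) := by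
        rw [(eg2i_central g _).eq, map_mul, eg2i_single, map_one, ← smul_mul_assoc,
          AddMonoidAlgebra.smul_single', mul_one]
      rw [h1]
      exact Submodule.smul_mem _ _ (Submodule.subset_span ⟨_, I.mul_mem_left _ hg, rfl⟩)
    | zero => simp
    | add x y _ _ hx hy => rw [add_mul]; exact add_mem hx hy
    | smul a x _ hx => rw [smul_mul_assoc]; exact Submodule.smul_mem _ _ hx

/-- the component of degree `d` -/
def eg2Pi (D : Type) [Ring D] (n d : ℕ) (y : Eg2N D n) : Eg2N D n :=
  AddMonoidAlgebra.ofCoeff (y.coeff.filter fun α => ∑ i, α i = d)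

theorem eg2Pi_coeff (d : ℕ) (y : Eg2N D n) (α : Fin n →₀ ℕ) :
    (eg2Pi D n d y).coeff α = if ∑ i, α i = d then y.coeff α else 0 := by
  simp [eg2Pi, Finsupp.filter_apply]

theorem eg2x_deg (I : Ideal (MvPolynomial (Fin n) F)) (hI : IsHomogeneousIdeal I) (d : ℕ) :
    eg2Ext D I ⊓ eg2Deg D n d
      = Submodule.span D (eg2Iota F D n '' (degPart I d : Set (MvPolynomial (Fin n) F))) := by
  apply le_antisymm
  · rintro y ⟨hy1, hy2⟩
    have key : ∀ y ∈ eg2Ext D I, eg2Pi D n d y
        ∈ Submodule.span D (eg2Iota F D n '' (degPart I d : Set (MvPolynomial (Fin n) F))) := by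
      intro y hy
      unfold eg2Ext at hy
      induction hy using Submodule.span_induction with
      | mem x hx =>
        obtain ⟨g, hg, rfl⟩ := hx
        have h1 : eg2Pi D n d (eg2Iota F D n g)
            = eg2Iota F D n (MvPolynomial.homogeneousComponent d g) := by
          ext α
          rw [eg2Pi_coeff, eg2b_coeff, eg2b_coeff, MvPolynomial.coeff_homogeneousComponent,
            Finsupp.degree_eq_sum]
          split_ifs <;> simp
        rw [h1]
        exact Submodule.subset_span ⟨_, ⟨hI g hg d, MvPolynomial.homogeneousComponent_mem d g⟩, rfl⟩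
      | zero =>
        have : eg2Pi D n d 0 = 0 := by ext α; simp [eg2Pi_coeff]
        rw [this]; exact Submodule.zero_mem _
      | add x y _ _ hx hy =>
        have : eg2Pi D n d (x + y) = eg2Pi D n d x + eg2Pi D n d y := by
          ext α
          simp only [eg2Pi_coeff, AddMonoidAlgebra.coeff_add, Finsupp.add_apply]
          split_ifs <;> simp
        rw [this]; exact add_mem hx hy
      | smul a x _ hx =>
        have : eg2Pi D n d (a • x) = a • eg2Pi D n d x := by
          ext α
          simp only [eg2Pi_coeff, AddMonoidAlgebra.coeff_smul, Finsupp.smul_apply]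
          split_ifs <;> simp
        rw [this]; exact Submodule.smul_mem _ _ hx
    have h2 : eg2Pi D n d y = y := by
      ext α
      rw [eg2Pi_coeff]
      split_ifs with h
      · rfl
      · by_contra h0
        exact h (hy2 α (Ne.symm h0))
    rw [← h2]
    exact key y hy1
  · rw [Submodule.span_le]
    rintro _ ⟨u, hu, rfl⟩
    refine ⟨Submodule.subset_span ⟨u, hu.1, rfl⟩, ?_⟩
    intro α hα
    rw [eg2b_coeff] at hα
    by_contra hne
    have hh : u.IsHomogeneous d := (MvPolynomial.mem_homogeneousSubmodule d u).1 hu.2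
    have := hh.coeff_eq_zero (d := α) (by rw [Finsupp.degree_eq_sum]; exact hne)
    rw [this, map_zero] at hα
    exact hα rfl

theorem eg2x_finrank (I : Ideal (MvPolynomial (Fin n) F)) (hI : IsHomogeneousIdeal I) (d : ℕ) :
    Module.finrank D (eg2Ext D I ⊓ eg2Deg D n d : Submodule D (Eg2N D n))
      = Module.finrank F (degPart I d) := by
  have h1 : Module.Finite F (homogeneousSubmodule (Fin n) F d) :=
    Module.Finite.iff_fg.2 (homogeneousSubmodule_fg (Fin n) F d)
  have h2 : Module.Finite F (degPart I d) :=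
    Submodule.finiteDimensional_of_le (inf_le_right : degPart I d ≤ homogeneousSubmodule (Fin n) F d)
  rw [eg2x_deg I hI d, eg2b_finrank]

end ext

section key

variable {n : ℕ}

/-- the order of the exponents: compare the last coordinate first -/
def eg2Key (α : Fin n →₀ ℕ) : Lex (Fin n → ℕ) := toLex fun i => α (Fin.rev i)

theorem eg2Key_inj : Function.Injective (eg2Key (n := n)) := by
  intro α β h
  have h1 : (fun i => α (Fin.rev i)) = fun i => β (Fin.rev i) := toLex.injective h
  ext i
  have := congrFun h1 (Fin.rev i)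
  simpa using this

theorem eg2Key_add (α γ : Fin n →₀ ℕ) : eg2Key (α + γ) = eg2Key α + eg2Key γ := rfl

theorem eg2Key_le_add {α β : Fin n →₀ ℕ} (h : eg2Key α ≤ eg2Key β) (γ : Fin n →₀ ℕ) :
    eg2Key (α + γ) ≤ eg2Key (β + γ) := by
  rw [eg2Key_add, eg2Key_add]
  gcongr

theorem eg2Key_single_lt (i : Fin n) (a : ℕ) (β : Fin n →₀ ℕ) (d : Fin n) (hd : i < d)
    (hβ : β d ≠ 0) : eg2Key (Finsupp.single i a) < eg2Key β := by
  classical
  let S : Finset (Fin n) := Finset.univ.filter fun k : Fin n => i < k ∧ β k ≠ 0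
  have hS : S.Nonempty := ⟨d, by simp [S, hd, hβ]⟩
  have hd' : i < S.max' hS ∧ β (S.max' hS) ≠ 0 := by
    have := S.max'_mem hS
    simpa [S] using this
  refine ⟨Fin.rev (S.max' hS), ?_, ?_⟩
  · intro j hj
    have h1 : S.max' hS < Fin.rev j := by
      have := Fin.rev_lt_rev.2 hj
      simpa using this
    have h2 : β (Fin.rev j) = 0 := by
      by_contra h
      exact absurd (S.le_max' _ (by simp [S, h, hd'.1.trans h1])) (not_le.2 h1)
    have h3 : i ≠ Fin.rev j := (hd'.1.trans h1).ne
    show (Finsupp.single i a) (Fin.rev j) = β (Fin.rev j)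
    rw [h2, Finsupp.single_apply, if_neg h3]
  · show (Finsupp.single i a) (Fin.rev (Fin.rev (S.max' hS))) < β (Fin.rev (Fin.rev (S.max' hS)))
    rw [Fin.rev_rev, Finsupp.single_apply, if_neg hd'.1.ne]
    exact Nat.pos_of_ne_zero hd'.2

end key

section assembly

variable {F D : Type} [Field F] [DivisionRing D] [Algebra F D] {n : ℕ}

theorem eg2W_finrank (τ σ : Fin n → Fin n → D)
    (hσ : ∀ i k, ∑ j, σ i j * τ j k = if i = k then 1 else 0)
    (hc : ∀ i k, Commute (eg2Lin (τ i)) (eg2Lin (τ k))) (I : Ideal (MvPolynomial (Fin n) F))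
    (d : ℕ) :
    Module.finrank D (eg2Deg D n d ⊓ (eg2Ext D I).comap (eg2Psi (fun i => eg2Lin (τ i)) hc) :
        Submodule D (Eg2N D n))
      = Module.finrank D (eg2Ext D I ⊓ eg2Deg D n d : Submodule D (Eg2N D n)) := by
  let R : (eg2Deg D n d ⊓ (eg2Ext D I).comap (eg2Psi (fun i => eg2Lin (τ i)) hc) :
        Submodule D (Eg2N D n)) →ₗ[D] (eg2Ext D I ⊓ eg2Deg D n d : Submodule D (Eg2N D n)) :=
    (eg2Psi (fun i => eg2Lin (τ i)) hc).restrict
      (fun x hx => ⟨hx.2, eg2Psi_deg _ hc (fun i => eg2d_lin (τ i)) hx.1⟩)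
  have hi : Function.Injective R := by
    refine (injective_iff_map_eq_zero R).2 ?_
    rintro ⟨x, hx⟩ h0
    have h1 : eg2Psi (fun i => eg2Lin (τ i)) hc x = 0 := congrArg Subtype.val h0
    exact Subtype.ext (eg2Psi_inj τ σ hσ hc d hx.1 h1)
  have hs : Function.Surjective R := by
    rintro ⟨y, hy⟩
    obtain ⟨x, hx, hxy⟩ := eg2Psi_surj τ σ hσ hc d hy.2
    refine ⟨⟨x, hx, ?_⟩, Subtype.ext hxy⟩
    show eg2Psi (fun i => eg2Lin (τ i)) hc x ∈ eg2Ext D I
    rw [hxy]
    exact hy.1
  exact (LinearEquiv.ofBijective R ⟨hi, hs⟩).finrank_eq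

end assembly

/-- **Section 2 (monomial extraction).** -/
theorem eg2_extract (F : Type) [Field F] (n : ℕ) (a : Fin n → ℕ) (ha : ∀ i, 1 ≤ a i)
    (I : Ideal (MvPolynomial (Fin n) F)) (hI : IsHomogeneousIdeal I) (hbox : Eg2Box F n a I) :
    ∃ E : Set (Fin n → ℕ), (∀ m ∈ E, ∀ j, Function.update m j (m j + 1) ∈ E) ∧
      (∀ i, Pi.single i (a i) ∈ E) ∧
      ∀ d : ℕ, Set.ncard {m | m ∈ E ∧ ∑ i, m i = d} = Module.finrank F (degPart I d) := by
  classical
  obtain ⟨D, _, _, τ, σ, hσ, hc, hrow⟩ := hbox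
  let E' : Set (Fin n →₀ ℕ) := {α | ∃ w : Eg2N D n, w ∈ eg2Deg D n (∑ i, α i) ∧
    eg2Psi (fun i => eg2Lin (τ i)) hc w ∈ eg2Ext D I ∧ w.coeff α ≠ 0 ∧
      ∀ β, w.coeff β ≠ 0 → eg2Key α ≤ eg2Key β}
  refine ⟨(fun α : Fin n →₀ ℕ => (α : Fin n → ℕ)) '' E', ?_, ?_, ?_⟩
  · -- upward closed
    rintro _ ⟨α, ⟨w, hw1, hw2, hw3, hw4⟩, rfl⟩ j
    refine ⟨α + Finsupp.single j 1,
      ⟨w * AddMonoidAlgebra.single (Finsupp.single j 1) 1, ?_, ?_, ?_, ?_⟩, ?_⟩
    · have h1 := eg2d_mul hw1 (eg2d_single (Finsupp.single j 1) (1 : D) (e := 1)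
        (by simp [Finsupp.single_apply]))
      have h2 : ∑ i, (α + Finsupp.single j 1 : Fin n →₀ ℕ) i = ∑ i, α i + 1 := by
        simp [Finset.sum_add_distrib, Finsupp.single_apply]
      rw [h2]; exact h1
    · rw [eg2Psi_mul_X]
      exact eg2x_mul_mem I hw2 _
    · rw [AddMonoidAlgebra.coeff_mul_single_add, mul_one]
      exact hw3
    · intro β hβ
      by_cases h : ∃ β', β = β' + Finsupp.single j 1
      · obtain ⟨β', rfl⟩ := h
        rw [AddMonoidAlgebra.coeff_mul_single_add, mul_one] at hβ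
        exact eg2Key_le_add (hw4 β' hβ) _
      · exfalso
        apply hβ
        apply AddMonoidAlgebra.coeff_mul_single_of_forall_add_ne
        intro β' hβ'
        exact h ⟨β', hβ'.symm⟩
    · funext k
      by_cases hk : k = j
      · subst hk; simp
      · simp [Function.update_of_ne hk, Finsupp.single_apply, Ne.symm hk]
  · -- the pure powers
    intro i
    obtain ⟨C, hC0, hCdeg, hCmem⟩ := hrow i
    have hg : ∀ d, ∃ g : Eg2N D n, g ∈ eg2Deg D n (a i - 1) ∧
        eg2Psi (fun i => eg2Lin (τ i)) hc g = C d ∧ (d ≤ i → g = 0) := by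
      intro d
      by_cases hd : d ≤ i
      · exact ⟨0, zero_mem _, by rw [map_zero, hC0 d hd], fun _ => rfl⟩
      · obtain ⟨g, hg1, hg2⟩ := eg2Psi_surj τ σ hσ hc _ (hCdeg d)
        exact ⟨g, hg1, hg2, fun h => absurd h hd⟩
    choose g hg1 hg2 hg3 using hg
    have hsum : ∑ k, (Finsupp.single i (a i) : Fin n →₀ ℕ) k = a i := by
      simp [Finsupp.single_apply]
    -- coefficients of the tail
    have htail : ∀ β : Fin n →₀ ℕ,
        (∑ d, g d * AddMonoidAlgebra.single (Finsupp.single d 1) (1 : D)).coeff β ≠ 0 →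
          ∃ d, i < d ∧ β d ≠ 0 := by
      intro β hβ
      rw [AddMonoidAlgebra.coeff_sum, Finsupp.finsetSum_apply] at hβ
      obtain ⟨d, -, hd⟩ := Finset.exists_ne_zero_of_sum_ne_zero hβ
      refine ⟨d, ?_, ?_⟩
      · by_contra hle
        rw [hg3 d (not_lt.1 hle), zero_mul] at hd
        exact hd rfl
      · intro h0
        apply hd
        apply AddMonoidAlgebra.coeff_mul_single_of_forall_add_ne
        intro β' hβ'
        have := congrArg (fun x : Fin n →₀ ℕ => x d) hβ'
        simp [h0] at this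
    refine ⟨Finsupp.single i (a i), ⟨AddMonoidAlgebra.single (Finsupp.single i (a i)) 1
      - ∑ d, g d * AddMonoidAlgebra.single (Finsupp.single d 1) 1, ?_, ?_, ?_, ?_⟩, ?_⟩
    · rw [hsum]
      refine sub_mem (eg2d_single _ _ hsum) (Submodule.sum_mem _ fun d _ => ?_)
      have h1 := eg2d_mul (hg1 d) (eg2d_single (Finsupp.single d 1) (1 : D) (e := 1)
        (by simp [Finsupp.single_apply]))
      rwa [Nat.sub_add_cancel (ha i)] at h1
    · rw [map_sub, map_sum, eg2Psi_single, one_smul, eg2T_single]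
      simp_rw [eg2Psi_mul_X, hg2]
      exact hCmem
    · intro h0
      rw [AddMonoidAlgebra.coeff_sub, Finsupp.sub_apply, AddMonoidAlgebra.coeff_single,
        Finsupp.single_eq_same] at h0
      have h1 : (∑ d, g d * AddMonoidAlgebra.single (Finsupp.single d 1) (1 : D)).coeff
          (Finsupp.single i (a i)) ≠ 0 := by
        rw [← sub_eq_zero.1 h0]; exact one_ne_zero
      obtain ⟨d, hd1, hd2⟩ := htail _ h1
      rw [Finsupp.single_apply, if_neg hd1.ne] at hd2
      exact hd2 rfl
    · intro β hβ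
      by_cases hβi : β = Finsupp.single i (a i)
      · rw [hβi]
      · rw [AddMonoidAlgebra.coeff_sub, Finsupp.sub_apply, AddMonoidAlgebra.coeff_single,
          Finsupp.single_apply, if_neg (Ne.symm hβi), zero_sub, neg_ne_zero] at hβ
        obtain ⟨d, hd1, hd2⟩ := htail _ hβ
        exact (eg2Key_single_lt i (a i) β d hd1 hd2).le
    · funext k
      simp [Finsupp.single_apply, Pi.single_apply, eq_comm]
  · -- the count
    intro d
    have h1 : {m | m ∈ (fun α : Fin n →₀ ℕ => (α : Fin n → ℕ)) '' E' ∧ ∑ i, m i = d}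
        = (fun α : Fin n →₀ ℕ => (α : Fin n → ℕ)) '' {α | α ∈ eg2B n d ∧
          ∃ w ∈ (eg2Deg D n d ⊓ (eg2Ext D I).comap (eg2Psi (fun i => eg2Lin (τ i)) hc) :
            Submodule D (Eg2N D n)), eg2Co D α w ≠ 0 ∧
            ∀ β ∈ eg2B n d, eg2Co D β w ≠ 0 → eg2Key α ≤ eg2Key β} := by
      ext m
      constructor
      · rintro ⟨⟨α, ⟨w, hw1, hw2, hw3, hw4⟩, rfl⟩, hm⟩
        have hm' : ∑ i, α i = d := hm
        refine ⟨α, ⟨eg2B_mem.2 hm', w, ⟨hm' ▸ hw1, hw2⟩, hw3, fun β _ hβ => hw4 β hβ⟩, rfl⟩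
      · rintro ⟨α, ⟨hα, w, ⟨hw1, hw2⟩, hw3, hw4⟩, rfl⟩
        have hα' := eg2B_mem.1 hα
        refine ⟨⟨α, ⟨w, hα'.symm ▸ hw1, hw2, hw3, fun β hβ => hw4 β (eg2B_mem.2 (hw1 β hβ)) hβ⟩,
          rfl⟩, hα'⟩
    rw [h1, Set.ncard_image_of_injective _ DFunLike.coe_injective,
      eg2e_card eg2Key eg2Key_inj (eg2Co D) (eg2B n d), eg2W_finrank τ σ hσ hc I d,
      eg2x_finrank I hI d]
    intro w hw h0
    ext β
    by_contra hβ
    exact hβ (h0 β (eg2B_mem.2 (hw.1 β hβ)))

end Claimed.Agent.R278
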