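-- KEEP
import Claimed.Agent.R278.EgRoof
import Claimed.Agent.R278.Sec2Box

/-!
# Row 278 (S0522), `R278/Art266`: from the exit of Section 2 to contract A      (pen helper266, prefix `art266_`)

`eg2_extract` (Sec2Box, 246) gives an upward closed set `E` of exponents that contains `a_i e_i` and has `ncard E_d = dim I_d`.
`EgCoreA (le_refl n) a I` (EgRoof, 156) wants: upward closed, contains every `m` with `inPowers`, and the count as the card of a filter of
`antidiagonalTuple`.  This file is the glue: `art266_core`.
-/

set_option autoImplicit false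

namespace Claimed.Agent.R278

open MvPolynomial Claims.C0450

/-- A set of exponents that is closed under `m ↦ m + e_j` is closed upwards for the product order. -/
theorem art266_up {n : ℕ} {M : Set (Fin n → ℕ)}
    (hup : ∀ m ∈ M, ∀ j, Function.update m j (m j + 1) ∈ M) :
    ∀ (k : ℕ) (m m' : Fin n → ℕ), m ∈ M → m ≤ m' → ∑ i, (m' i - m i) = k → m' ∈ M := by
  intro k
  induction k with
  | zero =>
    intro m m' hm hle hs
    have : m' = m := by
      funext i
      have h0 : m' i - m i = 0 := (Finset.sum_eq_zero_iff.1 hs) i (Finset.mem_univ i)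
      have h1 : m i ≤ m' i := hle i
      omega
    rw [this]; exact hm
  | succ k ih =>
    intro m m' hm hle hs
    obtain ⟨j, hj⟩ : ∃ j, m j < m' j := by
      by_contra hcon
      have : ∑ i, (m' i - m i) = 0 := Finset.sum_eq_zero fun i _ => by
        have h1 : ¬ m i < m' i := fun h => hcon ⟨i, h⟩
        omega
      omega
    refine ih (Function.update m j (m j + 1)) m' (hup m hm j) ?_ ?_
    · intro i
      by_cases hij : i = j
      · subst hij
        rw [Function.update_self]
        exact hj
      · rw [Function.update_of_ne hij]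
        exact hle i
    · have h1 : ∑ i, (m' i - m i) = (m' j - m j) + ∑ i ∈ Finset.univ.erase j, (m' i - m i) :=
        (Finset.add_sum_erase _ _ (Finset.mem_univ j)).symm
      have h2 : ∑ i, (m' i - Function.update m j (m j + 1) i) =
          (m' j - (m j + 1)) + ∑ i ∈ Finset.univ.erase j, (m' i - m i) := by
        rw [← Finset.add_sum_erase _ _ (Finset.mem_univ j), Function.update_self]
        congr 1
        refine Finset.sum_congr rfl fun i hi => ?_
        rw [Function.update_of_ne (Finset.ne_of_mem_erase hi)]
      omega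

theorem art266_mem_of_le {n : ℕ} {M : Set (Fin n → ℕ)}
    (hup : ∀ m ∈ M, ∀ j, Function.update m j (m j + 1) ∈ M) {m m' : Fin n → ℕ} (hm : m ∈ M)
    (hle : m ≤ m') : m' ∈ M := art266_up hup _ m m' hm hle rfl

open Classical in
/-- the shape of the exit of `eg2_extract` against `EgCoreA` -/
theorem art266_coreA_of_exit {E : Type} [Field E] {n : ℕ} {a : Fin n → ℕ}
    {I : Ideal (MvPolynomial (Fin n) E)} {M : Set (Fin n → ℕ)}
    (hM1 : ∀ m ∈ M, ∀ j, Function.update m j (m j + 1) ∈ M)
    (hM2 : ∀ i, Pi.single i (a i) ∈ M)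
    (hM3 : ∀ d : ℕ, Set.ncard {m | m ∈ M ∧ ∑ i, m i = d} = Module.finrank E (degPart I d)) :
    EgCoreA (le_refl n) a I := by
  refine ⟨M, hM1, fun m hm => ?_, fun d => ?_⟩
  · simp only [inPowers, decide_eq_true_eq] at hm
    obtain ⟨i, hi⟩ := hm
    refine art266_mem_of_le hM1 (hM2 i) fun j => ?_
    by_cases hij : j = i
    · subst hij
      rw [Pi.single_eq_same]
      exact hi
    · rw [Pi.single_eq_of_ne hij]
      exact Nat.zero_le _
  · rw [← hM3 d, ← Set.ncard_coe_finset]
    congr 1
    ext m
    simp [Finset.Nat.mem_antidiagonalTuple, and_comm]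

/-- **`hub278_artinian` modulo the BOX**: BOX + Section 2 give contract A in the Artinian case. -/
theorem art266_core (E : Type) [Field E] (n : ℕ) (a : Fin n → ℕ) (ha : ∀ i, 1 ≤ a i)
    (I : Ideal (MvPolynomial (Fin n) E)) (hI : IsHomogeneousIdeal I) (hbox : Eg2Box E n a I) :
    EgCoreA (le_refl n) a I := by
  obtain ⟨M, hM1, hM2, hM3⟩ := eg2_extract E n a ha I hI hbox
  exact art266_coreA_of_exit hM1 hM2 hM3

end Claimed.Agent.R278
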