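-- KEEP
import Mathlib
import Claimed.Prelude.Def_0451

/-!
# Row 278: Koszul numbers of graded modules (general layer for the Betti paper)

`Def_0451` defines `gradedBetti K p j` only for the quotients `S/K`.  Sections 2, 4, 6 of the Betti paper use the Koszul
numbers of modules (ideals, `H/zH` over fewer variables, shifts, direct sums).  Here: an `F`-module `B` with operators
`X : Fin n → End B` and pieces `P : ℕ → Submodule F B`.
-/

namespace Claimed.Agent.R278

open Claims.C0451 MvPolynomial

variable {F : Type} [DivisionRing F] {n : ℕ}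
variable {B : Type} [AddCommGroup B] [Module F B]

/-- The sign of the Koszul differential. -/
def r278m_sgn (U : Finset (Fin n)) (k : Fin n) : ℤ := (-1 : ℤ) ^ (U.filter (fun u => u < k)).card

/-- The Koszul differential of the operators `X`. -/
noncomputable def r278m_diff (X : Fin n → Module.End F B) :
    (Finset (Fin n) → B) →ₗ[F] (Finset (Fin n) → B) :=
  LinearMap.pi fun U => ∑ k ∈ Finset.univ.filter (fun k => k ∉ U),
    ((-1 : ℤ) ^ (U.filter (fun u => u < k)).card) • ((X k) ∘ₗ LinearMap.proj (insert k U))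

/-- The Koszul chains of homological degree `p` and internal degree `j`. -/
def r278m_chains (P : ℕ → Submodule F B) (p j : ℕ) : Submodule F (Finset (Fin n) → B) :=
  Submodule.pi Set.univ fun T => if T.card = p ∧ p ≤ j then P (j - p) else ⊥

/-- The Koszul number (dimension of the Koszul homology, with truncated subtraction as in `Def_0451`). -/
noncomputable def r278m_betti (X : Fin n → Module.End F B) (P : ℕ → Submodule F B) (p j : ℕ) : ℕ :=
  Module.finrank F (r278m_chains (n := n) P p j ⊓ LinearMap.ker (r278m_diff X) :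
      Submodule F (Finset (Fin n) → B)) -
    Module.finrank F ((r278m_chains (n := n) P (p + 1) j).map (r278m_diff X))

theorem r278m_diff_apply (X : Fin n → Module.End F B) (c : Finset (Fin n) → B) (U : Finset (Fin n)) :
    r278m_diff X c U = ∑ k ∈ Finset.univ.filter (fun k => k ∉ U),
      r278m_sgn U k • X k (c (insert k U)) := by
  simp [r278m_diff, r278m_sgn, LinearMap.sum_apply]

theorem r278m_sgn_swap (U : Finset (Fin n)) {k l : Fin n} (hkl : k ≠ l) (hk : k ∉ U) (hl : l ∉ U) :
    r278m_sgn U k * r278m_sgn (insert k U) l +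
      r278m_sgn U l * r278m_sgn (insert l U) k = 0 := by
  wlog h : k < l generalizing k l
  · have := this hkl.symm hl hk (lt_of_le_of_ne (not_lt.mp h) hkl.symm)
    rw [add_comm]; exact this
  have h1 : ((insert k U).filter (fun u => u < l)).card = (U.filter (fun u => u < l)).card + 1 := by
    rw [Finset.filter_insert, if_pos h, Finset.card_insert_of_notMem]
    simp [hk]
  have h2 : ((insert l U).filter (fun u => u < k)).card = (U.filter (fun u => u < k)).card := by
    rw [Finset.filter_insert, if_neg (not_lt.mpr h.le)]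
  simp only [r278m_sgn, h1, h2]
  ring

/-- `d ∘ d = 0` for commuting operators. -/
theorem r278m_diff_diff (X : Fin n → Module.End F B) (hX : ∀ k l b, X k (X l b) = X l (X k b))
    (c : Finset (Fin n) → B) : r278m_diff X (r278m_diff X c) = 0 := by
  funext U
  rw [r278m_diff_apply]
  simp only [r278m_diff_apply, map_sum, map_zsmul, Finset.smul_sum, smul_smul, Pi.zero_apply]
  rw [Finset.sum_sigma']
  refine Finset.sum_involution (fun x _ => ⟨x.2, x.1⟩) ?_ ?_ ?_ ?_
  · rintro ⟨k, l⟩ h
    simp only [Finset.mem_sigma, Finset.mem_filter, Finset.mem_univ, true_and, Finset.mem_insert,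
      not_or] at h
    obtain ⟨hk, hlk, hl⟩ := h
    have e : insert k (insert l U) = insert l (insert k U) := Finset.insert_comm k l U
    simp only [e, hX l k]
    rw [← add_smul, r278m_sgn_swap U (Ne.symm hlk) hk hl, zero_smul]
  · rintro ⟨k, l⟩ h _ heq
    simp only [Finset.mem_sigma, Finset.mem_filter, Finset.mem_univ, true_and, Finset.mem_insert,
      not_or] at h
    simp only [Sigma.mk.injEq] at heq
    exact h.2.1 heq.1
  · rintro ⟨k, l⟩ h
    simp only [Finset.mem_sigma, Finset.mem_filter, Finset.mem_univ, true_and, Finset.mem_insert,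
      not_or] at h ⊢
    exact ⟨h.2.2, Ne.symm h.2.1, h.1⟩
  · rintro ⟨k, l⟩ _
    rfl

theorem r278m_mem_chains {P : ℕ → Submodule F B} {p j : ℕ} {c : Finset (Fin n) → B} :
    c ∈ r278m_chains (n := n) P p j ↔
      ∀ T : Finset (Fin n), c T ∈ (if T.card = p ∧ p ≤ j then P (j - p) else ⊥ : Submodule F B) := by
  simp [r278m_chains, Submodule.mem_pi]

/-- The differential maps the chains of bidegree `(p+1, j)` to the chains of bidegree `(p, j)`. -/
theorem r278m_diff_mem_chains (X : Fin n → Module.End F B) {P : ℕ → Submodule F B}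
    (hP : ∀ k e, ∀ b ∈ P e, X k b ∈ P (e + 1)) {p j : ℕ} {c : Finset (Fin n) → B}
    (hc : c ∈ r278m_chains (n := n) P (p + 1) j) : r278m_diff X c ∈ r278m_chains (n := n) P p j := by
  rw [r278m_mem_chains] at hc ⊢
  intro U
  rw [r278m_diff_apply]
  refine Submodule.sum_mem _ fun k hk => zsmul_mem ?_ _
  have hkU : k ∉ U := (Finset.mem_filter.mp hk).2
  have h := hc (insert k U)
  rw [Finset.card_insert_of_notMem hkU] at h
  by_cases h1 : U.card = p ∧ p + 1 ≤ j
  · rw [if_pos ⟨by omega, h1.2⟩] at h
    rw [if_pos ⟨h1.1, by omega⟩]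
    have := hP k _ _ h
    rwa [show j - (p + 1) + 1 = j - p by omega] at this
  · rw [if_neg (by omega)] at h
    rw [(Submodule.mem_bot F).mp h, map_zero]
    exact Submodule.zero_mem _

/-! ## The frozen definitions are an instance -/

theorem r278m_neg_one_pow_smul (m : ℕ) (b : B) : ((-1 : F) ^ m) • b = ((-1 : ℤ) ^ m) • b := by
  rw [← Int.cast_smul_eq_zsmul F]; push_cast; rfl

theorem r278m_koszulDiff_eq {F : Type} [Field F] (K : Ideal (MvPolynomial (Fin n) F)) :
    koszulDiff K = r278m_diff (fun k => LinearMap.mulLeft F (Ideal.Quotient.mk K (X k))) := by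
  refine LinearMap.ext fun c => funext fun U => ?_
  rw [r278m_diff_apply]
  simp only [koszulDiff, LinearMap.pi_apply, LinearMap.sum_apply, LinearMap.smul_apply,
    LinearMap.comp_apply, LinearMap.proj_apply, r278m_sgn, r278m_neg_one_pow_smul]

/-- The frozen `gradedBetti` is the Koszul number of `S/K`. -/
theorem r278m_gradedBetti_eq {F : Type} [Field F] (K : Ideal (MvPolynomial (Fin n) F)) (p j : ℕ) :
    gradedBetti K p j =
      r278m_betti (fun k => LinearMap.mulLeft F (Ideal.Quotient.mk K (X k))) (quotPiece K) p j := by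
  unfold gradedBetti r278m_betti
  rw [r278m_koszulDiff_eq]
  rfl

/-! ## Dimensions -/

/-- A product of submodules, as a product of modules. -/
def r278m_piEquiv {ι : Type} (q : ι → Submodule F B) :
    (Submodule.pi Set.univ q : Submodule F (ι → B)) ≃ₗ[F] (∀ i, q i) where
  toFun c i := ⟨c.1 i, c.2 i trivial⟩
  invFun c := ⟨fun i => (c i).1, fun i _ => (c i).2⟩
  map_add' _ _ := rfl
  map_smul' _ _ := rfl
  left_inv _ := rfl
  right_inv _ := rfl

theorem r278m_finite_chains {P : ℕ → Submodule F B} (hfin : ∀ e, Module.Finite F (P e)) (p j : ℕ) :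
    Module.Finite F (r278m_chains (n := n) P p j) := by
  have : ∀ T : Finset (Fin n),
      Module.Finite F (if T.card = p ∧ p ≤ j then P (j - p) else ⊥ : Submodule F B) := by
    intro T
    by_cases h : T.card = p ∧ p ≤ j
    · rw [if_pos h]; exact hfin _
    · rw [if_neg h]; infer_instance
  exact Module.Finite.equiv (r278m_piEquiv _).symm

theorem r278m_finrank_chains {P : ℕ → Submodule F B} (hfin : ∀ e, Module.Finite F (P e)) (p j : ℕ) :
    Module.finrank F (r278m_chains (n := n) P p j) =
      if p ≤ j then n.choose p * Module.finrank F (P (j - p)) else 0 := by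
  have hf : ∀ T : Finset (Fin n),
      Module.Finite F (if T.card = p ∧ p ≤ j then P (j - p) else ⊥ : Submodule F B) := by
    intro T
    by_cases h : T.card = p ∧ p ≤ j
    · rw [if_pos h]; exact hfin _
    · rw [if_neg h]; infer_instance
  rw [r278m_chains, (r278m_piEquiv _).finrank_eq, Module.finrank_pi_fintype]
  have h1 : ∀ T : Finset (Fin n),
      Module.finrank F (if T.card = p ∧ p ≤ j then P (j - p) else ⊥ : Submodule F B) =
        if T.card = p ∧ p ≤ j then Module.finrank F (P (j - p)) else 0 := by
    intro T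
    by_cases h : T.card = p ∧ p ≤ j
    · rw [if_pos h, if_pos h]
    · rw [if_neg h, if_neg h]; exact finrank_bot F B
  simp only [h1]
  by_cases hpj : p ≤ j
  · simp only [hpj, and_true, if_true]
    rw [← Finset.sum_filter, Finset.sum_const, smul_eq_mul]
    congr 1
    have : (Finset.univ.filter fun T : Finset (Fin n) => T.card = p) =
        Finset.powersetCard p Finset.univ := by
      ext T; simp [Finset.mem_powersetCard]
    rw [this, Finset.card_powersetCard, Finset.card_univ, Fintype.card_fin]
  · simp [hpj]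

/-- Rank and nullity of a linear map on a finite-dimensional subspace. -/
theorem r278m_rank_nullity {V W : Type} [AddCommGroup V] [Module F V] [AddCommGroup W] [Module F W]
    (d : V →ₗ[F] W) (C : Submodule F V) [Module.Finite F C] :
    Module.finrank F (C ⊓ LinearMap.ker d : Submodule F V) + Module.finrank F (C.map d) =
      Module.finrank F C := by
  have h := LinearMap.finrank_range_add_finrank_ker (d.domRestrict C)
  rw [LinearMap.range_domRestrict] at h
  have e : Module.finrank F (LinearMap.ker (d.domRestrict C)) =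
      Module.finrank F (C ⊓ LinearMap.ker d : Submodule F V) := by
    rw [LinearMap.ker_domRestrict]
    have : Submodule.comap C.subtype (LinearMap.ker d) =
        Submodule.comap C.subtype (C ⊓ LinearMap.ker d) := by
      ext x; simp
    rw [this]
    exact (Submodule.comapSubtypeEquivOfLe inf_le_left).finrank_eq
  omega

/-- The rank of the Koszul differential on the chains of bidegree `(p, j)`. -/
noncomputable def r278m_rank (X : Fin n → Module.End F B) (P : ℕ → Submodule F B) (p j : ℕ) : ℕ :=
  Module.finrank F ((r278m_chains (n := n) P p j).map (r278m_diff X))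

/-- **Lemma 6.1, first sentence**: term dimension = Koszul number + the two adjacent ranks. -/
theorem r278m_betti_add_ranks (X : Fin n → Module.End F B) (hX : ∀ k l b, X k (X l b) = X l (X k b))
    {P : ℕ → Submodule F B} (hP : ∀ k e, ∀ b ∈ P e, X k b ∈ P (e + 1))
    (hfin : ∀ e, Module.Finite F (P e)) (p j : ℕ) :
    r278m_betti X P p j + r278m_rank X P p j + r278m_rank X P (p + 1) j =
      Module.finrank F (r278m_chains (n := n) P p j) := by
  have := r278m_finite_chains (n := n) hfin p j
  have h := r278m_rank_nullity (r278m_diff X) (r278m_chains (n := n) P p j)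
  have hle : (r278m_chains (n := n) P (p + 1) j).map (r278m_diff X) ≤
      r278m_chains (n := n) P p j ⊓ LinearMap.ker (r278m_diff X) := by
    rintro _ ⟨c, hc, rfl⟩
    exact ⟨r278m_diff_mem_chains X hP hc, r278m_diff_diff X hX c⟩
  have hfin2 : Module.Finite F
      (r278m_chains (n := n) P p j ⊓ LinearMap.ker (r278m_diff X) : Submodule F _) :=
    Submodule.finiteDimensional_of_le inf_le_left
  have h2 := Submodule.finrank_mono hle
  simp only [r278m_betti, r278m_rank] at *
  omega

/-! ## Morphisms: Lemma 6.1 (submodules and quotients) -/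

section Morphisms

variable {B' : Type} [AddCommGroup B'] [Module F B']

theorem r278m_diff_compLeft (φ : B →ₗ[F] B') (X : Fin n → Module.End F B) (X' : Fin n → Module.End F B')
    (h : ∀ k b, φ (X k b) = X' k (φ b)) (c : Finset (Fin n) → B) :
    r278m_diff X' (φ.compLeft _ c) = φ.compLeft _ (r278m_diff X c) := by
  funext U
  simp only [r278m_diff_apply, LinearMap.compLeft_apply, Function.comp_apply, map_sum, map_zsmul, h]

theorem r278m_map_chains_le (φ : B →ₗ[F] B') {P : ℕ → Submodule F B} {P' : ℕ → Submodule F B'}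
    (hP : ∀ e, ∀ b ∈ P e, φ b ∈ P' e) (p j : ℕ) :
    (r278m_chains (n := n) P p j).map (φ.compLeft _) ≤ r278m_chains (n := n) P' p j := by
  rintro _ ⟨c, hc, rfl⟩
  rw [SetLike.mem_coe, r278m_mem_chains] at hc
  rw [r278m_mem_chains]
  intro T
  have := hc T
  by_cases h : T.card = p ∧ p ≤ j
  · rw [if_pos h] at this ⊢; exact hP _ _ this
  · rw [if_neg h] at this ⊢
    rw [Submodule.mem_bot] at this ⊢
    simp [this]

theorem r278m_chains_le_map (φ : B →ₗ[F] B') {P : ℕ → Submodule F B} {P' : ℕ → Submodule F B'}
    (hP : ∀ e, P' e ≤ (P e).map φ) (p j : ℕ) :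
    r278m_chains (n := n) P' p j ≤ (r278m_chains (n := n) P p j).map (φ.compLeft _) := by
  intro c' hc'
  rw [r278m_mem_chains] at hc'
  have : ∀ T : Finset (Fin n), ∃ b : B,
      b ∈ (if T.card = p ∧ p ≤ j then P (j - p) else ⊥ : Submodule F B) ∧ φ b = c' T := by
    intro T
    have := hc' T
    by_cases h : T.card = p ∧ p ≤ j
    · rw [if_pos h] at this ⊢
      obtain ⟨b, hb, hb'⟩ := hP _ this
      exact ⟨b, hb, hb'⟩
    · rw [if_neg h] at this ⊢
      exact ⟨0, Submodule.zero_mem _, by rw [map_zero, (Submodule.mem_bot F).mp this]⟩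
  choose c hc hc2 using this
  exact ⟨c, r278m_mem_chains.mpr hc, funext hc2⟩

/-- The ranks of the Koszul differentials do not increase on passing to a submodule. -/
theorem r278m_rank_le_of_injective (φ : B →ₗ[F] B') (hφ : Function.Injective φ)
    (X : Fin n → Module.End F B) (X' : Fin n → Module.End F B') (h : ∀ k b, φ (X k b) = X' k (φ b))
    {P : ℕ → Submodule F B} {P' : ℕ → Submodule F B'} (hP : ∀ e, ∀ b ∈ P e, φ b ∈ P' e)
    (hfin : ∀ e, Module.Finite F (P' e)) (p j : ℕ) : r278m_rank X P p j ≤ r278m_rank X' P' p j := by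
  have hinj : Function.Injective (φ.compLeft (Finset (Fin n))) := fun a b hab =>
    funext fun T => hφ (congrFun hab T)
  have e1 : Module.finrank F ((r278m_chains (n := n) P p j).map (r278m_diff X)) =
      Module.finrank F (((r278m_chains (n := n) P p j).map (r278m_diff X)).map (φ.compLeft _)) :=
    (Submodule.equivMapOfInjective _ hinj _).finrank_eq
  have e2 : ((r278m_chains (n := n) P p j).map (r278m_diff X)).map (φ.compLeft _) ≤
      (r278m_chains (n := n) P' p j).map (r278m_diff X') := by
    rintro _ ⟨_, ⟨c, hc, rfl⟩, rfl⟩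
    exact ⟨φ.compLeft _ c, r278m_map_chains_le φ hP p j ⟨c, hc, rfl⟩, r278m_diff_compLeft φ X X' h c⟩
  have := r278m_finite_chains (n := n) hfin p j
  rw [r278m_rank, r278m_rank, e1]
  exact Submodule.finrank_mono e2

/-- The ranks of the Koszul differentials do not increase on passing to a quotient. -/
theorem r278m_rank_le_of_surjective (φ : B →ₗ[F] B')
    (X : Fin n → Module.End F B) (X' : Fin n → Module.End F B') (h : ∀ k b, φ (X k b) = X' k (φ b))
    {P : ℕ → Submodule F B} {P' : ℕ → Submodule F B'} (hP : ∀ e, P' e ≤ (P e).map φ)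
    (hfin : ∀ e, Module.Finite F (P e)) (p j : ℕ) : r278m_rank X' P' p j ≤ r278m_rank X P p j := by
  have e2 : (r278m_chains (n := n) P' p j).map (r278m_diff X') ≤
      ((r278m_chains (n := n) P p j).map (r278m_diff X)).map (φ.compLeft _) := by
    rintro _ ⟨c', hc', rfl⟩
    obtain ⟨c, hc, rfl⟩ := r278m_chains_le_map φ hP p j hc'
    exact ⟨_, ⟨c, hc, rfl⟩, (r278m_diff_compLeft φ X X' h c).symm⟩
  have := r278m_finite_chains (n := n) hfin p j
  rw [r278m_rank, r278m_rank]
  exact (Submodule.finrank_mono e2).trans (Submodule.finrank_map_le _ _)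

end Morphisms

/-- If the operators kill the pieces, all Koszul differentials vanish. -/
theorem r278m_rank_eq_zero (X : Fin n → Module.End F B) {P : ℕ → Submodule F B}
    (h0 : ∀ k e, ∀ b ∈ P e, X k b = 0) (p j : ℕ) : r278m_rank X P p j = 0 := by
  have : (r278m_chains (n := n) P p j).map (r278m_diff X) = ⊥ := by
    rw [eq_bot_iff]
    rintro _ ⟨c, hc, rfl⟩
    rw [SetLike.mem_coe, r278m_mem_chains] at hc
    rw [Submodule.mem_bot]
    funext U
    rw [r278m_diff_apply]
    refine Finset.sum_eq_zero fun k _ => ?_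
    have := hc (insert k U)
    by_cases h : (insert k U).card = p ∧ p ≤ j
    · rw [if_pos h] at this; rw [h0 k _ _ this, smul_zero]
    · rw [if_neg h] at this; rw [(Submodule.mem_bot F).mp this, map_zero, smul_zero]
  rw [r278m_rank, this, finrank_bot]

/-! ## Shifts -/

theorem r278m_chains_shift (P : ℕ → Submodule F B) (s p j : ℕ) :
    r278m_chains (n := n) (fun e => if s ≤ e then P (e - s) else ⊥) p j =
      if s ≤ j then r278m_chains (n := n) P p (j - s) else ⊥ := by
  by_cases hs : s ≤ j
  · rw [if_pos hs]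
    unfold r278m_chains
    congr 1
    funext T
    by_cases h1 : T.card = p ∧ p ≤ j - s
    · rw [if_pos h1, if_pos ⟨h1.1, by omega⟩]
      show (if s ≤ j - p then P (j - p - s) else ⊥) = _
      rw [if_pos (by omega), show j - p - s = j - s - p by omega]
    · rw [if_neg h1]
      by_cases h2 : T.card = p ∧ p ≤ j
      · rw [if_pos h2]
        show (if s ≤ j - p then P (j - p - s) else ⊥) = _
        rw [if_neg (by omega)]
      · rw [if_neg h2]
  · rw [if_neg hs]
    unfold r278m_chains
    rw [← Submodule.pi_univ_bot]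
    congr 1
    funext T
    by_cases h2 : T.card = p ∧ p ≤ j
    · rw [if_pos h2]
      show (if s ≤ j - p then P (j - p - s) else ⊥) = _
      rw [if_neg (by omega)]
    · rw [if_neg h2]

/-- **Lemma 6.1, shifts.** -/
theorem r278m_rank_shift (X : Fin n → Module.End F B) (P : ℕ → Submodule F B) (s p j : ℕ) :
    r278m_rank X (fun e => if s ≤ e then P (e - s) else ⊥) p j =
      if s ≤ j then r278m_rank X P p (j - s) else 0 := by
  unfold r278m_rank
  rw [r278m_chains_shift]
  by_cases hs : s ≤ j
  · rw [if_pos hs, if_pos hs]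
  · rw [if_neg hs, if_neg hs, Submodule.map_bot, finrank_bot]

/-! ## Direct sums (internal form) -/

theorem r278m_chains_sup (P₁ P₂ : ℕ → Submodule F B) (p j : ℕ) :
    r278m_chains (n := n) (fun e => P₁ e ⊔ P₂ e) p j =
      r278m_chains (n := n) P₁ p j ⊔ r278m_chains (n := n) P₂ p j := by
  apply le_antisymm
  · intro c hc
    rw [r278m_mem_chains] at hc
    have : ∀ T : Finset (Fin n), ∃ x y : B,
        x ∈ (if T.card = p ∧ p ≤ j then P₁ (j - p) else ⊥ : Submodule F B) ∧
        y ∈ (if T.card = p ∧ p ≤ j then P₂ (j - p) else ⊥ : Submodule F B) ∧ x + y = c T := by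
      intro T
      have := hc T
      by_cases h : T.card = p ∧ p ≤ j
      · rw [if_pos h] at this ⊢
        rw [if_pos h]
        obtain ⟨x, hx, y, hy, hxy⟩ := Submodule.mem_sup.mp this
        exact ⟨x, y, hx, hy, hxy⟩
      · rw [if_neg h] at this ⊢
        rw [if_neg h]
        exact ⟨0, 0, Submodule.zero_mem _, Submodule.zero_mem _, by
          rw [(Submodule.mem_bot F).mp this, add_zero]⟩
    choose x y hx hy hxy using this
    exact Submodule.mem_sup.mpr ⟨x, r278m_mem_chains.mpr hx, y, r278m_mem_chains.mpr hy, funext hxy⟩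
  · refine sup_le ?_ ?_ <;>
    · intro c hc
      rw [r278m_mem_chains] at hc ⊢
      intro T
      have := hc T
      by_cases h : T.card = p ∧ p ≤ j
      · rw [if_pos h] at this ⊢
        first
          | exact Submodule.mem_sup_left this
          | exact Submodule.mem_sup_right this
      · rw [if_neg h] at this ⊢; exact this

theorem r278m_map_diff_le_pi (X : Fin n → Module.End F B) {P : ℕ → Submodule F B} {W : Submodule F B}
    (h : ∀ k e, ∀ b ∈ P e, X k b ∈ W) (p j : ℕ) :
    (r278m_chains (n := n) P p j).map (r278m_diff X) ≤ Submodule.pi Set.univ fun _ => W := by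
  rintro _ ⟨c, hc, rfl⟩ U -
  rw [SetLike.mem_coe, r278m_mem_chains] at hc
  rw [r278m_diff_apply]
  refine Submodule.sum_mem _ fun k _ => zsmul_mem ?_ _
  have := hc (insert k U)
  by_cases h1 : (insert k U).card = p ∧ p ≤ j
  · rw [if_pos h1] at this; exact h k _ _ this
  · rw [if_neg h1] at this
    rw [(Submodule.mem_bot F).mp this, map_zero]; exact Submodule.zero_mem _

/-- **Lemma 6.1, direct sums**: the ranks are additive when the two families of pieces are mapped into independent
subspaces. -/
theorem r278m_rank_sup (X : Fin n → Module.End F B) {P₁ P₂ : ℕ → Submodule F B} {W₁ W₂ : Submodule F B}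
    (hW : Disjoint W₁ W₂) (h₁ : ∀ k e, ∀ b ∈ P₁ e, X k b ∈ W₁) (h₂ : ∀ k e, ∀ b ∈ P₂ e, X k b ∈ W₂)
    (hf₁ : ∀ e, Module.Finite F (P₁ e)) (hf₂ : ∀ e, Module.Finite F (P₂ e)) (p j : ℕ) :
    r278m_rank X (fun e => P₁ e ⊔ P₂ e) p j = r278m_rank X P₁ p j + r278m_rank X P₂ p j := by
  unfold r278m_rank
  rw [r278m_chains_sup, Submodule.map_sup]
  have := r278m_finite_chains (n := n) hf₁ p j
  have := r278m_finite_chains (n := n) hf₂ p j
  have hd : (r278m_chains (n := n) P₁ p j).map (r278m_diff X) ⊓
      (r278m_chains (n := n) P₂ p j).map (r278m_diff X) = ⊥ := by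
    rw [eq_bot_iff]
    intro c hc
    rw [Submodule.mem_bot]
    funext U
    have a1 := r278m_map_diff_le_pi X h₁ p j hc.1 U trivial
    have a2 := r278m_map_diff_le_pi X h₂ p j hc.2 U trivial
    exact (Submodule.disjoint_def.mp hW) _ a1 a2
  have h := Submodule.finrank_sup_add_finrank_inf_eq
    ((r278m_chains (n := n) P₁ p j).map (r278m_diff X)) ((r278m_chains (n := n) P₂ p j).map (r278m_diff X))
  rw [hd, finrank_bot, add_zero] at h
  exact h

/-! ## Quotients of an acyclic module: `β_{p+1}(B/U) = β_p(U)` in rank form -/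

section Quotient

variable {B' : Type} [AddCommGroup B'] [Module F B']

theorem r278m_map_diff_quot (π : B →ₗ[F] B') (X : Fin n → Module.End F B) (X' : Fin n → Module.End F B')
    (h : ∀ k b, π (X k b) = X' k (π b)) (P : ℕ → Submodule F B) (p j : ℕ) :
    (r278m_chains (n := n) (fun e => (P e).map π) p j).map (r278m_diff X') =
      ((r278m_chains (n := n) P p j).map (r278m_diff X)).map (π.compLeft _) := by
  apply le_antisymm
  · rintro _ ⟨c', hc', rfl⟩
    obtain ⟨c, hc, rfl⟩ := r278m_chains_le_map π (P := P) (P' := fun e => (P e).map π)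
      (fun e => le_rfl) p j hc'
    exact ⟨_, ⟨c, hc, rfl⟩, (r278m_diff_compLeft π X X' h c).symm⟩
  · rintro _ ⟨_, ⟨c, hc, rfl⟩, rfl⟩
    exact ⟨π.compLeft _ c, r278m_map_chains_le π (P' := fun e => (P e).map π)
      (fun e b hb => Submodule.mem_map_of_mem hb) p j ⟨c, hc, rfl⟩, r278m_diff_compLeft π X X' h c⟩

/-- If the Koszul complex of `B` is exact at `(p, j)`, the rank of the differential of the quotient `B/U` at `(p+1, j)`
is the rank for `B` minus the dimension of the cycles of `U` at `(p, j)`. -/
theorem r278m_rank_quot_add (π : B →ₗ[F] B') (X : Fin n → Module.End F B) (X' : Fin n → Module.End F B')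
    (h : ∀ k b, π (X k b) = X' k (π b)) (hX : ∀ k l b, X k (X l b) = X l (X k b))
    {P : ℕ → Submodule F B} (hP : ∀ k e, ∀ b ∈ P e, X k b ∈ P (e + 1))
    (hfin : ∀ e, Module.Finite F (P e)) (p j : ℕ)
    (hex : r278m_chains (n := n) P p j ⊓ LinearMap.ker (r278m_diff X) ≤
      (r278m_chains (n := n) P (p + 1) j).map (r278m_diff X)) :
    r278m_rank X' (fun e => (P e).map π) (p + 1) j +
        Module.finrank F (r278m_chains (n := n) (fun e => P e ⊓ LinearMap.ker π) p j ⊓
          LinearMap.ker (r278m_diff X) : Submodule F (Finset (Fin n) → B)) =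
      r278m_rank X P (p + 1) j := by
  have := r278m_finite_chains (n := n) hfin (p + 1) j
  have hrn := r278m_rank_nullity (π.compLeft (Finset (Fin n)))
    ((r278m_chains (n := n) P (p + 1) j).map (r278m_diff X))
  have hW : (r278m_chains (n := n) P (p + 1) j).map (r278m_diff X) =
      r278m_chains (n := n) P p j ⊓ LinearMap.ker (r278m_diff X) := by
    refine le_antisymm ?_ hex
    rintro _ ⟨c, hc, rfl⟩
    exact ⟨r278m_diff_mem_chains X hP hc, r278m_diff_diff X hX c⟩
  have hker : (r278m_chains (n := n) P (p + 1) j).map (r278m_diff X) ⊓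
      LinearMap.ker (π.compLeft (Finset (Fin n))) =
      r278m_chains (n := n) (fun e => P e ⊓ LinearMap.ker π) p j ⊓ LinearMap.ker (r278m_diff X) := by
    rw [hW]
    ext c
    simp only [Submodule.mem_inf, LinearMap.mem_ker, r278m_mem_chains]
    constructor
    · rintro ⟨⟨h1, h2⟩, h3⟩
      refine ⟨fun T => ?_, h2⟩
      have a := h1 T
      have b : π (c T) = 0 := congrFun h3 T
      by_cases hT : T.card = p ∧ p ≤ j
      · rw [if_pos hT] at a ⊢; exact ⟨a, b⟩
      · rw [if_neg hT] at a ⊢; exact a
    · rintro ⟨h1, h2⟩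
      refine ⟨⟨fun T => ?_, h2⟩, funext fun T => ?_⟩
      · have a := h1 T
        by_cases hT : T.card = p ∧ p ≤ j
        · rw [if_pos hT] at a ⊢; exact a.1
        · rw [if_neg hT] at a ⊢; exact a
      · have a := h1 T
        by_cases hT : T.card = p ∧ p ≤ j
        · rw [if_pos hT] at a; exact a.2
        · rw [if_neg hT] at a
          simp [(Submodule.mem_bot F).mp a]
  rw [r278m_rank, r278m_rank, r278m_map_diff_quot π X X' h P, ← hker]
  omega

end Quotient

/-! ## One more variable: the mapping cone -/

/-- A set of the first `n` indices, among `n + 1` indices. -/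
def r278m_up (T : Finset (Fin n)) : Finset (Fin (n + 1)) := T.map Fin.castSuccEmb

/-- The same set together with the last index. -/
def r278m_upl (T : Finset (Fin n)) : Finset (Fin (n + 1)) := insert (Fin.last n) (r278m_up T)

/-- The trace on the first `n` indices. -/
def r278m_dn (U : Finset (Fin (n + 1))) : Finset (Fin n) := Finset.univ.filter fun k => k.castSucc ∈ U

theorem r278m_castSucc_mem_up {T : Finset (Fin n)} {k : Fin n} : k.castSucc ∈ r278m_up T ↔ k ∈ T := by
  simp [r278m_up]

theorem r278m_last_notMem_up (T : Finset (Fin n)) : Fin.last n ∉ r278m_up T := by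
  simp [r278m_up]

theorem r278m_castSucc_mem_upl {T : Finset (Fin n)} {k : Fin n} : k.castSucc ∈ r278m_upl T ↔ k ∈ T := by
  simp [r278m_upl, r278m_castSucc_mem_up]

theorem r278m_dn_up (T : Finset (Fin n)) : r278m_dn (r278m_up T) = T := by
  ext k; simp [r278m_dn, r278m_castSucc_mem_up]

theorem r278m_dn_upl (T : Finset (Fin n)) : r278m_dn (r278m_upl T) = T := by
  ext k; simp [r278m_dn, r278m_castSucc_mem_upl]

theorem r278m_up_dn {U : Finset (Fin (n + 1))} (h : Fin.last n ∉ U) : r278m_up (r278m_dn U) = U := by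
  ext k
  induction k using Fin.lastCases with
  | last => simp [r278m_last_notMem_up, h]
  | cast k => simp [r278m_castSucc_mem_up, r278m_dn]

theorem r278m_upl_dn {U : Finset (Fin (n + 1))} (h : Fin.last n ∈ U) : r278m_upl (r278m_dn U) = U := by
  ext k
  induction k using Fin.lastCases with
  | last => simp [r278m_upl, h]
  | cast k => simp [r278m_castSucc_mem_upl, r278m_dn]

theorem r278m_card_up (T : Finset (Fin n)) : (r278m_up T).card = T.card := Finset.card_map _

theorem r278m_card_upl (T : Finset (Fin n)) : (r278m_upl T).card = T.card + 1 := by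
  rw [r278m_upl, Finset.card_insert_of_notMem (r278m_last_notMem_up T), r278m_card_up]

theorem r278m_insert_up (k : Fin n) (T : Finset (Fin n)) :
    insert k.castSucc (r278m_up T) = r278m_up (insert k T) := by
  simp [r278m_up, Finset.map_insert]

theorem r278m_insert_upl (k : Fin n) (T : Finset (Fin n)) :
    insert k.castSucc (r278m_upl T) = r278m_upl (insert k T) := by
  rw [r278m_upl, Finset.insert_comm, r278m_insert_up, r278m_upl]

theorem r278m_sgn_up (k : Fin n) (T : Finset (Fin n)) : r278m_sgn (r278m_up T) k.castSucc = r278m_sgn T k := by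
  unfold r278m_sgn
  congr 1
  rw [r278m_up, Finset.filter_map, Finset.card_map]
  rfl

theorem r278m_sgn_upl (k : Fin n) (T : Finset (Fin n)) : r278m_sgn (r278m_upl T) k.castSucc = r278m_sgn T k := by
  rw [← r278m_sgn_up k T]
  unfold r278m_sgn
  congr 2
  rw [r278m_upl, Finset.filter_insert, if_neg]
  exact not_lt.mpr (Fin.le_last _)

theorem r278m_sgn_last (T : Finset (Fin n)) : r278m_sgn (r278m_up T) (Fin.last n) = (-1) ^ T.card := by
  unfold r278m_sgn
  congr 1
  rw [Finset.filter_true_of_mem, r278m_card_up]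
  intro u hu
  obtain ⟨k, _, rfl⟩ := Finset.mem_map.mp hu
  exact Fin.castSucc_lt_last k

/-- The part of a cochain on the sets without the last index. -/
def r278m_lo : (Finset (Fin (n + 1)) → B) →ₗ[F] (Finset (Fin n) → B) :=
  LinearMap.funLeft F B r278m_up

/-- The part of a cochain on the sets with the last index. -/
def r278m_hi : (Finset (Fin (n + 1)) → B) →ₗ[F] (Finset (Fin n) → B) :=
  LinearMap.funLeft F B r278m_upl

/-- Glue two cochains. -/
def r278m_glue : (Finset (Fin n) → B) × (Finset (Fin n) → B) →ₗ[F] (Finset (Fin (n + 1)) → B) where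
  toFun q U := if Fin.last n ∈ U then q.2 (r278m_dn U) else q.1 (r278m_dn U)
  map_add' q q' := by funext U; by_cases h : Fin.last n ∈ U <;> simp [h]
  map_smul' a q := by funext U; by_cases h : Fin.last n ∈ U <;> simp [h]

theorem r278m_lo_apply (c : Finset (Fin (n + 1)) → B) (T : Finset (Fin n)) :
    r278m_lo (F := F) c T = c (r278m_up T) := rfl

theorem r278m_hi_apply (c : Finset (Fin (n + 1)) → B) (T : Finset (Fin n)) :
    r278m_hi (F := F) c T = c (r278m_upl T) := rfl

theorem r278m_lo_glue (u v : Finset (Fin n) → B) : r278m_lo (F := F) (r278m_glue (F := F) (u, v)) = u := by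
  funext T
  simp [r278m_lo_apply, r278m_glue, r278m_last_notMem_up, r278m_dn_up]

theorem r278m_hi_glue (u v : Finset (Fin n) → B) : r278m_hi (F := F) (r278m_glue (F := F) (u, v)) = v := by
  funext T
  simp [r278m_hi_apply, r278m_glue, r278m_upl]
  rw [← r278m_upl, r278m_dn_upl]

theorem r278m_glue_lo_hi (c : Finset (Fin (n + 1)) → B) :
    r278m_glue (F := F) (r278m_lo (F := F) c, r278m_hi (F := F) c) = c := by
  funext U
  by_cases h : Fin.last n ∈ U
  · simp [r278m_glue, h, r278m_hi_apply, r278m_upl_dn h]
  · simp [r278m_glue, h, r278m_lo_apply, r278m_up_dn h]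

/-- The twisted multiplication by the last operator. -/
def r278m_zeta (z : Module.End F B) : (Finset (Fin n) → B) →ₗ[F] (Finset (Fin n) → B) :=
  LinearMap.pi fun T => ((-1 : ℤ) ^ T.card) • (z ∘ₗ LinearMap.proj T)

theorem r278m_zeta_apply (z : Module.End F B) (v : Finset (Fin n) → B) (T : Finset (Fin n)) :
    r278m_zeta z v T = ((-1 : ℤ) ^ T.card) • z (v T) := by
  simp [r278m_zeta]

/-- The differential on the sets without the last index. -/
theorem r278m_lo_diff (X : Fin (n + 1) → Module.End F B) (c : Finset (Fin (n + 1)) → B) :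
    r278m_lo (F := F) (r278m_diff X c) =
      r278m_diff (fun k : Fin n => X k.castSucc) (r278m_lo (F := F) c) +
        r278m_zeta (X (Fin.last n)) (r278m_hi (F := F) c) := by
  funext T
  rw [r278m_lo_apply, r278m_diff_apply, Pi.add_apply, r278m_diff_apply, r278m_zeta_apply,
    Finset.sum_filter, Fin.sum_univ_castSucc, Finset.sum_filter]
  simp only [r278m_castSucc_mem_up, r278m_last_notMem_up, not_false_eq_true, if_true, r278m_sgn_up,
    r278m_insert_up, r278m_sgn_last, r278m_lo_apply, r278m_hi_apply, r278m_upl]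

/-- The differential on the sets with the last index. -/
theorem r278m_hi_diff (X : Fin (n + 1) → Module.End F B) (c : Finset (Fin (n + 1)) → B) :
    r278m_hi (F := F) (r278m_diff X c) =
      r278m_diff (fun k : Fin n => X k.castSucc) (r278m_hi (F := F) c) := by
  funext T
  rw [r278m_hi_apply, r278m_diff_apply, r278m_diff_apply,
    Finset.sum_filter, Fin.sum_univ_castSucc, Finset.sum_filter]
  have : Fin.last n ∈ r278m_upl T := Finset.mem_insert_self _ _
  simp only [r278m_castSucc_mem_upl, this, not_true_eq_false, if_false, add_zero, r278m_sgn_upl,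
    r278m_insert_upl, r278m_hi_apply]

theorem r278m_mem_chains_succ {P : ℕ → Submodule F B} {p j : ℕ} {c : Finset (Fin (n + 1)) → B} :
    c ∈ r278m_chains (n := n + 1) P (p + 1) (j + 1) ↔
      r278m_lo (F := F) c ∈ r278m_chains (n := n) P (p + 1) (j + 1) ∧
        r278m_hi (F := F) c ∈ r278m_chains (n := n) P p j := by
  simp only [r278m_mem_chains, r278m_lo_apply, r278m_hi_apply]
  constructor
  · intro h
    refine ⟨fun T => ?_, fun T => ?_⟩
    · have := h (r278m_up T); rwa [r278m_card_up] at this
    · have := h (r278m_upl T)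
      rw [r278m_card_upl] at this
      simpa using this
  · rintro ⟨h1, h2⟩ U
    by_cases hU : Fin.last n ∈ U
    · have := h2 (r278m_dn U)
      rw [r278m_upl_dn hU] at this
      rw [← r278m_upl_dn hU, r278m_card_upl, r278m_upl_dn hU]
      simpa using this
    · have := h1 (r278m_dn U)
      rw [r278m_up_dn hU] at this
      rw [← r278m_up_dn hU, r278m_card_up, r278m_up_dn hU]
      exact this

theorem r278m_ext_lo_hi {c c' : Finset (Fin (n + 1)) → B} (h1 : r278m_lo (F := F) c = r278m_lo (F := F) c')
    (h2 : r278m_hi (F := F) c = r278m_hi (F := F) c') : c = c' := by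
  rw [← r278m_glue_lo_hi (F := F) c, ← r278m_glue_lo_hi (F := F) c', h1, h2]

theorem r278m_diff_zeta (X : Fin n → Module.End F B) (z : Module.End F B)
    (hz : ∀ k b, X k (z b) = z (X k b)) (v : Finset (Fin n) → B) :
    r278m_diff X (r278m_zeta z v) = - r278m_zeta z (r278m_diff X v) := by
  funext T
  rw [Pi.neg_apply, r278m_zeta_apply, r278m_diff_apply, r278m_diff_apply, map_sum, Finset.smul_sum,
    ← Finset.sum_neg_distrib]
  refine Finset.sum_congr rfl fun k hk => ?_
  have hkT : k ∉ T := (Finset.mem_filter.mp hk).2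
  rw [r278m_zeta_apply, Finset.card_insert_of_notMem hkT, map_zsmul, map_zsmul, hz, smul_smul, smul_smul,
    ← neg_smul]
  congr 1
  ring

theorem r278m_zeta_injective (z : Module.End F B) (hz : ∀ b, z b = 0 → b = 0)
    {v : Finset (Fin n) → B} (h : r278m_zeta z v = 0) : v = 0 := by
  funext T
  have := congrFun h T
  rw [r278m_zeta_apply, Pi.zero_apply] at this
  refine hz _ ?_
  rcases neg_one_pow_eq_or ℤ T.card with h1 | h1 <;> rw [h1] at this <;> simpa using this

section Cone

variable {B' : Type} [AddCommGroup B'] [Module F B']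

/-- **`β^A(M) = β^R(M/zM)` in rank form.**  If the last operator `z` is injective and `π : M → M/zM`, then the rank of the
Koszul differential of the `n + 1` operators at `(p+1, j+1)` is the rank for `M/zM` and the first `n` operators, plus the
dimension of the chains of `M` at `(p, j)`. -/
theorem r278m_rank_succ (X : Fin (n + 1) → Module.End F B) (hX : ∀ k l b, X k (X l b) = X l (X k b))
    {P : ℕ → Submodule F B} (hP : ∀ k e, ∀ b ∈ P e, X k b ∈ P (e + 1))
    (hfin : ∀ e, Module.Finite F (P e)) (hz : ∀ b, X (Fin.last n) b = 0 → b = 0)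
    (π : B →ₗ[F] B') (X' : Fin n → Module.End F B') (hπ : ∀ k b, π (X (Fin.castSucc k) b) = X' k (π b))
    (hπz : ∀ b, π (X (Fin.last n) b) = 0)
    (hker : ∀ e, ∀ b ∈ P (e + 1), π b = 0 → ∃ b' ∈ P e, X (Fin.last n) b' = b) (p j : ℕ) :
    r278m_rank X P (p + 1) (j + 1) =
      r278m_rank X' (fun e => (P e).map π) (p + 1) (j + 1) +
        Module.finrank F (r278m_chains (n := n) P p j) := by
  set z := X (Fin.last n) with hzdef
  set Xr : Fin n → Module.End F B := fun k => X k.castSucc with hXr
  set D := r278m_diff X with hD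
  set d := r278m_diff Xr with hd
  set W := (r278m_chains (n := n + 1) P (p + 1) (j + 1)).map D with hW
  set Ψ : (Finset (Fin (n + 1)) → B) →ₗ[F] (Finset (Fin n) → B') :=
    (π.compLeft (Finset (Fin n))) ∘ₗ r278m_lo (F := F) with hΨ
  have hfinA := r278m_finite_chains (n := n + 1) hfin (p + 1) (j + 1)
  have hrn := r278m_rank_nullity Ψ W
  have hPiZ : ∀ v : Finset (Fin n) → B, π.compLeft (Finset (Fin n)) (r278m_zeta z v) = 0 := by
    intro v; funext T
    simp only [LinearMap.compLeft_apply, Function.comp_apply, r278m_zeta_apply, map_zsmul, hπz, smul_zero,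
      Pi.zero_apply]
  have hΨD : ∀ c, Ψ (D c) = r278m_diff X' (π.compLeft _ (r278m_lo (F := F) c)) := by
    intro c
    rw [hΨ, LinearMap.comp_apply, hD, r278m_lo_diff, map_add, hPiZ, add_zero,
      r278m_diff_compLeft π Xr X' hπ]
  -- (i) the image
  have h1 : W.map Ψ = (r278m_chains (n := n) (fun e => (P e).map π) (p + 1) (j + 1)).map (r278m_diff X') := by
    apply le_antisymm
    · rintro _ ⟨_, ⟨c, hc, rfl⟩, rfl⟩
      rw [hΨD]
      exact ⟨_, r278m_map_chains_le π (P' := fun e => (P e).map π)
        (fun e b hb => Submodule.mem_map_of_mem hb) _ _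
        ⟨_, (r278m_mem_chains_succ.mp hc).1, rfl⟩, rfl⟩
    · rintro _ ⟨c', hc', rfl⟩
      obtain ⟨u, hu, rfl⟩ := r278m_chains_le_map π (P := P) (P' := fun e => (P e).map π)
        (fun e => le_rfl) _ _ hc'
      refine ⟨D (r278m_glue (F := F) (u, 0)), ⟨_, r278m_mem_chains_succ.mpr ?_, rfl⟩, ?_⟩
      · rw [r278m_lo_glue, r278m_hi_glue]; exact ⟨hu, Submodule.zero_mem _⟩
      · rw [hΨD, r278m_lo_glue]
  -- (ii) the kernel
  set Γ : (Finset (Fin n) → B) →ₗ[F] (Finset (Fin (n + 1)) → B) :=
    D ∘ₗ r278m_glue (F := F) ∘ₗ LinearMap.inr F _ _ with hΓ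
  have hΓlo : ∀ v, r278m_lo (F := F) (Γ v) = r278m_zeta z v := by
    intro v
    simp only [hΓ, LinearMap.comp_apply, LinearMap.inr_apply, hD]
    rw [r278m_lo_diff, r278m_lo_glue, r278m_hi_glue, map_zero, zero_add]
  have hΓhi : ∀ v, r278m_hi (F := F) (Γ v) = d v := by
    intro v
    simp only [hΓ, LinearMap.comp_apply, LinearMap.inr_apply, hD]
    rw [r278m_hi_diff, r278m_hi_glue]
  have hΓinj : Function.Injective Γ := by
    rw [← LinearMap.ker_eq_bot, LinearMap.ker_eq_bot']
    intro v hv
    refine r278m_zeta_injective z hz ?_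
    rw [← hΓlo, hv, map_zero]
  have h2 : W ⊓ LinearMap.ker Ψ = (r278m_chains (n := n) P p j).map Γ := by
    apply le_antisymm
    · rintro w ⟨⟨c, hc, rfl⟩, hw⟩
      obtain ⟨hu, hv⟩ := r278m_mem_chains_succ.mp hc
      set u := r278m_lo (F := F) c with hudef
      set v := r278m_hi (F := F) c with hvdef
      have hPiDu : π.compLeft (Finset (Fin n)) (d u) = 0 := by
        have := LinearMap.mem_ker.mp hw
        rw [hΨD, r278m_diff_compLeft π Xr X' hπ] at this
        exact this
      have hdu := r278m_diff_mem_chains Xr (P := P) (fun k e b hb => hP _ e b hb) hu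
      rw [r278m_mem_chains] at hdu hu
      have hex : ∀ T : Finset (Fin n), ∃ b' : B,
          b' ∈ (if T.card = p ∧ p ≤ j then P (j - p) else ⊥ : Submodule F B) ∧
            ((-1 : ℤ) ^ T.card) • z b' = d u T := by
        intro T
        by_cases hT : T.card = p ∧ p ≤ j
        · have a := hdu T
          rw [if_pos ⟨hT.1, by omega⟩, show j + 1 - p = (j - p) + 1 by omega] at a
          obtain ⟨b', hb', hzb⟩ := hker _ _ a (congrFun hPiDu T)
          refine ⟨((-1 : ℤ) ^ T.card) • b', ?_, ?_⟩
          · rw [if_pos hT]; exact zsmul_mem hb' _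
          · rw [map_zsmul, smul_smul, ← pow_add, hzb, Even.neg_one_pow ⟨_, rfl⟩, one_smul]
        · refine ⟨0, Submodule.zero_mem _, ?_⟩
          rw [map_zero, smul_zero, hd, r278m_diff_apply]
          refine (Finset.sum_eq_zero fun k hk => ?_).symm
          have hkT : k ∉ T := (Finset.mem_filter.mp hk).2
          have a := hu (insert k T)
          rw [Finset.card_insert_of_notMem hkT, if_neg (by omega)] at a
          rw [(Submodule.mem_bot F).mp a, map_zero, smul_zero]
      choose v' hv' hv'2 using hex
      have hζv' : r278m_zeta z v' = d u := by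
        funext T; rw [r278m_zeta_apply, hv'2]
      have hdv' : d v' = 0 := by
        refine r278m_zeta_injective z hz ?_
        have := r278m_diff_zeta Xr z (fun k b => hX _ _ b) v'
        rw [hζv', ← hd, hd, r278m_diff_diff Xr (fun k l b => hX _ _ b)] at this
        exact neg_eq_zero.mp this.symm
      refine ⟨v + v', Submodule.add_mem _ hv (r278m_mem_chains.mpr hv'), ?_⟩
      refine r278m_ext_lo_hi (F := F) ?_ ?_
      · rw [hΓlo, hD, r278m_lo_diff, map_add, hζv', add_comm]
      · rw [hΓhi, hD, r278m_hi_diff, map_add, hdv', add_zero]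
    · rintro _ ⟨v, hv, rfl⟩
      refine ⟨⟨_, r278m_mem_chains_succ.mpr ?_, rfl⟩, ?_⟩
      · simp only [LinearMap.comp_apply, LinearMap.inr_apply]
        rw [r278m_lo_glue, r278m_hi_glue]; exact ⟨Submodule.zero_mem _, hv⟩
      · show Ψ (Γ v) = 0
        rw [hΨ, LinearMap.comp_apply, hΓlo, hPiZ]
  have h3 : Module.finrank F ((r278m_chains (n := n) P p j).map Γ) =
      Module.finrank F (r278m_chains (n := n) P p j) :=
    (Submodule.equivMapOfInjective Γ hΓinj _).finrank_eq.symm
  rw [h1, h2, h3] at hrn
  rw [r278m_rank, r278m_rank, ← hD, ← hW]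
  omega

end Cone

end Claimed.Agent.R278
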