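-- KEEP
/-
R278 / BettiVoc66 (pen 66, prefix `bt66_`): the vocabulary of the Betti chain of row 278 (S0523),
in the words of `Claims.C0451`.  Every leaf file of the chain imports THIS file (never
`Betti66.lean`, which imports the leaf files).
-/
import Claimed.Prelude.Def_0451
import Claimed.Agent.R278.KosMod206

set_option autoImplicit false

open MvPolynomial Claims.C0451

namespace Claimed.Agent.R278

/-! ## Vocabulary -/

/-- The monomial of an exponent vector, as written in `lppMonomials`. -/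
noncomputable def bt66_mon (F : Type) [Field F] {n : ℕ} (m : Fin n → ℕ) :
    MvPolynomial (Fin n) F :=
  monomial (Finsupp.equivFunOnFinite.symm m) (1 : F)

/-- The monomial ideal of a set of exponent vectors. -/
noncomputable def bt66_ideal (F : Type) [Field F] {n : ℕ} (U : Set (Fin n → ℕ)) :
    Ideal (MvPolynomial (Fin n) F) :=
  Ideal.span (bt66_mon F '' U)

/-- Up-closed sets of exponent vectors (= exponent sets of monomial ideals). -/
def bt66_Up {n : ℕ} (U : Set (Fin n → ℕ)) : Prop :=
  ∀ m ∈ U, ∀ m' : Fin n → ℕ, m ≤ m' → m' ∈ U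

/-- Number of exponent vectors of degree `d` in `U`. -/
noncomputable def bt66_cnt {n : ℕ} (U : Set (Fin n → ℕ)) (d : ℕ) : ℕ :=
  (U ∩ {m | ∑ i, m i = d}).ncard

/-- The exponent set of the lex-plus-powers monomials. -/
noncomputable def bt66_lppSet {F : Type} [Field F] {n c : ℕ} (hc : c ≤ n) (a : Fin c → ℕ)
    (I : Ideal (MvPolynomial (Fin n) F)) : Set (Fin n → ℕ) :=
  {m | inPowers hc a m = true ∨ m ∈ lexSegment hc a I (∑ i, m i)}

theorem bt66_span_lpp {F : Type} [Field F] {n c : ℕ} (hc : c ≤ n) (a : Fin c → ℕ)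
    (I : Ideal (MvPolynomial (Fin n) F)) :
    Ideal.span (lppMonomials hc a I) = bt66_ideal F (bt66_lppSet hc a I) := rfl

/-- Stability inside the exponent box (Definition 4.1 of the paper), `c = n`. -/
def bt66_Stable {n : ℕ} (a : Fin n → ℕ) (U : Set (Fin n → ℕ)) : Prop :=
  ∀ u ∈ U, (∀ i, u i < a i) → ∀ h l : Fin n, h < l → 0 < u l → u h + 1 < a h →
    Function.update (Function.update u l (u l - 1)) h (u h + 1) ∈ U

/-- The degree sequence `a` prolonged by the constant `N`. -/
def bt66_ext {n c : ℕ} (a : Fin c → ℕ) (N : ℕ) : Fin n → ℕ :=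
  fun i => if h : i.val < c then a ⟨i.val, h⟩ else N

/-! ## H: the lex-plus-powers monomials only see the Hilbert function -/

theorem bt66_qDim_congr {F : Type} [Field F] {E : Type} [Field E] {n c : ℕ} (hc : c ≤ n)
    (a : Fin c → ℕ) (I : Ideal (MvPolynomial (Fin n) F)) (I' : Ideal (MvPolynomial (Fin n) E))
    (d : ℕ) (h : Module.finrank F (degPart I d) = Module.finrank E (degPart I' d)) :
    qDim hc a I d = qDim hc a I' d := by
  unfold qDim; rw [h]

theorem bt66_lexSegment_congr {F : Type} [Field F] {E : Type} [Field E] {n c : ℕ} (hc : c ≤ n)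
    (a : Fin c → ℕ) (I : Ideal (MvPolynomial (Fin n) F)) (I' : Ideal (MvPolynomial (Fin n) E))
    (d : ℕ) (h : Module.finrank F (degPart I d) = Module.finrank E (degPart I' d)) :
    lexSegment hc a I d = lexSegment hc a I' d := by
  unfold lexSegment; rw [bt66_qDim_congr hc a I I' d h]

theorem bt66_lppSet_congr {F : Type} [Field F] {E : Type} [Field E] {n c : ℕ} (hc : c ≤ n)
    (a : Fin c → ℕ) (I : Ideal (MvPolynomial (Fin n) F)) (I' : Ideal (MvPolynomial (Fin n) E))
    (h : ∀ d, Module.finrank F (degPart I d) = Module.finrank E (degPart I' d)) :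
    bt66_lppSet hc a I = bt66_lppSet hc a I' := by
  ext m
  simp only [bt66_lppSet, bt66_lexSegment_congr hc a I I' _ (h _)]

/-- Monomial ideals are carried to monomial ideals. -/
theorem bt66_ideal_map {F E : Type} [Field F] [Field E] (φ : F →+* E) {n : ℕ}
    (U : Set (Fin n → ℕ)) :
    (bt66_ideal F U).map (MvPolynomial.map φ) = bt66_ideal E U := by
  unfold bt66_ideal
  rw [Ideal.map_span, ← Set.image_comp]
  congr 1
  apply Set.image_congr
  intro m _
  simp [bt66_mon, MvPolynomial.map_monomial]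

/-! ## The monomial model -/

/-- The variable `x_k` on `M(W)`. -/
noncomputable def bt66_sh (F : Type) [Field F] {n : ℕ} (W : Set (Fin n → ℕ)) (k : Fin n) :
    Module.End F ((Fin n → ℕ) →₀ F) := by
  classical
  exact Finsupp.lsum F fun u =>
    if u ∈ W ∧ u + Pi.single k 1 ∈ W then Finsupp.lsingle (u + Pi.single k 1) else 0

/-- The piece of degree `e` of `M(W)`. -/
def bt66_pc (F : Type) [Field F] {n : ℕ} (W : Set (Fin n → ℕ)) (e : ℕ) :
    Submodule F ((Fin n → ℕ) →₀ F) :=
  Finsupp.supported F F {u | u ∈ W ∧ ∑ i, u i = e}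

/-- Koszul number of `M(W)`. -/
noncomputable def bt66_bet (F : Type) [Field F] {n : ℕ} (W : Set (Fin n → ℕ)) (p j : ℕ) : ℕ :=
  r278m_betti (bt66_sh F W) (bt66_pc F W) p j

/-- Koszul rank deficit of `M(W)` (formula (6.1) of the paper): the two adjacent ranks. -/
noncomputable def bt66_dfc (F : Type) [Field F] {n : ℕ} (W : Set (Fin n → ℕ)) (p j : ℕ) : ℕ :=
  r278m_rank (bt66_sh F W) (bt66_pc F W) p j + r278m_rank (bt66_sh F W) (bt66_pc F W) (p + 1) j

/-- Convex sets of exponent vectors. -/
def bt66_Conv {n : ℕ} (W : Set (Fin n → ℕ)) : Prop :=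
  ∀ u v w : Fin n → ℕ, u ≤ v → v ≤ w → u ∈ W → w ∈ W → v ∈ W

/-- The slice `H^{(s)}` at the value `s` of the last exponent. -/
def bt66_slice {n : ℕ} (H : Set (Fin (n + 1) → ℕ)) (s : ℕ) : Set (Fin n → ℕ) :=
  {u | (Fin.snoc u s : Fin (n + 1) → ℕ) ∈ H}

/-- The exponent vectors of the pure powers. -/
def bt66_Pow {n : ℕ} (a : Fin n → ℕ) : Set (Fin n → ℕ) := {m | ∃ i, a i ≤ m i}

/-- The degreewise lex replacement `ΛH` inside the box, with the powers (formula (5.9)). -/
noncomputable def bt66_Lam {n : ℕ} (a : Fin n → ℕ) (H : Set (Fin n → ℕ)) : Set (Fin n → ℕ) :=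
  {m | m ∈ bt66_Pow a ∨
    ((nonPowerMonomials (le_refl n) a (∑ i, m i)).filter fun m' => lexGt m' m = true).card <
      bt66_cnt (H \ bt66_Pow a) (∑ i, m i)}

/-! ## The monomial model over a division ring (for B1: left dimensions over `D`) -/

/-- The variable `x_k` on `M(W)`, scalars in a division ring. -/
noncomputable def bt66_shD (D : Type) [DivisionRing D] {n : ℕ} (W : Set (Fin n → ℕ)) (k : Fin n) :
    Module.End D ((Fin n → ℕ) →₀ D) := by
  classical
  exact Finsupp.lsum ℕ fun u =>
    if u ∈ W ∧ u + Pi.single k 1 ∈ W then Finsupp.lsingle (u + Pi.single k 1) else 0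

/-- The piece of degree `e` of `M(W)`, scalars in a division ring. -/
def bt66_pcD (D : Type) [DivisionRing D] {n : ℕ} (W : Set (Fin n → ℕ)) (e : ℕ) :
    Submodule D ((Fin n → ℕ) →₀ D) :=
  Finsupp.supported D D {u | u ∈ W ∧ ∑ i, u i = e}

theorem bt66_shD_eq (F : Type) [Field F] {n : ℕ} (W : Set (Fin n → ℕ)) (k : Fin n) :
    bt66_shD F W k = bt66_sh F W k := by
  unfold bt66_shD bt66_sh
  ext u
  simp

theorem bt66_pcD_eq (F : Type) [Field F] {n : ℕ} (W : Set (Fin n → ℕ)) (e : ℕ) :
    bt66_pcD F W e = bt66_pc F W e := rfl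

open Classical in
theorem bt66_shD_single (D : Type) [DivisionRing D] {n : ℕ} (W : Set (Fin n → ℕ)) (k : Fin n)
    (u : Fin n → ℕ) (c : D) :
    bt66_shD D W k (Finsupp.single u c) =
      if u ∈ W ∧ u + Pi.single k 1 ∈ W then Finsupp.single (u + Pi.single k 1) c else 0 := by
  unfold bt66_shD
  rw [Finsupp.lsum_single]
  split_ifs <;> simp

end Claimed.Agent.R278
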