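-- KEEP
/-
Row 278 (S0523), base layer of `Def_0451`: the Koszul complex of the Prelude.
Pen: helper126.  Prefix `r278k_`.  Imports only the frozen definition module.
-/
import Claimed.Prelude.Def_0450
import Claimed.Prelude.Def_0451
import Claimed.Agent.R278.KosMod206
import Claimed.Agent.R278.BettiVoc66

set_option autoImplicit false
open Claims Claims.C0451 MvPolynomial

namespace Claimed.Agent.R278.Kos

variable {F : Type} [Field F] {n : ℕ}

/-- the Koszul sign of the Prelude -/
def r278k_sgn (F : Type) [Field F] {n : ℕ} (U : Finset (Fin n)) (k : Fin n) : F :=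
  (-1 : F) ^ (U.filter (fun u => u < k)).card

theorem r278k_sgn_eqns_cite (U : Finset (Fin n)) (k : Fin n) :
    r278k_sgn F U k = (-1 : F) ^ (U.filter (fun u => u < k)).card := rfl

theorem r278k_koszulDiff_apply (K : Ideal (MvPolynomial (Fin n) F))
    (c : Finset (Fin n) → MvPolynomial (Fin n) F ⧸ K) (U : Finset (Fin n)) :
    koszulDiff K c U = ∑ k ∈ Finset.univ.filter (fun k => k ∉ U),
      r278k_sgn F U k • (Ideal.Quotient.mk K (X k) * c (insert k U)) := by
  simp [koszulDiff, LinearMap.pi_apply, LinearMap.sum_apply, r278k_sgn]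

theorem r278k_sgn_insert (U : Finset (Fin n)) (k l : Fin n) (hk : k ∉ U) :
    r278k_sgn F (insert k U) l = if k < l then - r278k_sgn F U l else r278k_sgn F U l := by
  unfold r278k_sgn
  rw [Finset.filter_insert]
  split_ifs with h
  · rw [Finset.card_insert_of_notMem (by simp [hk]), pow_succ]; ring
  · rfl

theorem r278k_cancel {A : Type} [CommRing A] [Algebra F A] (a b : F) (x y z : A) :
    a • (x * ((-b) • (y * z))) + b • (y * (a • (x * z))) = 0 := by
  simp only [Algebra.smul_def, map_neg]; ring

theorem r278k_koszulDiff_sq (K : Ideal (MvPolynomial (Fin n) F))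
    (c : Finset (Fin n) → MvPolynomial (Fin n) F ⧸ K) :
    koszulDiff K (koszulDiff K c) = 0 := by
  funext U
  rw [r278k_koszulDiff_apply]
  simp only [r278k_koszulDiff_apply, Finset.mul_sum, Finset.smul_sum, Pi.zero_apply]
  rw [Finset.sum_sigma']
  refine Finset.sum_involution (fun a _ => ⟨a.2, a.1⟩) ?_ ?_ ?_ ?_
  · rintro ⟨k, l⟩ h
    simp only [Finset.mem_sigma, Finset.mem_filter, Finset.mem_univ, true_and,
      Finset.mem_insert, not_or] at h
    obtain ⟨hk, hlk, hl⟩ := h
    simp only
    rw [r278k_sgn_insert U k l hk, r278k_sgn_insert U l k hl, Finset.insert_comm l k U]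
    rcases lt_or_gt_of_ne hlk with h1 | h1
    · rw [if_neg (not_lt.mpr h1.le), if_pos h1, add_comm]
      exact r278k_cancel _ _ _ _ _
    · rw [if_pos h1, if_neg (not_lt.mpr h1.le)]
      exact r278k_cancel _ _ _ _ _
  · rintro ⟨k, l⟩ h _ he
    simp only [Finset.mem_sigma, Finset.mem_filter, Finset.mem_univ, true_and,
      Finset.mem_insert, not_or] at h
    simp only [Sigma.mk.injEq, heq_eq_eq] at he
    exact h.2.1 he.1
  · rintro ⟨k, l⟩ h
    simp only [Finset.mem_sigma, Finset.mem_filter, Finset.mem_univ, true_and,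
      Finset.mem_insert, not_or] at h ⊢
    exact ⟨h.2.2, fun e => h.2.1 e.symm, h.1⟩
  · rintro ⟨k, l⟩ _
    rfl

/-! ### graded pieces of the quotient -/

theorem r278k_mem_quotPiece (K : Ideal (MvPolynomial (Fin n) F)) (e : ℕ)
    (x : MvPolynomial (Fin n) F ⧸ K) :
    x ∈ quotPiece K e ↔ ∃ f : MvPolynomial (Fin n) F, f.IsHomogeneous e ∧
      Ideal.Quotient.mk K f = x := by
  unfold quotPiece
  rw [Submodule.mem_map]
  rfl

theorem r278k_X_mul_mem_quotPiece (K : Ideal (MvPolynomial (Fin n) F)) (e : ℕ) (k : Fin n)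
    {x : MvPolynomial (Fin n) F ⧸ K} (hx : x ∈ quotPiece K e) :
    Ideal.Quotient.mk K (X k) * x ∈ quotPiece K (e + 1) := by
  rw [r278k_mem_quotPiece] at hx ⊢
  obtain ⟨f, hf, rfl⟩ := hx
  refine ⟨X k * f, ?_, map_mul _ _ _⟩
  rw [add_comm]
  exact (isHomogeneous_X F k).mul hf

instance r278k_quotPiece_finite (K : Ideal (MvPolynomial (Fin n) F)) (e : ℕ) :
    Module.Finite F (quotPiece K e) := by
  rw [Module.Finite.iff_fg]
  exact (homogeneousSubmodule_fg (σ := Fin n) (R := F) e).map _

/-- the product of submodules, as a product of types -/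
def r278k_piEquiv {ι : Type} {M : ι → Type} [∀ i, AddCommGroup (M i)] [∀ i, Module F (M i)]
    (q : ∀ i, Submodule F (M i)) : (Submodule.pi Set.univ q) ≃ₗ[F] (∀ i, q i) where
  toFun c i := ⟨c.1 i, c.2 i (Set.mem_univ i)⟩
  invFun g := ⟨fun i => (g i).1, fun i _ => (g i).2⟩
  map_add' _ _ := rfl
  map_smul' _ _ := rfl
  left_inv _ := rfl
  right_inv _ := rfl

theorem r278k_piEquiv_eqns_cite {ι : Type} {M : ι → Type} [∀ i, AddCommGroup (M i)]
    [∀ i, Module F (M i)] (q : ∀ i, Submodule F (M i)) (c : Submodule.pi Set.univ q) (i : ι) :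
    ((r278k_piEquiv q c i : q i) : M i) = c.1 i := rfl

theorem r278k_mem_koszulChains (K : Ideal (MvPolynomial (Fin n) F)) (p j : ℕ)
    (c : Finset (Fin n) → MvPolynomial (Fin n) F ⧸ K) :
    c ∈ koszulChains K p j ↔
      ∀ T : Finset (Fin n), (T.card = p ∧ p ≤ j → c T ∈ quotPiece K (j - p)) ∧
        (¬ (T.card = p ∧ p ≤ j) → c T = 0) := by
  unfold koszulChains
  rw [Submodule.mem_pi]
  constructor
  · intro h T
    have := h T (Set.mem_univ T)
    constructor
    · intro hT; rwa [if_pos hT] at this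
    · intro hT; rwa [if_neg hT, Submodule.mem_bot] at this
  · intro h T _
    by_cases hT : T.card = p ∧ p ≤ j
    · rw [if_pos hT]; exact (h T).1 hT
    · rw [if_neg hT, Submodule.mem_bot]; exact (h T).2 hT

instance r278k_koszulChains_finite (K : Ideal (MvPolynomial (Fin n) F)) (p j : ℕ) :
    Module.Finite F (koszulChains K p j) := by
  unfold koszulChains
  have : ∀ T : Finset (Fin n), Module.Finite F
      ((if T.card = p ∧ p ≤ j then quotPiece K (j - p) else ⊥ :
        Submodule F (MvPolynomial (Fin n) F ⧸ K))) := by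
    intro T
    by_cases hT : T.card = p ∧ p ≤ j
    · rw [if_pos hT]; infer_instance
    · rw [if_neg hT]; infer_instance
  exact Module.Finite.equiv (r278k_piEquiv _).symm

theorem r278k_finrank_koszulChains (K : Ideal (MvPolynomial (Fin n) F)) (p j : ℕ) :
    Module.finrank F (koszulChains K p j) =
      if p ≤ j then n.choose p * Module.finrank F (quotPiece K (j - p)) else 0 := by
  unfold koszulChains
  have hfin : ∀ T : Finset (Fin n), Module.Finite F
      ((if T.card = p ∧ p ≤ j then quotPiece K (j - p) else ⊥ :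
        Submodule F (MvPolynomial (Fin n) F ⧸ K))) := by
    intro T
    by_cases hT : T.card = p ∧ p ≤ j
    · rw [if_pos hT]; infer_instance
    · rw [if_neg hT]; infer_instance
  rw [LinearEquiv.finrank_eq (r278k_piEquiv _), Module.finrank_pi_fintype]
  have h1 : ∀ T : Finset (Fin n), Module.finrank F
      ((if T.card = p ∧ p ≤ j then quotPiece K (j - p) else ⊥ :
        Submodule F (MvPolynomial (Fin n) F ⧸ K))) =
      if T.card = p ∧ p ≤ j then Module.finrank F (quotPiece K (j - p)) else 0 := by
    intro T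
    by_cases hT : T.card = p ∧ p ≤ j
    · rw [if_pos hT, if_pos hT]
    · rw [if_neg hT, if_neg hT]; exact finrank_bot F _
  simp only [h1]
  by_cases hpj : p ≤ j
  · simp only [hpj, and_true, if_true]
    rw [← Finset.sum_filter, Finset.sum_const, smul_eq_mul]
    congr 1
    have : (Finset.univ.filter fun T : Finset (Fin n) => T.card = p) =
        Finset.powersetCard p Finset.univ := by
      ext T; simp [Finset.mem_powersetCard]
    rw [this, Finset.card_powersetCard, Finset.card_univ, Fintype.card_fin]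
  · simp [hpj]

/-- the differential lowers the exterior degree and keeps the internal degree -/
theorem r278k_koszulDiff_mem (K : Ideal (MvPolynomial (Fin n) F)) (p j : ℕ)
    {c : Finset (Fin n) → MvPolynomial (Fin n) F ⧸ K} (hc : c ∈ koszulChains K (p + 1) j) :
    koszulDiff K c ∈ koszulChains K p j := by
  rw [r278k_mem_koszulChains] at hc ⊢
  intro U
  constructor
  · rintro ⟨hU, hpj⟩
    rw [r278k_koszulDiff_apply]
    refine Submodule.sum_mem _ fun k hk => Submodule.smul_mem _ _ ?_
    have hkU : k ∉ U := (Finset.mem_filter.mp hk).2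
    by_cases h1 : p + 1 ≤ j
    · have := (hc (insert k U)).1 ⟨by rw [Finset.card_insert_of_notMem hkU, hU], h1⟩
      have h2 := r278k_X_mul_mem_quotPiece K _ k this
      have h3 : j - (p + 1) + 1 = j - p := by omega
      rwa [h3] at h2
    · rw [(hc (insert k U)).2 (fun h => h1 h.2), mul_zero]
      exact Submodule.zero_mem _
  · intro hU
    rw [r278k_koszulDiff_apply]
    refine Finset.sum_eq_zero fun k hk => ?_
    have hkU : k ∉ U := (Finset.mem_filter.mp hk).2
    rw [(hc (insert k U)).2 ?_, mul_zero, smul_zero]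
    rintro ⟨h1, h2⟩
    rw [Finset.card_insert_of_notMem hkU] at h1
    exact hU ⟨by omega, by omega⟩

/-- the rank of the Koszul differential on the chains of bidegree `(p, j)` -/
noncomputable def r278k_rk (K : Ideal (MvPolynomial (Fin n) F)) (p j : ℕ) : ℕ :=
  Module.finrank F ((koszulChains K p j).map (koszulDiff K))

theorem r278k_rk_eqns_cite (K : Ideal (MvPolynomial (Fin n) F)) (p j : ℕ) :
    r278k_rk K p j = Module.finrank F ((koszulChains K p j).map (koszulDiff K)) := rfl

theorem r278k_map_le_cycles (K : Ideal (MvPolynomial (Fin n) F)) (p j : ℕ) :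
    (koszulChains K (p + 1) j).map (koszulDiff K) ≤
      koszulChains K p j ⊓ LinearMap.ker (koszulDiff K) := by
  rintro _ ⟨c, hc, rfl⟩
  exact ⟨r278k_koszulDiff_mem K p j hc, r278k_koszulDiff_sq K c⟩

/-- rank-nullity on the chains -/
theorem r278k_cycles_add_rk (K : Ideal (MvPolynomial (Fin n) F)) (p j : ℕ) :
    Module.finrank F (koszulChains K p j ⊓ LinearMap.ker (koszulDiff K) :
      Submodule F (Finset (Fin n) → MvPolynomial (Fin n) F ⧸ K)) + r278k_rk K p j =
      Module.finrank F (koszulChains K p j) := by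
  have h := LinearMap.finrank_range_add_finrank_ker ((koszulDiff K).domRestrict (koszulChains K p j))
  have h1 : LinearMap.range ((koszulDiff K).domRestrict (koszulChains K p j)) =
      (koszulChains K p j).map (koszulDiff K) := by
    rw [LinearMap.range_domRestrict]
  have h2 : Module.finrank F (LinearMap.ker ((koszulDiff K).domRestrict (koszulChains K p j))) =
      Module.finrank F (koszulChains K p j ⊓ LinearMap.ker (koszulDiff K) :
      Submodule F (Finset (Fin n) → MvPolynomial (Fin n) F ⧸ K)) := by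
    have e : (LinearMap.ker (koszulDiff K)).comap (koszulChains K p j).subtype =
        (koszulChains K p j ⊓ LinearMap.ker (koszulDiff K)).comap
          (koszulChains K p j).subtype := by
      rw [Submodule.comap_inf, Submodule.comap_subtype_self, top_inf_eq]
    rw [LinearMap.ker_domRestrict, e]
    exact (Submodule.comapSubtypeEquivOfLe inf_le_left).finrank_eq
  rw [h1, h2] at h
  unfold r278k_rk
  omega

/-- **the rank form of the graded Betti numbers of the Prelude** (no truncation occurs) -/
theorem r278k_gradedBetti_add (K : Ideal (MvPolynomial (Fin n) F)) (p j : ℕ) :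
    gradedBetti K p j + r278k_rk K p j + r278k_rk K (p + 1) j =
      Module.finrank F (koszulChains K p j) := by
  have h1 := r278k_cycles_add_rk K p j
  have h2 : r278k_rk K (p + 1) j ≤
      Module.finrank F (koszulChains K p j ⊓ LinearMap.ker (koszulDiff K) :
      Submodule F (Finset (Fin n) → MvPolynomial (Fin n) F ⧸ K)) := by
    have : Module.Finite F (koszulChains K p j ⊓ LinearMap.ker (koszulDiff K) :
      Submodule F (Finset (Fin n) → MvPolynomial (Fin n) F ⧸ K)) :=
      Submodule.finiteDimensional_of_le inf_le_left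
    exact Submodule.finrank_mono (r278k_map_le_cycles K p j)
  unfold gradedBetti
  unfold r278k_rk at *
  omega

/-! ### Hilbert function of the quotient, comparison criterion -/

/-- rank-nullity for the restriction of a linear map to a finite-dimensional subspace -/
theorem r278k_finrank_map_add {V W : Type} [AddCommGroup V] [Module F V] [AddCommGroup W]
    [Module F W] (f : V →ₗ[F] W) (q : Submodule F V) [Module.Finite F q] :
    Module.finrank F (q.map f) + Module.finrank F (q ⊓ LinearMap.ker f : Submodule F V) =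
      Module.finrank F q := by
  have h := LinearMap.finrank_range_add_finrank_ker (f.domRestrict q)
  have e : (LinearMap.ker f).comap q.subtype = (q ⊓ LinearMap.ker f).comap q.subtype := by
    rw [Submodule.comap_inf, Submodule.comap_subtype_self, top_inf_eq]
  rw [LinearMap.range_domRestrict, LinearMap.ker_domRestrict, e,
    (Submodule.comapSubtypeEquivOfLe (p := q ⊓ LinearMap.ker f) (q := q) inf_le_left).finrank_eq]
    at h
  exact h

instance r278k_homog_finite (e : ℕ) : Module.Finite F (homogeneousSubmodule (Fin n) F e) := by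
  rw [Module.Finite.iff_fg]
  exact homogeneousSubmodule_fg (σ := Fin n) (R := F) e

theorem r278k_finrank_quotPiece_add (K : Ideal (MvPolynomial (Fin n) F)) (e : ℕ) :
    Module.finrank F (quotPiece K e) + Module.finrank F (C0451.degPart K e) =
      Module.finrank F (homogeneousSubmodule (Fin n) F e) := by
  have h := r278k_finrank_map_add (Ideal.Quotient.mkₐ F K).toLinearMap
    (homogeneousSubmodule (Fin n) F e)
  have hk : LinearMap.ker (Ideal.Quotient.mkₐ F K).toLinearMap = K.restrictScalars F := by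
    ext x
    simp [Ideal.Quotient.eq_zero_iff_mem]
  rw [hk, inf_comm] at h
  exact h

/-- two ideals with the same Hilbert function have Koszul chains of the same dimension -/
theorem r278k_finrank_koszulChains_congr (K K' : Ideal (MvPolynomial (Fin n) F))
    (h : ∀ d, Module.finrank F (C0451.degPart K d) = Module.finrank F (C0451.degPart K' d))
    (p j : ℕ) :
    Module.finrank F (koszulChains K p j) = Module.finrank F (koszulChains K' p j) := by
  rw [r278k_finrank_koszulChains, r278k_finrank_koszulChains]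
  have h1 := r278k_finrank_quotPiece_add K (j - p)
  have h2 := r278k_finrank_quotPiece_add K' (j - p)
  have h3 := h (j - p)
  have : Module.finrank F (quotPiece K (j - p)) = Module.finrank F (quotPiece K' (j - p)) := by
    omega
  rw [this]

/-- **comparison criterion**: for equal Hilbert functions the Betti inequality is the reversed
inequality between the sums of the two adjacent Koszul ranks. -/
theorem r278k_gradedBetti_le_iff (K K' : Ideal (MvPolynomial (Fin n) F))
    (h : ∀ d, Module.finrank F (C0451.degPart K d) = Module.finrank F (C0451.degPart K' d))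
    (p j : ℕ) :
    gradedBetti K p j ≤ gradedBetti K' p j ↔
      r278k_rk K' p j + r278k_rk K' (p + 1) j ≤ r278k_rk K p j + r278k_rk K (p + 1) j := by
  have h1 := r278k_gradedBetti_add K p j
  have h2 := r278k_gradedBetti_add K' p j
  have h3 := r278k_finrank_koszulChains_congr K K' h p j
  omega

/-! ### bridge between the two copies of the definitions (`Def_0450`, `Def_0451`) -/

theorem r278k_bridge_inPowers {c : ℕ} (hc : c ≤ n) (a : Fin c → ℕ) (m : Fin n → ℕ) :
    C0451.inPowers hc a m = C0450.inPowers hc a m := rfl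

theorem r278k_bridge_lexGt (m' m : Fin n → ℕ) : C0451.lexGt m' m = C0450.lexGt m' m := rfl

theorem r278k_bridge_nonPowerMonomials {c : ℕ} (hc : c ≤ n) (a : Fin c → ℕ) (d : ℕ) :
    C0451.nonPowerMonomials hc a d = C0450.nonPowerMonomials hc a d := rfl

theorem r278k_bridge_degPart (I : Ideal (MvPolynomial (Fin n) F)) (d : ℕ) :
    C0451.degPart I d = C0450.degPart I d := rfl

theorem r278k_bridge_qDim {c : ℕ} (hc : c ≤ n) (a : Fin c → ℕ)
    (I : Ideal (MvPolynomial (Fin n) F)) (d : ℕ) :
    C0451.qDim hc a I d = C0450.qDim hc a I d := rfl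

theorem r278k_bridge_lexSegment {c : ℕ} (hc : c ≤ n) (a : Fin c → ℕ)
    (I : Ideal (MvPolynomial (Fin n) F)) (d : ℕ) :
    C0451.lexSegment hc a I d = C0450.lexSegment hc a I d := rfl

theorem r278k_bridge_lppMonomials {c : ℕ} (hc : c ≤ n) (a : Fin c → ℕ)
    (I : Ideal (MvPolynomial (Fin n) F)) :
    C0451.lppMonomials hc a I = C0450.lppMonomials hc a I := rfl

theorem r278k_bridge_isHomogeneousIdeal (I : Ideal (MvPolynomial (Fin n) F)) :
    C0451.IsHomogeneousIdeal I ↔ C0450.IsHomogeneousIdeal I := Iff.rfl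

/-! ### the roof of S0523 over S0522 -/

/-- if the `F`-span of a set is (the carrier of) an ideal, that ideal is the ideal span -/
theorem r278k_idealSpan_restrictScalars (L : Set (MvPolynomial (Fin n) F))
    (h : ∃ J : Ideal (MvPolynomial (Fin n) F), J.restrictScalars F = Submodule.span F L) :
    (Ideal.span L).restrictScalars F = Submodule.span F L := by
  obtain ⟨J, hJ⟩ := h
  apply le_antisymm
  · rw [← hJ]
    intro x hx
    have hLJ : L ⊆ J := fun y hy => by
      have : y ∈ J.restrictScalars F := by rw [hJ]; exact Submodule.subset_span hy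
      exact this
    exact (Ideal.span_le.mpr hLJ) hx
  · rw [Submodule.span_le]
    intro y hy
    exact Ideal.subset_span hy

/-- **Roof of S0523**: given the three conjuncts of S0522 (only the last two are used), the
lex-plus-powers Betti inequality is the reversed inequality of adjacent Koszul rank sums. -/
theorem r278k_roof {c : ℕ} (hc : c ≤ n) (a : Fin c → ℕ) (I : Ideal (MvPolynomial (Fin n) F))
    (h2 : ∃ J : Ideal (MvPolynomial (Fin n) F),
      J.restrictScalars F = Submodule.span F (C0450.lppMonomials hc a I))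
    (h3 : ∀ d : ℕ, Module.finrank F (C0450.degPart I d) =
      Module.finrank F (Submodule.span F (C0450.lppMonomials hc a I) ⊓
        homogeneousSubmodule (Fin n) F d : Submodule F (MvPolynomial (Fin n) F)))
    (p j : ℕ) :
    gradedBetti I p j ≤ gradedBetti (Ideal.span (C0451.lppMonomials hc a I)) p j ↔
      r278k_rk (Ideal.span (C0451.lppMonomials hc a I)) p j +
          r278k_rk (Ideal.span (C0451.lppMonomials hc a I)) (p + 1) j ≤
        r278k_rk I p j + r278k_rk I (p + 1) j := by
  apply r278k_gradedBetti_le_iff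
  intro d
  rw [r278k_bridge_degPart, h3 d]
  unfold C0451.degPart
  rw [r278k_bridge_lppMonomials, r278k_idealSpan_restrictScalars _ h2]

/-! ## Proposition 2.3 of the Betti paper (leading-submodule comparison), over 206's layer `r278m_`

Coefficients in a DIVISION RING `F` (so `V = F`: this serves B1 with `F := D`, left dimensions, and
B2 with the ground field).  A "cyclic graded module" is given by operators `X i` and a family
`e α` with `X i (e α) = e (α + Pi.single i 1)`; its pieces are `r278k_piece e d`. -/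

section Lead

variable {F : Type} [DivisionRing F] {n : ℕ}

/-- **Leading forms, abstract form.**  `v`, `v'` are two families indexed by `ι`, `μ` a degree with
values in a linear order.  If the lowest part of every relation between the `v s` is a relation
between the `v' s`, then independence passes from `v'` to `v`. -/
theorem r278k_lead_indep {ι M M' Λ : Type} [AddCommGroup M] [Module F M] [AddCommGroup M']
    [Module F M'] [LinearOrder Λ] (μ : ι → Λ) (v : ι → M) (v' : ι → M') (J : Set ι)
    (hstar : ∀ (c : ι →₀ F) (lam : Λ), (↑c.support : Set ι) ⊆ J → (∀ s ∈ c.support, lam ≤ μ s) →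
      Finsupp.linearCombination F v c = 0 →
      Finsupp.linearCombination F v' (c.filter (fun s => μ s = lam)) = 0)
    (b : Set ι) (hb : b ⊆ J) (hind : LinearIndepOn F v' b) : LinearIndepOn F v b := by
  classical
  rw [linearIndepOn_iff] at hind ⊢
  intro l hl hl0
  by_contra hne
  have hsupp : l.support.Nonempty := Finsupp.support_nonempty_iff.mpr hne
  obtain ⟨s0, hs0, hmin⟩ := Finset.exists_min_image l.support μ hsupp
  have hlb : (↑l.support : Set ι) ⊆ b := (Finsupp.mem_supported F l).mp hl
  have h1 := hstar l (μ s0) (hlb.trans hb) hmin hl0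
  have h2 : l.filter (fun s => μ s = μ s0) ∈ Finsupp.supported F F b := by
    rw [Finsupp.mem_supported]
    intro s hs
    apply hlb
    rw [Finsupp.support_filter] at hs
    exact (Finset.mem_filter.mp hs).1
  have h3 := hind _ h2 h1
  have h4 : (l.filter (fun s => μ s = μ s0)) s0 = l s0 := Finsupp.filter_apply_pos _ _ rfl
  rw [h3] at h4
  exact (Finsupp.mem_support_iff.mp hs0) h4.symm

/-- the dimension form of `r278k_lead_indep` -/
theorem r278k_lead_finrank_le {ι M M' Λ : Type} [AddCommGroup M] [Module F M] [AddCommGroup M']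
    [Module F M'] [LinearOrder Λ] (μ : ι → Λ) (v : ι → M) (v' : ι → M') (J : Set ι) (hJ : J.Finite)
    (hstar : ∀ (c : ι →₀ F) (lam : Λ), (↑c.support : Set ι) ⊆ J → (∀ s ∈ c.support, lam ≤ μ s) →
      Finsupp.linearCombination F v c = 0 →
      Finsupp.linearCombination F v' (c.filter (fun s => μ s = lam)) = 0) :
    Module.finrank F (Submodule.span F (v' '' J)) ≤ Module.finrank F (Submodule.span F (v '' J)) := by
  classical
  obtain ⟨b, hbJ, -, hspan, hind⟩ :=
    exists_linearIndepOn_extension (linearIndepOn_empty F v') (Set.empty_subset J)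
  have hind2 := r278k_lead_indep μ v v' J hstar b hbJ hind
  have hbfin : b.Finite := hJ.subset hbJ
  have : Fintype b := hbfin.fintype
  have e1 : Submodule.span F (v' '' J) = Submodule.span F (Set.range fun x : b => v' x) := by
    apply le_antisymm
    · rw [Submodule.span_le]
      refine hspan.trans ?_
      have : v' '' b = Set.range fun x : b => v' x := by
        ext y; simp
      rw [this]
    · apply Submodule.span_mono
      rintro _ ⟨x, rfl⟩
      exact ⟨x.1, hbJ x.2, rfl⟩
  have e2 : Submodule.span F (Set.range fun x : b => v x) ≤ Submodule.span F (v '' J) := by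
    apply Submodule.span_mono
    rintro _ ⟨x, rfl⟩
    exact ⟨x.1, hbJ x.2, rfl⟩
  have : Module.Finite F (Submodule.span F (v '' J)) :=
    Module.Finite.span_of_finite F (hJ.image v)
  rw [e1, finrank_span_eq_card hind.linearIndependent,
    ← finrank_span_eq_card hind2.linearIndependent]
  exact Submodule.finrank_mono e2

/-! ### cyclic graded modules: a family `e α = X ^ α • e 0` -/

variable {Q : Type} [AddCommGroup Q] [Module F Q]

/-- indicator vector of a set of variables -/
def r278k_one (S : Finset (Fin n)) : Fin n → ℕ := fun i => if i ∈ S then 1 else 0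

/-- the graded pieces of the module spanned by the family `e` -/
def r278k_piece (e : (Fin n → ℕ) → Q) (d : ℕ) : Submodule F Q :=
  Submodule.span F (e '' {α | ∑ i, α i = d})

/-- the leading exponents of the relations of the family `e`: the FIRST position for `ρ` leads -/
def r278k_leadSet (F : Type) [DivisionRing F] {Q : Type} [AddCommGroup Q] [Module F Q] {n : ℕ}
    {Λ : Type} [LinearOrder Λ] (e : (Fin n → ℕ) → Q) (ρ : (Fin n → ℕ) → Λ) : Set (Fin n → ℕ) :=
  {α | e α ∈ Submodule.span F (e '' {γ | ∑ i, γ i = ∑ i, α i ∧ ρ α < ρ γ})}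

/-- the index set of the monomial chains of bidegree `(p, j)` -/
def r278k_J (n p j : ℕ) : Set ((Fin n → ℕ) × Finset (Fin n)) :=
  {s | ∑ i, s.1 i = j - p ∧ s.2.card = p}

theorem r278k_one_eqns_cite (S : Finset (Fin n)) (i : Fin n) :
    r278k_one S i = if i ∈ S then 1 else 0 := rfl

theorem r278k_piece_eqns_cite (e : (Fin n → ℕ) → Q) (d : ℕ) :
    r278k_piece (F := F) e d = Submodule.span F (e '' {α | ∑ i, α i = d}) := rfl

theorem r278k_leadSet_eqns_cite {Λ : Type} [LinearOrder Λ] (e : (Fin n → ℕ) → Q)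
    (ρ : (Fin n → ℕ) → Λ) (α : Fin n → ℕ) :
    α ∈ r278k_leadSet F e ρ ↔
      e α ∈ Submodule.span F (e '' {γ | ∑ i, γ i = ∑ i, α i ∧ ρ α < ρ γ}) := Iff.rfl

theorem r278k_J_eqns_cite (p j : ℕ) (s : (Fin n → ℕ) × Finset (Fin n)) :
    s ∈ r278k_J n p j ↔ ∑ i, s.1 i = j - p ∧ s.2.card = p := Iff.rfl

theorem r278k_deg_finite (d : ℕ) : {α : Fin n → ℕ | ∑ i, α i = d}.Finite := by
  have : {α : Fin n → ℕ | ∑ i, α i = d} = ↑(Finset.Nat.antidiagonalTuple n d) := by
    ext α; simp [Finset.Nat.mem_antidiagonalTuple]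
  rw [this]
  exact Finset.finite_toSet _

theorem r278k_J_finite (p j : ℕ) : (r278k_J n p j).Finite := by
  have : r278k_J n p j ⊆ {α : Fin n → ℕ | ∑ i, α i = j - p} ×ˢ (Set.univ : Set (Finset (Fin n))) := by
    intro s hs
    exact ⟨hs.1, Set.mem_univ _⟩
  exact ((r278k_deg_finite (j - p)).prod Set.finite_univ).subset this

theorem r278k_piece_finite (e : (Fin n → ℕ) → Q) (d : ℕ) :
    Module.Finite F (r278k_piece (F := F) e d) :=
  Module.Finite.span_of_finite F ((r278k_deg_finite d).image e)

theorem r278k_one_insert (S : Finset (Fin n)) (k : Fin n) (hk : k ∉ S) :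
    r278k_one (insert k S) = r278k_one S + Pi.single k 1 := by
  funext i
  simp only [r278k_one, Pi.add_apply, Pi.single_apply, Finset.mem_insert]
  by_cases h : i = k
  · subst h; simp [hk]
  · simp [h]

theorem r278k_sum_one (S : Finset (Fin n)) : ∑ i, r278k_one S i = S.card := by
  simp [r278k_one]

/-- the chains are spanned by the monomial chains -/
theorem r278k_chains_eq_span (e : (Fin n → ℕ) → Q) (p j : ℕ) (hpj : p ≤ j) :
    r278m_chains (n := n) (r278k_piece (F := F) e) p j =
      Submodule.span F ((fun s : (Fin n → ℕ) × Finset (Fin n) =>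
        (Pi.single s.2 (e s.1) : Finset (Fin n) → Q)) '' r278k_J n p j) := by
  classical
  apply le_antisymm
  · intro c hc
    rw [r278m_mem_chains] at hc
    have hsum : c = ∑ T : Finset (Fin n), (Pi.single T (c T) : Finset (Fin n) → Q) := by
      funext T'
      rw [Finset.sum_apply, Finset.sum_eq_single T']
      · simp
      · intro T _ hT; simp [hT.symm]
      · intro h; exact absurd (Finset.mem_univ _) h
    rw [hsum]
    refine Submodule.sum_mem _ fun T _ => ?_
    have hT := hc T
    by_cases h : T.card = p ∧ p ≤ j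
    · rw [if_pos h] at hT
      have h1 : (Pi.single T (c T) : Finset (Fin n) → Q) ∈
          (r278k_piece (F := F) e (j - p)).map (LinearMap.single F (fun _ => Q) T) :=
        ⟨c T, hT, rfl⟩
      rw [r278k_piece, Submodule.map_span] at h1
      refine Submodule.span_mono ?_ h1
      rintro _ ⟨_, ⟨α, hα, rfl⟩, rfl⟩
      exact ⟨(α, T), ⟨hα, h.1⟩, rfl⟩
    · rw [if_neg h, Submodule.mem_bot] at hT
      rw [hT, Pi.single_zero]
      exact Submodule.zero_mem _
  · rw [Submodule.span_le]
    rintro _ ⟨⟨α, T⟩, ⟨hα, hT⟩, rfl⟩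
    rw [SetLike.mem_coe, r278m_mem_chains]
    intro T'
    show (Pi.single T (e α) : Finset (Fin n) → Q) T' ∈ _
    by_cases h : T' = T
    · subst h
      rw [if_pos ⟨hT, hpj⟩, Pi.single_eq_same]
      exact Submodule.subset_span ⟨α, hα, rfl⟩
    · rw [Pi.single_eq_of_ne h]
      exact Submodule.zero_mem _

/-- the Koszul rank as the dimension of a span of explicit vectors -/
theorem r278k_rank_eq_span (X : Fin n → Module.End F Q) (e : (Fin n → ℕ) → Q) (p j : ℕ)
    (hpj : p ≤ j) :
    r278m_rank X (r278k_piece (F := F) e) p j =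
      Module.finrank F (Submodule.span F ((fun s : (Fin n → ℕ) × Finset (Fin n) =>
        r278m_diff X (Pi.single s.2 (e s.1) : Finset (Fin n) → Q)) '' r278k_J n p j)) := by
  rw [r278m_rank, r278k_chains_eq_span e p j hpj, Submodule.map_span, Set.image_image]

theorem r278k_rank_eq_zero_of_lt (X : Fin n → Module.End F Q) (P : ℕ → Submodule F Q) (p j : ℕ)
    (hpj : ¬ p ≤ j) : r278m_rank X P p j = 0 := by
  have : r278m_chains (n := n) P p j = ⊥ := by
    rw [eq_bot_iff]
    intro c hc
    rw [r278m_mem_chains] at hc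
    rw [Submodule.mem_bot]
    funext T
    have := hc T
    rwa [if_neg (fun h => hpj h.2), Submodule.mem_bot] at this
  rw [r278m_rank, this, Submodule.map_bot, finrank_bot]

/-! ### the free model -/

/-- the shift operators on the free module on the exponents -/
noncomputable def r278k_Y (F : Type) [DivisionRing F] (n : ℕ) (i : Fin n) :
    Module.End F ((Fin n → ℕ) →₀ F) :=
  Finsupp.lmapDomain F F (fun α => α + Pi.single i 1)

/-- the boundary of a monomial chain in the free model -/
noncomputable def r278k_zh (F : Type) [DivisionRing F] {n : ℕ}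
    (s : (Fin n → ℕ) × Finset (Fin n)) : Finset (Fin n) → ((Fin n → ℕ) →₀ F) :=
  r278m_diff (r278k_Y F n) (Pi.single s.2 (Finsupp.single s.1 1))

theorem r278k_Y_eqns_cite (i : Fin n) (α : Fin n → ℕ) (a : F) :
    r278k_Y F n i (Finsupp.single α a) = Finsupp.single (α + Pi.single i 1) a := by
  unfold r278k_Y
  rw [Finsupp.lmapDomain_apply, Finsupp.mapDomain_single]

theorem r278k_zh_eqns_cite (s : (Fin n → ℕ) × Finset (Fin n)) :
    r278k_zh F s = r278m_diff (r278k_Y F n) (Pi.single s.2 (Finsupp.single s.1 1)) := rfl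

theorem r278k_pi_Y (X : Fin n → Module.End F Q) (e : (Fin n → ℕ) → Q)
    (he : ∀ i α, X i (e α) = e (α + Pi.single i 1)) (i : Fin n) (u : (Fin n → ℕ) →₀ F) :
    Finsupp.linearCombination F e (r278k_Y F n i u) = X i (Finsupp.linearCombination F e u) := by
  unfold r278k_Y
  rw [Finsupp.lmapDomain_apply, Finsupp.linearCombination_mapDomain,
    Finsupp.apply_linearCombination]
  congr 2
  funext α
  exact (he i α).symm

theorem r278k_v_eq (X : Fin n → Module.End F Q) (e : (Fin n → ℕ) → Q)
    (he : ∀ i α, X i (e α) = e (α + Pi.single i 1)) (s : (Fin n → ℕ) × Finset (Fin n)) :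
    r278m_diff X (Pi.single s.2 (e s.1) : Finset (Fin n) → Q) =
      (Finsupp.linearCombination F e).compLeft _ (r278k_zh F s) := by
  classical
  unfold r278k_zh
  rw [← r278m_diff_compLeft (Finsupp.linearCombination F e) (r278k_Y F n) X (r278k_pi_Y X e he)]
  congr 1
  funext T
  rw [LinearMap.compLeft_apply, Function.comp_apply]
  by_cases h : T = s.2
  · subst h
    rw [Pi.single_eq_same, Pi.single_eq_same, Finsupp.linearCombination_single, one_smul]
  · rw [Pi.single_eq_of_ne h, Pi.single_eq_of_ne h, map_zero]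

/-- the boundary of a monomial chain is multihomogeneous -/
theorem r278k_zh_apply_eq_zero (s : (Fin n → ℕ) × Finset (Fin n)) (S : Finset (Fin n))
    (β : Fin n → ℕ) (h : β + r278k_one S ≠ s.1 + r278k_one s.2) : r278k_zh F s S β = 0 := by
  classical
  unfold r278k_zh
  rw [r278m_diff_apply, Finsupp.finsetSum_apply]
  refine Finset.sum_eq_zero fun k hk => ?_
  have hkS : k ∉ S := (Finset.mem_filter.mp hk).2
  by_cases hT : insert k S = s.2
  · rw [← hT, Pi.single_eq_same, r278k_Y_eqns_cite]
    have hne : s.1 + Pi.single k 1 ≠ β := by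
      intro hb
      apply h
      rw [← hb, ← hT, r278k_one_insert S k hkS]
      abel
    simp [hne]
  · rw [Pi.single_eq_of_ne hT, map_zero, smul_zero]
    rfl

theorem r278k_lc_eq_zero {ι M : Type} [AddCommGroup M] [Module F M] (g : ι → M) (l : ι →₀ F)
    (h : ∀ s ∈ l.support, g s = 0) : Finsupp.linearCombination F g l = 0 := by
  rw [Finsupp.linearCombination_apply, Finsupp.sum]
  exact Finset.sum_eq_zero fun s hs => by rw [h s hs, smul_zero]

/-- the first exponent of a homogeneous relation is a leading exponent -/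
theorem r278k_mem_leadSet_of_rel {Λ : Type} [LinearOrder Λ] (e : (Fin n → ℕ) → Q)
    (ρ : (Fin n → ℕ) → Λ) (r : (Fin n → ℕ) →₀ F)
    (hr : Finsupp.linearCombination F e r = 0) (β : Fin n → ℕ) (hβ : r β ≠ 0)
    (hdeg : ∀ γ ∈ r.support, ∑ i, γ i = ∑ i, β i)
    (hlt : ∀ γ ∈ r.support, γ ≠ β → ρ β < ρ γ) : β ∈ r278k_leadSet F e ρ := by
  classical
  rw [r278k_leadSet_eqns_cite]
  have h1 : Finsupp.single β (r β) + r.erase β = r := Finsupp.single_add_erase β r
  rw [← h1, map_add, Finsupp.linearCombination_single] at hr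
  have h2 : Finsupp.linearCombination F e (r.erase β) ∈
      Submodule.span F (e '' {γ | ∑ i, γ i = ∑ i, β i ∧ ρ β < ρ γ}) := by
    rw [Finsupp.mem_span_image_iff_linearCombination]
    refine ⟨r.erase β, ?_, rfl⟩
    rw [Finsupp.mem_supported]
    intro γ hγ
    rw [Finset.mem_coe, Finsupp.support_erase, Finset.mem_erase] at hγ
    exact ⟨hdeg γ hγ.2, hlt γ hγ.2 hγ.1⟩
  have h3 : e β = (r β)⁻¹ • (-(Finsupp.linearCombination F e (r.erase β))) := by
    rw [← eq_neg_of_add_eq_zero_left hr, smul_smul, inv_mul_cancel₀ hβ, one_smul]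
  rw [h3]
  exact Submodule.smul_mem _ _ (Submodule.neg_mem _ h2)

theorem r278k_zh_coord {ι : Type} (z : ι → Finset (Fin n) → ((Fin n → ℕ) →₀ F)) (l : ι →₀ F)
    (S : Finset (Fin n)) (β : Fin n → ℕ) :
    (Finsupp.linearCombination F z l) S β = Finsupp.linearCombination F (fun s => z s S β) l := by
  have := Finsupp.apply_linearCombination F
    ((Finsupp.lapply β : ((Fin n → ℕ) →₀ F) →ₗ[F] F) ∘ₗ
      (LinearMap.proj S : (Finset (Fin n) → ((Fin n → ℕ) →₀ F)) →ₗ[F] _)) z l
  exact this

/-- the hypothesis of `r278k_lead_indep` for the Koszul boundaries of monomial chains -/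
theorem r278k_lead_star {Q' : Type} [AddCommGroup Q'] [Module F Q']
    (e : (Fin n → ℕ) → Q) (e' : (Fin n → ℕ) → Q') {Λ : Type} [LinearOrder Λ]
    (ρ : (Fin n → ℕ) → Λ) (hρ : Function.Injective ρ)
    (hadd : ∀ α β γ, ρ α < ρ β → ρ (α + γ) < ρ (β + γ))
    (h0 : ∀ α ∈ r278k_leadSet F e ρ, e' α = 0) (p j : ℕ) (hpj : p ≤ j)
    (c : ((Fin n → ℕ) × Finset (Fin n)) →₀ F) (lam : Λ)
    (hcJ : (↑c.support : Set ((Fin n → ℕ) × Finset (Fin n))) ⊆ r278k_J n p j)
    (hlam : ∀ s ∈ c.support, lam ≤ ρ (s.1 + r278k_one s.2))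
    (hrel : Finsupp.linearCombination F
      (fun s => (Finsupp.linearCombination F e).compLeft _ (r278k_zh F s)) c = 0) :
    Finsupp.linearCombination F
      (fun s => (Finsupp.linearCombination F e').compLeft _ (r278k_zh F s))
      (c.filter (fun s => ρ (s.1 + r278k_one s.2) = lam)) = 0 := by
  classical
  have hA : ∀ {M : Type} [AddCommGroup M] [Module F M] (g : ((Fin n → ℕ) →₀ F) →ₗ[F] M)
      (l : ((Fin n → ℕ) × Finset (Fin n)) →₀ F),
      Finsupp.linearCombination F (fun s => g.compLeft (Finset (Fin n)) (r278k_zh F s)) l =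
        g.compLeft _ (Finsupp.linearCombination F (r278k_zh F) l) := by
    intro M _ _ g l
    exact (Finsupp.apply_linearCombination F (g.compLeft (Finset (Fin n))) (r278k_zh F) l).symm
  rw [hA] at hrel ⊢
  funext S
  have hr : Finsupp.linearCombination F e
      ((Finsupp.linearCombination F (r278k_zh F) c) S) = 0 := congrFun hrel S
  set c' := c.filter (fun s => ρ (s.1 + r278k_one s.2) = lam) with hc'
  set r := (Finsupp.linearCombination F (r278k_zh F) c) S with hrdef
  set r' := (Finsupp.linearCombination F (r278k_zh F) c') S with hr'def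
  show Finsupp.linearCombination F e' r' = 0
  apply r278k_lc_eq_zero
  intro β hβ
  have hβ' : r' β ≠ 0 := Finsupp.mem_support_iff.mp hβ
  -- (a)
  have ha : ρ (β + r278k_one S) = lam := by
    by_contra hne
    apply hβ'
    rw [hr'def, r278k_zh_coord]
    apply r278k_lc_eq_zero
    intro s hs
    apply r278k_zh_apply_eq_zero
    intro heq
    rw [hc', Finsupp.support_filter, Finset.mem_filter] at hs
    exact hne (by rw [heq]; exact hs.2)
  -- (b)
  have hb : r β = r' β := by
    rw [hrdef, hr'def, r278k_zh_coord, r278k_zh_coord,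
      ← Finsupp.filter_add_filter_not c (fun s => ρ (s.1 + r278k_one s.2) = lam), map_add,
      ← hc']
    have : Finsupp.linearCombination F (fun s => r278k_zh F s S β)
        (c.filter (fun s => ¬ ρ (s.1 + r278k_one s.2) = lam)) = 0 := by
      apply r278k_lc_eq_zero
      intro s hs
      apply r278k_zh_apply_eq_zero
      intro heq
      rw [Finsupp.support_filter, Finset.mem_filter] at hs
      exact hs.2 (by rw [← heq]; exact ha)
    rw [this, add_zero]
  -- (c)
  have hcc : ∀ γ ∈ r.support, ∃ s ∈ c.support, γ + r278k_one S = s.1 + r278k_one s.2 := by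
    intro γ hγ
    by_contra hno
    push Not at hno
    apply Finsupp.mem_support_iff.mp hγ
    rw [hrdef, r278k_zh_coord]
    apply r278k_lc_eq_zero
    intro s hs
    exact r278k_zh_apply_eq_zero s S γ (hno s hs)
  have hdegS : ∀ γ ∈ r.support, ∑ i, γ i + S.card = j := by
    intro γ hγ
    obtain ⟨s, hs, heq⟩ := hcc γ hγ
    have h1 := congrArg (fun f : Fin n → ℕ => ∑ i, f i) heq
    simp only [Pi.add_apply, Finset.sum_add_distrib, r278k_sum_one] at h1
    have h2 := hcJ hs
    rw [r278k_J_eqns_cite] at h2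
    omega
  have hβr : β ∈ r.support := Finsupp.mem_support_iff.mpr (by rw [hb]; exact hβ')
  apply h0
  apply r278k_mem_leadSet_of_rel e ρ r hr β (by rw [hb]; exact hβ')
  · intro γ hγ
    have h1 := hdegS γ hγ
    have h2 := hdegS β hβr
    omega
  · intro γ hγ hne
    obtain ⟨s, hs, heq⟩ := hcc γ hγ
    have h1 : lam ≤ ρ (γ + r278k_one S) := by rw [heq]; exact hlam s hs
    rcases lt_trichotomy (ρ β) (ρ γ) with h | h | h
    · exact h
    · exact absurd (hρ h).symm hne
    · exact absurd (hadd γ β (r278k_one S) h) (by rw [ha]; exact not_lt.mpr h1)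

/-- **Proposition 2.3 of the Betti paper, rank form** (coefficients in a division ring).
`Q` is spanned by `e α = X ^ α e 0`; `Q'` likewise by `e'`, and `e'` vanishes at the leading
exponents of the relations of `Q`.  Then every Koszul rank of `Q'` is at most that of `Q`. -/
theorem r278k_lead_rank_le {Q' : Type} [AddCommGroup Q'] [Module F Q']
    (X : Fin n → Module.End F Q) (X' : Fin n → Module.End F Q')
    (e : (Fin n → ℕ) → Q) (e' : (Fin n → ℕ) → Q')
    (he : ∀ i α, X i (e α) = e (α + Pi.single i 1))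
    (he' : ∀ i α, X' i (e' α) = e' (α + Pi.single i 1))
    {Λ : Type} [LinearOrder Λ]
    (ρ : (Fin n → ℕ) → Λ) (hρ : Function.Injective ρ)
    (hadd : ∀ α β γ, ρ α < ρ β → ρ (α + γ) < ρ (β + γ))
    (h0 : ∀ α ∈ r278k_leadSet F e ρ, e' α = 0) (p j : ℕ) :
    r278m_rank X' (r278k_piece (F := F) e') p j ≤ r278m_rank X (r278k_piece (F := F) e) p j := by
  by_cases hpj : p ≤ j
  · rw [r278k_rank_eq_span X' e' p j hpj, r278k_rank_eq_span X e p j hpj]
    have hv : (fun s : (Fin n → ℕ) × Finset (Fin n) =>
        r278m_diff X (Pi.single s.2 (e s.1) : Finset (Fin n) → Q)) =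
        fun s => (Finsupp.linearCombination F e).compLeft _ (r278k_zh F s) :=
      funext fun s => r278k_v_eq X e he s
    have hv' : (fun s : (Fin n → ℕ) × Finset (Fin n) =>
        r278m_diff X' (Pi.single s.2 (e' s.1) : Finset (Fin n) → Q')) =
        fun s => (Finsupp.linearCombination F e').compLeft _ (r278k_zh F s) :=
      funext fun s => r278k_v_eq X' e' he' s
    rw [hv, hv']
    have hstar := r278k_lead_star e e' ρ hρ hadd h0 p j hpj
    exact r278k_lead_finrank_le (fun s : (Fin n → ℕ) × Finset (Fin n) => ρ (s.1 + r278k_one s.2))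
      (fun s => (Finsupp.linearCombination F e).compLeft (Finset (Fin n)) (r278k_zh F s))
      (fun s => (Finsupp.linearCombination F e').compLeft (Finset (Fin n)) (r278k_zh F s))
      (r278k_J n p j) (r278k_J_finite p j) hstar
  · rw [r278k_rank_eq_zero_of_lt X' _ p j hpj]
    exact Nat.zero_le _

/-! ### the leading set: up-closed, standard monomials form a basis of each piece -/

theorem r278k_leadSet_succ (X : Fin n → Module.End F Q) (e : (Fin n → ℕ) → Q)
    (he : ∀ i α, X i (e α) = e (α + Pi.single i 1)) {Λ : Type} [LinearOrder Λ]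
    (ρ : (Fin n → ℕ) → Λ) (hadd : ∀ α β γ, ρ α < ρ β → ρ (α + γ) < ρ (β + γ))
    {α : Fin n → ℕ} (hα : α ∈ r278k_leadSet F e ρ) (i : Fin n) :
    α + Pi.single i 1 ∈ r278k_leadSet F e ρ := by
  rw [r278k_leadSet_eqns_cite] at hα ⊢
  rw [← he i α]
  have h1 : X i (e α) ∈ (Submodule.span F (e '' {γ | ∑ i, γ i = ∑ i, α i ∧ ρ α < ρ γ})).map (X i) :=
    ⟨e α, hα, rfl⟩
  rw [Submodule.map_span] at h1
  refine Submodule.span_mono ?_ h1
  rintro _ ⟨_, ⟨γ, ⟨hγ1, hγ2⟩, rfl⟩, rfl⟩
  refine ⟨γ + Pi.single i 1, ⟨?_, hadd _ _ _ hγ2⟩, (he i γ).symm⟩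
  simp only [Pi.add_apply, Finset.sum_add_distrib, hγ1]

theorem r278k_leadSet_add (X : Fin n → Module.End F Q) (e : (Fin n → ℕ) → Q)
    (he : ∀ i α, X i (e α) = e (α + Pi.single i 1)) {Λ : Type} [LinearOrder Λ]
    (ρ : (Fin n → ℕ) → Λ) (hadd : ∀ α β γ, ρ α < ρ β → ρ (α + γ) < ρ (β + γ))
    {α : Fin n → ℕ} (hα : α ∈ r278k_leadSet F e ρ) (δ : Fin n → ℕ) :
    α + δ ∈ r278k_leadSet F e ρ := by
  classical
  induction hN : ∑ i, δ i generalizing δ with
  | zero =>
    have : δ = 0 := by
      funext i
      exact (Finset.sum_eq_zero_iff.mp hN) i (Finset.mem_univ i)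
    rw [this, add_zero]; exact hα
  | succ N ih =>
    have : ∃ i, 0 < δ i := by
      by_contra hno
      push Not at hno
      have : ∑ i, δ i = 0 := Finset.sum_eq_zero fun i _ => Nat.le_zero.mp (hno i)
      omega
    obtain ⟨i, hi⟩ := this
    have hδ : δ = (δ - Pi.single i 1) + Pi.single i 1 := by
      funext k
      by_cases hk : k = i
      · subst hk; simp; omega
      · simp [hk]
    have hsum : ∑ k, (δ - Pi.single i 1 : Fin n → ℕ) k = N := by
      have h1 := congrArg (fun f : Fin n → ℕ => ∑ k, f k) hδ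
      simp only [Pi.add_apply, Finset.sum_add_distrib] at h1
      have h2 : ∑ k, (Pi.single i 1 : Fin n → ℕ) k = 1 := by simp
      omega
    have := r278k_leadSet_succ X e he ρ hadd (ih _ hsum) i
    rw [add_assoc, ← hδ] at this
    exact this

/-- the leading set is up-closed -/
theorem r278k_leadSet_up (X : Fin n → Module.End F Q) (e : (Fin n → ℕ) → Q)
    (he : ∀ i α, X i (e α) = e (α + Pi.single i 1)) {Λ : Type} [LinearOrder Λ]
    (ρ : (Fin n → ℕ) → Λ) (hadd : ∀ α β γ, ρ α < ρ β → ρ (α + γ) < ρ (β + γ)) :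
    ∀ m ∈ r278k_leadSet F e ρ, ∀ m' : Fin n → ℕ, m ≤ m' → m' ∈ r278k_leadSet F e ρ := by
  intro m hm m' hle
  have : m' = m + (m' - m) := by
    funext i
    have h1 : m i ≤ m' i := hle i
    simp only [Pi.add_apply, Pi.sub_apply]
    omega
  rw [this]
  exact r278k_leadSet_add X e he ρ hadd hm _

/-- the standard monomials of degree `d` -/
def r278k_std (U : Set (Fin n → ℕ)) (d : ℕ) : Set (Fin n → ℕ) := {β | β ∉ U ∧ ∑ i, β i = d}

theorem r278k_std_eqns_cite (U : Set (Fin n → ℕ)) (d : ℕ) (β : Fin n → ℕ) :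
    β ∈ r278k_std U d ↔ β ∉ U ∧ ∑ i, β i = d := Iff.rfl

theorem r278k_std_finite (U : Set (Fin n → ℕ)) (d : ℕ) : (r278k_std U d).Finite :=
  (r278k_deg_finite d).subset fun _ h => h.2

/-- the standard monomials of a degree are linearly independent -/
theorem r278k_std_indep (e : (Fin n → ℕ) → Q) {Λ : Type} [LinearOrder Λ]
    (ρ : (Fin n → ℕ) → Λ) (hρ : Function.Injective ρ) (d : ℕ) :
    LinearIndepOn F e (r278k_std (r278k_leadSet F e ρ) d) := by
  classical
  rw [linearIndepOn_iff]
  intro l hl hl0
  by_contra hne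
  have hsupp : l.support.Nonempty := Finsupp.support_nonempty_iff.mpr hne
  obtain ⟨β, hβ, hmin⟩ := Finset.exists_min_image l.support ρ hsupp
  have hls : (↑l.support : Set (Fin n → ℕ)) ⊆ r278k_std (r278k_leadSet F e ρ) d :=
    (Finsupp.mem_supported F l).mp hl
  refine (hls hβ).1 (r278k_mem_leadSet_of_rel e ρ l hl0 β (Finsupp.mem_support_iff.mp hβ) ?_ ?_)
  · intro γ hγ
    rw [(hls hγ).2, (hls hβ).2]
  · intro γ hγ hγβ
    exact lt_of_le_of_ne (hmin γ hγ) fun h => hγβ (hρ h).symm

/-- the standard monomials of a degree span the piece -/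
theorem r278k_std_span (e : (Fin n → ℕ) → Q) {Λ : Type} [LinearOrder Λ]
    (ρ : (Fin n → ℕ) → Λ) (d : ℕ) :
    Submodule.span F (e '' r278k_std (r278k_leadSet F e ρ) d) = r278k_piece (F := F) e d := by
  classical
  apply le_antisymm
  · exact Submodule.span_mono (Set.image_mono fun _ h => h.2)
  · rw [r278k_piece, Submodule.span_le]
    have key : ∀ N : ℕ, ∀ α : Fin n → ℕ, ∑ i, α i = d →
        {γ : Fin n → ℕ | ∑ i, γ i = d ∧ ρ α < ρ γ}.ncard = N →
        e α ∈ Submodule.span F (e '' r278k_std (r278k_leadSet F e ρ) d) := by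
      intro N
      induction N using Nat.strong_induction_on with
      | _ N ih =>
        intro α hα hN
        by_cases hU : α ∈ r278k_leadSet F e ρ
        · rw [r278k_leadSet_eqns_cite, hα] at hU
          refine (Submodule.span_le.mpr ?_) hU
          rintro _ ⟨γ, ⟨hγ1, hγ2⟩, rfl⟩
          refine ih _ ?_ γ hγ1 rfl
          rw [← hN]
          apply Set.ncard_lt_ncard
          · constructor
            · intro δ hδ
              exact ⟨hδ.1, hγ2.trans hδ.2⟩
            · intro hsub
              exact lt_irrefl _ (hsub ⟨hγ1, hγ2⟩).2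
          · exact (r278k_deg_finite d).subset fun _ h => h.1
        · exact Submodule.subset_span ⟨α, ⟨hU, hα⟩, rfl⟩
    rintro _ ⟨α, hα, rfl⟩
    exact key _ α hα rfl

/-- dimension of a span of an independent family on a finite set -/
theorem r278k_finrank_span_image {ι M : Type} [AddCommGroup M] [Module F M] (v : ι → M)
    (b : Set ι) (hb : b.Finite) (hind : LinearIndepOn F v b) :
    Module.finrank F (Submodule.span F (v '' b)) = b.ncard := by
  classical
  have : Fintype b := hb.fintype
  have h1 : v '' b = Set.range fun x : b => v x := by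
    ext y; simp
  rw [h1, finrank_span_eq_card hind.linearIndependent, Set.ncard_eq_toFinset_card',
    Set.toFinset_card]

/-- **Proposition 2.3, Hilbert function**: the piece of degree `d` has as many dimensions as there
are standard monomials. -/
theorem r278k_finrank_piece (e : (Fin n → ℕ) → Q) {Λ : Type} [LinearOrder Λ]
    (ρ : (Fin n → ℕ) → Λ) (hρ : Function.Injective ρ) (d : ℕ) :
    Module.finrank F (r278k_piece (F := F) e d) = (r278k_std (r278k_leadSet F e ρ) d).ncard := by
  rw [← r278k_std_span e ρ d]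
  exact r278k_finrank_span_image e _ (r278k_std_finite _ d) (r278k_std_indep e ρ hρ d)

/-- the same count for a monomial model: `e'` vanishes on `U`, independent off `U` -/
theorem r278k_finrank_piece_mono {Q' : Type} [AddCommGroup Q'] [Module F Q']
    (e' : (Fin n → ℕ) → Q') (U : Set (Fin n → ℕ)) (h0 : ∀ α ∈ U, e' α = 0) (d : ℕ)
    (hind : LinearIndepOn F e' (r278k_std U d)) :
    Module.finrank F (r278k_piece (F := F) e' d) = (r278k_std U d).ncard := by
  have : r278k_piece (F := F) e' d = Submodule.span F (e' '' r278k_std U d) := by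
    apply le_antisymm
    · rw [r278k_piece, Submodule.span_le]
      rintro _ ⟨α, hα, rfl⟩
      by_cases hU : α ∈ U
      · rw [h0 α hU]; exact Submodule.zero_mem _
      · exact Submodule.subset_span ⟨α, ⟨hU, hα⟩, rfl⟩
    · exact Submodule.span_mono (Set.image_mono fun _ h => h.2)
  rw [this]
  exact r278k_finrank_span_image e' _ (r278k_std_finite _ d) hind

theorem r278k_piece_succ (X : Fin n → Module.End F Q) (e : (Fin n → ℕ) → Q)
    (he : ∀ i α, X i (e α) = e (α + Pi.single i 1)) (k : Fin n) (d : ℕ) :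
    ∀ b ∈ r278k_piece (F := F) e d, X k b ∈ r278k_piece (F := F) e (d + 1) := by
  intro b hb
  have h1 : X k b ∈ (r278k_piece (F := F) e d).map (X k) := ⟨b, hb, rfl⟩
  rw [r278k_piece, Submodule.map_span] at h1
  refine Submodule.span_mono ?_ h1
  rintro _ ⟨_, ⟨γ, hγ, rfl⟩, rfl⟩
  refine ⟨γ + Pi.single k 1, ?_, (he k γ).symm⟩
  have hγ' : ∑ i, γ i = d := hγ
  simp [Finset.sum_add_distrib, hγ']

/-- **Proposition 2.3 of the Betti paper, Betti form** (coefficients in a division ring): the Koszul
numbers of `Q` are at most those of the monomial model `Q'` of its leading set. -/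
theorem r278k_lead_betti_le {Q' : Type} [AddCommGroup Q'] [Module F Q']
    (X : Fin n → Module.End F Q) (X' : Fin n → Module.End F Q')
    (hX : ∀ k l b, X k (X l b) = X l (X k b)) (hX' : ∀ k l b, X' k (X' l b) = X' l (X' k b))
    (e : (Fin n → ℕ) → Q) (e' : (Fin n → ℕ) → Q')
    (he : ∀ i α, X i (e α) = e (α + Pi.single i 1))
    (he' : ∀ i α, X' i (e' α) = e' (α + Pi.single i 1))
    {Λ : Type} [LinearOrder Λ]
    (ρ : (Fin n → ℕ) → Λ) (hρ : Function.Injective ρ)
    (hadd : ∀ α β γ, ρ α < ρ β → ρ (α + γ) < ρ (β + γ))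
    (h0 : ∀ α ∈ r278k_leadSet F e ρ, e' α = 0)
    (hind : ∀ d, LinearIndepOn F e' (r278k_std (r278k_leadSet F e ρ) d)) (p j : ℕ) :
    r278m_betti X (r278k_piece (F := F) e) p j ≤ r278m_betti X' (r278k_piece (F := F) e') p j := by
  have h1 := r278m_betti_add_ranks X hX (r278k_piece_succ X e he)
    (r278k_piece_finite (F := F) e) p j
  have h2 := r278m_betti_add_ranks X' hX' (r278k_piece_succ X' e' he')
    (r278k_piece_finite (F := F) e') p j
  have h3 := r278k_lead_rank_le X X' e e' he he' ρ hρ hadd h0 p j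
  have h4 := r278k_lead_rank_le X X' e e' he he' ρ hρ hadd h0 (p + 1) j
  rw [r278m_finrank_chains (r278k_piece_finite (F := F) e)] at h1
  rw [r278m_finrank_chains (r278k_piece_finite (F := F) e')] at h2
  rw [r278k_finrank_piece e ρ hρ] at h1
  rw [r278k_finrank_piece_mono e' _ h0 _ (hind _)] at h2
  omega

end Lead

/-! ## Proposition 2.3 for `S ⧸ K`, in the words of `Def_0451` and `BettiVoc66` -/

section Inst

variable {F : Type} [Field F] {n : ℕ}

/-- the class of a monomial in `S ⧸ K` -/
noncomputable def r278k_eK (K : Ideal (MvPolynomial (Fin n) F)) (α : Fin n → ℕ) :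
    MvPolynomial (Fin n) F ⧸ K := Ideal.Quotient.mk K (bt66_mon F α)

/-- multiplication by the variables on `S ⧸ K` -/
noncomputable def r278k_XK (K : Ideal (MvPolynomial (Fin n) F)) (i : Fin n) :
    Module.End F (MvPolynomial (Fin n) F ⧸ K) := LinearMap.mulLeft F (Ideal.Quotient.mk K (X i))

theorem r278k_eK_eqns_cite (K : Ideal (MvPolynomial (Fin n) F)) (α : Fin n → ℕ) :
    r278k_eK K α = Ideal.Quotient.mk K (bt66_mon F α) := rfl

theorem r278k_XK_eqns_cite (K : Ideal (MvPolynomial (Fin n) F)) (i : Fin n) :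
    r278k_XK K i = LinearMap.mulLeft F (Ideal.Quotient.mk K (X i)) := rfl

theorem r278k_X_mul_mon (i : Fin n) (α : Fin n → ℕ) :
    (X i : MvPolynomial (Fin n) F) * bt66_mon F α = bt66_mon F (α + Pi.single i 1) := by
  unfold bt66_mon
  rw [X, monomial_mul, one_mul]
  have : Finsupp.single i 1 + Finsupp.equivFunOnFinite.symm α =
      Finsupp.equivFunOnFinite.symm (α + Pi.single i 1) := by
    ext k
    by_cases hk : k = i
    · subst hk; simp [add_comm]
    · simp [hk]
  rw [this]

theorem r278k_he (K : Ideal (MvPolynomial (Fin n) F)) (i : Fin n) (α : Fin n → ℕ) :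
    r278k_XK K i (r278k_eK K α) = r278k_eK K (α + Pi.single i 1) := by
  rw [r278k_XK_eqns_cite, r278k_eK_eqns_cite, r278k_eK_eqns_cite, LinearMap.mulLeft_apply,
    ← map_mul, r278k_X_mul_mon]

theorem r278k_hX (K : Ideal (MvPolynomial (Fin n) F)) (k l : Fin n)
    (b : MvPolynomial (Fin n) F ⧸ K) :
    r278k_XK K k (r278k_XK K l b) = r278k_XK K l (r278k_XK K k b) := by
  simp only [r278k_XK_eqns_cite, LinearMap.mulLeft_apply]
  ring

theorem r278k_mon_homog (α : Fin n → ℕ) : (bt66_mon F α).IsHomogeneous (∑ i, α i) := by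
  unfold bt66_mon
  apply isHomogeneous_monomial
  rw [Finsupp.degree_eq_sum]
  rfl

/-- the homogeneous polynomials of degree `d` are spanned by the monomials of degree `d` -/
theorem r278k_homog_eq_span (d : ℕ) :
    homogeneousSubmodule (Fin n) F d =
      Submodule.span F (bt66_mon F '' {α : Fin n → ℕ | ∑ i, α i = d}) := by
  apply le_antisymm
  · intro f hf
    rw [mem_homogeneousSubmodule] at hf
    rw [f.as_sum]
    refine Submodule.sum_mem _ fun s hs => ?_
    have h1 : monomial s (coeff s f) = coeff s f • bt66_mon F (⇑s) := by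
      unfold bt66_mon
      rw [smul_monomial, smul_eq_mul, mul_one]
      have : Finsupp.equivFunOnFinite.symm (⇑s) = s := by ext k; rfl
      rw [this]
    rw [h1]
    refine Submodule.smul_mem _ _ (Submodule.subset_span ⟨⇑s, ?_, rfl⟩)
    have h2 : s.degree = d := by
      by_contra hne
      exact (mem_support_iff.mp hs) (hf.coeff_eq_zero hne)
    rw [Finsupp.degree_eq_sum] at h2
    exact h2
  · rw [Submodule.span_le]
    rintro _ ⟨α, hα, rfl⟩
    rw [SetLike.mem_coe, mem_homogeneousSubmodule]
    have := r278k_mon_homog (F := F) α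
    rwa [hα] at this

theorem r278k_piece_eq_quotPiece (K : Ideal (MvPolynomial (Fin n) F)) (d : ℕ) :
    r278k_piece (F := F) (r278k_eK K) d = quotPiece K d := by
  unfold quotPiece
  rw [r278k_homog_eq_span, Submodule.map_span, Set.image_image]
  rfl

theorem r278k_coeff_lc (l : (Fin n → ℕ) →₀ F) (β : Fin n → ℕ) :
    coeff (Finsupp.equivFunOnFinite.symm β) (Finsupp.linearCombination F (bt66_mon F) l) = l β := by
  classical
  rw [Finsupp.linearCombination_apply, Finsupp.sum, coeff_sum]
  have : ∀ γ ∈ l.support, coeff (Finsupp.equivFunOnFinite.symm β) (l γ • bt66_mon F γ) =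
      if γ = β then l γ else 0 := by
    intro γ _
    unfold bt66_mon
    rw [coeff_smul, coeff_monomial, smul_eq_mul]
    by_cases h : γ = β
    · subst h; simp
    · have : Finsupp.equivFunOnFinite.symm γ ≠ Finsupp.equivFunOnFinite.symm β :=
        fun h' => h (Finsupp.equivFunOnFinite.symm.injective h')
      simp [h, this]
  rw [Finset.sum_congr rfl this, Finset.sum_ite_eq']
  split_ifs with h
  · rfl
  · exact (Finsupp.notMem_support_iff.mp h).symm

theorem r278k_mon_indep : LinearIndependent F (bt66_mon F : (Fin n → ℕ) → MvPolynomial (Fin n) F) :=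
  (basisMonomials (Fin n) F).linearIndependent.comp _ Finsupp.equivFunOnFinite.symm.injective

theorem r278k_eK_lc (K : Ideal (MvPolynomial (Fin n) F)) (l : (Fin n → ℕ) →₀ F) :
    Finsupp.linearCombination F (r278k_eK K) l =
      Ideal.Quotient.mk K (Finsupp.linearCombination F (bt66_mon F) l) :=
  (Finsupp.apply_linearCombination F (Ideal.Quotient.mkₐ F K).toLinearMap (bt66_mon F) l).symm

theorem r278k_eK_ideal_zero (U : Set (Fin n → ℕ)) {α : Fin n → ℕ} (hα : α ∈ U) :
    r278k_eK (bt66_ideal F U) α = 0 := by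
  rw [r278k_eK_eqns_cite, Ideal.Quotient.eq_zero_iff_mem]
  exact Ideal.subset_span ⟨α, hα, rfl⟩

/-- membership in a monomial ideal, coefficientwise -/
theorem r278k_mem_ideal_lc (U : Set (Fin n → ℕ)) (hU : bt66_Up U) (l : (Fin n → ℕ) →₀ F)
    (h : Finsupp.linearCombination F (bt66_mon F) l ∈ bt66_ideal F U) :
    ∀ β ∈ l.support, β ∈ U := by
  intro β hβ
  have h1 : bt66_ideal F U = Ideal.span ((fun s => monomial s (1 : F)) ''
      (Finsupp.equivFunOnFinite.symm '' U)) := by
    unfold bt66_ideal
    rw [Set.image_image]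
    rfl
  rw [h1, mem_ideal_span_monomial_image] at h
  have h2 : Finsupp.equivFunOnFinite.symm β ∈
      (Finsupp.linearCombination F (bt66_mon F) l).support := by
    rw [mem_support_iff, r278k_coeff_lc]
    exact Finsupp.mem_support_iff.mp hβ
  obtain ⟨_, ⟨m, hm, rfl⟩, hle⟩ := h _ h2
  exact hU m hm β (fun i => hle i)

theorem r278k_eK_ideal_indep (U : Set (Fin n → ℕ)) (hU : bt66_Up U) (d : ℕ) :
    LinearIndepOn F (r278k_eK (bt66_ideal F U)) (r278k_std U d) := by
  rw [linearIndepOn_iff]
  intro l hl hl0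
  rw [r278k_eK_lc, Ideal.Quotient.eq_zero_iff_mem] at hl0
  have h1 := r278k_mem_ideal_lc U hU l hl0
  have hls : (↑l.support : Set (Fin n → ℕ)) ⊆ r278k_std U d := (Finsupp.mem_supported F l).mp hl
  by_contra hne
  obtain ⟨β, hβ⟩ := Finsupp.support_nonempty_iff.mpr hne
  exact (hls hβ).1 (h1 β hβ)

theorem r278k_finrank_homog (d : ℕ) :
    Module.finrank F (homogeneousSubmodule (Fin n) F d) =
      {α : Fin n → ℕ | ∑ i, α i = d}.ncard := by
  rw [r278k_homog_eq_span]
  exact r278k_finrank_span_image _ _ (r278k_deg_finite d) (r278k_mon_indep.linearIndepOn _)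

/-- the leading set of an ideal `K` for the order `ρ` (the FIRST monomial leads) -/
noncomputable def r278k_inSet {Λ : Type} [LinearOrder Λ] (K : Ideal (MvPolynomial (Fin n) F))
    (ρ : (Fin n → ℕ) → Λ) : Set (Fin n → ℕ) := r278k_leadSet F (r278k_eK K) ρ

theorem r278k_inSet_eqns_cite {Λ : Type} [LinearOrder Λ] (K : Ideal (MvPolynomial (Fin n) F))
    (ρ : (Fin n → ℕ) → Λ) : r278k_inSet K ρ = r278k_leadSet F (r278k_eK K) ρ := rfl

/-- `α` is a leading exponent iff `x^α - (later monomials of the same degree) ∈ K` -/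
theorem r278k_mem_inSet {Λ : Type} [LinearOrder Λ] (K : Ideal (MvPolynomial (Fin n) F))
    (ρ : (Fin n → ℕ) → Λ) (α : Fin n → ℕ) :
    α ∈ r278k_inSet K ρ ↔
      ∃ g ∈ Submodule.span F (bt66_mon F '' {γ : Fin n → ℕ | ∑ i, γ i = ∑ i, α i ∧ ρ α < ρ γ}),
        bt66_mon F α - g ∈ K := by
  rw [r278k_inSet_eqns_cite, r278k_leadSet_eqns_cite]
  have h1 : Submodule.span F (r278k_eK K '' {γ : Fin n → ℕ | ∑ i, γ i = ∑ i, α i ∧ ρ α < ρ γ}) =
      (Submodule.span F (bt66_mon F '' {γ : Fin n → ℕ | ∑ i, γ i = ∑ i, α i ∧ ρ α < ρ γ})).map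
        (Ideal.Quotient.mkₐ F K).toLinearMap := by
    rw [Submodule.map_span, Set.image_image]
    rfl
  rw [h1, Submodule.mem_map]
  constructor
  · rintro ⟨g, hg, hge⟩
    refine ⟨g, hg, ?_⟩
    rw [← Ideal.Quotient.eq]
    exact hge.symm
  · rintro ⟨g, hg, hge⟩
    refine ⟨g, hg, ?_⟩
    rw [← Ideal.Quotient.eq] at hge
    exact hge.symm

theorem r278k_inSet_up {Λ : Type} [LinearOrder Λ] (K : Ideal (MvPolynomial (Fin n) F))
    (ρ : (Fin n → ℕ) → Λ) (hadd : ∀ α β γ, ρ α < ρ β → ρ (α + γ) < ρ (β + γ)) :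
    bt66_Up (r278k_inSet K ρ) :=
  r278k_leadSet_up (r278k_XK K) (r278k_eK K) (r278k_he K) ρ hadd

/-- **Hilbert function of the initial set** -/
theorem r278k_inSet_cnt {Λ : Type} [LinearOrder Λ] (K : Ideal (MvPolynomial (Fin n) F))
    (ρ : (Fin n → ℕ) → Λ) (hρ : Function.Injective ρ) (d : ℕ) :
    Module.finrank F (degPart K d) = bt66_cnt (r278k_inSet K ρ) d := by
  have h1 := r278k_finrank_quotPiece_add K d
  rw [← r278k_piece_eq_quotPiece, r278k_finrank_piece (r278k_eK K) ρ hρ d, r278k_finrank_homog]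
    at h1
  have h2 : {α : Fin n → ℕ | ∑ i, α i = d} =
      r278k_std (r278k_inSet K ρ) d ∪ (r278k_inSet K ρ ∩ {m | ∑ i, m i = d}) := by
    ext α
    simp only [Set.mem_ofPred_eq, Set.mem_union, Set.mem_inter_iff, r278k_std_eqns_cite]
    tauto
  have h3 : Disjoint (r278k_std (r278k_inSet K ρ) d) (r278k_inSet K ρ ∩ {m | ∑ i, m i = d}) := by
    rw [Set.disjoint_left]
    intro α h h'
    exact h.1 h'.1
  have h4 := Set.ncard_union_eq h3 (r278k_std_finite _ d)
    ((r278k_deg_finite d).subset fun _ h => h.2)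
  rw [← h2] at h4
  unfold bt66_cnt
  rw [r278k_inSet_eqns_cite] at *
  omega

/-- **Proposition 2.3 in the words of `Def_0451`**: the graded Betti numbers of `S ⧸ K` are at most
those of the monomial ideal of the leading exponents. -/
theorem r278k_gradedBetti_le_inSet {Λ : Type} [LinearOrder Λ] (K : Ideal (MvPolynomial (Fin n) F))
    (ρ : (Fin n → ℕ) → Λ) (hρ : Function.Injective ρ)
    (hadd : ∀ α β γ, ρ α < ρ β → ρ (α + γ) < ρ (β + γ)) (p j : ℕ) :
    gradedBetti K p j ≤ gradedBetti (bt66_ideal F (r278k_inSet K ρ)) p j := by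
  rw [r278m_gradedBetti_eq, r278m_gradedBetti_eq]
  have e1 : quotPiece K = r278k_piece (F := F) (r278k_eK K) :=
    funext fun d => (r278k_piece_eq_quotPiece K d).symm
  have e2 : quotPiece (bt66_ideal F (r278k_inSet K ρ)) =
      r278k_piece (F := F) (r278k_eK (bt66_ideal F (r278k_inSet K ρ))) :=
    funext fun d => (r278k_piece_eq_quotPiece _ d).symm
  rw [e1, e2]
  exact r278k_lead_betti_le (r278k_XK K) (r278k_XK _) (r278k_hX K) (r278k_hX _)
    (r278k_eK K) (r278k_eK _) (r278k_he K) (r278k_he _) ρ hρ hadd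
    (fun α hα => r278k_eK_ideal_zero _ hα)
    (fun d => r278k_eK_ideal_indep _ (r278k_inSet_up K ρ hadd) d) p j

/-! ### the two orders of the paper -/

/-- the order of Section 4: the lexicographically LARGEST monomial comes first -/
def r278k_rhoLex (n : ℕ) (α : Fin n → ℕ) : (Lex (Fin n → ℕ))ᵒᵈ := OrderDual.toDual (toLex α)

/-- the order of Sections 2-3: the lexicographically smallest `(α_n, …, α_1)` comes first -/
def r278k_rhoRev (n : ℕ) (α : Fin n → ℕ) : Lex (Fin n → ℕ) := toLex (fun i => α (Fin.rev i))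

theorem r278k_rhoLex_eqns_cite (α : Fin n → ℕ) :
    r278k_rhoLex n α = OrderDual.toDual (toLex α) := rfl

theorem r278k_rhoRev_eqns_cite (α : Fin n → ℕ) :
    r278k_rhoRev n α = toLex (fun i => α (Fin.rev i)) := rfl

theorem r278k_rhoLex_inj : Function.Injective (r278k_rhoLex n) := fun _ _ h => h

theorem r278k_rhoRev_inj : Function.Injective (r278k_rhoRev n) := by
  intro α β h
  funext i
  have := congrFun (show (fun i => α (Fin.rev i)) = fun i => β (Fin.rev i) from h) (Fin.rev i)
  simpa using this

theorem r278k_rhoLex_lt (α γ : Fin n → ℕ) :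
    r278k_rhoLex n α < r278k_rhoLex n γ ↔ lexGt α γ = true := by
  unfold lexGt
  rw [decide_eq_true_iff]
  change (∃ i : Fin n, (∀ j : Fin n, j < i → γ j = α j) ∧ γ i < α i) ↔ _
  constructor
  · rintro ⟨i, h1, h2⟩
    exact ⟨i, fun j hj => (h1 j hj).symm, h2⟩
  · rintro ⟨i, h1, h2⟩
    exact ⟨i, fun j hj => (h1 j hj).symm, h2⟩

theorem r278k_rhoLex_add (α β γ : Fin n → ℕ) (h : r278k_rhoLex n α < r278k_rhoLex n β) :
    r278k_rhoLex n (α + γ) < r278k_rhoLex n (β + γ) := by
  rw [r278k_rhoLex_lt] at h ⊢
  unfold lexGt at h ⊢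
  rw [decide_eq_true_iff] at h ⊢
  obtain ⟨i, h1, h2⟩ := h
  exact ⟨i, fun j hj => by simp [h1 j hj], by simpa using h2⟩

theorem r278k_rhoRev_lt (α γ : Fin n → ℕ) :
    r278k_rhoRev n α < r278k_rhoRev n γ ↔
      ∃ i : Fin n, (∀ j : Fin n, i < j → α j = γ j) ∧ α i < γ i := by
  change (∃ i : Fin n, (∀ j : Fin n, j < i → α (Fin.rev j) = γ (Fin.rev j)) ∧
    α (Fin.rev i) < γ (Fin.rev i)) ↔ _
  constructor
  · rintro ⟨i, h1, h2⟩
    refine ⟨Fin.rev i, fun j hj => ?_, h2⟩
    have := h1 (Fin.rev j) (by rw [Fin.rev_lt_iff]; exact hj)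
    simpa using this
  · rintro ⟨i, h1, h2⟩
    refine ⟨Fin.rev i, fun j hj => h1 _ ?_, by simpa using h2⟩
    rw [Fin.lt_rev_iff]; exact hj

theorem r278k_rhoRev_add (α β γ : Fin n → ℕ) (h : r278k_rhoRev n α < r278k_rhoRev n β) :
    r278k_rhoRev n (α + γ) < r278k_rhoRev n (β + γ) := by
  rw [r278k_rhoRev_lt] at h ⊢
  obtain ⟨i, h1, h2⟩ := h
  exact ⟨i, fun j hj => by simp [h1 j hj], by simpa using h2⟩

end Inst

end Claimed.Agent.R278.Kos
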