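-- KEEP
/-
R278 / MonoVoc66 (pen 66, prefix `bt66_`): the vocabulary of `Mono66.lean` (Prop 3.2 of the Betti
paper from THE BOX).  The leaf files of Mono66 import THIS file (never Mono66, which imports them).
-/
import Claimed.Agent.R278.BettiVoc66
import Claimed.Agent.R278.Sec2Box

set_option autoImplicit false

open MvPolynomial Claims.C0451

namespace Claimed.Agent.R278

/-! ## Vocabulary -/

/-- `Q = D[x] / D·I`, a left `D`-module. -/
abbrev Bt66Q {F : Type} [Field F] (D : Type) [DivisionRing D] [Algebra F D] {n : ℕ}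
    (I : Ideal (MvPolynomial (Fin n) F)) : Type :=
  Eg2N D n ⧸ eg2Ext D I

open Classical in
/-- Right multiplication by `t` on `Q` (it is well defined: leaf `bt66_ext_mul`). -/
noncomputable def bt66_rmul {F : Type} [Field F] (D : Type) [DivisionRing D] [Algebra F D] {n : ℕ}
    (I : Ideal (MvPolynomial (Fin n) F)) (t : Eg2N D n) : Module.End D (Bt66Q D I) :=
  if h : eg2Ext D I ≤ (eg2Ext D I).comap (LinearMap.mulRight D t) then
    (eg2Ext D I).mapQ (eg2Ext D I) (LinearMap.mulRight D t) h
  else 0

/-- The pieces of `Q`. -/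
noncomputable def bt66_Qpc {F : Type} [Field F] (D : Type) [DivisionRing D] [Algebra F D] {n : ℕ}
    (I : Ideal (MvPolynomial (Fin n) F)) (e : ℕ) : Submodule D (Bt66Q D I) :=
  (eg2Deg D n e).map (eg2Ext D I).mkQ

/-- The variable `x_j` of `D[x]`. -/
noncomputable def bt66_var (D : Type) [DivisionRing D] (n : ℕ) (j : Fin n) : Eg2N D n :=
  AddMonoidAlgebra.single (Finsupp.single j 1) 1

/-- The order of Prop 3.2: the lexicographically smallest `(α_n, …, α_1)` comes first. -/
def bt66_rho {n : ℕ} (α : Fin n → ℕ) : Lex (Fin n → ℕ) := toLex (α ∘ Fin.rev)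

/-- The data of the BOX without the triangular identities. -/
structure Bt66Forms (D : Type) [DivisionRing D] (n : ℕ) where
  τ : Fin n → Fin n → D
  σ : Fin n → Fin n → D
  inv : ∀ i k, ∑ j, σ i j * τ j k = if i = k then 1 else 0
  comm : ∀ i k, Commute (eg2Lin (τ i)) (eg2Lin (τ k))

/-! ## Small facts -/

theorem bt66_iota_single {F : Type} [Field F] (D : Type) [DivisionRing D] [Algebra F D] {n : ℕ}
    (β : Fin n →₀ ℕ) (c : F) :
    eg2Iota F D n (monomial β c) = AddMonoidAlgebra.single β (algebraMap F D c) := by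
  unfold eg2Iota
  exact AddMonoidAlgebra.mapRingHom_single _ _ _

theorem bt66_smul_eq {D : Type} [DivisionRing D] {n : ℕ} (d : D) (y : Eg2N D n) :
    d • y = AddMonoidAlgebra.single 0 d * y := by
  induction y using AddMonoidAlgebra.induction_linear with
  | zero => simp
  | add x y hx hy => rw [smul_add, hx, hy, mul_add]
  | single m r => rw [AddMonoidAlgebra.single_mul_single, zero_add, AddMonoidAlgebra.smul_single, smul_eq_mul]

theorem bt66_iota_comm {F : Type} [Field F] (D : Type) [DivisionRing D] [Algebra F D] {n : ℕ}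
    (g : MvPolynomial (Fin n) F) (y : Eg2N D n) :
    eg2Iota F D n g * y = y * eg2Iota F D n g := by
  induction g using MvPolynomial.induction_on' with
  | monomial β c =>
    rw [bt66_iota_single]
    induction y using AddMonoidAlgebra.induction_linear with
    | zero => simp
    | add x y hx hy => rw [mul_add, add_mul, hx, hy]
    | single m r =>
      rw [AddMonoidAlgebra.single_mul_single, AddMonoidAlgebra.single_mul_single, add_comm,
        Algebra.commutes]
  | add p q hp hq => rw [map_add, add_mul, mul_add, hp, hq]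

theorem bt66_ext_mul {F : Type} [Field F] (D : Type) [DivisionRing D] [Algebra F D] {n : ℕ}
    (I : Ideal (MvPolynomial (Fin n) F)) (t : Eg2N D n) :
    eg2Ext D I ≤ (eg2Ext D I).comap (LinearMap.mulRight D t) := by
  unfold eg2Ext
  rw [Submodule.span_le]
  rintro _ ⟨g, hg, rfl⟩
  show eg2Iota F D n g * t ∈ Submodule.span D (eg2Iota F D n '' (I : Set (MvPolynomial (Fin n) F)))
  induction t using AddMonoidAlgebra.induction_linear with
  | zero => simp
  | add x y hx hy => rw [mul_add]; exact Submodule.add_mem _ hx hy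
  | single m r =>
    have h1 : (AddMonoidAlgebra.single m r : Eg2N D n) =
        AddMonoidAlgebra.single 0 r * eg2Iota F D n (monomial m 1) := by
      rw [bt66_iota_single, AddMonoidAlgebra.single_mul_single, zero_add, map_one, mul_one]
    rw [h1, ← mul_assoc, bt66_iota_comm, mul_assoc, ← bt66_smul_eq, ← map_mul]
    exact Submodule.smul_mem _ _ (Submodule.subset_span ⟨_, I.mul_mem_right _ hg, rfl⟩)

theorem bt66_pcD_eq_span (D : Type) [DivisionRing D] {n : ℕ} (W : Set (Fin n → ℕ)) (e : ℕ) :
    bt66_pcD D W e =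
      Submodule.span D ((fun u => Finsupp.single u (1 : D)) '' {u | u ∈ W ∧ ∑ i, u i = e}) := by
  unfold bt66_pcD
  exact Finsupp.supported_eq_span_single D _

theorem bt66_rho_add {n : ℕ} (α β γ : Fin n → ℕ) (h : bt66_rho α < bt66_rho β) :
    bt66_rho (α + γ) < bt66_rho (β + γ) := by
  have h1 : ∀ x : Fin n → ℕ, bt66_rho (x + γ) = bt66_rho x + bt66_rho γ := by
    intro x; rfl
  rw [h1, h1]
  exact add_lt_add_left h _

theorem bt66_shD_comm (D : Type) [DivisionRing D] {n : ℕ} (W : Set (Fin n → ℕ)) (hW : bt66_Conv W)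
    (k l : Fin n) (b : (Fin n → ℕ) →₀ D) :
    bt66_shD D W k (bt66_shD D W l b) = bt66_shD D W l (bt66_shD D W k b) := by
  classical
  induction b using Finsupp.induction_linear with
  | zero => simp
  | add f g hf hg => simp only [map_add, hf, hg]
  | single u c =>
    have hle1 : ∀ (u : Fin n → ℕ) (k : Fin n), u ≤ u + Pi.single k 1 := fun u k i => by simp
    have hsw : u + Pi.single l 1 + Pi.single k 1 = u + Pi.single k 1 + Pi.single l 1 := by
      rw [add_assoc, add_comm (Pi.single l 1), ← add_assoc]
    rw [bt66_shD_single, bt66_shD_single]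
    by_cases hu : u ∈ W
    · by_cases h2 : u + Pi.single k 1 + Pi.single l 1 ∈ W
      · have hk : u + Pi.single k 1 ∈ W := hW u _ _ (hle1 _ _) (hle1 _ _) hu h2
        have hl : u + Pi.single l 1 ∈ W := hW u _ _ (hle1 _ _) (hle1 _ _) hu (hsw ▸ h2)
        rw [if_pos ⟨hu, hl⟩, if_pos ⟨hu, hk⟩, bt66_shD_single, bt66_shD_single,
          if_pos ⟨hl, hsw ▸ h2⟩, if_pos ⟨hk, h2⟩, hsw]
      · have e1 : bt66_shD D W k (if u ∈ W ∧ u + Pi.single l 1 ∈ W then
            Finsupp.single (u + Pi.single l 1) c else 0) = 0 := by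
          split_ifs
          · rw [bt66_shD_single, if_neg (by rw [hsw]; exact fun h => h2 h.2)]
          · simp
        have e2 : bt66_shD D W l (if u ∈ W ∧ u + Pi.single k 1 ∈ W then
            Finsupp.single (u + Pi.single k 1) c else 0) = 0 := by
          split_ifs
          · rw [bt66_shD_single, if_neg (fun h => h2 h.2)]
          · simp
        rw [e1, e2]
    · rw [if_neg (fun h => hu h.1), if_neg (fun h => hu h.1)]
      simp

theorem bt66_rho_inj {n : ℕ} : Function.Injective (bt66_rho (n := n)) := by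
  intro α β h
  have h' : α ∘ Fin.rev = β ∘ Fin.rev := toLex.injective h
  funext i
  have := congrFun h' (Fin.rev i)
  simpa using this

/-- Right multiplication on `Q`, on representatives. -/
theorem bt66_rmul_mk {F : Type} [Field F] (D : Type) [DivisionRing D] [Algebra F D] {n : ℕ}
    (I : Ideal (MvPolynomial (Fin n) F)) (t w : Eg2N D n) :
    bt66_rmul D I t ((eg2Ext D I).mkQ w) = (eg2Ext D I).mkQ (w * t) := by
  simp only [bt66_rmul, dif_pos (bt66_ext_mul D I t)]
  rfl

end Claimed.Agent.R278
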