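-- KEEP
/-
R278 / BaseD126 (pen 126, prefix `bd126_`): base change of the Koszul numbers from a field `F` to a
division ring `D` with `F` central (`[Algebra F D]`): leaves BCX, HF, BCM of `Mono66.lean`.
-/
import Claimed.Agent.R278.MonoVoc66
import Claimed.Agent.R278.Kos126

set_option autoImplicit false

open MvPolynomial Claims.C0451

namespace Claimed.Agent.R278

/-! ## Abstract part -/

section Abstract

variable {F D : Type} [Field F] [DivisionRing D] [Algebra F D]
variable {B B' : Type} [AddCommGroup B] [Module F B] [AddCommGroup B'] [Module D B']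

/-- `ι : B → B'` is a scalar extension: semilinear, and every left `D`-relation between vectors
`ι u` gives, through every `F`-linear functional of `D`, an `F`-relation between the `u`. -/
def Bd126Ext (F D : Type) [Field F] [DivisionRing D] [Algebra F D]
    {B B' : Type} [AddCommGroup B] [Module F B] [AddCommGroup B'] [Module D B'] (ι : B →+ B') :
    Prop :=
  (∀ (c : F) (b : B), ι (c • b) = algebraMap F D c • ι b) ∧
    ∀ (κ : Type) (s : Finset κ) (g : κ → D) (u : κ → B), ∑ k ∈ s, g k • ι (u k) = 0 →
      ∀ φ : D →ₗ[F] F, ∑ k ∈ s, φ (g k) • u k = 0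

theorem bd126_eqns_cite (ι : B →+ B') : Bd126Ext F D ι ↔
    (∀ (c : F) (b : B), ι (c • b) = algebraMap F D c • ι b) ∧
    ∀ (κ : Type) (s : Finset κ) (g : κ → D) (u : κ → B), ∑ k ∈ s, g k • ι (u k) = 0 →
      ∀ φ : D →ₗ[F] F, ∑ k ∈ s, φ (g k) • u k = 0 := Iff.rfl

theorem bd126_li {ι : B →+ B'} (h : Bd126Ext F D ι) {κ : Type} (u : κ → B)
    (hu : LinearIndependent F u) : LinearIndependent D (fun k => ι (u k)) := by
  classical
  refine linearIndependent_iff'.2 ?_
  intro s g hsum k hk
  refine (Module.forall_dual_apply_eq_zero_iff F (g k)).1 fun φ => ?_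
  exact linearIndependent_iff'.1 hu s (fun k => φ (g k)) (h.2 κ s g u hsum φ) k hk

theorem bd126_span_basis {ι : B →+ B'} (h : Bd126Ext F D ι) (Z : Submodule F B)
    {κ : Type} [Fintype κ] (b : Module.Basis κ F Z) :
    Submodule.span D (ι '' (Z : Set B)) = Submodule.span D (Set.range fun k => ι (b k : B)) := by
  apply le_antisymm
  · rw [Submodule.span_le]
    rintro _ ⟨z, hz, rfl⟩
    have h1 : z = ∑ k, (b.repr ⟨z, hz⟩ k) • (b k : B) := by
      have := congrArg Subtype.val (b.sum_repr ⟨z, hz⟩)
      simp only [AddSubmonoidClass.coe_finsetSum, Submodule.coe_smul] at this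
      exact this.symm
    rw [h1, map_sum]
    refine Submodule.sum_mem _ fun k _ => ?_
    rw [h.1]
    exact Submodule.smul_mem _ _ (Submodule.subset_span ⟨k, rfl⟩)
  · apply Submodule.span_mono
    rintro _ ⟨k, rfl⟩
    exact ⟨b k, (b k).2, rfl⟩

theorem bd126_finrank {ι : B →+ B'} (h : Bd126Ext F D ι) (Z : Submodule F B) [Module.Finite F Z] :
    Module.finrank D (Submodule.span D (ι '' (Z : Set B))) = Module.finrank F Z := by
  classical
  let b := Module.finBasis F Z
  have hli : LinearIndependent F (fun k => (b k : B)) :=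
    b.linearIndependent.map' Z.subtype Z.ker_subtype
  have hD := bd126_li h _ hli
  rw [bd126_span_basis h Z b, finrank_span_eq_card hD, Fintype.card_fin]

/-- a scalar extension stays one on functions -/
theorem bd126_compLeft {ι : B →+ B'} (h : Bd126Ext F D ι) (T : Type) :
    Bd126Ext F D (ι.compLeft T) := by
  constructor
  · intro c b
    funext t
    exact h.1 c (b t)
  · intro κ s g u hsum φ
    funext t
    have h1 := congrFun hsum t
    simp only [Finset.sum_apply, Pi.smul_apply, Pi.zero_apply] at h1 ⊢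
    exact h.2 κ s g (fun k => u k t) h1 φ

variable {n : ℕ}

omit [Algebra F D] in
theorem bd126_chains {ι : B →+ B'} (P : ℕ → Submodule F B) (P' : ℕ → Submodule D B')
    (hP : ∀ e, P' e = Submodule.span D (ι '' (P e : Set B))) (p j : ℕ) :
    r278m_chains (n := n) P' p j =
      Submodule.span D (ι.compLeft (Finset (Fin n)) '' (r278m_chains (n := n) P p j : Set _)) := by
  classical
  apply le_antisymm
  · intro c hc
    rw [r278m_mem_chains] at hc
    have hsum : c = ∑ T : Finset (Fin n), (Pi.single T (c T) : Finset (Fin n) → B') := by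
      funext T'
      rw [Finset.sum_apply, Finset.sum_eq_single T']
      · simp
      · intro T _ hT; simp [hT.symm]
      · intro h; exact absurd (Finset.mem_univ _) h
    rw [hsum]
    refine Submodule.sum_mem _ fun T _ => ?_
    have hT := hc T
    by_cases h : T.card = p ∧ p ≤ j
    · rw [if_pos h, hP] at hT
      have h1 : (Pi.single T (c T) : Finset (Fin n) → B') ∈
          (Submodule.span D (ι '' (P (j - p) : Set B))).map (LinearMap.single D (fun _ => B') T) :=
        ⟨c T, hT, rfl⟩
      rw [Submodule.map_span] at h1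
      refine Submodule.span_mono ?_ h1
      rintro _ ⟨_, ⟨b, hb, rfl⟩, rfl⟩
      refine ⟨Pi.single T b, ?_, ?_⟩
      · rw [SetLike.mem_coe, r278m_mem_chains]
        intro T'
        by_cases h' : T' = T
        · subst h'
          rw [if_pos h, Pi.single_eq_same]; exact hb
        · rw [Pi.single_eq_of_ne h']; exact Submodule.zero_mem _
      · funext T'
        show ι ((Pi.single T b : Finset (Fin n) → B) T') = (Pi.single T (ι b) : _ → B') T'
        by_cases h' : T' = T
        · subst h'; rw [Pi.single_eq_same, Pi.single_eq_same]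
        · rw [Pi.single_eq_of_ne h', Pi.single_eq_of_ne h', map_zero]
    · rw [if_neg h, Submodule.mem_bot] at hT
      rw [hT, Pi.single_zero]
      exact Submodule.zero_mem _
  · rw [Submodule.span_le]
    rintro _ ⟨c, hc, rfl⟩
    rw [SetLike.mem_coe, r278m_mem_chains] at hc ⊢
    intro T
    have hT := hc T
    show ι (c T) ∈ _
    by_cases h : T.card = p ∧ p ≤ j
    · rw [if_pos h] at hT ⊢
      rw [hP]
      exact Submodule.subset_span ⟨c T, hT, rfl⟩
    · rw [if_neg h, Submodule.mem_bot] at hT
      rw [hT, map_zero]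
      exact Submodule.zero_mem _

omit [Algebra F D] in
theorem bd126_diff {ι : B →+ B'} (X : Fin n → Module.End F B) (X' : Fin n → Module.End D B')
    (hX : ∀ k b, ι (X k b) = X' k (ι b)) (c : Finset (Fin n) → B) :
    r278m_diff X' (ι.compLeft (Finset (Fin n)) c) = ι.compLeft _ (r278m_diff X c) := by
  funext U
  show r278m_diff X' (ι.compLeft (Finset (Fin n)) c) U = ι (r278m_diff X c U)
  rw [r278m_diff_apply, r278m_diff_apply, map_sum]
  refine Finset.sum_congr rfl fun k _ => ?_
  rw [map_zsmul, hX]
  rfl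

/-- **base change of the Koszul ranks** -/
theorem bd126_rank {ι : B →+ B'} (h : Bd126Ext F D ι)
    (X : Fin n → Module.End F B) (X' : Fin n → Module.End D B')
    (hX : ∀ k b, ι (X k b) = X' k (ι b))
    (P : ℕ → Submodule F B) (P' : ℕ → Submodule D B') (hfin : ∀ e, Module.Finite F (P e))
    (hP : ∀ e, P' e = Submodule.span D (ι '' (P e : Set B))) (p j : ℕ) :
    r278m_rank X' P' p j = r278m_rank X P p j := by
  have := r278m_finite_chains (n := n) hfin p j
  rw [r278m_rank, r278m_rank, bd126_chains P P' hP p j, Submodule.map_span, Set.image_image]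
  have h1 : (fun c => r278m_diff X' (ι.compLeft (Finset (Fin n)) c)) ''
      ((r278m_chains (n := n) P p j : Submodule F (Finset (Fin n) → B)) : Set _) =
      ι.compLeft (Finset (Fin n)) '' (((r278m_chains (n := n) P p j).map (r278m_diff X) :
        Submodule F (Finset (Fin n) → B)) : Set _) := by
    rw [Submodule.map_coe, Set.image_image]
    exact Set.image_congr fun c _ => bd126_diff X X' hX c
  rw [h1]
  exact bd126_finrank (bd126_compLeft h _) _

theorem bd126_finrank_chains {ι : B →+ B'} (h : Bd126Ext F D ι)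
    (P : ℕ → Submodule F B) (P' : ℕ → Submodule D B') (hfin : ∀ e, Module.Finite F (P e))
    (hP : ∀ e, P' e = Submodule.span D (ι '' (P e : Set B))) (p j : ℕ) :
    Module.finrank D (r278m_chains (n := n) P' p j) =
      Module.finrank F (r278m_chains (n := n) P p j) := by
  have := r278m_finite_chains (n := n) hfin p j
  rw [bd126_chains P P' hP p j]
  exact bd126_finrank (bd126_compLeft h _) _

/-- the Koszul number through ranks only (no commutation needed) -/
theorem bd126_betti_eq {K : Type} [DivisionRing K] {M : Type} [AddCommGroup M] [Module K M]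
    (X : Fin n → Module.End K M) (P : ℕ → Submodule K M) (hfin : ∀ e, Module.Finite K (P e))
    (p j : ℕ) :
    r278m_betti X P p j =
      Module.finrank K (r278m_chains (n := n) P p j) - r278m_rank X P p j -
        r278m_rank X P (p + 1) j := by
  have := r278m_finite_chains (n := n) hfin p j
  have h := r278m_rank_nullity (r278m_diff X) (r278m_chains (n := n) P p j)
  simp only [r278m_betti, r278m_rank] at *
  omega

/-- **base change of the Koszul numbers** -/
theorem bd126_betti {ι : B →+ B'} (h : Bd126Ext F D ι)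
    (X : Fin n → Module.End F B) (X' : Fin n → Module.End D B')
    (hX : ∀ k b, ι (X k b) = X' k (ι b))
    (P : ℕ → Submodule F B) (P' : ℕ → Submodule D B') (hfin : ∀ e, Module.Finite F (P e))
    (hP : ∀ e, P' e = Submodule.span D (ι '' (P e : Set B))) (p j : ℕ) :
    r278m_betti X' P' p j = r278m_betti X P p j := by
  have hfin' : ∀ e, Module.Finite D (P' e) := by
    intro e
    rw [hP e]
    rw [bd126_span_basis h (P e) (Module.finBasis F (P e))]
    exact Module.Finite.span_of_finite D (Set.finite_range _)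
  rw [bd126_betti_eq X' P' hfin', bd126_betti_eq X P hfin, bd126_finrank_chains h P P' hfin hP,
    bd126_rank h X X' hX P P' hfin hP, bd126_rank h X X' hX P P' hfin hP]

end Abstract

/-! ## BCM: the monomial model -/

section Model

variable (F D : Type) [Field F] [DivisionRing D] [Algebra F D]

/-- extension of the coefficients of finitely supported functions -/
noncomputable def bd126_mr (σ : Type) : (σ →₀ F) →+ (σ →₀ D) :=
  Finsupp.mapRange.addMonoidHom (algebraMap F D).toAddMonoidHom

theorem bd126_mr_eqns_cite (σ : Type) :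
    bd126_mr F D σ = Finsupp.mapRange.addMonoidHom (algebraMap F D).toAddMonoidHom := rfl

theorem bd126_mr_apply (σ : Type) (f : σ →₀ F) (u : σ) :
    bd126_mr F D σ f u = algebraMap F D (f u) := rfl

theorem bd126_mr_single (σ : Type) (u : σ) (c : F) :
    bd126_mr F D σ (Finsupp.single u c) = Finsupp.single u (algebraMap F D c) := by
  classical
  ext v
  rw [bd126_mr_apply, Finsupp.single_apply, Finsupp.single_apply]
  split_ifs <;> simp

theorem bd126_phi_mul (φ : D →ₗ[F] F) (g : D) (c : F) :
    φ (g * algebraMap F D c) = φ g * c := by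
  rw [← Algebra.commutes, ← Algebra.smul_def, map_smul, smul_eq_mul, mul_comm]

theorem bd126_mr_ext (σ : Type) : Bd126Ext F D (bd126_mr F D σ) := by
  constructor
  · intro c b
    ext u
    rw [bd126_mr_apply, Finsupp.smul_apply, Finsupp.smul_apply, bd126_mr_apply, smul_eq_mul,
      smul_eq_mul, map_mul]
  · intro κ s g u hsum φ
    ext x
    have h1 := congrArg (fun y : σ →₀ D => φ (y x)) hsum
    simp only [Finsupp.finsetSum_apply, Finsupp.smul_apply, bd126_mr_apply, smul_eq_mul, map_sum,
      Finsupp.zero_apply, map_zero, bd126_phi_mul] at h1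
    simp only [Finsupp.finsetSum_apply, Finsupp.smul_apply, smul_eq_mul, Finsupp.zero_apply]
    exact h1

variable {n : ℕ}

theorem bd126_mr_sh (W : Set (Fin n → ℕ)) (k : Fin n) (b : (Fin n → ℕ) →₀ F) :
    bd126_mr F D _ (bt66_sh F W k b) = bt66_shD D W k (bd126_mr F D _ b) := by
  classical
  rw [← bt66_shD_eq]
  induction b using Finsupp.induction_linear with
  | zero => simp
  | add f g hf hg => rw [map_add, map_add, map_add, map_add, hf, hg]
  | single u c =>
    rw [bt66_shD_single, bd126_mr_single, bt66_shD_single]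
    split_ifs
    · rw [bd126_mr_single]
    · rw [map_zero]

theorem bd126_pc_finite (W : Set (Fin n → ℕ)) (e : ℕ) : Module.Finite F (bt66_pc F W e) := by
  have hs : ({u | u ∈ W ∧ ∑ i, u i = e} : Set (Fin n → ℕ)).Finite :=
    (Kos.r278k_deg_finite e).subset fun u hu => hu.2
  have := hs.to_subtype
  exact Module.Finite.equiv (Finsupp.supportedEquivFinsupp (M := F) (R := F)
    ({u | u ∈ W ∧ ∑ i, u i = e} : Set (Fin n → ℕ))).symm

theorem bd126_pc_span (W : Set (Fin n → ℕ)) (e : ℕ) :
    bt66_pcD D W e = Submodule.span D (bd126_mr F D _ '' (bt66_pc F W e : Set _)) := by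
  apply le_antisymm
  · unfold bt66_pcD
    rw [Finsupp.supported_eq_span_single]
    apply Submodule.span_mono
    rintro _ ⟨u, hu, rfl⟩
    refine ⟨Finsupp.single u 1, ?_, ?_⟩
    · exact Finsupp.single_mem_supported F 1 hu
    · rw [bd126_mr_single, map_one]
  · rw [Submodule.span_le]
    rintro _ ⟨f, hf, rfl⟩
    unfold bt66_pc at hf
    unfold bt66_pcD
    rw [SetLike.mem_coe, Finsupp.mem_supported'] at hf ⊢
    intro x hx
    rw [bd126_mr_apply, hf x hx, map_zero]

/-- **LEAF BCM** (statement of `bt66_bcm`, the convexity is not needed). -/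
theorem bd126_bcm (W : Set (Fin n → ℕ)) (p j : ℕ) :
    r278m_betti (bt66_shD D W) (bt66_pcD D W) p j = bt66_bet F W p j :=
  bd126_betti (bd126_mr_ext F D _) (bt66_sh F W) (bt66_shD D W) (bd126_mr_sh F D W)
    (bt66_pc F W) (bt66_pcD D W) (bd126_pc_finite F W) (bd126_pc_span F D W) p j

end Model

/-! ## BCX, HF: the quotient `S/I` -/

section Quot

variable {F : Type} [Field F] (D : Type) [DivisionRing D] [Algebra F D] {n : ℕ}

/-- the functional `φ` applied to every coefficient -/
noncomputable def bd126_Phi (φ : D →ₗ[F] F) (y : Eg2N D n) : MvPolynomial (Fin n) F :=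
  AddMonoidAlgebra.ofCoeff (Finsupp.mapRange φ (map_zero φ) y.coeff)

theorem bd126_Phi_eqns_cite (φ : D →ₗ[F] F) (y : Eg2N D n) :
    bd126_Phi D φ y = AddMonoidAlgebra.ofCoeff (Finsupp.mapRange φ (map_zero φ) y.coeff) := rfl

theorem bd126_Phi_coeff (φ : D →ₗ[F] F) (y : Eg2N D n) (α : Fin n →₀ ℕ) :
    MvPolynomial.coeff α (bd126_Phi D φ y) = φ (y.coeff α) := rfl

theorem bd126_Phi_mem (I : Ideal (MvPolynomial (Fin n) F)) {y : Eg2N D n} (hy : y ∈ eg2Ext D I) :
    ∀ φ : D →ₗ[F] F, bd126_Phi D φ y ∈ I := by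
  unfold eg2Ext at hy
  induction hy using Submodule.span_induction with
  | mem x hx =>
    obtain ⟨g, hg, rfl⟩ := hx
    intro φ
    have h1 : bd126_Phi D φ (eg2Iota F D n g) = C (φ 1) * g := by
      ext α
      rw [bd126_Phi_coeff, eg2b_coeff, MvPolynomial.coeff_C_mul, ← one_mul (algebraMap F D _),
        bd126_phi_mul]
    rw [h1]
    exact I.mul_mem_left _ hg
  | zero =>
    intro φ
    have h1 : bd126_Phi D φ (0 : Eg2N D n) = 0 := by
      ext α
      rw [bd126_Phi_coeff]
      simp
    rw [h1]
    exact I.zero_mem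
  | add x y _ _ hx hy =>
    intro φ
    have h1 : bd126_Phi D φ (x + y) = bd126_Phi D φ x + bd126_Phi D φ y := by
      ext α
      rw [MvPolynomial.coeff_add, bd126_Phi_coeff, bd126_Phi_coeff, bd126_Phi_coeff,
        AddMonoidAlgebra.coeff_add, Finsupp.add_apply, map_add]
    rw [h1]
    exact I.add_mem (hx φ) (hy φ)
  | smul a x _ hx =>
    intro φ
    have h1 : bd126_Phi D φ (a • x) = bd126_Phi D (φ ∘ₗ LinearMap.mulLeft F a) x := by
      ext α
      rw [bd126_Phi_coeff, bd126_Phi_coeff, AddMonoidAlgebra.coeff_smul, Finsupp.smul_apply]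
      rfl
    rw [h1]
    exact hx _

theorem bd126_iota_smul (c : F) (f : MvPolynomial (Fin n) F) :
    eg2Iota F D n (c • f) = algebraMap F D c • eg2Iota F D n f := by
  ext α
  rw [eg2b_coeff, MvPolynomial.coeff_smul, AddMonoidAlgebra.coeff_smul, Finsupp.smul_apply,
    eg2b_coeff, smul_eq_mul, smul_eq_mul, map_mul]

theorem bd126_q_wd (I : Ideal (MvPolynomial (Fin n) F)) {f g : MvPolynomial (Fin n) F}
    (h : Ideal.Quotient.mk I f = Ideal.Quotient.mk I g) :
    (eg2Ext D I).mkQ (eg2Iota F D n f) = (eg2Ext D I).mkQ (eg2Iota F D n g) := by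
  rw [Ideal.Quotient.eq] at h
  rw [← sub_eq_zero, ← map_sub, ← map_sub]
  exact (Submodule.Quotient.mk_eq_zero _).mpr (Submodule.subset_span ⟨_, h, rfl⟩)

/-- the extension of the coefficients `S/I → D[x]/D·I` -/
noncomputable def bd126_q (I : Ideal (MvPolynomial (Fin n) F)) :
    (MvPolynomial (Fin n) F ⧸ I) →+ Bt66Q D I :=
  AddMonoidHom.mk'
    (fun q => (eg2Ext D I).mkQ (eg2Iota F D n (Ideal.Quotient.mk_surjective q).choose)) (by
      intro a b
      rw [← map_add, ← map_add]
      apply bd126_q_wd
      rw [map_add, (Ideal.Quotient.mk_surjective a).choose_spec,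
        (Ideal.Quotient.mk_surjective b).choose_spec,
        (Ideal.Quotient.mk_surjective (a + b)).choose_spec])

theorem bd126_q_eqns_cite (I : Ideal (MvPolynomial (Fin n) F)) (q : MvPolynomial (Fin n) F ⧸ I) :
    bd126_q D I q =
      (eg2Ext D I).mkQ (eg2Iota F D n (Ideal.Quotient.mk_surjective q).choose) := rfl

theorem bd126_q_mk (I : Ideal (MvPolynomial (Fin n) F)) (f : MvPolynomial (Fin n) F) :
    bd126_q D I (Ideal.Quotient.mk I f) = (eg2Ext D I).mkQ (eg2Iota F D n f) := by
  rw [bd126_q_eqns_cite]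
  exact bd126_q_wd D I (Ideal.Quotient.mk_surjective (Ideal.Quotient.mk I f)).choose_spec

theorem bd126_mk_smul (I : Ideal (MvPolynomial (Fin n) F)) (c : F) (f : MvPolynomial (Fin n) F) :
    c • Ideal.Quotient.mk I f = Ideal.Quotient.mk I (c • f) := rfl

theorem bd126_q_ext (I : Ideal (MvPolynomial (Fin n) F)) : Bd126Ext F D (bd126_q D I) := by
  constructor
  · intro c b
    obtain ⟨f, rfl⟩ := Ideal.Quotient.mk_surjective b
    rw [bd126_mk_smul, bd126_q_mk, bd126_q_mk, bd126_iota_smul, map_smul]
  · intro κ s g u hsum φ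
    choose f hf using fun k => Ideal.Quotient.mk_surjective (u k)
    have h1 : ∑ k ∈ s, g k • eg2Iota F D n (f k) ∈ eg2Ext D I := by
      rw [← Submodule.Quotient.mk_eq_zero, ← hsum]
      show (eg2Ext D I).mkQ _ = _
      rw [map_sum]
      refine Finset.sum_congr rfl fun k _ => ?_
      rw [map_smul, ← hf k, bd126_q_mk]
    have h2 := bd126_Phi_mem D I h1 φ
    have h3 : bd126_Phi D φ (∑ k ∈ s, g k • eg2Iota F D n (f k)) = ∑ k ∈ s, φ (g k) • f k := by
      ext α
      rw [bd126_Phi_coeff, MvPolynomial.coeff_sum, AddMonoidAlgebra.coeff_sum,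
        Finsupp.finsetSum_apply, map_sum]
      refine Finset.sum_congr rfl fun k _ => ?_
      rw [AddMonoidAlgebra.coeff_smul, Finsupp.smul_apply, eg2b_coeff, smul_eq_mul,
        bd126_phi_mul, MvPolynomial.coeff_smul, smul_eq_mul]
    rw [h3, ← Ideal.Quotient.eq_zero_iff_mem, map_sum] at h2
    rw [← h2]
    refine Finset.sum_congr rfl fun k _ => ?_
    rw [← hf k, bd126_mk_smul]

/-- LEAF EM (statement of `bt66_ext_mul`) -/
theorem bd126_ext_mul (I : Ideal (MvPolynomial (Fin n) F)) (t : Eg2N D n) :
    eg2Ext D I ≤ (eg2Ext D I).comap (LinearMap.mulRight D t) :=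
  fun _ hy => eg2x_mul_mem I hy t

theorem bd126_rmul_mk (I : Ideal (MvPolynomial (Fin n) F)) (t w : Eg2N D n) :
    bt66_rmul D I t ((eg2Ext D I).mkQ w) = (eg2Ext D I).mkQ (w * t) := by
  simp only [bt66_rmul, dif_pos (bd126_ext_mul D I t)]
  rfl

theorem bd126_q_X (I : Ideal (MvPolynomial (Fin n) F)) (k : Fin n)
    (b : MvPolynomial (Fin n) F ⧸ I) :
    bd126_q D I (LinearMap.mulLeft F (Ideal.Quotient.mk I (X k)) b) =
      bt66_rmul D I (bt66_var D n k) (bd126_q D I b) := by
  obtain ⟨f, rfl⟩ := Ideal.Quotient.mk_surjective b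
  rw [LinearMap.mulLeft_apply, ← map_mul, bd126_q_mk, bd126_q_mk, bd126_rmul_mk, map_mul]
  have h1 : eg2Iota F D n (X k) = bt66_var D n k := by
    rw [MvPolynomial.X, eg2i_single, map_one]
    rfl
  rw [h1]
  congr 1
  exact (eg2d_central _ _).eq

theorem bd126_Qpc_span (I : Ideal (MvPolynomial (Fin n) F)) (e : ℕ) :
    bt66_Qpc D I e = Submodule.span D (bd126_q D I '' (quotPiece I e : Set _)) := by
  apply le_antisymm
  · unfold bt66_Qpc
    rw [Submodule.map_le_iff_le_comap]
    apply eg2d_le
    intro α hα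
    rw [Submodule.mem_comap]
    refine Submodule.subset_span ⟨Ideal.Quotient.mk I (monomial α 1), ?_, ?_⟩
    · rw [SetLike.mem_coe, Kos.r278k_mem_quotPiece]
      refine ⟨_, ?_, rfl⟩
      apply MvPolynomial.isHomogeneous_monomial
      rw [Finsupp.degree_eq_sum]
      exact hα
    · rw [bd126_q_mk, eg2i_single, map_one]
  · rw [Submodule.span_le]
    rintro _ ⟨q, hq, rfl⟩
    rw [SetLike.mem_coe, Kos.r278k_mem_quotPiece] at hq
    obtain ⟨f, hf, rfl⟩ := hq
    rw [bd126_q_mk]
    refine ⟨_, ?_, rfl⟩
    intro α hα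
    rw [eg2b_coeff] at hα
    by_contra hne
    have := hf.coeff_eq_zero (d := α) (by rw [Finsupp.degree_eq_sum]; exact hne)
    rw [this, map_zero] at hα
    exact hα rfl

/-- **LEAF BCX** (statement of `bt66_bcx`). -/
theorem bd126_bcx (I : Ideal (MvPolynomial (Fin n) F)) (p j : ℕ) :
    r278m_betti (fun k => bt66_rmul D I (bt66_var D n k)) (bt66_Qpc D I) p j =
      gradedBetti I p j := by
  rw [r278m_gradedBetti_eq]
  exact bd126_betti (bd126_q_ext D I) (fun k => LinearMap.mulLeft F (Ideal.Quotient.mk I (X k)))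
    (fun k => bt66_rmul D I (bt66_var D n k)) (bd126_q_X D I) (quotPiece I) (bt66_Qpc D I)
    (fun e => Kos.r278k_quotPiece_finite I e) (bd126_Qpc_span D I) p j

/-- **LEAF HF** (statement of `bt66_bch`, homogeneity is not needed). -/
theorem bd126_bch (I : Ideal (MvPolynomial (Fin n) F)) (e : ℕ) :
    Module.finrank D (bt66_Qpc D I e) + Module.finrank F (degPart I e) =
      ({m : Fin n → ℕ | ∑ i, m i = e} : Set (Fin n → ℕ)).ncard := by
  rw [bd126_Qpc_span, bd126_finrank (bd126_q_ext D I), Kos.r278k_finrank_quotPiece_add,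
    Kos.r278k_finrank_homog]

end Quot

end Claimed.Agent.R278
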