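-- KEEP
/-
R278 / KosMon206 (pen 206, prefix `r278n_`): the monomial model `M(W)` of `BettiVoc66.lean` over the Koszul layer
`KosMod206.lean`: basic rules of `bt66_sh`, `bt66_pc`, reduction modulo the last variable, leaf M7 of `Tor66.lean`.
-/
import Claimed.Agent.R278.BettiVoc66

set_option autoImplicit false

namespace Claimed.Agent.R278

/-! ## General complements to the Koszul layer -/

section General

variable {F : Type} [DivisionRing F] {n : ℕ}
variable {B : Type} [AddCommGroup B] [Module F B]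
variable {B' : Type} [AddCommGroup B'] [Module F B']

/-- An injective intertwining map that carries the pieces onto the pieces keeps the ranks. -/
theorem r278n_rank_eq_of_embedding (φ : B →ₗ[F] B') (hφ : Function.Injective φ)
    (X : Fin n → Module.End F B) (X' : Fin n → Module.End F B') (h : ∀ k b, φ (X k b) = X' k (φ b))
    {P : ℕ → Submodule F B} {P' : ℕ → Submodule F B'} (hP : ∀ e, (P e).map φ = P' e)
    (hfin : ∀ e, Module.Finite F (P e)) (p j : ℕ) : r278m_rank X P p j = r278m_rank X' P' p j := by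
  have hfin' : ∀ e, Module.Finite F (P' e) := by
    intro e
    rw [← hP e]
    have := hfin e
    infer_instance
  apply le_antisymm
  · exact r278m_rank_le_of_injective φ hφ X X' h
      (fun e b hb => by rw [← hP e]; exact Submodule.mem_map_of_mem hb) hfin' p j
  · exact r278m_rank_le_of_surjective φ X X' h (fun e => (hP e).ge) hfin p j

/-- The rank only sees the operators on the pieces. -/
theorem r278n_rank_congr (X Y : Fin n → Module.End F B) {P : ℕ → Submodule F B}
    (h : ∀ k e, ∀ b ∈ P e, X k b = Y k b) (p j : ℕ) : r278m_rank X P p j = r278m_rank Y P p j := by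
  unfold r278m_rank
  have key : ∀ c ∈ r278m_chains (n := n) P p j, r278m_diff X c = r278m_diff Y c := by
    intro c hc
    rw [r278m_mem_chains] at hc
    funext U
    rw [r278m_diff_apply, r278m_diff_apply]
    refine Finset.sum_congr rfl fun k _ => ?_
    have := hc (insert k U)
    by_cases hh : (insert k U).card = p ∧ p ≤ j
    · rw [if_pos hh] at this
      rw [h k _ _ this]
    · rw [if_neg hh] at this
      rw [(Submodule.mem_bot F).mp this, map_zero, map_zero]
  have e : (r278m_chains (n := n) P p j).map (r278m_diff X) =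
      (r278m_chains (n := n) P p j).map (r278m_diff Y) := by
    ext w
    constructor
    · rintro ⟨c, hc, rfl⟩; exact ⟨c, hc, (key c hc).symm⟩
    · rintro ⟨c, hc, rfl⟩; exact ⟨c, hc, key c hc⟩
  rw [e]

/-- No differential leaves the chains of homological degree `0`. -/
theorem r278n_rank_zero_left (X : Fin n → Module.End F B) (P : ℕ → Submodule F B) (j : ℕ) :
    r278m_rank X P 0 j = 0 := by
  have : (r278m_chains (n := n) P 0 j).map (r278m_diff X) = ⊥ := by
    rw [eq_bot_iff]
    rintro _ ⟨c, hc, rfl⟩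
    rw [SetLike.mem_coe, r278m_mem_chains] at hc
    rw [Submodule.mem_bot]
    funext U
    rw [r278m_diff_apply]
    refine Finset.sum_eq_zero fun k hk => ?_
    have hkU : k ∉ U := (Finset.mem_filter.mp hk).2
    have := hc (insert k U)
    rw [if_neg (by rw [Finset.card_insert_of_notMem hkU]; omega)] at this
    rw [(Submodule.mem_bot F).mp this, map_zero, smul_zero]
  rw [r278m_rank, this, finrank_bot]

/-- There are no chains of bidegree `(p, j)` with `j < p`. -/
theorem r278n_rank_of_lt (X : Fin n → Module.End F B) (P : ℕ → Submodule F B) {p j : ℕ} (h : j < p) :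
    r278m_rank X P p j = 0 := by
  have : r278m_chains (n := n) P p j = ⊥ := by
    rw [eq_bot_iff]
    intro c hc
    rw [r278m_mem_chains] at hc
    rw [Submodule.mem_bot]
    funext T
    have := hc T
    rw [if_neg (by omega)] at this
    exact (Submodule.mem_bot F).mp this
  rw [r278m_rank, this, Submodule.map_bot, finrank_bot]

end General

/-! ## The monomial model -/

section Model

variable (F : Type) [Field F] {n : ℕ}

theorem r278n_sh_single (W : Set (Fin n → ℕ)) (k : Fin n) (u : Fin n → ℕ) (c : F) :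
    bt66_sh F W k (Finsupp.single u c) =
      by classical exact if u ∈ W ∧ u + Pi.single k 1 ∈ W then Finsupp.single (u + Pi.single k 1) c else 0 := by
  classical
  unfold bt66_sh
  rw [Finsupp.lsum_single]
  split_ifs with h
  · rfl
  · rfl

theorem r278n_sh_single_pos {W : Set (Fin n → ℕ)} {k : Fin n} {u : Fin n → ℕ} (h1 : u ∈ W)
    (h2 : u + Pi.single k 1 ∈ W) (c : F) :
    bt66_sh F W k (Finsupp.single u c) = Finsupp.single (u + Pi.single k 1) c := by
  classical
  rw [r278n_sh_single, if_pos ⟨h1, h2⟩]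

theorem r278n_sh_single_neg {W : Set (Fin n → ℕ)} {k : Fin n} {u : Fin n → ℕ}
    (h : ¬ (u ∈ W ∧ u + Pi.single k 1 ∈ W)) (c : F) :
    bt66_sh F W k (Finsupp.single u c) = 0 := by
  classical
  rw [r278n_sh_single, if_neg h]

/-- The exponent set of `H/zH`, `z` the last variable. -/
def r278n_Q (H : Set (Fin (n + 1) → ℕ)) : Set (Fin (n + 1) → ℕ) :=
  {u | u ∈ H ∧ ∀ v, v + Pi.single (Fin.last n) 1 = u → v ∉ H}

end Model

section Cone2

variable {F : Type} [DivisionRing F] {n : ℕ}
variable {B : Type} [AddCommGroup B] [Module F B]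
variable {B' : Type} [AddCommGroup B'] [Module F B']

theorem r278n_chains_val {P : ℕ → Submodule F B} {p j : ℕ} {c : Finset (Fin n) → B}
    (hc : c ∈ r278m_chains (n := n) P p j) (T : Finset (Fin n)) : c T ∈ P (j - p) := by
  have := r278m_mem_chains.mp hc T
  by_cases h : T.card = p ∧ p ≤ j
  · rwa [if_pos h] at this
  · rw [if_neg h] at this
    rw [(Submodule.mem_bot F).mp this]; exact Submodule.zero_mem _

theorem r278n_diff_val (X : Fin n → Module.End F B) {P : ℕ → Submodule F B}
    (hP : ∀ k e, ∀ b ∈ P e, X k b ∈ P (e + 1)) {e : ℕ} {c : Finset (Fin n) → B}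
    (hc : ∀ T, c T ∈ P e) (T : Finset (Fin n)) : r278m_diff X c T ∈ P (e + 1) := by
  rw [r278m_diff_apply]
  exact Submodule.sum_mem _ fun k _ => zsmul_mem (hP k e _ (hc _)) _

theorem r278n_zeta_inj_on (z : Module.End F B) {Pe : Submodule F B} (hz : ∀ b ∈ Pe, z b = 0 → b = 0)
    {v : Finset (Fin n) → B} (hv : ∀ T, v T ∈ Pe) (h : r278m_zeta z v = 0) : v = 0 := by
  funext T
  have := congrFun h T
  rw [r278m_zeta_apply, Pi.zero_apply] at this
  refine hz _ (hv T) ?_
  rcases neg_one_pow_eq_or ℤ T.card with h1 | h1 <;> rw [h1] at this <;> simpa using this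

/-- **`β^A(M) = β^R(M/zM)` in rank form**, the last operator being injective on the pieces only. -/
theorem r278n_rank_succ (X : Fin (n + 1) → Module.End F B) (hX : ∀ k l b, X k (X l b) = X l (X k b))
    {P : ℕ → Submodule F B} (hP : ∀ k e, ∀ b ∈ P e, X k b ∈ P (e + 1))
    (hfin : ∀ e, Module.Finite F (P e)) (hz : ∀ e, ∀ b ∈ P e, X (Fin.last n) b = 0 → b = 0)
    (π : B →ₗ[F] B') (X' : Fin n → Module.End F B') (hπ : ∀ k b, π (X (Fin.castSucc k) b) = X' k (π b))
    (hπz : ∀ b, π (X (Fin.last n) b) = 0)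
    (hker : ∀ e, ∀ b ∈ P (e + 1), π b = 0 → ∃ b' ∈ P e, X (Fin.last n) b' = b) (p j : ℕ) :
    r278m_rank X P (p + 1) (j + 1) =
      r278m_rank X' (fun e => (P e).map π) (p + 1) (j + 1) +
        Module.finrank F (r278m_chains (n := n) P p j) := by
  set z := X (Fin.last n) with hzdef
  set Xr : Fin n → Module.End F B := fun k => X k.castSucc with hXr
  set D := r278m_diff X with hD
  set d := r278m_diff Xr with hd
  set W := (r278m_chains (n := n + 1) P (p + 1) (j + 1)).map D with hW
  set Ψ : (Finset (Fin (n + 1)) → B) →ₗ[F] (Finset (Fin n) → B') :=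
    (π.compLeft (Finset (Fin n))) ∘ₗ r278m_lo (F := F) with hΨ
  have hfinA := r278m_finite_chains (n := n + 1) hfin (p + 1) (j + 1)
  have hrn := r278m_rank_nullity Ψ W
  have hPiZ : ∀ v : Finset (Fin n) → B, π.compLeft (Finset (Fin n)) (r278m_zeta z v) = 0 := by
    intro v; funext T
    simp only [LinearMap.compLeft_apply, Function.comp_apply, r278m_zeta_apply, map_zsmul, hπz, smul_zero,
      Pi.zero_apply]
  have hΨD : ∀ c, Ψ (D c) = r278m_diff X' (π.compLeft _ (r278m_lo (F := F) c)) := by
    intro c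
    rw [hΨ, LinearMap.comp_apply, hD, r278m_lo_diff, map_add, hPiZ, add_zero,
      r278m_diff_compLeft π Xr X' hπ]
  -- (i) the image
  have h1 : W.map Ψ = (r278m_chains (n := n) (fun e => (P e).map π) (p + 1) (j + 1)).map (r278m_diff X') := by
    apply le_antisymm
    · rintro _ ⟨_, ⟨c, hc, rfl⟩, rfl⟩
      rw [hΨD]
      exact ⟨_, r278m_map_chains_le π (P' := fun e => (P e).map π)
        (fun e b hb => Submodule.mem_map_of_mem hb) _ _
        ⟨_, (r278m_mem_chains_succ.mp hc).1, rfl⟩, rfl⟩
    · rintro _ ⟨c', hc', rfl⟩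
      obtain ⟨u, hu, rfl⟩ := r278m_chains_le_map π (P := P) (P' := fun e => (P e).map π)
        (fun e => le_rfl) _ _ hc'
      refine ⟨D (r278m_glue (F := F) (u, 0)), ⟨_, r278m_mem_chains_succ.mpr ?_, rfl⟩, ?_⟩
      · rw [r278m_lo_glue, r278m_hi_glue]; exact ⟨hu, Submodule.zero_mem _⟩
      · rw [hΨD, r278m_lo_glue]
  -- (ii) the kernel
  set Γ : (Finset (Fin n) → B) →ₗ[F] (Finset (Fin (n + 1)) → B) :=
    D ∘ₗ r278m_glue (F := F) ∘ₗ LinearMap.inr F _ _ with hΓ
  have hΓlo : ∀ v, r278m_lo (F := F) (Γ v) = r278m_zeta z v := by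
    intro v
    simp only [hΓ, LinearMap.comp_apply, LinearMap.inr_apply, hD]
    rw [r278m_lo_diff, r278m_lo_glue, r278m_hi_glue, map_zero, zero_add]
  have hΓhi : ∀ v, r278m_hi (F := F) (Γ v) = d v := by
    intro v
    simp only [hΓ, LinearMap.comp_apply, LinearMap.inr_apply, hD]
    rw [r278m_hi_diff, r278m_hi_glue]
  have hΓinj : Function.Injective (Γ.domRestrict (r278m_chains (n := n) P p j)) := by
    rw [← LinearMap.ker_eq_bot, LinearMap.ker_eq_bot']
    rintro ⟨v, hv⟩ hv0
    have hv0' : Γ v = 0 := hv0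
    have : v = 0 := by
      refine r278n_zeta_inj_on z (hz (j - p)) (r278n_chains_val hv) ?_
      rw [← hΓlo, hv0', map_zero]
    exact Subtype.ext this
  have h2 : W ⊓ LinearMap.ker Ψ = (r278m_chains (n := n) P p j).map Γ := by
    apply le_antisymm
    · rintro w ⟨⟨c, hc, rfl⟩, hw⟩
      obtain ⟨hu, hv⟩ := r278m_mem_chains_succ.mp hc
      set u := r278m_lo (F := F) c with hudef
      set v := r278m_hi (F := F) c with hvdef
      have hPiDu : π.compLeft (Finset (Fin n)) (d u) = 0 := by
        have := LinearMap.mem_ker.mp hw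
        rw [hΨD, r278m_diff_compLeft π Xr X' hπ] at this
        exact this
      have hdu := r278m_diff_mem_chains Xr (P := P) (fun k e b hb => hP _ e b hb) hu
      rw [r278m_mem_chains] at hdu hu
      have hex : ∀ T : Finset (Fin n), ∃ b' : B,
          b' ∈ (if T.card = p ∧ p ≤ j then P (j - p) else ⊥ : Submodule F B) ∧
            ((-1 : ℤ) ^ T.card) • z b' = d u T := by
        intro T
        by_cases hT : T.card = p ∧ p ≤ j
        · have a := hdu T
          rw [if_pos ⟨hT.1, by omega⟩, show j + 1 - p = (j - p) + 1 by omega] at a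
          obtain ⟨b', hb', hzb⟩ := hker _ _ a (congrFun hPiDu T)
          refine ⟨((-1 : ℤ) ^ T.card) • b', ?_, ?_⟩
          · rw [if_pos hT]; exact zsmul_mem hb' _
          · rw [map_zsmul, smul_smul, ← pow_add, hzb, Even.neg_one_pow ⟨_, rfl⟩, one_smul]
        · refine ⟨0, Submodule.zero_mem _, ?_⟩
          rw [map_zero, smul_zero, hd, r278m_diff_apply]
          refine (Finset.sum_eq_zero fun k hk => ?_).symm
          have hkT : k ∉ T := (Finset.mem_filter.mp hk).2
          have a := hu (insert k T)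
          rw [Finset.card_insert_of_notMem hkT, if_neg (by omega)] at a
          rw [(Submodule.mem_bot F).mp a, map_zero, smul_zero]
      choose v' hv' hv'2 using hex
      have hv'c : v' ∈ r278m_chains (n := n) P p j := r278m_mem_chains.mpr hv'
      have hζv' : r278m_zeta z v' = d u := by
        funext T; rw [r278m_zeta_apply, hv'2]
      have hdv' : d v' = 0 := by
        refine r278n_zeta_inj_on z (hz (j - p + 1))
          (r278n_diff_val Xr (fun k e b hb => hP _ e b hb) (r278n_chains_val hv'c)) ?_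
        have := r278m_diff_zeta Xr z (fun k b => hX _ _ b) v'
        rw [hζv', ← hd, hd, r278m_diff_diff Xr (fun k l b => hX _ _ b)] at this
        exact neg_eq_zero.mp this.symm
      refine ⟨v + v', Submodule.add_mem _ hv hv'c, ?_⟩
      refine r278m_ext_lo_hi (F := F) ?_ ?_
      · rw [hΓlo, hD, r278m_lo_diff, map_add, hζv', add_comm]
      · rw [hΓhi, hD, r278m_hi_diff, map_add, hdv', add_zero]
    · rintro _ ⟨v, hv, rfl⟩
      refine ⟨⟨_, r278m_mem_chains_succ.mpr ?_, rfl⟩, ?_⟩
      · simp only [LinearMap.comp_apply, LinearMap.inr_apply]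
        rw [r278m_lo_glue, r278m_hi_glue]; exact ⟨Submodule.zero_mem _, hv⟩
      · show Ψ (Γ v) = 0
        rw [hΨ, LinearMap.comp_apply, hΓlo, hPiZ]
  have h3 : Module.finrank F ((r278m_chains (n := n) P p j).map Γ) =
      Module.finrank F (r278m_chains (n := n) P p j) := by
    rw [← LinearMap.range_domRestrict]
    exact LinearMap.finrank_range_of_inj hΓinj
  rw [h1, h2, h3] at hrn
  rw [r278m_rank, r278m_rank, ← hD, ← hW]
  omega

end Cone2

section Model2

variable (F : Type) [Field F] {n : ℕ}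

theorem r278n_mem_pc {W : Set (Fin n → ℕ)} {e : ℕ} {b : (Fin n → ℕ) →₀ F} :
    b ∈ bt66_pc F W e ↔ ∀ u ∈ b.support, u ∈ W ∧ ∑ i, u i = e := by
  unfold bt66_pc
  rw [Finsupp.mem_supported]
  exact Iff.rfl

theorem r278n_single_mem_pc {W : Set (Fin n → ℕ)} {e : ℕ} {u : Fin n → ℕ} (hu : u ∈ W)
    (he : ∑ i, u i = e) (c : F) : Finsupp.single u c ∈ bt66_pc F W e := by
  rw [r278n_mem_pc]
  intro v hv
  have := Finsupp.support_single_subset hv
  rw [Finset.mem_singleton] at this
  subst this
  exact ⟨hu, he⟩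

theorem r278n_deg_add_single (u : Fin n → ℕ) (k : Fin n) :
    ∑ i, (u + Pi.single k 1 : Fin n → ℕ) i = ∑ i, u i + 1 := by
  simp [Finset.sum_add_distrib, Finset.sum_pi_single']

/-- A property of `T b` for `b` in a piece, from the basis vectors. -/
theorem r278n_pc_induction {W : Set (Fin n → ℕ)} {e : ℕ} {V : Type} [AddCommGroup V] [Module F V]
    (T : ((Fin n → ℕ) →₀ F) →ₗ[F] V) (S : Submodule F V)
    (h : ∀ u ∈ W, ∑ i, u i = e → ∀ c : F, T (Finsupp.single u c) ∈ S)
    {b : (Fin n → ℕ) →₀ F} (hb : b ∈ bt66_pc F W e) : T b ∈ S := by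
  rw [r278n_mem_pc] at hb
  rw [← Finsupp.sum_single b, Finsupp.sum, map_sum]
  exact Submodule.sum_mem _ fun u hu => h u (hb u hu).1 (hb u hu).2 _

theorem r278n_sh_mem_pc (W : Set (Fin n → ℕ)) (k : Fin n) (e : ℕ) (b : (Fin n → ℕ) →₀ F)
    (hb : b ∈ bt66_pc F W e) : bt66_sh F W k b ∈ bt66_pc F W (e + 1) := by
  refine r278n_pc_induction F (bt66_sh F W k) _ ?_ hb
  intro u hu he c
  by_cases h : u ∈ W ∧ u + Pi.single k 1 ∈ W
  · rw [r278n_sh_single_pos F h.1 h.2]
    exact r278n_single_mem_pc F h.2 (by rw [r278n_deg_add_single, he]) c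
  · rw [r278n_sh_single_neg F h]; exact Submodule.zero_mem _

theorem r278n_sh_comm {W : Set (Fin n → ℕ)} (hW : bt66_Conv W) (k l : Fin n) (b : (Fin n → ℕ) →₀ F) :
    bt66_sh F W k (bt66_sh F W l b) = bt66_sh F W l (bt66_sh F W k b) := by
  have key : (bt66_sh F W k) ∘ₗ (bt66_sh F W l) = (bt66_sh F W l) ∘ₗ (bt66_sh F W k) := by
    refine Finsupp.lhom_ext fun u c => ?_
    rw [LinearMap.comp_apply, LinearMap.comp_apply]
    have hle1 : ∀ m : Fin n, u ≤ u + Pi.single m 1 := fun m => le_self_add
    by_cases hu : u ∈ W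
    · by_cases hkl : u + Pi.single l 1 + Pi.single k 1 ∈ W
      · have hl : u + Pi.single l 1 ∈ W := hW u _ _ (hle1 l) le_self_add hu hkl
        have hkl' : u + Pi.single k 1 + Pi.single l 1 ∈ W := by rwa [add_right_comm]
        have hk : u + Pi.single k 1 ∈ W := hW u _ _ (hle1 k) le_self_add hu hkl'
        rw [r278n_sh_single_pos F hu hl, r278n_sh_single_pos F hl hkl, r278n_sh_single_pos F hu hk,
          r278n_sh_single_pos F hk hkl', add_right_comm]
      · have hkl' : u + Pi.single k 1 + Pi.single l 1 ∉ W := by rwa [add_right_comm]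
        have e1 : bt66_sh F W k (bt66_sh F W l (Finsupp.single u c)) = 0 := by
          by_cases hl : u + Pi.single l 1 ∈ W
          · rw [r278n_sh_single_pos F hu hl, r278n_sh_single_neg F (fun h => hkl h.2)]
          · rw [r278n_sh_single_neg F (fun h => hl h.2), map_zero]
        have e2 : bt66_sh F W l (bt66_sh F W k (Finsupp.single u c)) = 0 := by
          by_cases hk : u + Pi.single k 1 ∈ W
          · rw [r278n_sh_single_pos F hu hk, r278n_sh_single_neg F (fun h => hkl' h.2)]
          · rw [r278n_sh_single_neg F (fun h => hk h.2), map_zero]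
        rw [e1, e2]
    · rw [r278n_sh_single_neg F (fun h => hu h.1), r278n_sh_single_neg F (fun h => hu h.1), map_zero,
        map_zero]
  exact LinearMap.congr_fun key b

theorem r278n_deg_finite (e : ℕ) : ({m : Fin n → ℕ | ∑ i, m i = e} : Set _).Finite := by
  refine (Finset.finite_toSet (Finset.Nat.antidiagonalTuple n e)).subset ?_
  intro m hm
  simpa [Finset.Nat.mem_antidiagonalTuple] using hm

theorem r278n_finite_pc (W : Set (Fin n → ℕ)) (e : ℕ) : Module.Finite F (bt66_pc F W e) := by
  have hfin : ({u | u ∈ W ∧ ∑ i, u i = e} : Set (Fin n → ℕ)).Finite :=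
    (r278n_deg_finite e).subset fun u hu => hu.2
  have := hfin.to_subtype
  exact Module.Finite.equiv (Finsupp.supportedEquivFinsupp (M := F) (R := F) _).symm

theorem r278n_finrank_pc (W : Set (Fin n → ℕ)) (e : ℕ) :
    Module.finrank F (bt66_pc F W e) = bt66_cnt W e := by
  have hfin : ({u | u ∈ W ∧ ∑ i, u i = e} : Set (Fin n → ℕ)).Finite :=
    (r278n_deg_finite e).subset fun u hu => hu.2
  have := hfin.fintype
  unfold bt66_pc
  rw [(Finsupp.supportedEquivFinsupp (M := F) (R := F) _).finrank_eq, Module.finrank_finsupp_self,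
    ← Nat.card_eq_fintype_card]
  rfl

end Model2

section Red

variable (F : Type) [Field F] {n : ℕ}

/-- The coordinate projection on the span of the basis vectors of `Q`. -/
noncomputable def r278n_proj (Q : Set (Fin n → ℕ)) : Module.End F ((Fin n → ℕ) →₀ F) := by
  classical
  exact (Finsupp.supported F F Q).subtype ∘ₗ Finsupp.restrictDom F F Q

theorem r278n_proj_apply (Q : Set (Fin n → ℕ)) (b : (Fin n → ℕ) →₀ F) (u : Fin n → ℕ) :
    r278n_proj F Q b u = by classical exact if u ∈ Q then b u else 0 := by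
  classical
  unfold r278n_proj
  rw [LinearMap.comp_apply, Submodule.subtype_apply, Finsupp.restrictDom_apply, Finsupp.filter_apply]

theorem r278n_proj_single_pos {Q : Set (Fin n → ℕ)} {u : Fin n → ℕ} (hu : u ∈ Q) (c : F) :
    r278n_proj F Q (Finsupp.single u c) = Finsupp.single u c := by
  classical
  unfold r278n_proj
  rw [LinearMap.comp_apply, Submodule.subtype_apply, Finsupp.restrictDom_apply,
    Finsupp.filter_single_of_pos _ hu]

theorem r278n_proj_single_neg {Q : Set (Fin n → ℕ)} {u : Fin n → ℕ} (hu : u ∉ Q) (c : F) :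
    r278n_proj F Q (Finsupp.single u c) = 0 := by
  classical
  unfold r278n_proj
  rw [LinearMap.comp_apply, Submodule.subtype_apply, Finsupp.restrictDom_apply,
    Finsupp.filter_single_of_neg _ hu]

theorem r278n_Q_sub (H : Set (Fin (n + 1) → ℕ)) : r278n_Q H ⊆ H := fun _ h => h.1

theorem r278n_add_notMem_Q {H : Set (Fin (n + 1) → ℕ)} (hH : bt66_Up H) {u : Fin (n + 1) → ℕ}
    (hu : u ∈ H) (huQ : u ∉ r278n_Q H) (k : Fin (n + 1)) : u + Pi.single k 1 ∉ r278n_Q H := by
  intro h
  apply huQ
  refine ⟨hu, fun v hv hvH => ?_⟩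
  refine h.2 (v + Pi.single k 1) ?_ (hH v hvH _ le_self_add)
  rw [← hv, add_right_comm]

theorem r278n_proj_sh {H : Set (Fin (n + 1) → ℕ)} (hH : bt66_Up H) (k : Fin (n + 1))
    (b : (Fin (n + 1) → ℕ) →₀ F) :
    r278n_proj F (r278n_Q H) (bt66_sh F H k b) = bt66_sh F (r278n_Q H) k (r278n_proj F (r278n_Q H) b) := by
  have key : (r278n_proj F (r278n_Q H)) ∘ₗ (bt66_sh F H k) =
      (bt66_sh F (r278n_Q H) k) ∘ₗ (r278n_proj F (r278n_Q H)) := by
    refine Finsupp.lhom_ext fun u c => ?_
    rw [LinearMap.comp_apply, LinearMap.comp_apply]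
    by_cases hu : u ∈ H
    · have huk : u + Pi.single k 1 ∈ H := hH u hu _ le_self_add
      rw [r278n_sh_single_pos F hu huk]
      by_cases huQ : u ∈ r278n_Q H
      · rw [r278n_proj_single_pos F huQ]
        by_cases hukQ : u + Pi.single k 1 ∈ r278n_Q H
        · rw [r278n_proj_single_pos F hukQ, r278n_sh_single_pos F huQ hukQ]
        · rw [r278n_proj_single_neg F hukQ, r278n_sh_single_neg F (fun h => hukQ h.2)]
      · rw [r278n_proj_single_neg F huQ, r278n_proj_single_neg F (r278n_add_notMem_Q hH hu huQ k), map_zero]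
    · rw [r278n_sh_single_neg F (fun h => hu h.1), r278n_proj_single_neg F (fun h => hu h.1), map_zero,
        map_zero]
  exact LinearMap.congr_fun key b

theorem r278n_proj_sh_last {H : Set (Fin (n + 1) → ℕ)} (b : (Fin (n + 1) → ℕ) →₀ F) :
    r278n_proj F (r278n_Q H) (bt66_sh F H (Fin.last n) b) = 0 := by
  have key : (r278n_proj F (r278n_Q H)) ∘ₗ (bt66_sh F H (Fin.last n)) = 0 := by
    refine Finsupp.lhom_ext fun u c => ?_
    rw [LinearMap.comp_apply, LinearMap.zero_apply]
    by_cases hu : u ∈ H ∧ u + Pi.single (Fin.last n) 1 ∈ H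
    · rw [r278n_sh_single_pos F hu.1 hu.2, r278n_proj_single_neg F (fun h => h.2 u rfl hu.1)]
    · rw [r278n_sh_single_neg F hu, map_zero]
  exact LinearMap.congr_fun key b

theorem r278n_sh_eq_mapDomain {H : Set (Fin n → ℕ)} (hH : bt66_Up H) (k : Fin n) {e : ℕ}
    {b : (Fin n → ℕ) →₀ F} (hb : b ∈ bt66_pc F H e) :
    bt66_sh F H k b = Finsupp.mapDomain (fun u => u + Pi.single k 1) b := by
  have := r278n_pc_induction F (bt66_sh F H k - Finsupp.lmapDomain F F (fun u => u + Pi.single k 1)) ⊥
    (W := H) (e := e) (fun u hu _ c => by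
      rw [Submodule.mem_bot, LinearMap.sub_apply, r278n_sh_single_pos F hu (hH u hu _ le_self_add),
        Finsupp.lmapDomain_apply, Finsupp.mapDomain_single, sub_self]) hb
  rw [Submodule.mem_bot, LinearMap.sub_apply, sub_eq_zero] at this
  exact this

theorem r278n_sh_inj {H : Set (Fin n → ℕ)} (hH : bt66_Up H) (k : Fin n) (e : ℕ)
    (b : (Fin n → ℕ) →₀ F) (hb : b ∈ bt66_pc F H e) (h0 : bt66_sh F H k b = 0) : b = 0 := by
  rw [r278n_sh_eq_mapDomain F hH k hb] at h0
  have hinj : Function.Injective (fun u : Fin n → ℕ => u + Pi.single k 1) := add_left_injective _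
  exact Finsupp.mapDomain_injective hinj (by rw [h0, Finsupp.mapDomain_zero])

theorem r278n_map_proj_pc (H : Set (Fin (n + 1) → ℕ)) (e : ℕ) :
    (bt66_pc F H e).map (r278n_proj F (r278n_Q H)) = bt66_pc F (r278n_Q H) e := by
  apply le_antisymm
  · rintro _ ⟨b, hb, rfl⟩
    refine r278n_pc_induction F (r278n_proj F (r278n_Q H)) _ ?_ hb
    intro u hu he c
    by_cases huQ : u ∈ r278n_Q H
    · rw [r278n_proj_single_pos F huQ]; exact r278n_single_mem_pc F huQ he c
    · rw [r278n_proj_single_neg F huQ]; exact Submodule.zero_mem _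
  · intro b hb
    refine ⟨b, ?_, ?_⟩
    · rw [r278n_mem_pc] at hb
      rw [SetLike.mem_coe, r278n_mem_pc]
      exact fun u hu => ⟨(hb u hu).1.1, (hb u hu).2⟩
    · have := r278n_pc_induction F (r278n_proj F (r278n_Q H) - LinearMap.id) ⊥
        (W := r278n_Q H) (e := e) (fun u hu _ c => by
          rw [Submodule.mem_bot, LinearMap.sub_apply, r278n_proj_single_pos F hu, LinearMap.id_apply,
            sub_self]) hb
      rw [Submodule.mem_bot, LinearMap.sub_apply, sub_eq_zero] at this
      exact this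

theorem r278n_ker_proj {H : Set (Fin (n + 1) → ℕ)} (e : ℕ) (b : (Fin (n + 1) → ℕ) →₀ F)
    (hb : b ∈ bt66_pc F H (e + 1)) (h0 : r278n_proj F (r278n_Q H) b = 0) :
    ∃ b' ∈ bt66_pc F H e, bt66_sh F H (Fin.last n) b' = b := by
  classical
  rw [r278n_mem_pc] at hb
  have hex : ∀ u ∈ b.support, ∃ v ∈ H, v + Pi.single (Fin.last n) 1 = u := by
    intro u hu
    by_contra hcon
    have huQ : u ∈ r278n_Q H := ⟨(hb u hu).1, fun v hv hvH => hcon ⟨v, hvH, hv⟩⟩
    have := DFunLike.congr_fun h0 u
    rw [r278n_proj_apply, if_pos huQ] at this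
    exact (Finsupp.mem_support_iff.mp hu) this
  refine ⟨∑ u ∈ b.support, Finsupp.single (u - Pi.single (Fin.last n) 1) (b u), ?_, ?_⟩
  · refine Submodule.sum_mem _ fun u hu => ?_
    obtain ⟨v, hv, rfl⟩ := hex u hu
    rw [add_tsub_cancel_right]
    refine r278n_single_mem_pc F hv ?_ _
    have := (hb _ hu).2
    rw [r278n_deg_add_single] at this
    omega
  · rw [map_sum]
    conv_rhs => rw [← Finsupp.sum_single b, Finsupp.sum]
    refine Finset.sum_congr rfl fun u hu => ?_
    obtain ⟨v, hv, rfl⟩ := hex u hu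
    rw [add_tsub_cancel_right, r278n_sh_single_pos F hv (hb _ hu).1]

/-- **(RED)** reduction modulo the last variable, for the ideal `M(H)`. -/
theorem r278n_red {H : Set (Fin (n + 1) → ℕ)} (hH : bt66_Up H) (p j : ℕ) :
    r278m_rank (bt66_sh F H) (bt66_pc F H) (p + 1) (j + 1) =
      r278m_rank (fun k : Fin n => bt66_sh F (r278n_Q H) k.castSucc) (bt66_pc F (r278n_Q H)) (p + 1) (j + 1) +
        Module.finrank F (r278m_chains (n := n) (bt66_pc F H) p j) := by
  have hconv : bt66_Conv H := fun u v _ huv _ hu _ => hH u hu v huv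
  have := r278n_rank_succ (bt66_sh F H) (r278n_sh_comm F hconv) (r278n_sh_mem_pc F H)
    (r278n_finite_pc F H) (r278n_sh_inj F hH (Fin.last n)) (r278n_proj F (r278n_Q H))
    (fun k : Fin n => bt66_sh F (r278n_Q H) k.castSucc) (fun k b => r278n_proj_sh F hH k.castSucc b)
    (r278n_proj_sh_last F) (r278n_ker_proj F) p j
  rw [this]
  congr 2
  funext e
  exact r278n_map_proj_pc F H e

end Red

section Endpoint

variable (F : Type) [Field F] {n : ℕ}

theorem r278n_arith (n p j : ℕ) (h : ℕ → ℕ) :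
    (if p ≤ j then n.choose p * (h (j - p) - if j - p = 0 then 0 else h (j - p - 1)) else 0) =
      (if p ≤ j then (n + 1).choose p * h (j - p) else 0) -
        (if 1 ≤ p ∧ p ≤ j then n.choose (p - 1) * h (j - p) else 0) -
        (if 1 ≤ p + 1 ∧ p + 1 ≤ j then n.choose p * h (j - (p + 1)) else 0) := by
  by_cases hpj : p ≤ j
  · have e1 : (1 ≤ p + 1 ∧ p + 1 ≤ j) ↔ ¬ (j - p = 0) := by omega
    have e2 : j - (p + 1) = j - p - 1 := by omega
    rw [if_pos hpj, if_pos hpj, e2, Nat.mul_sub]
    have e3 : (n + 1).choose p * h (j - p) - (if 1 ≤ p ∧ p ≤ j then n.choose (p - 1) * h (j - p) else 0) =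
        n.choose p * h (j - p) := by
      cases p with
      | zero => simp
      | succ p =>
        rw [if_pos ⟨by omega, hpj⟩, Nat.add_sub_cancel, Nat.choose_succ_succ, add_mul, Nat.add_sub_cancel_left]
    rw [e3]
    congr 1
    by_cases h0 : j - p = 0
    · rw [if_pos h0, if_neg (by rw [e1]; exact not_not.mpr h0), Nat.mul_zero]
    · rw [if_neg h0, if_pos (e1.mpr h0)]
  · rw [if_neg hpj, if_neg hpj, if_neg (by omega), if_neg (by omega)]

/-- (RED) for all bidegrees. -/
theorem r278n_red_all {H : Set (Fin (n + 1) → ℕ)} (hH : bt66_Up H) (p j : ℕ) :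
    r278m_rank (bt66_sh F H) (bt66_pc F H) p j =
      r278m_rank (fun k : Fin n => bt66_sh F (r278n_Q H) k.castSucc) (bt66_pc F (r278n_Q H)) p j +
        if 1 ≤ p ∧ p ≤ j then n.choose (p - 1) * bt66_cnt H (j - p) else 0 := by
  cases p with
  | zero => rw [r278n_rank_zero_left, r278n_rank_zero_left]; simp
  | succ p =>
    cases j with
    | zero => rw [r278n_rank_of_lt _ _ (by omega), r278n_rank_of_lt _ _ (by omega)]; simp
    | succ j =>
      rw [r278n_red F hH, r278m_finrank_chains (r278n_finite_pc F H), r278n_finrank_pc]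
      congr 1
      by_cases h : p ≤ j
      · rw [if_pos h, if_pos ⟨by omega, by omega⟩, Nat.add_sub_cancel, Nat.add_sub_add_right]
      · rw [if_neg h, if_neg (by omega)]

/-- Leaf M7 of `Tor66.lean`, from the decomposition of `H/zH` by the last exponent. -/
theorem r278n_endpoint_of_dec (H : Set (Fin (n + 1) → ℕ)) (hH : bt66_Up H) (a : ℕ)
    (hdec : ∀ p j, r278m_rank (fun k : Fin n => bt66_sh F (r278n_Q H) k.castSucc)
        (bt66_pc F (r278n_Q H)) p j =
      r278m_rank (bt66_sh F (bt66_slice H 0)) (bt66_pc F (bt66_slice H 0)) p j +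
        (if a ≤ j then r278m_rank (bt66_sh F (bt66_slice H (a - 1))ᶜ)
          (bt66_pc F (bt66_slice H (a - 1))ᶜ) p (j - a) else 0)) (p j : ℕ) :
    bt66_bet F H p j + bt66_dfc F (bt66_slice H 0) p j +
        (if a ≤ j then bt66_dfc F (bt66_slice H (a - 1))ᶜ p (j - a) else 0) =
      if p ≤ j then n.choose p * (bt66_cnt H (j - p) - if j - p = 0 then 0 else bt66_cnt H (j - p - 1))
      else 0 := by
  have hconv : bt66_Conv H := fun u v _ huv _ hu _ => hH u hu v huv
  have hA := r278m_betti_add_ranks (bt66_sh F H) (r278n_sh_comm F hconv) (r278n_sh_mem_pc F H)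
    (r278n_finite_pc F H) p j
  rw [r278m_finrank_chains (r278n_finite_pc F H), r278n_finrank_pc, r278n_red_all F hH p j,
    r278n_red_all F hH (p + 1) j, hdec p j, hdec (p + 1) j] at hA
  unfold bt66_dfc bt66_bet
  generalize r278m_betti (bt66_sh F H) (bt66_pc F H) p j = β at hA ⊢
  generalize r278m_rank (bt66_sh F (bt66_slice H 0)) (bt66_pc F (bt66_slice H 0)) p j = r1 at hA ⊢
  generalize r278m_rank (bt66_sh F (bt66_slice H 0)) (bt66_pc F (bt66_slice H 0)) (p + 1) j = r2 at hA ⊢
  generalize r278m_rank (bt66_sh F (bt66_slice H (a - 1))ᶜ) (bt66_pc F (bt66_slice H (a - 1))ᶜ) p (j - a) = r3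
    at hA ⊢
  generalize r278m_rank (bt66_sh F (bt66_slice H (a - 1))ᶜ) (bt66_pc F (bt66_slice H (a - 1))ᶜ) (p + 1)
    (j - a) = r4 at hA ⊢
  rw [r278n_arith n p j (bt66_cnt H), ← hA, Nat.add_sub_cancel]
  generalize (if 1 ≤ p ∧ p ≤ j then n.choose (p - 1) * bt66_cnt H (j - p) else 0) = t1
  generalize (if 1 ≤ p + 1 ∧ p + 1 ≤ j then n.choose p * bt66_cnt H (j - (p + 1)) else 0) = t2
  split_ifs <;> omega

end Endpoint

end Claimed.Agent.R278
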