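-- KEEP
import Claimed.Agent.R278.BettiVoc66

/-!
# Row 278 (S0523): the monomial model `M(W)` of `Tor66.lean`   (pen 46, prefix `md46_`)

API of `bt66_sh`, `bt66_pc`; leaves M2, M3, M4 of `Tor66.lean`, verbatim.
-/

set_option autoImplicit false

open MvPolynomial Claims.C0451

namespace Claimed.Agent.R278

section api

variable (F : Type) [Field F] {n : ℕ}

theorem md46_sh_pos {W : Set (Fin n → ℕ)} (k : Fin n) {u : Fin n → ℕ} (c : F) (h1 : u ∈ W)
    (h2 : u + Pi.single k 1 ∈ W) :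
    bt66_sh F W k (Finsupp.single u c) = Finsupp.single (u + Pi.single k 1) c := by
  unfold bt66_sh
  rw [Finsupp.lsum_single, if_pos ⟨h1, h2⟩]
  rfl

theorem md46_sh_neg {W : Set (Fin n → ℕ)} (k : Fin n) {u : Fin n → ℕ} (c : F)
    (h : ¬ (u ∈ W ∧ u + Pi.single k 1 ∈ W)) : bt66_sh F W k (Finsupp.single u c) = 0 := by
  unfold bt66_sh
  rw [Finsupp.lsum_single, if_neg h]
  rfl

theorem md46_le_add (u : Fin n → ℕ) (k : Fin n) : u ≤ u + Pi.single k 1 := le_add_of_nonneg_right (by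
  intro i
  exact Nat.zero_le _)

theorem md46_sh_comm {W : Set (Fin n → ℕ)} (hW : bt66_Conv W) (k l : Fin n) (b : (Fin n → ℕ) →₀ F) :
    bt66_sh F W k (bt66_sh F W l b) = bt66_sh F W l (bt66_sh F W k b) := by
  have key : ∀ (k l : Fin n) (u : Fin n → ℕ) (c : F), ¬ (u ∈ W ∧ u + Pi.single k 1 + Pi.single l 1 ∈ W) →
      bt66_sh F W l (bt66_sh F W k (Finsupp.single u c)) = 0 := by
    intro k l u c h
    by_cases h1 : u ∈ W ∧ u + Pi.single k 1 ∈ W
    · rw [md46_sh_pos F k c h1.1 h1.2, md46_sh_neg]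
      rintro ⟨_, h3⟩
      exact h ⟨h1.1, h3⟩
    · rw [md46_sh_neg F k c h1, map_zero]
  have : (bt66_sh F W k) ∘ₗ (bt66_sh F W l) = (bt66_sh F W l) ∘ₗ (bt66_sh F W k) := by
    refine Finsupp.lhom_ext fun u c => ?_
    simp only [LinearMap.comp_apply]
    by_cases h : u ∈ W ∧ u + Pi.single k 1 + Pi.single l 1 ∈ W
    · have hk : u + Pi.single k 1 ∈ W := hW u _ _ (md46_le_add u k) (md46_le_add _ l) h.1 h.2
      have h' : u + Pi.single l 1 + Pi.single k 1 ∈ W := by
        rw [add_right_comm]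
        exact h.2
      have hl : u + Pi.single l 1 ∈ W := hW u _ _ (md46_le_add u l) (md46_le_add _ k) h.1 h'
      rw [md46_sh_pos F l c h.1 hl, md46_sh_pos F k c hl h', md46_sh_pos F k c h.1 hk,
        md46_sh_pos F l c hk h.2, add_right_comm]
    · rw [key k l u c h, key l k u c (by rwa [add_right_comm])]
  exact LinearMap.congr_fun this b

theorem md46_pc_le (W : Set (Fin n → ℕ)) (e : ℕ) (Q : Submodule F ((Fin n → ℕ) →₀ F))
    (h : ∀ u ∈ W, ∑ i, u i = e → Finsupp.single u (1 : F) ∈ Q) : bt66_pc F W e ≤ Q := by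
  rw [bt66_pc, Finsupp.supported_eq_span_single, Submodule.span_le]
  rintro _ ⟨u, hu, rfl⟩
  exact h u hu.1 hu.2

theorem md46_single_mem_pc {W : Set (Fin n → ℕ)} {e : ℕ} {u : Fin n → ℕ} (c : F) (h1 : u ∈ W) (h2 : ∑ i, u i = e) :
    Finsupp.single u c ∈ bt66_pc F W e :=
  Finsupp.single_mem_supported F c (show u ∈ {u | u ∈ W ∧ ∑ i, u i = e} from ⟨h1, h2⟩)

theorem md46_sum_add (u : Fin n → ℕ) (k : Fin n) : ∑ i, (u + Pi.single k 1 : Fin n → ℕ) i = ∑ i, u i + 1 := by
  simp [Finset.sum_add_distrib, Pi.single_apply]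

theorem md46_sh_mem (W : Set (Fin n → ℕ)) (k : Fin n) (e : ℕ) (b : (Fin n → ℕ) →₀ F) (hb : b ∈ bt66_pc F W e) :
    bt66_sh F W k b ∈ bt66_pc F W (e + 1) := by
  have : bt66_pc F W e ≤ (bt66_pc F W (e + 1)).comap (bt66_sh F W k) := by
    refine md46_pc_le F W e _ fun u hu he => ?_
    rw [Submodule.mem_comap]
    by_cases h : u ∈ W ∧ u + Pi.single k 1 ∈ W
    · rw [md46_sh_pos F k 1 h.1 h.2]
      exact md46_single_mem_pc F 1 h.2 (by rw [md46_sum_add, he])
    · rw [md46_sh_neg F k 1 h]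
      exact Submodule.zero_mem _
  exact this hb

theorem md46_finite_deg (W : Set (Fin n → ℕ)) (e : ℕ) : ({u | u ∈ W ∧ ∑ i, u i = e} : Set (Fin n → ℕ)).Finite := by
  refine (Finset.finite_toSet (Finset.Nat.antidiagonalTuple n e)).subset ?_
  intro m hm
  simpa [Finset.Nat.mem_antidiagonalTuple] using hm.2

theorem md46_pc_finite (W : Set (Fin n → ℕ)) (e : ℕ) : Module.Finite F (bt66_pc F W e) := by
  have := (md46_finite_deg W e).to_subtype
  exact Module.Finite.equiv (Finsupp.supportedEquivFinsupp (M := F) (R := F) {u | u ∈ W ∧ ∑ i, u i = e}).symm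

theorem md46_finrank_pc (W : Set (Fin n → ℕ)) (e : ℕ) : Module.finrank F (bt66_pc F W e) = bt66_cnt W e := by
  have := (md46_finite_deg W e).fintype
  rw [bt66_pc, (Finsupp.supportedEquivFinsupp (M := F) (R := F) {u | u ∈ W ∧ ∑ i, u i = e}).finrank_eq,
    Module.finrank_finsupp_self, ← Nat.card_eq_fintype_card, Nat.card_coe_set_eq]
  rfl

theorem md46_eqOn_pc (W : Set (Fin n → ℕ)) (e : ℕ) {B' : Type} [AddCommGroup B'] [Module F B']
    (f g : ((Fin n → ℕ) →₀ F) →ₗ[F] B')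
    (h : ∀ u ∈ W, ∑ i, u i = e → f (Finsupp.single u 1) = g (Finsupp.single u 1)) :
    ∀ b ∈ bt66_pc F W e, f b = g b := by
  intro b hb
  exact (md46_pc_le F W e (LinearMap.eqLocus f g) h) hb

end api

/-- the rank only sees the operators on the pieces -/
theorem md46_rank_congr {F : Type} [DivisionRing F] {n : ℕ} {B : Type} [AddCommGroup B] [Module F B]
    (X X' : Fin n → Module.End F B) {P : ℕ → Submodule F B} (h : ∀ k e, ∀ b ∈ P e, X k b = X' k b) (p j : ℕ) :
    r278m_rank X P p j = r278m_rank X' P p j := by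
  have key : ∀ c ∈ r278m_chains (n := n) P p j, r278m_diff X c = r278m_diff X' c := by
    intro c hc
    rw [r278m_mem_chains] at hc
    funext U
    rw [r278m_diff_apply, r278m_diff_apply]
    refine Finset.sum_congr rfl fun k _ => ?_
    have := hc (insert k U)
    by_cases h1 : (insert k U).card = p ∧ p ≤ j
    · rw [if_pos h1] at this
      rw [h k _ _ this]
    · rw [if_neg h1] at this
      rw [(Submodule.mem_bot F).mp this, map_zero, map_zero]
  have : (r278m_chains (n := n) P p j).map (r278m_diff X) = (r278m_chains (n := n) P p j).map (r278m_diff X') := by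
    ext y
    constructor
    · rintro ⟨c, hc, rfl⟩
      exact ⟨c, hc, (key c hc).symm⟩
    · rintro ⟨c, hc, rfl⟩
      exact ⟨c, hc, key c hc⟩
  rw [r278m_rank, r278m_rank, this]

/-- M2 -/
theorem md46_bet_add_dfc (F : Type) [Field F] {n : ℕ} (W : Set (Fin n → ℕ)) (hW : bt66_Conv W)
    (p j : ℕ) :
    bt66_bet F W p j + bt66_dfc F W p j = if p ≤ j then n.choose p * bt66_cnt W (j - p) else 0 := by
  have h1 := r278m_betti_add_ranks (bt66_sh F W) (md46_sh_comm F hW) (P := bt66_pc F W) (md46_sh_mem F W)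
    (md46_pc_finite F W) p j
  rw [r278m_finrank_chains (md46_pc_finite F W) p j, md46_finrank_pc] at h1
  rw [← h1, bt66_bet, bt66_dfc]
  omega

theorem md46_rank_mono_sub (F : Type) [Field F] {n : ℕ} (U U' : Set (Fin n → ℕ)) (hU : bt66_Up U)
    (hU' : bt66_Up U') (h : U ⊆ U') (p j : ℕ) :
    r278m_rank (bt66_sh F U) (bt66_pc F U) p j ≤ r278m_rank (bt66_sh F U') (bt66_pc F U') p j := by
  rw [md46_rank_congr (bt66_sh F U) (bt66_sh F U') (P := bt66_pc F U) (fun k e => md46_eqOn_pc F U e _ _ (by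
    intro u hu _
    rw [md46_sh_pos F k 1 hu (hU u hu _ (md46_le_add u k)), md46_sh_pos F k 1 (h hu) (hU' u (h hu) _ (md46_le_add u k))]))]
  refine r278m_rank_le_of_injective (LinearMap.id : ((Fin n → ℕ) →₀ F) →ₗ[F] ((Fin n → ℕ) →₀ F))
    Function.injective_id (bt66_sh F U') (bt66_sh F U') (fun _ _ => by simp) (P := bt66_pc F U) (P' := bt66_pc F U')
    (fun e b hb => ?_) (md46_pc_finite F U') p j
  rw [LinearMap.id_apply]
  exact (md46_pc_le F U e (bt66_pc F U' e) fun u hu he => md46_single_mem_pc F 1 (h hu) he) hb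

/-- M3 -/
theorem md46_dfc_mono_sub (F : Type) [Field F] {n : ℕ} (U U' : Set (Fin n → ℕ)) (hU : bt66_Up U)
    (hU' : bt66_Up U') (h : U ⊆ U') (p j : ℕ) : bt66_dfc F U p j ≤ bt66_dfc F U' p j :=
  add_le_add (md46_rank_mono_sub F U U' hU hU' h p j) (md46_rank_mono_sub F U U' hU hU' h (p + 1) j)

/-- the projection of `M` on the span of the basis vectors in `W` -/
noncomputable def md46_proj (F : Type) [Field F] {n : ℕ} (W : Set (Fin n → ℕ)) :
    Module.End F ((Fin n → ℕ) →₀ F) := by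
  classical
  exact Finsupp.lsum F fun u => if u ∈ W then Finsupp.lsingle u else 0

theorem md46_proj_pos (F : Type) [Field F] {n : ℕ} {W : Set (Fin n → ℕ)} {u : Fin n → ℕ} (c : F) (h : u ∈ W) :
    md46_proj F W (Finsupp.single u c) = Finsupp.single u c := by
  unfold md46_proj
  rw [Finsupp.lsum_single, if_pos h]
  rfl

theorem md46_proj_neg (F : Type) [Field F] {n : ℕ} {W : Set (Fin n → ℕ)} {u : Fin n → ℕ} (c : F) (h : u ∉ W) :
    md46_proj F W (Finsupp.single u c) = 0 := by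
  unfold md46_proj
  rw [Finsupp.lsum_single, if_neg h]
  rfl

theorem md46_rank_mono_quot (F : Type) [Field F] {n : ℕ} (U U' : Set (Fin n → ℕ))
    (hU' : bt66_Up U') (h : U ⊆ U') (p j : ℕ) :
    r278m_rank (bt66_sh F U'ᶜ) (bt66_pc F U'ᶜ) p j ≤ r278m_rank (bt66_sh F Uᶜ) (bt66_pc F Uᶜ) p j := by
  refine r278m_rank_le_of_surjective (md46_proj F U'ᶜ) _ _ (fun k b => ?_) (fun e b hb => ?_)
    (md46_pc_finite F Uᶜ) p j
  · have : (md46_proj F U'ᶜ) ∘ₗ (bt66_sh F Uᶜ k) = (bt66_sh F U'ᶜ k) ∘ₗ (md46_proj F U'ᶜ) := by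
      refine Finsupp.lhom_ext fun u c => ?_
      simp only [LinearMap.comp_apply]
      by_cases h1 : u + Pi.single k 1 ∈ U'
      · have e2 : bt66_sh F U'ᶜ k (md46_proj F U'ᶜ (Finsupp.single u c)) = 0 := by
          by_cases h2 : u ∈ U'ᶜ
          · rw [md46_proj_pos F c h2, md46_sh_neg]
            rintro ⟨_, h3⟩
            exact h3 h1
          · rw [md46_proj_neg F c h2, map_zero]
        rw [e2]
        by_cases h2 : u ∈ Uᶜ ∧ u + Pi.single k 1 ∈ Uᶜ
        · rw [md46_sh_pos F k c h2.1 h2.2, md46_proj_neg]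
          exact fun h3 => h3 h1
        · rw [md46_sh_neg F k c h2, map_zero]
      · have h2 : u ∉ U' := fun h3 => h1 (hU' u h3 _ (md46_le_add u k))
        have h3 : u + Pi.single k 1 ∉ U := fun h4 => h1 (h h4)
        have h4 : u ∉ U := fun h5 => h2 (h h5)
        rw [md46_sh_pos F k c (show u ∈ Uᶜ from h4) (show _ ∈ Uᶜ from h3), md46_proj_pos F c (show _ ∈ U'ᶜ from h1),
          md46_proj_pos F c (show u ∈ U'ᶜ from h2), md46_sh_pos F k c (show u ∈ U'ᶜ from h2) (show _ ∈ U'ᶜ from h1)]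
    exact LinearMap.congr_fun this b
  · refine ⟨b, ?_, ?_⟩
    · exact (md46_pc_le F U'ᶜ e (bt66_pc F Uᶜ e) fun u hu he =>
        md46_single_mem_pc F 1 (show u ∈ Uᶜ from fun h5 => hu (h h5)) he) hb
    · exact md46_eqOn_pc F U'ᶜ e (md46_proj F U'ᶜ) LinearMap.id (fun u hu _ => md46_proj_pos F 1 hu) b hb

/-- M4 -/
theorem md46_dfc_mono_quot (F : Type) [Field F] {n : ℕ} (U U' : Set (Fin n → ℕ)) (_hU : bt66_Up U)
    (hU' : bt66_Up U') (h : U ⊆ U') (p j : ℕ) : bt66_dfc F U'ᶜ p j ≤ bt66_dfc F Uᶜ p j :=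
  add_le_add (md46_rank_mono_quot F U U' hU' h p j) (md46_rank_mono_quot F U U' hU' h (p + 1) j)

end Claimed.Agent.R278
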