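-- KEEP
import Claimed.Agent.R278.Mod46
import Claimed.Agent.R278.KosMon206

/-!
# Row 278 (S0523): leaf M7 of `Tor66.lean`, the endpoint formula   (pen 236, prefix `ep236_`)

`H/zH` over the first `n` variables, decomposed by the last exponent.
-/

set_option autoImplicit false

open MvPolynomial Claims.C0451

namespace Claimed.Agent.R278

section general

variable {F : Type} [DivisionRing F] {n : ℕ}
variable {B : Type} [AddCommGroup B] [Module F B] {B' : Type} [AddCommGroup B'] [Module F B']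

/-- Transport of the Koszul ranks along an injective intertwiner. -/
theorem ep236_rank_map (φ : B →ₗ[F] B') (hφ : Function.Injective φ)
    (X : Fin n → Module.End F B) (X' : Fin n → Module.End F B') (h : ∀ k b, φ (X k b) = X' k (φ b))
    (P : ℕ → Submodule F B) (hfin : ∀ e, Module.Finite F (P e)) (p j : ℕ) :
    r278m_rank X' (fun e => (P e).map φ) p j = r278m_rank X P p j := by
  apply le_antisymm
  · exact r278m_rank_le_of_surjective φ X X' h (fun e => le_rfl) hfin p j
  · refine r278m_rank_le_of_injective φ hφ X X' h (fun e b hb => Submodule.mem_map_of_mem hb)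
      (fun e => ?_) p j
    have := hfin e
    infer_instance

theorem ep236_rank_zero_left (X : Fin n → Module.End F B) (P : ℕ → Submodule F B) (j : ℕ) :
    r278m_rank X P 0 j = 0 := by
  have : (r278m_chains (n := n) P 0 j).map (r278m_diff X) = ⊥ := by
    rw [eq_bot_iff]
    rintro _ ⟨c, hc, rfl⟩
    rw [SetLike.mem_coe, r278m_mem_chains] at hc
    rw [Submodule.mem_bot]
    funext U
    rw [r278m_diff_apply]
    refine Finset.sum_eq_zero fun k hk => ?_
    have hkU : k ∉ U := (Finset.mem_filter.mp hk).2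
    have a := hc (insert k U)
    rw [Finset.card_insert_of_notMem hkU, if_neg (by omega)] at a
    rw [(Submodule.mem_bot F).mp a, map_zero, smul_zero]
  rw [r278m_rank, this, finrank_bot]

theorem ep236_rank_zero_right (X : Fin n → Module.End F B) (P : ℕ → Submodule F B) (p : ℕ) :
    r278m_rank X P (p + 1) 0 = 0 := by
  have : r278m_chains (n := n) P (p + 1) 0 = ⊥ := by
    rw [eq_bot_iff]
    intro c hc
    rw [r278m_mem_chains] at hc
    rw [Submodule.mem_bot]
    funext U
    have a := hc U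
    rw [if_neg (by omega)] at a
    exact (Submodule.mem_bot F).mp a
  rw [r278m_rank, this, Submodule.map_bot, finrank_bot]

end general

/-! ## `snoc` -/

section snoc

variable {n : ℕ}

/-- `u ↦ (u, s)`. -/
def ep236_sn (s : ℕ) (u : Fin n → ℕ) : Fin (n + 1) → ℕ := Fin.snoc u s

theorem ep236_sn_last (s : ℕ) (u : Fin n → ℕ) : ep236_sn s u (Fin.last n) = s := by
  simp [ep236_sn]

theorem ep236_sn_cast (s : ℕ) (u : Fin n → ℕ) (i : Fin n) : ep236_sn s u i.castSucc = u i := by
  simp [ep236_sn]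

theorem ep236_sn_injective (s : ℕ) : Function.Injective (ep236_sn (n := n) s) := by
  intro u v h
  funext i
  rw [← ep236_sn_cast s u i, h, ep236_sn_cast]

theorem ep236_sn_add_cast (s : ℕ) (u : Fin n → ℕ) (k : Fin n) :
    ep236_sn s u + Pi.single k.castSucc 1 = ep236_sn s (u + Pi.single k 1) := by
  funext i
  refine Fin.lastCases ?_ (fun i => ?_) i
  · simp [ep236_sn_last, (Fin.castSucc_lt_last k).ne']
  · simp [ep236_sn_cast, Pi.single_apply]

theorem ep236_sn_add_last (s : ℕ) (u : Fin n → ℕ) :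
    ep236_sn s u + Pi.single (Fin.last n) 1 = ep236_sn (s + 1) u := by
  funext i
  refine Fin.lastCases ?_ (fun i => ?_) i
  · simp [ep236_sn_last]
  · simp [ep236_sn_cast, (Fin.castSucc_lt_last i).ne]

theorem ep236_sum_sn (s : ℕ) (u : Fin n → ℕ) : ∑ i, ep236_sn s u i = ∑ i, u i + s := by
  rw [Fin.sum_univ_castSucc]
  simp [ep236_sn_last, ep236_sn_cast]

theorem ep236_sn_init (v : Fin (n + 1) → ℕ) : ep236_sn (v (Fin.last n)) (Fin.init v) = v :=
  Fin.snoc_init_self v

theorem ep236_mem_slice {H : Set (Fin (n + 1) → ℕ)} {s : ℕ} {u : Fin n → ℕ} :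
    u ∈ bt66_slice H s ↔ ep236_sn s u ∈ H := Iff.rfl

end snoc

/-! ## The levels of a set of exponent vectors -/

section model

variable (F : Type) [Field F] {n : ℕ}

/-- The embedding at the height `s`. -/
noncomputable def ep236_io (s : ℕ) : ((Fin n → ℕ) →₀ F) →ₗ[F] ((Fin (n + 1) → ℕ) →₀ F) :=
  Finsupp.lmapDomain F F (ep236_sn s)

theorem ep236_io_single (s : ℕ) (u : Fin n → ℕ) (c : F) :
    ep236_io F s (Finsupp.single u c) = Finsupp.single (ep236_sn s u) c := by
  simp [ep236_io]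

theorem ep236_io_injective (s : ℕ) : Function.Injective (ep236_io F (n := n) s) :=
  Finsupp.mapDomain_injective (ep236_sn_injective s)

theorem ep236_io_sh (N : Set (Fin (n + 1) → ℕ)) (s : ℕ) (k : Fin n) (b : (Fin n → ℕ) →₀ F) :
    ep236_io F s (bt66_sh F (bt66_slice N s) k b) = bt66_sh F N k.castSucc (ep236_io F s b) := by
  have : (ep236_io F s) ∘ₗ (bt66_sh F (bt66_slice N s) k) =
      (bt66_sh F N k.castSucc) ∘ₗ (ep236_io F s) := by
    refine Finsupp.lhom_ext fun u c => ?_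
    simp only [LinearMap.comp_apply]
    rw [ep236_io_single]
    by_cases h : u ∈ bt66_slice N s ∧ u + Pi.single k 1 ∈ bt66_slice N s
    · rw [md46_sh_pos F k c h.1 h.2, ep236_io_single,
        md46_sh_pos F k.castSucc c (ep236_mem_slice.mp h.1) (by rw [ep236_sn_add_cast]; exact h.2),
        ep236_sn_add_cast]
    · rw [md46_sh_neg F k c h, map_zero, md46_sh_neg]
      rw [ep236_sn_add_cast]
      exact h
  exact LinearMap.congr_fun this b

/-- The exponent vectors whose last exponent lies in `S`. -/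
def ep236_lv (S : Set ℕ) : Set (Fin (n + 1) → ℕ) := {v | v (Fin.last n) ∈ S}

theorem ep236_map_io_pc (N : Set (Fin (n + 1) → ℕ)) (s e : ℕ) :
    (bt66_pc F (bt66_slice N s) e).map (ep236_io F s) = bt66_pc F (N ∩ ep236_lv {s}) (e + s) := by
  apply le_antisymm
  · rw [Submodule.map_le_iff_le_comap]
    refine md46_pc_le F _ e _ fun u hu he => ?_
    rw [Submodule.mem_comap, ep236_io_single]
    refine md46_single_mem_pc F 1 ⟨hu, ?_⟩ (by rw [ep236_sum_sn, he])
    show ep236_sn s u (Fin.last n) ∈ ({s} : Set ℕ)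
    rw [ep236_sn_last]
    rfl
  · refine md46_pc_le F _ _ _ fun v hv he => ?_
    have hs : v (Fin.last n) = s := hv.2
    have hv' : ep236_sn s (Fin.init v) = v := by rw [← hs]; exact ep236_sn_init v
    refine ⟨Finsupp.single (Fin.init v) 1, md46_single_mem_pc F 1 ?_ ?_, ?_⟩
    · show ep236_sn s (Fin.init v) ∈ N
      rw [hv']
      exact hv.1
    · have := ep236_sum_sn s (Fin.init v)
      rw [hv', he] at this
      omega
    · rw [ep236_io_single, hv']

theorem ep236_pc_level (N : Set (Fin (n + 1) → ℕ)) (s : ℕ) :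
    bt66_pc F (N ∩ ep236_lv {s}) =
      fun e => if s ≤ e then (fun e' => (bt66_pc F (bt66_slice N s) e').map (ep236_io F s)) (e - s)
        else ⊥ := by
  funext e
  by_cases h : s ≤ e
  · rw [if_pos h]
    show _ = (bt66_pc F (bt66_slice N s) (e - s)).map (ep236_io F s)
    rw [ep236_map_io_pc, Nat.sub_add_cancel h]
  · rw [if_neg h, eq_bot_iff]
    refine md46_pc_le F _ _ _ fun v hv he => ?_
    exfalso
    have hs : v (Fin.last n) = s := hv.2
    have : v (Fin.last n) ≤ ∑ i, v i :=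
      Finset.single_le_sum (f := v) (fun _ _ => Nat.zero_le _) (Finset.mem_univ _)
    omega

/-- The rank of one level. -/
theorem ep236_rank_level (N : Set (Fin (n + 1) → ℕ)) (s p j : ℕ) :
    r278m_rank (fun k : Fin n => bt66_sh F N k.castSucc) (bt66_pc F (N ∩ ep236_lv {s})) p j =
      if s ≤ j then r278m_rank (bt66_sh F (bt66_slice N s)) (bt66_pc F (bt66_slice N s)) p (j - s)
        else 0 := by
  rw [ep236_pc_level, r278m_rank_shift (fun k : Fin n => bt66_sh F N k.castSucc)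
    (fun e' => (bt66_pc F (bt66_slice N s) e').map (ep236_io F s)) s p j]
  by_cases h : s ≤ j
  · rw [if_pos h, if_pos h]
    exact ep236_rank_map (ep236_io F s) (ep236_io_injective F s) (bt66_sh F (bt66_slice N s))
      (fun k : Fin n => bt66_sh F N k.castSucc) (ep236_io_sh F N s) _ (md46_pc_finite F _) p (j - s)
  · rw [if_neg h, if_neg h]

theorem ep236_sh_mem_lv (N : Set (Fin (n + 1) → ℕ)) (S : Set ℕ) (k : Fin n) (e : ℕ)
    (b : (Fin (n + 1) → ℕ) →₀ F) (hb : b ∈ bt66_pc F (N ∩ ep236_lv S) e) :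
    bt66_sh F N k.castSucc b ∈ Finsupp.supported F F (ep236_lv (n := n) S) := by
  have : bt66_pc F (N ∩ ep236_lv S) e ≤
      (Finsupp.supported F F (ep236_lv (n := n) S)).comap (bt66_sh F N k.castSucc) := by
    refine md46_pc_le F _ e _ fun v hv _ => ?_
    rw [Submodule.mem_comap]
    by_cases h : v ∈ N ∧ v + Pi.single k.castSucc 1 ∈ N
    · rw [md46_sh_pos F k.castSucc 1 h.1 h.2]
      refine Finsupp.single_mem_supported F 1 ?_
      show (v + Pi.single k.castSucc 1 : Fin (n + 1) → ℕ) (Fin.last n) ∈ S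
      have : (v + Pi.single k.castSucc 1 : Fin (n + 1) → ℕ) (Fin.last n) = v (Fin.last n) := by
        simp [(Fin.castSucc_lt_last k).ne']
      rw [this]
      exact hv.2
    · rw [md46_sh_neg F k.castSucc 1 h]
      exact Submodule.zero_mem _
  exact this hb

/-- The ranks of two disjoint families of levels add up. -/
theorem ep236_rank_union (N : Set (Fin (n + 1) → ℕ)) (S₁ S₂ : Set ℕ) (hS : Disjoint S₁ S₂) (p j : ℕ) :
    r278m_rank (fun k : Fin n => bt66_sh F N k.castSucc) (bt66_pc F (N ∩ ep236_lv (S₁ ∪ S₂))) p j =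
      r278m_rank (fun k : Fin n => bt66_sh F N k.castSucc) (bt66_pc F (N ∩ ep236_lv S₁)) p j +
        r278m_rank (fun k : Fin n => bt66_sh F N k.castSucc) (bt66_pc F (N ∩ ep236_lv S₂)) p j := by
  have h0 : bt66_pc F (N ∩ ep236_lv (S₁ ∪ S₂)) =
      fun e => bt66_pc F (N ∩ ep236_lv S₁) e ⊔ bt66_pc F (N ∩ ep236_lv S₂) e := by
    funext e
    unfold bt66_pc
    rw [← Finsupp.supported_union]
    congr 1
    ext v
    simp only [ep236_lv, Set.mem_ofPred_eq, Set.mem_inter_iff, Set.mem_union]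
    tauto
  rw [h0]
  refine r278m_rank_sup _ (W₁ := Finsupp.supported F F (ep236_lv (n := n) S₁))
    (W₂ := Finsupp.supported F F (ep236_lv (n := n) S₂)) ?_ (fun k e b hb => ep236_sh_mem_lv F N S₁ k e b hb)
    (fun k e b hb => ep236_sh_mem_lv F N S₂ k e b hb) (md46_pc_finite F _) (md46_pc_finite F _) p j
  refine Finsupp.disjoint_supported_supported ?_
  rw [Set.disjoint_left] at hS ⊢
  intro v h1 h2
  exact hS h1 h2

end model

/-! ## `H/zH` and its decomposition -/

section dec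

variable {n : ℕ}

/-- The exponent vectors of `H` that are not `z` times an exponent vector of `H`: the basis of `H/zH`
(same body as `r278n_Q` of 206). -/
def ep236_Q (H : Set (Fin (n + 1) → ℕ)) : Set (Fin (n + 1) → ℕ) :=
  {u | u ∈ H ∧ ∀ v, v + Pi.single (Fin.last n) 1 = u → v ∉ H}

theorem ep236_sn_zero_mem_Q {H : Set (Fin (n + 1) → ℕ)} {u : Fin n → ℕ} :
    ep236_sn 0 u ∈ ep236_Q H ↔ ep236_sn 0 u ∈ H := by
  refine ⟨fun h => h.1, fun h => ⟨h, fun v hv => ?_⟩⟩
  exfalso
  have := congrFun hv (Fin.last n)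
  rw [ep236_sn_last] at this
  simp at this

theorem ep236_sn_succ_mem_Q {H : Set (Fin (n + 1) → ℕ)} {s : ℕ} {u : Fin n → ℕ} :
    ep236_sn (s + 1) u ∈ ep236_Q H ↔ ep236_sn (s + 1) u ∈ H ∧ ep236_sn s u ∉ H := by
  constructor
  · intro h
    exact ⟨h.1, h.2 _ (ep236_sn_add_last s u)⟩
  · intro h
    refine ⟨h.1, fun v hv => ?_⟩
    rw [← ep236_sn_add_last] at hv
    rw [add_right_cancel hv]
    exact h.2

theorem ep236_slice_Q_zero (H : Set (Fin (n + 1) → ℕ)) : bt66_slice (ep236_Q H) 0 = bt66_slice H 0 := by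
  ext u
  exact ep236_sn_zero_mem_Q

theorem ep236_slice_Q_top (H : Set (Fin (n + 1) → ℕ)) (a : ℕ) (ha : 1 ≤ a)
    (htop : ∀ u : Fin (n + 1) → ℕ, a ≤ u (Fin.last n) → u ∈ H) :
    bt66_slice (ep236_Q H) a = (bt66_slice H (a - 1))ᶜ := by
  obtain ⟨s, rfl⟩ : ∃ s, a = s + 1 := ⟨a - 1, by omega⟩
  ext u
  rw [ep236_mem_slice, ep236_sn_succ_mem_Q, Nat.add_sub_cancel, Set.mem_compl_iff, ep236_mem_slice]
  exact ⟨fun h => h.2, fun h => ⟨htop _ (by rw [ep236_sn_last]), h⟩⟩

theorem ep236_Q_eq (H : Set (Fin (n + 1) → ℕ)) (a : ℕ)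
    (htop : ∀ u : Fin (n + 1) → ℕ, a ≤ u (Fin.last n) → u ∈ H) :
    ep236_Q H = ep236_Q H ∩ ep236_lv ({0} ∪ ({s | 1 ≤ s ∧ s < a} ∪ {a})) := by
  refine (Set.inter_eq_left.mpr fun v hv => ?_).symm
  show v (Fin.last n) ∈ ({0} ∪ ({s | 1 ≤ s ∧ s < a} ∪ {a}) : Set ℕ)
  by_contra hc
  have h1 : a < v (Fin.last n) := by
    simp only [Set.mem_union, Set.mem_singleton_iff, Set.mem_ofPred_eq] at hc
    omega
  obtain ⟨s, hs⟩ : ∃ s, v (Fin.last n) = s + 1 := ⟨v (Fin.last n) - 1, by omega⟩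
  have hv' := ep236_sn_init v
  rw [hs] at hv'
  rw [← hv', ep236_sn_succ_mem_Q] at hv
  exact hv.2 (htop _ (by rw [ep236_sn_last]; omega))

/-- **DEC**: the Koszul ranks of `H/zH` over the first `n` variables. -/
theorem ep236_dec (F : Type) [Field F] (H : Set (Fin (n + 1) → ℕ))
    (a : ℕ) (ha : 1 ≤ a) (htop : ∀ u : Fin (n + 1) → ℕ, a ≤ u (Fin.last n) → u ∈ H)
    (hann : ∀ s, 1 ≤ s → s < a → ∀ u ∈ bt66_slice H s, ∀ i : Fin n,
      u + Pi.single i 1 ∈ bt66_slice H (s - 1)) (p j : ℕ) :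
    r278m_rank (fun k : Fin n => bt66_sh F (ep236_Q H) k.castSucc) (bt66_pc F (ep236_Q H)) p j =
      r278m_rank (bt66_sh F (bt66_slice H 0)) (bt66_pc F (bt66_slice H 0)) p j +
        (if a ≤ j then
          r278m_rank (bt66_sh F (bt66_slice H (a - 1))ᶜ) (bt66_pc F (bt66_slice H (a - 1))ᶜ) p (j - a)
        else 0) := by
  have hmid : r278m_rank (fun k : Fin n => bt66_sh F (ep236_Q H) k.castSucc)
      (bt66_pc F (ep236_Q H ∩ ep236_lv {s | 1 ≤ s ∧ s < a})) p j = 0 := by
    refine r278m_rank_eq_zero _ (fun k e => ?_) p j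
    refine md46_eqOn_pc F _ e (bt66_sh F (ep236_Q H) k.castSucc) 0 fun v hv _ => ?_
    rw [LinearMap.zero_apply]
    refine md46_sh_neg F k.castSucc 1 ?_
    rintro ⟨h1, h2⟩
    have hs : 1 ≤ v (Fin.last n) ∧ v (Fin.last n) < a := hv.2
    obtain ⟨s, hs'⟩ : ∃ s, v (Fin.last n) = s + 1 := ⟨v (Fin.last n) - 1, by omega⟩
    have hv' := ep236_sn_init v
    rw [hs'] at hv'
    rw [← hv', ep236_sn_add_cast, ep236_sn_succ_mem_Q] at h2
    rw [← hv', ep236_sn_succ_mem_Q] at h1
    have := hann (s + 1) (by omega) (by omega) (Fin.init v) h1.1 k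
    rw [Nat.add_sub_cancel] at this
    exact h2.2 this
  have h0 : (bt66_pc F (ep236_Q H)) =
      bt66_pc F (ep236_Q H ∩ ep236_lv ({0} ∪ ({s | 1 ≤ s ∧ s < a} ∪ {a}))) := by
    rw [← ep236_Q_eq H a htop]
  rw [h0, ep236_rank_union, ep236_rank_union, hmid, ep236_rank_level, ep236_rank_level,
    ep236_slice_Q_zero, ep236_slice_Q_top H a ha htop, if_pos (Nat.zero_le _), Nat.sub_zero, zero_add]
  · rw [Set.disjoint_left]
    intro s h1 h2
    have h1' : 1 ≤ s ∧ s < a := h1
    have h2' : s = a := h2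
    omega
  · rw [Set.disjoint_left]
    intro s h1 h2
    have h1' : s = 0 := h1
    simp only [Set.mem_union, Set.mem_singleton_iff, Set.mem_ofPred_eq] at h2
    omega

/-- **LEAF M7 of `Tor66.lean`, VERBATIM** (`bt66_endpoint`): RED and the arithmetic by 206
(`r278n_endpoint_of_dec`), DEC above. -/
theorem ep236_endpoint (F : Type) [Field F] {n : ℕ} (H : Set (Fin (n + 1) → ℕ)) (hH : bt66_Up H)
    (a : ℕ) (ha : 1 ≤ a) (htop : ∀ u : Fin (n + 1) → ℕ, a ≤ u (Fin.last n) → u ∈ H)
    (hann : ∀ s, 1 ≤ s → s < a → ∀ u ∈ bt66_slice H s, ∀ i : Fin n,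
      u + Pi.single i 1 ∈ bt66_slice H (s - 1)) (p j : ℕ) :
    bt66_bet F H p j + bt66_dfc F (bt66_slice H 0) p j +
        (if a ≤ j then bt66_dfc F (bt66_slice H (a - 1))ᶜ p (j - a) else 0) =
      if p ≤ j then n.choose p * (bt66_cnt H (j - p) - if j - p = 0 then 0 else bt66_cnt H (j - p - 1))
      else 0 :=
  r278n_endpoint_of_dec F H hH a (fun p j => ep236_dec F H a ha htop hann p j) p j

end dec

end Claimed.Agent.R278
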