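-- KEEP
/-
R278 / Descent236 (pen 236, prefix `r278d_`): change of the coefficient field (post P6 and the leaves
BC1 BC2 BC3 BC4 of the Betti chain), in the words of `Claims.C0451` (and `Claims.C0450`).

* `r278d_Phi`: a functional of `K / k` applied to all coefficients, a `k[x]`-linear map
  `K[x] → k[x]`; membership in an extended ideal is tested by these maps (`r278d_mem_map_iff`).
* `r278d_RelTransfer`: an abstract criterion under which spans, images and kernels keep their
  dimensions.
* EXITS: `r278d_betti_map`, `r278d_finrank_map`, `r278d_homog_map`, `r278d_homog_of_map`,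
  `r278d_regular_map`, `r278d_regular_map_iff`, `r278d_exists_embedding_complex`.
-/
import Mathlib
import Claimed.Prelude.Def_0450
import Claimed.Prelude.Def_0451

set_option autoImplicit false

namespace Claimed.Agent.R278



section Emb
open Cardinal

/-- A field of characteristic zero of cardinality at most the continuum embeds into `ℂ`. -/
theorem r278d_exists_embedding_complex (K : Type) [Field K] [CharZero K] (hK : #K ≤ 𝔠) :
    Nonempty (K →+* ℂ) := by
  let E := FractionRing (MvPolynomial ℝ K)
  let L := AlgebraicClosure E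
  have h1 : #(MvPolynomial ℝ K) = 𝔠 := by
    rw [MvPolynomial.cardinalMk_eq_max, Cardinal.mk_real]
    rw [max_eq_right hK, max_eq_left aleph0_le_continuum]
  have h2 : #E = 𝔠 := by
    rw [Cardinal.mk_fractionRing, h1]
  have h3 : #L = 𝔠 := by
    apply le_antisymm
    · have := Algebra.IsAlgebraic.cardinalMk_le_max E L
      rw [h2, max_eq_left aleph0_le_continuum] at this
      exact this
    · rw [← h2]
      exact Cardinal.mk_le_of_injective (algebraMap E L).injective
  let φ : K →+* L := (algebraMap E L).comp ((algebraMap (MvPolynomial ℝ K) E).comp MvPolynomial.C)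
  have : CharZero L := charZero_of_injective_ringHom φ.injective
  have h4 : Nonempty (L ≃ ℂ) := by
    rw [← Cardinal.eq, h3, Cardinal.mk_complex]
  obtain ⟨e⟩ := IsAlgClosed.ringEquiv_of_equiv_of_charZero (K := L) (L := ℂ)
    (by rw [h3]; exact aleph0_lt_continuum) h4
  exact ⟨e.toRingHom.comp φ⟩


end Emb


open MvPolynomial

section Phi

variable {k K : Type} [Field k] [Field K] [Algebra k K] {n : ℕ}

/-- base change of polynomials -/
noncomputable abbrev r278d_mu (k K : Type) [Field k] [Field K] [Algebra k K] (n : ℕ) :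
    MvPolynomial (Fin n) k →+* MvPolynomial (Fin n) K :=
  MvPolynomial.map (algebraMap k K)

/-- a `k`-linear functional of `K`, applied to all coefficients -/
noncomputable def r278d_Phi (φ : K →ₗ[k] k) :
    MvPolynomial (Fin n) K →ₗ[k] MvPolynomial (Fin n) k :=
  (AddMonoidAlgebra.coeffLinearEquiv k).symm.toLinearMap ∘ₗ Finsupp.mapRange.linearMap φ ∘ₗ
    (AddMonoidAlgebra.coeffLinearEquiv k).toLinearMap

lemma r278d_coeff_Phi (φ : K →ₗ[k] k) (q : MvPolynomial (Fin n) K) (m : Fin n →₀ ℕ) :
    coeff m (r278d_Phi φ q) = φ (coeff m q) := by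
  simp [r278d_Phi, coeff]

lemma r278d_Phi_mul_map (φ : K →ₗ[k] k) (q : MvPolynomial (Fin n) K)
    (g : MvPolynomial (Fin n) k) :
    r278d_Phi φ (q * r278d_mu k K n g) = r278d_Phi φ q * g := by
  classical
  ext m
  rw [r278d_coeff_Phi, coeff_mul, coeff_mul, map_sum]
  refine Finset.sum_congr rfl fun x _ => ?_
  rw [r278d_coeff_Phi, coeff_map, mul_comm, ← Algebra.smul_def, map_smul, smul_eq_mul, mul_comm]

lemma r278d_Phi_C_mul_map (φ : K →ₗ[k] k) (c : K) (g : MvPolynomial (Fin n) k) :
    r278d_Phi φ (C c * r278d_mu k K n g) = C (φ c) * g := by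
  rw [r278d_Phi_mul_map]
  congr 1
  ext m
  rw [r278d_coeff_Phi, coeff_C, coeff_C]
  split_ifs <;> simp

lemma r278d_Phi_map (φ : K →ₗ[k] k) (g : MvPolynomial (Fin n) k) :
    r278d_Phi φ (r278d_mu k K n g) = C (φ 1) * g := by
  have := r278d_Phi_C_mul_map φ 1 g
  rwa [C_1, one_mul] at this

/-- functionals separate the points of `K` -/
lemma r278d_eq_zero_of_forall_dual (c : K) (h : ∀ φ : K →ₗ[k] k, φ c = 0) : c = 0 :=
  (Module.forall_dual_apply_eq_zero_iff k c).mp h

lemma r278d_exists_dual_one : ∃ φ : K →ₗ[k] k, φ 1 = 1 := by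
  by_contra hcon
  push Not at hcon
  have : (1 : K) = 0 := by
    apply r278d_eq_zero_of_forall_dual (k := k)
    intro φ
    by_contra h0
    apply hcon ((φ 1)⁻¹ • φ)
    simp [h0]
  exact one_ne_zero this

/-- Lemma A: `Φ` maps the extended ideal into the ideal. -/
lemma r278d_Phi_mem (φ : K →ₗ[k] k) (I₀ : Ideal (MvPolynomial (Fin n) k))
    {H : MvPolynomial (Fin n) K} (hH : H ∈ I₀.map (r278d_mu k K n)) : r278d_Phi φ H ∈ I₀ := by
  have key : ∀ a : MvPolynomial (Fin n) K, r278d_Phi φ (a * H) ∈ I₀ := by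
    unfold Ideal.map at hH
    induction hH using Submodule.span_induction with
    | mem x hx =>
      obtain ⟨g, hg, rfl⟩ := hx
      intro a
      rw [r278d_Phi_mul_map]
      exact I₀.mul_mem_left _ hg
    | zero => intro a; simp
    | add x y _ _ hx hy =>
      intro a
      rw [mul_add, map_add]
      exact I₀.add_mem (hx a) (hy a)
    | smul b x _ hx =>
      intro a
      rw [smul_eq_mul, ← mul_assoc]
      exact hx (a * b)
  simpa using key 1

/-- Lemma B: the extended ideal contracts to the ideal. -/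
lemma r278d_mem_of_map_mem (I₀ : Ideal (MvPolynomial (Fin n) k)) {h : MvPolynomial (Fin n) k}
    (hh : r278d_mu k K n h ∈ I₀.map (r278d_mu k K n)) : h ∈ I₀ := by
  obtain ⟨φ, hφ⟩ := r278d_exists_dual_one (k := k) (K := K)
  have := r278d_Phi_mem φ I₀ hh
  rwa [r278d_Phi_map, hφ, C_1, one_mul] at this

/-- Lemma C: decomposition of a polynomial along a basis of `K / k`. -/
lemma r278d_decomp (H : MvPolynomial (Fin n) K) :
    ∃ (T : Finset (Module.Basis.ofVectorSpaceIndex k K)),
      H = ∑ β ∈ T, C (Module.Basis.ofVectorSpace k K β) *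
        r278d_mu k K n (r278d_Phi ((Module.Basis.ofVectorSpace k K).coord β) H) := by
  classical
  set B := Module.Basis.ofVectorSpace k K with hB
  refine ⟨H.support.biUnion fun m => (B.repr (coeff m H)).support, ?_⟩
  ext m
  rw [coeff_sum]
  simp only [coeff_C_mul, coeff_map, r278d_coeff_Phi, Module.Basis.coord_apply]
  by_cases hm : m ∈ H.support
  · have h1 : coeff m H = ∑ β ∈ H.support.biUnion fun m => (B.repr (coeff m H)).support,
        (B.repr (coeff m H)) β • B β := by
      conv_lhs => rw [← B.linearCombination_repr (coeff m H)]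
      rw [Finsupp.linearCombination_apply]
      exact Finsupp.sum_of_support_subset _
        (Finset.subset_biUnion_of_mem (fun m => (B.repr (coeff m H)).support) hm) _
        (by intro i _; simp)
    conv_lhs => rw [h1]
    refine Finset.sum_congr rfl fun β _ => ?_
    rw [Algebra.smul_def, mul_comm]
  · have h0 : coeff m H = 0 := by simpa using hm
    simp [h0]

/-- Lemma D: membership in the extended ideal is tested by the functionals. -/
lemma r278d_mem_map_iff (I₀ : Ideal (MvPolynomial (Fin n) k)) (H : MvPolynomial (Fin n) K) :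
    H ∈ I₀.map (r278d_mu k K n) ↔ ∀ φ : K →ₗ[k] k, r278d_Phi φ H ∈ I₀ := by
  constructor
  · intro hH φ
    exact r278d_Phi_mem φ I₀ hH
  · intro h
    obtain ⟨T, hT⟩ := r278d_decomp (k := k) H
    rw [hT]
    refine Ideal.sum_mem _ fun β _ => Ideal.mul_mem_left _ _ (Ideal.mem_map_of_mem _ (h _))

end Phi





section Abstract

open Module

variable {k K : Type} [Field k] [Field K] [Algebra k K]
variable {V₀ V W₀ W : Type} [AddCommGroup V₀] [Module k V₀] [AddCommGroup V] [Module K V]
  [AddCommGroup W₀] [Module k W₀] [AddCommGroup W] [Module K W]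

/-- every `K`-linear relation between vectors that come from `V₀` is a combination of `k`-linear
relations of `V₀` -/
def r278d_RelTransfer (ι : V₀ →ₛₗ[algebraMap k K] V) : Prop :=
  ∀ (φ : K →ₗ[k] k) (r : ℕ) (c : Fin r → K) (v : Fin r → V₀),
    ∑ i, c i • ι (v i) = 0 → ∑ i, φ (c i) • v i = 0

lemma r278d_linearIndependent {ι : V₀ →ₛₗ[algebraMap k K] V} (hι : r278d_RelTransfer ι) {r : ℕ}
    (v : Fin r → V₀) (hv : LinearIndependent k v) : LinearIndependent K (fun i => ι (v i)) := by
  rw [Fintype.linearIndependent_iff]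
  intro g hg i
  apply (Module.forall_dual_apply_eq_zero_iff k (g i)).mp
  intro φ
  have h1 := hι φ r g v hg
  exact (Fintype.linearIndependent_iff.mp hv) (fun i => φ (g i)) h1 i

lemma r278d_finrank_span {ι : V₀ →ₛₗ[algebraMap k K] V} (hι : r278d_RelTransfer ι)
    (U : Submodule k V₀) [FiniteDimensional k U] :
    finrank K (Submodule.span K (ι '' (U : Set V₀))) = finrank k U := by
  let b := Module.finBasis k U
  let v : Fin (finrank k U) → V₀ := fun i => (b i : V₀)
  have hv : LinearIndependent k v :=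
    b.linearIndependent.map' U.subtype (Submodule.ker_subtype U)
  have hli := r278d_linearIndependent hι v hv
  have hspan : Submodule.span K (ι '' (U : Set V₀)) =
      Submodule.span K (Set.range fun i => ι (v i)) := by
    apply le_antisymm
    · rw [Submodule.span_le]
      rintro _ ⟨u, hu, rfl⟩
      have h1 : u = ∑ i, (b.repr ⟨u, hu⟩ i) • v i := by
        have := congrArg (Submodule.subtype U) (b.sum_repr ⟨u, hu⟩)
        simp only [map_sum, map_smul, Submodule.subtype_apply] at this
        exact this.symm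
      rw [h1, map_sum]
      refine Submodule.sum_mem _ fun i _ => ?_
      rw [map_smulₛₗ]
      exact Submodule.smul_mem _ _ (Submodule.subset_span ⟨i, rfl⟩)
    · rw [Submodule.span_le]
      rintro _ ⟨i, rfl⟩
      exact Submodule.subset_span ⟨v i, (b i).2, rfl⟩
  rw [hspan, finrank_span_eq_card hli, Fintype.card_fin]

lemma r278d_finiteDimensional_span (ι : V₀ →ₛₗ[algebraMap k K] V)
    (U : Submodule k V₀) [FiniteDimensional k U] :
    FiniteDimensional K (Submodule.span K (ι '' (U : Set V₀))) := by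
  let b := Module.finBasis k U
  let v : Fin (finrank k U) → V₀ := fun i => (b i : V₀)
  have hspan : Submodule.span K (ι '' (U : Set V₀)) =
      Submodule.span K (Set.range fun i => ι (v i)) := by
    apply le_antisymm
    · rw [Submodule.span_le]
      rintro _ ⟨u, hu, rfl⟩
      have h1 : u = ∑ i, (b.repr ⟨u, hu⟩ i) • v i := by
        have := congrArg (Submodule.subtype U) (b.sum_repr ⟨u, hu⟩)
        simp only [map_sum, map_smul, Submodule.subtype_apply] at this
        exact this.symm
      rw [h1, map_sum]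
      refine Submodule.sum_mem _ fun i _ => ?_
      rw [map_smulₛₗ]
      exact Submodule.smul_mem _ _ (Submodule.subset_span ⟨i, rfl⟩)
    · rw [Submodule.span_le]
      rintro _ ⟨i, rfl⟩
      exact Submodule.subset_span ⟨v i, (b i).2, rfl⟩
  rw [hspan]
  exact FiniteDimensional.span_of_finite K (Set.finite_range _)

lemma r278d_map_span {ι : V₀ →ₛₗ[algebraMap k K] V} {ι' : W₀ →ₛₗ[algebraMap k K] W}
    (D₀ : V₀ →ₗ[k] W₀) (D : V →ₗ[K] W) (hcomm : ∀ x, D (ι x) = ι' (D₀ x)) (C₀ : Submodule k V₀) :
    (Submodule.span K (ι '' (C₀ : Set V₀))).map D =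
      Submodule.span K (ι' '' ((C₀.map D₀ : Submodule k W₀) : Set W₀)) := by
  rw [Submodule.map_span]
  congr 1
  ext w
  simp only [Set.mem_image, SetLike.mem_coe, Submodule.mem_map, exists_exists_and_eq_and, hcomm]

/-- rank and nullity of the restriction of a linear map to a subspace -/
lemma r278d_rank_nullity {E X Y : Type} [Field E] [AddCommGroup X] [Module E X] [AddCommGroup Y]
    [Module E Y] (D : X →ₗ[E] Y) (C : Submodule E X) [FiniteDimensional E C] :
    finrank E (C ⊓ LinearMap.ker D : Submodule E X) + finrank E (C.map D) = finrank E C := by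
  have h := LinearMap.finrank_range_add_finrank_ker (D.domRestrict C)
  rw [LinearMap.range_domRestrict, LinearMap.ker_domRestrict] at h
  rw [← Submodule.finrank_map_subtype_eq C ((LinearMap.ker D).comap C.subtype),
    Submodule.map_comap_subtype] at h
  omega

/-- images and kernels of a map defined over `k` keep their dimensions -/
lemma r278d_abs_finrank_map {ι : V₀ →ₛₗ[algebraMap k K] V} {ι' : W₀ →ₛₗ[algebraMap k K] W}
    (hι' : r278d_RelTransfer ι')
    (D₀ : V₀ →ₗ[k] W₀) (D : V →ₗ[K] W) (hcomm : ∀ x, D (ι x) = ι' (D₀ x)) (C₀ : Submodule k V₀)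
    [FiniteDimensional k C₀] :
    finrank K ((Submodule.span K (ι '' (C₀ : Set V₀))).map D) = finrank k (C₀.map D₀) := by
  rw [r278d_map_span D₀ D hcomm C₀, r278d_finrank_span hι']

lemma r278d_finrank_inf_ker {ι : V₀ →ₛₗ[algebraMap k K] V} {ι' : W₀ →ₛₗ[algebraMap k K] W}
    (hι : r278d_RelTransfer ι) (hι' : r278d_RelTransfer ι')
    (D₀ : V₀ →ₗ[k] W₀) (D : V →ₗ[K] W) (hcomm : ∀ x, D (ι x) = ι' (D₀ x)) (C₀ : Submodule k V₀)
    [FiniteDimensional k C₀] :
    finrank K (Submodule.span K (ι '' (C₀ : Set V₀)) ⊓ LinearMap.ker D : Submodule K V) =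
      finrank k (C₀ ⊓ LinearMap.ker D₀ : Submodule k V₀) := by
  have := r278d_finiteDimensional_span ι C₀
  have h1 := r278d_rank_nullity D (Submodule.span K (ι '' (C₀ : Set V₀)))
  have h2 := r278d_rank_nullity D₀ C₀
  rw [r278d_abs_finrank_map hι' D₀ D hcomm C₀, r278d_finrank_span hι] at h1
  omega

end Abstract



open Module




section Concrete

variable {k K : Type} [Field k] [Field K] [Algebra k K] {n : ℕ}

/-- base change of polynomials as a semilinear map -/
noncomputable def r278d_muL (k K : Type) [Field k] [Field K] [Algebra k K] (n : ℕ) :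
    MvPolynomial (Fin n) k →ₛₗ[algebraMap k K] MvPolynomial (Fin n) K where
  toFun := r278d_mu k K n
  map_add' := map_add _
  map_smul' a g := by
    rw [MvPolynomial.smul_eq_C_mul, map_mul, MvPolynomial.map_C, MvPolynomial.smul_eq_C_mul]

@[simp] lemma r278d_muL_apply (g : MvPolynomial (Fin n) k) :
    r278d_muL k K n g = r278d_mu k K n g := rfl

lemma r278d_relTransfer_muL : r278d_RelTransfer (r278d_muL k K n) := by
  intro φ r c v h
  have h1 := congrArg (r278d_Phi φ) h
  rw [map_sum, map_zero] at h1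
  rw [← h1]
  refine Finset.sum_congr rfl fun i _ => ?_
  rw [r278d_muL_apply, MvPolynomial.smul_eq_C_mul, MvPolynomial.smul_eq_C_mul,
    r278d_Phi_C_mul_map]

/-- base change of the quotient ring as a ring homomorphism -/
noncomputable def r278d_quotR (K : Type) [Field K] [Algebra k K]
    (I₀ : Ideal (MvPolynomial (Fin n) k)) :
    (MvPolynomial (Fin n) k ⧸ I₀) →+* (MvPolynomial (Fin n) K ⧸ I₀.map (r278d_mu k K n)) :=
  Ideal.quotientMap (I₀.map (r278d_mu k K n)) (r278d_mu k K n) Ideal.le_comap_map

lemma r278d_quotR_mk (I₀ : Ideal (MvPolynomial (Fin n) k)) (g : MvPolynomial (Fin n) k) :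
    r278d_quotR K I₀ (Ideal.Quotient.mk I₀ g) =
      Ideal.Quotient.mk (I₀.map (r278d_mu k K n)) (r278d_mu k K n g) := by
  unfold r278d_quotR
  rw [Ideal.quotientMap_mk]

/-- base change of the quotient ring as a semilinear map -/
noncomputable def r278d_quotL (I₀ : Ideal (MvPolynomial (Fin n) k)) :
    (MvPolynomial (Fin n) k ⧸ I₀) →ₛₗ[algebraMap k K]
      (MvPolynomial (Fin n) K ⧸ I₀.map (r278d_mu k K n)) where
  toFun := r278d_quotR K I₀
  map_add' := map_add _
  map_smul' a x := by
    obtain ⟨g, rfl⟩ := Ideal.Quotient.mk_surjective x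
    have h1 : a • (Ideal.Quotient.mk I₀ g) = Ideal.Quotient.mk I₀ (C a * g) := by
      rw [← MvPolynomial.smul_eq_C_mul]; rfl
    have h2 : ∀ (b : K) (G : MvPolynomial (Fin n) K),
        b • (Ideal.Quotient.mk (I₀.map (r278d_mu k K n)) G) =
          Ideal.Quotient.mk (I₀.map (r278d_mu k K n)) (C b * G) := by
      intro b G
      rw [← MvPolynomial.smul_eq_C_mul]; rfl
    rw [h1, r278d_quotR_mk, r278d_quotR_mk, map_mul, MvPolynomial.map_C, h2]

lemma r278d_quotL_mk (I₀ : Ideal (MvPolynomial (Fin n) k)) (g : MvPolynomial (Fin n) k) :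
    r278d_quotL (K := K) I₀ (Ideal.Quotient.mk I₀ g) =
      Ideal.Quotient.mk (I₀.map (r278d_mu k K n)) (r278d_mu k K n g) :=
  r278d_quotR_mk I₀ g

lemma r278d_quotL_mul (I₀ : Ideal (MvPolynomial (Fin n) k)) (x y : MvPolynomial (Fin n) k ⧸ I₀) :
    r278d_quotL (K := K) I₀ (x * y) = r278d_quotL (K := K) I₀ x * r278d_quotL (K := K) I₀ y :=
  map_mul (r278d_quotR K I₀) x y

lemma r278d_smul_mk {E : Type} [Field E] (J : Ideal (MvPolynomial (Fin n) E)) (b : E)
    (G : MvPolynomial (Fin n) E) :
    b • (Ideal.Quotient.mk J G) = Ideal.Quotient.mk J (C b * G) := by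
  rw [← MvPolynomial.smul_eq_C_mul]; rfl

lemma r278d_relTransfer_quotL (I₀ : Ideal (MvPolynomial (Fin n) k)) :
    r278d_RelTransfer (r278d_quotL (K := K) I₀) := by
  intro φ r c v h
  choose g hg using fun i => Ideal.Quotient.mk_surjective (v i)
  have h1 : Ideal.Quotient.mk (I₀.map (r278d_mu k K n)) (∑ i, C (c i) * r278d_mu k K n (g i)) = 0 := by
    rw [map_sum, ← h]
    refine Finset.sum_congr rfl fun i _ => ?_
    rw [← hg i, r278d_quotL_mk, r278d_smul_mk]
  rw [Ideal.Quotient.eq_zero_iff_mem] at h1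
  have h2 := r278d_Phi_mem φ I₀ h1
  rw [map_sum] at h2
  have h3 : Ideal.Quotient.mk I₀ (∑ i, C (φ (c i)) * g i) = 0 := by
    rw [Ideal.Quotient.eq_zero_iff_mem]
    convert h2 using 1
    refine Finset.sum_congr rfl fun i _ => ?_
    rw [r278d_Phi_C_mul_map]
  rw [map_sum] at h3
  rw [← h3]
  refine Finset.sum_congr rfl fun i _ => ?_
  rw [← hg i, r278d_smul_mk]

/-- a semilinear map applied to all components -/
def r278d_piL {V₀ V : Type} [AddCommGroup V₀] [Module k V₀] [AddCommGroup V] [Module K V]
    (A : Type) (ι : V₀ →ₛₗ[algebraMap k K] V) : (A → V₀) →ₛₗ[algebraMap k K] (A → V) where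
  toFun x := fun t => ι (x t)
  map_add' x y := by funext t; simp
  map_smul' a x := by funext t; simp

lemma r278d_relTransfer_piL {V₀ V : Type} [AddCommGroup V₀] [Module k V₀] [AddCommGroup V]
    [Module K V] (A : Type) {ι : V₀ →ₛₗ[algebraMap k K] V} (hι : r278d_RelTransfer ι) :
    r278d_RelTransfer (r278d_piL A ι) := by
  intro φ r c v h
  funext t
  have h1 := congrFun h t
  simp only [Finset.sum_apply, Pi.smul_apply, Pi.zero_apply] at h1 ⊢
  exact hι φ r c (fun i => v i t) h1

end Concrete





section Prelude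

variable {k K : Type} [Field k] [Field K] [Algebra k K] {n : ℕ}

lemma r278d_Phi_isHomogeneous (φ : K →ₗ[k] k) {H : MvPolynomial (Fin n) K} {d : ℕ}
    (hH : H.IsHomogeneous d) : (r278d_Phi φ H).IsHomogeneous d := by
  intro m hm
  apply hH
  intro h0
  apply hm
  rw [r278d_coeff_Phi, h0, map_zero]

instance r278d_finiteDimensional_homogeneousSubmodule (E : Type) [Field E] (n d : ℕ) :
    FiniteDimensional E (homogeneousSubmodule (Fin n) E d) :=
  Module.Finite.iff_fg.mpr (homogeneousSubmodule_fg (Fin n) E d)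

instance r278d_finiteDimensional_degPart {E : Type} [Field E] (I : Ideal (MvPolynomial (Fin n) E))
    (d : ℕ) : FiniteDimensional E (Claims.C0451.degPart I d) :=
  Submodule.finiteDimensional_of_le (inf_le_right : Claims.C0451.degPart I d ≤ _)

/-- the graded pieces of the extended ideal -/
lemma r278d_degPart_map (I₀ : Ideal (MvPolynomial (Fin n) k)) (d : ℕ) :
    Claims.C0451.degPart (I₀.map (r278d_mu k K n)) d =
      Submodule.span K (r278d_muL k K n '' (Claims.C0451.degPart I₀ d : Set _)) := by
  apply le_antisymm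
  · intro H hH
    obtain ⟨hHI, hHd⟩ := hH
    obtain ⟨T, hT⟩ := r278d_decomp (k := k) H
    rw [hT]
    refine Submodule.sum_mem _ fun β _ => ?_
    rw [← MvPolynomial.smul_eq_C_mul]
    refine Submodule.smul_mem _ _ (Submodule.subset_span ⟨_, ⟨?_, ?_⟩, rfl⟩)
    · exact r278d_Phi_mem _ I₀ hHI
    · exact r278d_Phi_isHomogeneous _ hHd
  · rw [Submodule.span_le]
    rintro _ ⟨g, ⟨hgI, hgd⟩, rfl⟩
    exact ⟨Ideal.mem_map_of_mem _ hgI, IsHomogeneous.map hgd _⟩

theorem r278d_finrank_degPart_map (I₀ : Ideal (MvPolynomial (Fin n) k)) (d : ℕ) :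
    finrank K (Claims.C0451.degPart (I₀.map (r278d_mu k K n)) d) =
      finrank k (Claims.C0451.degPart I₀ d) := by
  rw [r278d_degPart_map, r278d_finrank_span r278d_relTransfer_muL]

lemma r278d_homogeneousSubmodule_map (d : ℕ) :
    homogeneousSubmodule (Fin n) K d =
      Submodule.span K (r278d_muL k K n '' (homogeneousSubmodule (Fin n) k d : Set _)) := by
  apply le_antisymm
  · intro H hHd
    obtain ⟨T, hT⟩ := r278d_decomp (k := k) H
    rw [hT]
    refine Submodule.sum_mem _ fun β _ => ?_
    rw [← MvPolynomial.smul_eq_C_mul]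
    exact Submodule.smul_mem _ _ (Submodule.subset_span ⟨_, r278d_Phi_isHomogeneous _ hHd, rfl⟩)
  · rw [Submodule.span_le]
    rintro _ ⟨g, hgd, rfl⟩
    exact IsHomogeneous.map hgd _

instance r278d_finiteDimensional_quotPiece {E : Type} [Field E]
    (I : Ideal (MvPolynomial (Fin n) E)) (e : ℕ) :
    FiniteDimensional E (Claims.C0451.quotPiece I e) := by
  unfold Claims.C0451.quotPiece
  infer_instance

lemma r278d_quotPiece_map (I₀ : Ideal (MvPolynomial (Fin n) k)) (e : ℕ) :
    Claims.C0451.quotPiece (I₀.map (r278d_mu k K n)) e =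
      Submodule.span K (r278d_quotL (K := K) I₀ '' (Claims.C0451.quotPiece I₀ e : Set _)) := by
  unfold Claims.C0451.quotPiece
  rw [r278d_homogeneousSubmodule_map (k := k) (K := K)]
  exact r278d_map_span (ι := r278d_muL k K n) (ι' := r278d_quotL (K := K) I₀)
    (Ideal.Quotient.mkₐ k I₀).toLinearMap
    (Ideal.Quotient.mkₐ K (I₀.map (r278d_mu k K n))).toLinearMap
    (fun x => (r278d_quotL_mk I₀ x).symm) _

/-- products of spans -/
lemma r278d_pi_span {V₀ V A : Type} [AddCommGroup V₀] [Module k V₀] [AddCommGroup V] [Module K V]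
    [Finite A] (ι : V₀ →ₛₗ[algebraMap k K] V) (U₀ : A → Submodule k V₀) :
    Submodule.pi Set.univ (fun t => Submodule.span K (ι '' (U₀ t : Set V₀))) =
      Submodule.span K (r278d_piL A ι '' (Submodule.pi Set.univ U₀ : Set (A → V₀))) := by
  classical
  apply le_antisymm
  · rw [← Submodule.iSup_map_single]
    refine iSup_le fun t => ?_
    rw [Submodule.map_span, Submodule.span_le]
    rintro _ ⟨_, ⟨u, hu, rfl⟩, rfl⟩
    refine Submodule.subset_span ⟨Pi.single t u, ?_, ?_⟩
    · intro s _
      by_cases hs : s = t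
      · subst hs; simpa using hu
      · simp [Pi.single_eq_of_ne hs]
    · funext s
      by_cases hs : s = t
      · subst hs; simp [r278d_piL]
      · simp [r278d_piL, Pi.single_eq_of_ne hs]
  · rw [Submodule.span_le]
    rintro _ ⟨x, hx, rfl⟩
    intro t _
    exact Submodule.subset_span ⟨x t, hx t trivial, rfl⟩

instance r278d_finiteDimensional_pi {E V A : Type} [Field E] [AddCommGroup V] [Module E V]
    [Finite A] (U : A → Submodule E V) [∀ t, FiniteDimensional E (U t)] :
    FiniteDimensional E (Submodule.pi Set.univ U : Submodule E (A → V)) := by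
  classical
  rw [← Submodule.iSup_map_single]
  exact Submodule.finiteDimensional_iSup _

instance r278d_finiteDimensional_koszulChains {E : Type} [Field E]
    (I : Ideal (MvPolynomial (Fin n) E)) (p j : ℕ) :
    FiniteDimensional E (Claims.C0451.koszulChains I p j) := by
  unfold Claims.C0451.koszulChains
  have : ∀ T : Finset (Fin n), FiniteDimensional E
      (if T.card = p ∧ p ≤ j then Claims.C0451.quotPiece I (j - p) else ⊥ :
        Submodule E (MvPolynomial (Fin n) E ⧸ I)) := by
    intro T
    by_cases h : T.card = p ∧ p ≤ j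
    · rw [if_pos h]; infer_instance
    · rw [if_neg h]; infer_instance
  exact r278d_finiteDimensional_pi _

/-- the map between the Koszul complexes -/
noncomputable abbrev r278d_kosL (K : Type) [Field K] [Algebra k K]
    (I₀ : Ideal (MvPolynomial (Fin n) k)) :
    (Finset (Fin n) → MvPolynomial (Fin n) k ⧸ I₀) →ₛₗ[algebraMap k K]
      (Finset (Fin n) → MvPolynomial (Fin n) K ⧸ I₀.map (r278d_mu k K n)) :=
  r278d_piL (Finset (Fin n)) (r278d_quotL (K := K) I₀)

lemma r278d_koszulChains_map (I₀ : Ideal (MvPolynomial (Fin n) k)) (p j : ℕ) :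
    Claims.C0451.koszulChains (I₀.map (r278d_mu k K n)) p j =
      Submodule.span K (r278d_kosL K I₀ '' (Claims.C0451.koszulChains I₀ p j : Set _)) := by
  unfold Claims.C0451.koszulChains
  rw [← r278d_pi_span]
  congr 1
  funext T
  split_ifs
  · exact r278d_quotPiece_map I₀ _
  · simp

lemma r278d_koszulDiff_comm (I₀ : Ideal (MvPolynomial (Fin n) k))
    (x : Finset (Fin n) → MvPolynomial (Fin n) k ⧸ I₀) :
    Claims.C0451.koszulDiff (I₀.map (r278d_mu k K n)) (r278d_kosL K I₀ x) =
      r278d_kosL K I₀ (Claims.C0451.koszulDiff I₀ x) := by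
  funext U
  simp only [Claims.C0451.koszulDiff, LinearMap.pi_apply, LinearMap.sum_apply,
    LinearMap.smul_apply, LinearMap.comp_apply, LinearMap.proj_apply, LinearMap.mulLeft_apply]
  show _ = r278d_quotL (K := K) I₀ _
  simp only [LinearMap.pi_apply, LinearMap.sum_apply,
    LinearMap.smul_apply, LinearMap.comp_apply, LinearMap.proj_apply, LinearMap.mulLeft_apply]
  rw [map_sum]
  refine Finset.sum_congr rfl fun i _ => ?_
  rw [map_smulₛₗ, r278d_quotL_mul, r278d_quotL_mk, MvPolynomial.map_X, map_pow, map_neg, map_one]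
  rfl

/-- **the graded Betti numbers do not change under an extension of the field** -/
theorem r278d_gradedBetti_map (I₀ : Ideal (MvPolynomial (Fin n) k)) (p j : ℕ) :
    Claims.C0451.gradedBetti (I₀.map (r278d_mu k K n)) p j = Claims.C0451.gradedBetti I₀ p j := by
  have hT : r278d_RelTransfer (r278d_kosL K I₀) :=
    r278d_relTransfer_piL _ (r278d_relTransfer_quotL I₀)
  unfold Claims.C0451.gradedBetti
  rw [r278d_koszulChains_map, r278d_koszulChains_map,
    r278d_finrank_inf_ker hT hT _ _ (r278d_koszulDiff_comm I₀),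
    r278d_abs_finrank_map hT _ _ (r278d_koszulDiff_comm I₀)]

end Prelude





section Regular

variable {k K : Type} [Field k] [Field K] [Algebra k K] {n : ℕ}

lemma r278d_Phi_homogeneousComponent (φ : K →ₗ[k] k) (H : MvPolynomial (Fin n) K) (d : ℕ) :
    r278d_Phi φ (homogeneousComponent d H) = homogeneousComponent d (r278d_Phi φ H) := by
  ext m
  rw [r278d_coeff_Phi, coeff_homogeneousComponent, coeff_homogeneousComponent, r278d_coeff_Phi]
  split_ifs <;> simp

lemma r278d_map_homogeneousComponent (g : MvPolynomial (Fin n) k) (d : ℕ) :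
    r278d_mu k K n (homogeneousComponent d g) = homogeneousComponent d (r278d_mu k K n g) := by
  ext m
  rw [coeff_map, coeff_homogeneousComponent, coeff_homogeneousComponent, coeff_map]
  split_ifs <;> simp

/-- homogeneity goes up -/
lemma r278d_isHomogeneousIdeal_map {I₀ : Ideal (MvPolynomial (Fin n) k)}
    (h : Claims.C0451.IsHomogeneousIdeal I₀) :
    Claims.C0451.IsHomogeneousIdeal (I₀.map (r278d_mu k K n)) := by
  intro H hH d
  rw [r278d_mem_map_iff]
  intro φ
  rw [r278d_Phi_homogeneousComponent]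
  exact h _ (r278d_Phi_mem φ I₀ hH) d

/-- homogeneity goes down -/
lemma r278d_isHomogeneousIdeal_of_map {I₀ : Ideal (MvPolynomial (Fin n) k)}
    (h : Claims.C0451.IsHomogeneousIdeal (I₀.map (r278d_mu k K n))) :
    Claims.C0451.IsHomogeneousIdeal I₀ := by
  intro g hg d
  apply r278d_mem_of_map_mem (K := K)
  rw [r278d_map_homogeneousComponent]
  exact h _ (Ideal.mem_map_of_mem _ hg) d

/-- a nonzerodivisor modulo `I₀` stays one modulo the extended ideal -/
lemma r278d_regular_up (I₀ : Ideal (MvPolynomial (Fin n) k)) (f : MvPolynomial (Fin n) k)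
    (h : ∀ x, f * x ∈ I₀ → x ∈ I₀) (H : MvPolynomial (Fin n) K)
    (hH : r278d_mu k K n f * H ∈ I₀.map (r278d_mu k K n)) : H ∈ I₀.map (r278d_mu k K n) := by
  rw [r278d_mem_map_iff]
  intro φ
  apply h
  have := r278d_Phi_mem φ I₀ hH
  rwa [mul_comm, r278d_Phi_mul_map, mul_comm] at this

lemma r278d_regular_down (I₀ : Ideal (MvPolynomial (Fin n) k)) (f : MvPolynomial (Fin n) k)
    (h : ∀ H, r278d_mu k K n f * H ∈ I₀.map (r278d_mu k K n) → H ∈ I₀.map (r278d_mu k K n))
    (x : MvPolynomial (Fin n) k) (hx : f * x ∈ I₀) : x ∈ I₀ := by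
  apply r278d_mem_of_map_mem (K := K)
  apply h
  rw [← map_mul]
  exact Ideal.mem_map_of_mem _ hx

/-- regular sequences of a commutative ring in elementary words -/
lemma r278d_isRegular_iff {R : Type} [CommRing R] (rs : List R) :
    RingTheory.Sequence.IsRegular R rs ↔
      (∀ i (h : i < rs.length), ∀ x : R, rs[i] * x ∈ Ideal.ofList (rs.take i) →
        x ∈ Ideal.ofList (rs.take i)) ∧ Ideal.ofList rs ≠ ⊤ := by
  rw [RingTheory.Sequence.isRegular_iff, RingTheory.Sequence.isWeaklyRegular_iff]
  simp only [isSMulRegular_quotient_iff_mem_of_smul_mem, smul_eq_mul, Ideal.mul_top, ne_eq]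
  constructor
  · rintro ⟨h1, h2⟩
    exact ⟨h1, fun h => h2 h.symm⟩
  · rintro ⟨h1, h2⟩
    exact ⟨h1, fun h => h2 h.symm⟩

theorem r278d_isRegular_map_iff (rs : List (MvPolynomial (Fin n) k)) :
    RingTheory.Sequence.IsRegular (MvPolynomial (Fin n) K) (rs.map (r278d_mu k K n)) ↔
      RingTheory.Sequence.IsRegular (MvPolynomial (Fin n) k) rs := by
  rw [r278d_isRegular_iff, r278d_isRegular_iff]
  have htake : ∀ i, Ideal.ofList ((rs.map (r278d_mu k K n)).take i) =
      (Ideal.ofList (rs.take i)).map (r278d_mu k K n) := by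
    intro i
    rw [Ideal.map_ofList, List.map_take]
  have htop : Ideal.ofList (rs.map (r278d_mu k K n)) = ⊤ ↔ Ideal.ofList rs = ⊤ := by
    rw [← Ideal.map_ofList]
    constructor
    · intro h
      rw [Ideal.eq_top_iff_one]
      apply r278d_mem_of_map_mem (K := K)
      rw [h]; trivial
    · intro h
      rw [h, Ideal.map_top]
  constructor
  · rintro ⟨h1, h2⟩
    refine ⟨fun i hi x hx => ?_, fun h => h2 (htop.mpr h)⟩
    refine r278d_regular_down (K := K) _ (rs[i]) (fun H hH => ?_) x hx
    have := h1 i (by simpa using hi) H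
    rw [htake, List.getElem_map] at this
    exact this hH
  · rintro ⟨h1, h2⟩
    refine ⟨fun i hi H hH => ?_, fun h => h2 (htop.mp h)⟩
    have hi' : i < rs.length := by simpa using hi
    rw [htake, List.getElem_map] at hH
    rw [htake]
    exact r278d_regular_up _ (rs[i]) (h1 i hi') H hH

end Regular

/-! ## The four base change leaves, for a ring homomorphism -/

section Leaves

open Claims.C0451

theorem r278d_betti_map {F E : Type} [Field F] [Field E] (φ : F →+* E) {n : ℕ}
    (K : Ideal (MvPolynomial (Fin n) F)) (p j : ℕ) :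
    gradedBetti (K.map (MvPolynomial.map φ)) p j = gradedBetti K p j := by
  let _ := φ.toAlgebra
  exact r278d_gradedBetti_map (k := F) (K := E) K p j

theorem r278d_finrank_map {F E : Type} [Field F] [Field E] (φ : F →+* E) {n : ℕ}
    (K : Ideal (MvPolynomial (Fin n) F)) (d : ℕ) :
    Module.finrank E (degPart (K.map (MvPolynomial.map φ)) d) = Module.finrank F (degPart K d) := by
  let _ := φ.toAlgebra
  exact r278d_finrank_degPart_map (k := F) (K := E) K d

theorem r278d_homog_map {F E : Type} [Field F] [Field E] (φ : F →+* E) {n : ℕ}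
    (K : Ideal (MvPolynomial (Fin n) F)) (hK : IsHomogeneousIdeal K) :
    IsHomogeneousIdeal (K.map (MvPolynomial.map φ)) := by
  let _ := φ.toAlgebra
  exact r278d_isHomogeneousIdeal_map (k := F) (K := E) hK

theorem r278d_homog_of_map {F E : Type} [Field F] [Field E] (φ : F →+* E) {n : ℕ}
    (K : Ideal (MvPolynomial (Fin n) F)) (hK : IsHomogeneousIdeal (K.map (MvPolynomial.map φ))) :
    IsHomogeneousIdeal K := by
  let _ := φ.toAlgebra
  exact r278d_isHomogeneousIdeal_of_map (k := F) (K := E) hK

theorem r278d_regular_map_iff {F E : Type} [Field F] [Field E] (φ : F →+* E) {n c : ℕ}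
    (f : Fin c → MvPolynomial (Fin n) F) :
    RingTheory.Sequence.IsRegular (MvPolynomial (Fin n) E)
      (List.ofFn fun i => MvPolynomial.map φ (f i)) ↔
    RingTheory.Sequence.IsRegular (MvPolynomial (Fin n) F) (List.ofFn f) := by
  let _ := φ.toAlgebra
  have h := r278d_isRegular_map_iff (k := F) (K := E) (List.ofFn f)
  rw [List.map_ofFn] at h
  exact h

theorem r278d_regular_map {F E : Type} [Field F] [Field E] (φ : F →+* E) {n c : ℕ}
    (f : Fin c → MvPolynomial (Fin n) F)
    (hreg : RingTheory.Sequence.IsRegular (MvPolynomial (Fin n) F) (List.ofFn f)) :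
    RingTheory.Sequence.IsRegular (MvPolynomial (Fin n) E)
      (List.ofFn fun i => MvPolynomial.map φ (f i)) :=
  (r278d_regular_map_iff φ f).mpr hreg

end Leaves


end Claimed.Agent.R278
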