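-- KEEP
/-
Row 278 (S0522, S0523), post P5, leaf EXTENSION (seat 76, prefix `r278x_`).

A regular sequence `fs` of polynomials without constant term in `n` variables over an infinite
field, of length `< n`, can be prolonged by the `D`-th power of a linear form.
Road: Rees theorem of Mathlib (Ext vanishing), long exact sequence, associated primes,
a vector space over an infinite field is not a finite union of proper subspaces.
-/
import Mathlib

set_option autoImplicit false

namespace Claimed.Agent.R278

open MvPolynomial RingTheory.Sequence CategoryTheory Abelian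

universe u

/-- Ext vanishing goes down along a weakly regular sequence; we only keep `Hom`. -/
theorem r278x_hom_quot {R : Type u} [CommRing R] (N : ModuleCat.{u} R) (rs : List R) :
    ∀ (M : ModuleCat.{u} R), IsWeaklyRegular M rs →
      (∀ i < rs.length + 1, Subsingleton (Ext N M i)) →
      Subsingleton (N →ₗ[R] (M ⧸ (Ideal.ofList rs • ⊤ : Submodule R M))) := by
  induction rs with
  | nil =>
    intro M _ h
    have h1 : Subsingleton (N ⟶ M) := Ext.addEquiv₀.subsingleton_congr.mp (h 0 (by simp))
    have h2 : Subsingleton (N →ₗ[R] M) := ModuleCat.homAddEquiv.symm.subsingleton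
    have hb : (Ideal.ofList ([] : List R) • ⊤ : Submodule R M) = ⊥ := by simp
    let e : (M ⧸ (Ideal.ofList ([] : List R) • ⊤ : Submodule R M)) ≃ₗ[R] M :=
      Submodule.quotEquivOfEqBot _ hb
    refine ⟨fun f g => ?_⟩
    have := Subsingleton.elim (e.toLinearMap ∘ₗ f) (e.toLinearMap ∘ₗ g)
    ext x
    exact e.injective (LinearMap.congr_fun this x)
  | cons r rs ih =>
    intro M hreg h
    rw [isWeaklyRegular_cons_iff] at hreg
    have h' : ∀ i < rs.length + 1,
        Subsingleton (Ext N (ModuleCat.of R (QuotSMulTop r M)) i) := by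
      intro i hi
      have zero1 := AddCommGrpCat.isZero_of_iff_subsingleton.mpr
        (h i (by simp only [List.length_cons]; omega))
      have zero2 := AddCommGrpCat.isZero_of_iff_subsingleton.mpr
        (h (i + 1) (by simp only [List.length_cons]; omega))
      exact AddCommGrpCat.subsingleton_of_isZero <| ShortComplex.Exact.isZero_of_both_zeros
        ((Ext.covariant_sequence_exact₃' N hreg.1.smulShortComplex_shortExact) i (i + 1) rfl)
        (zero1.eq_zero_of_src _) (zero2.eq_zero_of_tgt _)
    have h3 := ih (ModuleCat.of R (QuotSMulTop r M)) hreg.2 h'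
    let e := Submodule.quotOfListConsSMulTopEquivQuotSMulTopInner M r rs
    refine ⟨fun f g => ?_⟩
    have := h3.elim (e.toLinearMap ∘ₗ f) (e.toLinearMap ∘ₗ g)
    ext x
    exact e.injective (LinearMap.congr_fun this x)


/-- A list of polynomials without constant term generates a proper ideal. -/
theorem r278x_top_ne {F : Type} [Field F] {n : ℕ} (rs : List (MvPolynomial (Fin n) F))
    (h0 : ∀ r ∈ rs, constantCoeff r = 0) :
    (⊤ : Submodule (MvPolynomial (Fin n) F) (MvPolynomial (Fin n) F)) ≠ Ideal.ofList rs • ⊤ := by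
  intro h
  have hle : Ideal.ofList rs ≤ RingHom.ker (constantCoeff : MvPolynomial (Fin n) F →+* F) := by
    unfold Ideal.ofList
    rw [Ideal.span_le]
    intro r hr
    exact (RingHom.mem_ker).2 (h0 r hr)
  have h1 : (1 : MvPolynomial (Fin n) F) ∈
      (Ideal.ofList rs • ⊤ : Submodule (MvPolynomial (Fin n) F) (MvPolynomial (Fin n) F)) := by
    rw [← h]; trivial
  rw [smul_eq_mul, Ideal.mul_top] at h1
  have := hle h1
  rw [RingHom.mem_ker] at this
  simp at this

/-- The variables form a regular sequence. -/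
theorem r278x_X_regular (F : Type) [Field F] (n : ℕ) :
    IsRegular (MvPolynomial (Fin n) F)
      (List.ofFn (fun i : Fin n => (X i : MvPolynomial (Fin n) F))) := by
  refine ⟨(isWeaklyRegular_iff _ _).mpr ?_, r278x_top_ne _ ?_⟩
  · intro i hi
    rw [isSMulRegular_quotient_iff_mem_of_smul_mem]
    intro p hp
    rw [smul_eq_mul, Ideal.mul_top] at hp ⊢
    have hin : i < n := by simpa using hi
    have hset : {r | r ∈ (List.ofFn (fun i : Fin n => (X i : MvPolynomial (Fin n) F))).take i}
        = (X : Fin n → MvPolynomial (Fin n) F) '' {j : Fin n | j.val < i} := by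
      ext r
      simp only [Set.mem_ofPred_eq, Set.mem_image, List.mem_take_iff_getElem, List.getElem_ofFn,
        List.length_ofFn]
      constructor
      · rintro ⟨k, hk, rfl⟩
        exact ⟨⟨k, by omega⟩, by simp only; omega, rfl⟩
      · rintro ⟨j, hj, rfl⟩
        exact ⟨j.val, by have := j.isLt; omega, rfl⟩
    unfold Ideal.ofList at hp ⊢
    rw [hset, mem_ideal_span_X_image] at hp ⊢
    intro m hm
    have hm' : m + Finsupp.single (⟨i, hin⟩ : Fin n) 1 ∈
        ((List.ofFn (fun i : Fin n => (X i : MvPolynomial (Fin n) F)))[i] • p).support := by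
      rw [List.getElem_ofFn, smul_eq_mul, mul_comm, mem_support_iff, coeff_mul_X]
      exact mem_support_iff.1 hm
    obtain ⟨j, hj, hj2⟩ := hp _ hm'
    refine ⟨j, hj, ?_⟩
    have hne : (⟨i, hin⟩ : Fin n) ≠ j := by
      intro h; rw [← h] at hj; simp at hj
    simpa [Finsupp.single_apply, hne] using hj2
  · intro r hr
    obtain ⟨i, rfl⟩ := (List.mem_ofFn' _ _).1 hr
    simp


/-- The irrelevant ideal, as the kernel of the constant coefficient. -/
noncomputable def r278x_m (F : Type) [Field F] (n : ℕ) : Ideal (MvPolynomial (Fin n) F) :=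
  RingHom.ker (constantCoeff : MvPolynomial (Fin n) F →+* F)

theorem r278x_m_max (F : Type) [Field F] (n : ℕ) : (r278x_m F n).IsMaximal :=
  RingHom.ker_isMaximal_of_surjective _ (fun a => ⟨C a, by simp⟩)

theorem r278x_m_le {F : Type} [Field F] {n : ℕ} (P : Ideal (MvPolynomial (Fin n) F))
    (h : ∀ i : Fin n, (X i : MvPolynomial (Fin n) F) ∈ P) : r278x_m F n ≤ P := by
  intro p hp
  have hp0 : constantCoeff p = 0 := (RingHom.mem_ker).1 hp
  have h1 : p ∈ Ideal.span ((X : Fin n → MvPolynomial (Fin n) F) '' Set.univ) := by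
    rw [mem_ideal_span_X_image]
    intro m hm
    by_contra hcon
    push Not at hcon
    have hm0 : m = 0 := by
      ext i
      simpa using hcon i (Set.mem_univ i)
    rw [hm0, mem_support_iff] at hm
    exact hm (by simpa [constantCoeff_eq] using hp0)
  refine (Ideal.span_le.2 ?_) h1
  rintro _ ⟨i, _, rfl⟩
  exact h i

/-- `Hom(S/m, S/(fs)) = 0` for a regular sequence of length `< n` in `n` variables. -/
theorem r278x_hom_zero {F : Type} [Field F] {n : ℕ} (fs : List (MvPolynomial (Fin n) F))
    (hreg : IsWeaklyRegular (MvPolynomial (Fin n) F) fs) (hlen : fs.length < n) :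
    Subsingleton ((MvPolynomial (Fin n) F ⧸ r278x_m F n) →ₗ[MvPolynomial (Fin n) F]
      (MvPolynomial (Fin n) F ⧸ (Ideal.ofList fs • ⊤ :
        Submodule (MvPolynomial (Fin n) F) (MvPolynomial (Fin n) F)))) := by
  have hX := r278x_X_regular F n
  have hsupp : Module.support (MvPolynomial (Fin n) F) (MvPolynomial (Fin n) F ⧸ r278x_m F n) ⊆
      PrimeSpectrum.zeroLocus (r278x_m F n) := by
    rw [Module.support_eq_zeroLocus, Ideal.annihilator_quotient]
  have hlt : r278x_m F n • (⊤ : Submodule (MvPolynomial (Fin n) F) (MvPolynomial (Fin n) F)) < ⊤ := by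
    rw [smul_eq_mul, Ideal.mul_top]
    exact lt_top_iff_ne_top.2 (r278x_m_max F n).ne_top
  have hext := ModuleCat.subsingleton_ext_of_exists_isRegular (r278x_m F n)
    (ModuleCat.of (MvPolynomial (Fin n) F) (MvPolynomial (Fin n) F ⧸ r278x_m F n)) hsupp
    (ModuleCat.of (MvPolynomial (Fin n) F) (MvPolynomial (Fin n) F)) hlt
    (List.ofFn (fun i : Fin n => (X i : MvPolynomial (Fin n) F)))
    (by
      intro r hr
      obtain ⟨i, rfl⟩ := (List.mem_ofFn' _ _).1 hr
      simp [r278x_m, RingHom.mem_ker]) hX
  exact r278x_hom_quot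
    (ModuleCat.of (MvPolynomial (Fin n) F) (MvPolynomial (Fin n) F ⧸ r278x_m F n)) fs
    (ModuleCat.of (MvPolynomial (Fin n) F) (MvPolynomial (Fin n) F)) hreg
    (fun i hi => hext i (by simp only [List.length_ofFn]; omega))

/-- The irrelevant ideal is not associated to `S/(fs)`. -/
theorem r278x_m_not_ass {F : Type} [Field F] {n : ℕ} (fs : List (MvPolynomial (Fin n) F))
    (hreg : IsWeaklyRegular (MvPolynomial (Fin n) F) fs) (hlen : fs.length < n) :
    r278x_m F n ∉ associatedPrimes (MvPolynomial (Fin n) F)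
      (MvPolynomial (Fin n) F ⧸ (Ideal.ofList fs • ⊤ :
        Submodule (MvPolynomial (Fin n) F) (MvPolynomial (Fin n) F))) := by
  intro hass
  have hsub := r278x_hom_zero fs hreg hlen
  obtain ⟨hprime, x, hx⟩ := isAssociatedPrime_iff.mp (AssociatedPrimes.mem_iff.mp hass)
  have hker : r278x_m F n = LinearMap.ker (LinearMap.toSpanSingleton (MvPolynomial (Fin n) F) _ x) := by
    rw [hx]
    ext r
    simp [Submodule.mem_colon_singleton]
  let g := Submodule.liftQ (r278x_m F n) (LinearMap.toSpanSingleton (MvPolynomial (Fin n) F) _ x)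
    (le_of_eq hker)
  have hg : g = 0 := hsub.elim _ _
  have h1 : g (Submodule.Quotient.mk 1) = x := by
    change (Submodule.liftQ _ _ _) (Submodule.Quotient.mk 1) = x
    rw [Submodule.liftQ_apply, LinearMap.toSpanSingleton_apply, one_smul]
  have hx0 : x = 0 := by rw [← h1, hg]; rfl
  have : (1 : MvPolynomial (Fin n) F) ∈ r278x_m F n := by
    rw [hker]; simp [hx0]
  exact (r278x_m_max F n).ne_top ((Ideal.eq_top_iff_one _).2 this)


/-- A linear form which is regular on `S/(fs)`. -/
theorem r278x_exists_linear {F : Type} [Field F] [Infinite F] {n : ℕ}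
    (fs : List (MvPolynomial (Fin n) F))
    (hreg : IsWeaklyRegular (MvPolynomial (Fin n) F) fs) (hlen : fs.length < n) :
    ∃ l ∈ homogeneousSubmodule (Fin n) F 1,
      IsSMulRegular (MvPolynomial (Fin n) F ⧸ (Ideal.ofList fs • ⊤ :
        Submodule (MvPolynomial (Fin n) F) (MvPolynomial (Fin n) F))) l := by
  classical
  set M' := MvPolynomial (Fin n) F ⧸ (Ideal.ofList fs • ⊤ :
        Submodule (MvPolynomial (Fin n) F) (MvPolynomial (Fin n) F)) with hM'
  have hfin : (associatedPrimes (MvPolynomial (Fin n) F) M').Finite :=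
    associatedPrimes.finite _ _
  let φ : (Fin n → F) →ₗ[F] MvPolynomial (Fin n) F :=
    Fintype.linearCombination F (fun i : Fin n => (X i : MvPolynomial (Fin n) F))
  let W : Ideal (MvPolynomial (Fin n) F) → Subspace F (Fin n → F) :=
    fun P => (P.restrictScalars F).comap φ
  let s : Finset (Subspace F (Fin n → F)) := hfin.toFinset.image W
  have hs : ⊤ ∉ s := by
    intro htop
    obtain ⟨P, hP, hW⟩ := Finset.mem_image.1 htop
    have hP' : P ∈ associatedPrimes (MvPolynomial (Fin n) F) M' := hfin.mem_toFinset.1 hP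
    have hX : ∀ i : Fin n, (X i : MvPolynomial (Fin n) F) ∈ P := by
      intro i
      have h1 : (Pi.single i 1 : Fin n → F) ∈ W P := by rw [hW]; trivial
      have h2 : φ (Pi.single i 1) ∈ P := h1
      simpa [φ, Fintype.linearCombination_apply_single] using h2
    have hle := r278x_m_le P hX
    have hPprime : P.IsPrime := (AssociatedPrimes.mem_iff.mp hP').isPrime
    have hEq : r278x_m F n = P := (r278x_m_max F n).eq_of_le hPprime.ne_top hle
    exact r278x_m_not_ass fs hreg hlen (hEq ▸ hP')
  have hne := Subspace.biUnion_ne_univ_of_top_notMem hs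
  obtain ⟨v, hv⟩ : ∃ v : Fin n → F, v ∉ ⋃ p ∈ s, (p : Set (Fin n → F)) := by
    by_contra hcon
    push Not at hcon
    exact hne (Set.eq_univ_of_forall hcon)
  refine ⟨φ v, ?_, ?_⟩
  · simp only [φ, Fintype.linearCombination_apply]
    exact Submodule.sum_mem _ (fun i _ => Submodule.smul_mem _ _ (isHomogeneous_X F i))
  · have hU := biUnion_associatedPrimes_eq_compl_regular (MvPolynomial (Fin n) F) M'
    by_contra hnr
    have hmem : φ v ∈ ⋃ p ∈ associatedPrimes (MvPolynomial (Fin n) F) M',
        (p : Set (MvPolynomial (Fin n) F)) := by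
      rw [hU]; exact hnr
    simp only [Set.mem_iUnion] at hmem
    obtain ⟨P, hP, hvP⟩ := hmem
    apply hv
    simp only [Set.mem_iUnion]
    exact ⟨W P, Finset.mem_image.2 ⟨P, hfin.mem_toFinset.2 hP, rfl⟩, hvP⟩

/-- **EXTENSION, one step.** -/
theorem r278x_extend {F : Type} [Field F] [Infinite F] {n : ℕ}
    (fs : List (MvPolynomial (Fin n) F)) (h0 : ∀ f ∈ fs, constantCoeff f = 0)
    (hreg : IsRegular (MvPolynomial (Fin n) F) fs) (hlen : fs.length < n)
    (D : ℕ) (hD : 1 ≤ D) :
    ∃ l ∈ homogeneousSubmodule (Fin n) F 1,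
      IsRegular (MvPolynomial (Fin n) F) (fs ++ [l ^ D]) := by
  obtain ⟨l, hl, hlr⟩ := r278x_exists_linear fs hreg.toIsWeaklyRegular hlen
  refine ⟨l, hl, ⟨?_, r278x_top_ne _ ?_⟩⟩
  · rw [isWeaklyRegular_append_iff, isWeaklyRegular_singleton_iff]
    exact ⟨hreg.toIsWeaklyRegular, hlr.pow D⟩
  · intro r hr
    rcases List.mem_append.1 hr with h | h
    · exact h0 r h
    · rw [List.mem_singleton] at h
      have hl0 : constantCoeff l = 0 := by
        rw [constantCoeff_eq]
        exact IsHomogeneous.coeff_eq_zero hl (by simp)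
      rw [h, map_pow, hl0, zero_pow (by omega)]


/-- Iterated extension, `k` new members. -/
theorem r278x_extend_k {F : Type} [Field F] [Infinite F] {n c : ℕ}
    (f : Fin c → MvPolynomial (Fin n) F) (h0 : ∀ i, constantCoeff (f i) = 0)
    (hreg : IsRegular (MvPolynomial (Fin n) F) (List.ofFn f)) (D : ℕ) (hD : 1 ≤ D) :
    ∀ k : ℕ, c + k ≤ n → ∃ g : Fin (c + k) → MvPolynomial (Fin n) F,
      (∀ i : Fin c, g (Fin.castLE (Nat.le_add_right c k) i) = f i) ∧
      (∀ j : Fin (c + k), c ≤ j.val → ∃ l ∈ homogeneousSubmodule (Fin n) F 1, g j = l ^ D) ∧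
      (∀ j, constantCoeff (g j) = 0) ∧
      IsRegular (MvPolynomial (Fin n) F) (List.ofFn g) := by
  intro k
  induction k with
  | zero =>
    intro _
    refine ⟨f, fun i => rfl, fun j hj => absurd j.isLt (by simp only [Nat.add_zero]; omega),
      h0, hreg⟩
  | succ k ih =>
    intro hk
    obtain ⟨g, hg1, hg2, hg3, hg4⟩ := ih (by omega)
    obtain ⟨l, hl, hlr⟩ := r278x_extend (List.ofFn g)
      (by
        intro r hr
        obtain ⟨i, rfl⟩ := (List.mem_ofFn' _ _).1 hr
        exact hg3 i) hg4 (by simp only [List.length_ofFn]; omega) D hD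
    have hl0 : constantCoeff (l ^ D) = 0 := by
      have : constantCoeff l = 0 := by
        rw [constantCoeff_eq]
        exact IsHomogeneous.coeff_eq_zero hl (by simp)
      rw [map_pow, this, zero_pow (by omega)]
    refine ⟨Fin.snoc (α := fun _ => MvPolynomial (Fin n) F) g (l ^ D), ?_, ?_, ?_, ?_⟩
    · intro i
      have : (Fin.castLE (Nat.le_add_right c (k + 1)) i : Fin (c + k + 1)) =
          Fin.castSucc (Fin.castLE (Nat.le_add_right c k) i) := rfl
      rw [this, Fin.snoc_castSucc]
      exact hg1 i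
    · intro j hj
      induction j using Fin.lastCases with
      | last => exact ⟨l, hl, by rw [Fin.snoc_last]⟩
      | cast j =>
        rw [Fin.snoc_castSucc]
        exact hg2 j (by simpa using hj)
    · intro j
      induction j using Fin.lastCases with
      | last => rw [Fin.snoc_last]; exact hl0
      | cast j => rw [Fin.snoc_castSucc]; exact hg3 j
    · have : List.ofFn (Fin.snoc (α := fun _ => MvPolynomial (Fin n) F) g (l ^ D)) =
          List.ofFn g ++ [l ^ D] := by
        rw [List.ofFn_succ', List.concat_eq_append]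
        simp only [Fin.snoc_castSucc, Fin.snoc_last]
      rw [this]
      exact hlr

/-- **EXTENSION, full form.**  A regular sequence `f : Fin c → S` (`c ≤ n`, no constant terms) is
the beginning of a regular sequence `f' : Fin n → S` whose new members are `D`-th powers of linear
forms. -/
theorem r278x_full {F : Type} [Field F] [Infinite F] {n c : ℕ} (hc : c ≤ n)
    (f : Fin c → MvPolynomial (Fin n) F) (h0 : ∀ i, constantCoeff (f i) = 0)
    (hreg : IsRegular (MvPolynomial (Fin n) F) (List.ofFn f)) (D : ℕ) (hD : 1 ≤ D) :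
    ∃ f' : Fin n → MvPolynomial (Fin n) F,
      (∀ i : Fin c, f' (Fin.castLE hc i) = f i) ∧
      (∀ j : Fin n, c ≤ j.val → ∃ l ∈ homogeneousSubmodule (Fin n) F 1, f' j = l ^ D) ∧
      (∀ j : Fin n, c ≤ j.val → f' j ∈ homogeneousSubmodule (Fin n) F D) ∧
      IsRegular (MvPolynomial (Fin n) F) (List.ofFn f') := by
  obtain ⟨k, rfl⟩ := Nat.exists_eq_add_of_le hc
  obtain ⟨g, hg1, hg2, _, hg4⟩ := r278x_extend_k f h0 hreg D hD k le_rfl
  refine ⟨g, hg1, hg2, ?_, hg4⟩
  intro j hj
  obtain ⟨l, hl, hgl⟩ := hg2 j hj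
  rw [hgl]
  have := IsHomogeneous.pow (show IsHomogeneous l 1 from hl) D
  simpa using this

end Claimed.Agent.R278
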