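-- KEEP
/-
Row 278 (S0522 EGH, S0523 LPP Betti), post P5: from `c < n` to the Artinian case `c = n`
by TRUNCATION.  Pen helper26, prefix `egh26_`.

For a cut-off degree `N` prolong the regular sequence `f_1 .. f_c` by `N`-th powers of linear forms
to a full regular sequence, put `I' = I + (the new forms)`, `a' = (a, N, .., N)`.
All the objects of `Claims.C0450` / `Claims.C0451` agree below degree `N`.

* `egh26_ext`                : the prolonged degree sequence;
* `egh26_add_forms`          : `I ⊔ span s` is homogeneous and agrees with `I` below `N`   (T2);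
* `egh26_lppSet_trunc`       : the lex-plus-powers sets agree below `N`                    (T3);
* `egh26_extend`             : the prolonged regular sequence as a family `Fin n → _`      (X);
* `egh26_coreA_of_artinian`  : contract A (`EgCoreA`) for `c ≤ n` from the Artinian case;
* `egh26_reduce`             : `hub278_reduce` of `R278/Hub`, verbatim (truncation + base change);
* `egh26_bt_extend`, `egh26_bt_add_forms`, `egh26_bt_lppSet_trunc` : the leaves X, T2, T3 of
  `R278/Betti66`, verbatim.
-/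
import Claimed.Agent.R278.EgRoof
import Claimed.Agent.R278.Ext76
import Claimed.Agent.R278.Descent236
import Claimed.Agent.R278.BettiVoc66
import Claimed.Prelude.Def_0451

set_option autoImplicit false
open MvPolynomial

namespace Claimed.Agent.R278

/-! ## 0. bridges between the two copies of the definitions -/

section bridge
variable {F : Type} [Field F] {n c : ℕ}

theorem egh26_inPowers_eq (hc : c ≤ n) (a : Fin c → ℕ) (m : Fin n → ℕ) :
    Claims.C0451.inPowers hc a m = Claims.C0450.inPowers hc a m := rfl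
theorem egh26_lexGt_eq (m' m : Fin n → ℕ) :
    Claims.C0451.lexGt m' m = Claims.C0450.lexGt m' m := rfl
theorem egh26_nonPower_eq (hc : c ≤ n) (a : Fin c → ℕ) (d : ℕ) :
    Claims.C0451.nonPowerMonomials hc a d = Claims.C0450.nonPowerMonomials hc a d := rfl
theorem egh26_degPart_eq (I : Ideal (MvPolynomial (Fin n) F)) (d : ℕ) :
    Claims.C0451.degPart I d = Claims.C0450.degPart I d := rfl
theorem egh26_qDim_eq (hc : c ≤ n) (a : Fin c → ℕ) (I : Ideal (MvPolynomial (Fin n) F)) (d : ℕ) :
    Claims.C0451.qDim hc a I d = Claims.C0450.qDim hc a I d := rfl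
theorem egh26_lexSegment_eq (hc : c ≤ n) (a : Fin c → ℕ) (I : Ideal (MvPolynomial (Fin n) F))
    (d : ℕ) : Claims.C0451.lexSegment hc a I d = Claims.C0450.lexSegment hc a I d := rfl
theorem egh26_lppMonomials_eq (hc : c ≤ n) (a : Fin c → ℕ) (I : Ideal (MvPolynomial (Fin n) F)) :
    Claims.C0451.lppMonomials hc a I = Claims.C0450.lppMonomials hc a I := rfl
theorem egh26_isHom_iff (I : Ideal (MvPolynomial (Fin n) F)) :
    Claims.C0451.IsHomogeneousIdeal I ↔ Claims.C0450.IsHomogeneousIdeal I := Iff.rfl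

end bridge

open Claims.C0450

/-! ## 1. the prolonged degree sequence -/

/-- The degree sequence `a` prolonged by the constant `N`. -/
def egh26_ext {n c : ℕ} (a : Fin c → ℕ) (N : ℕ) : Fin n → ℕ :=
  fun i => if h : i.val < c then a ⟨i.val, h⟩ else N

theorem egh26_ext_castLE {n c : ℕ} (hc : c ≤ n) (a : Fin c → ℕ) (N : ℕ) (i : Fin c) :
    egh26_ext (n := n) a N (Fin.castLE hc i) = a i := by
  simp [egh26_ext]

theorem egh26_ext_of_le {n c : ℕ} (a : Fin c → ℕ) (N : ℕ) (i : Fin n) (h : c ≤ i.val) :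
    egh26_ext a N i = N := by
  simp [egh26_ext, Nat.not_lt.mpr h]

theorem egh26_ext_two_le {n c : ℕ} (a : Fin c → ℕ) (N : ℕ) (ha : ∀ i, 2 ≤ a i) (hN : 2 ≤ N)
    (i : Fin n) : 2 ≤ egh26_ext a N i := by
  unfold egh26_ext
  split_ifs with h
  · exact ha _
  · exact hN

theorem egh26_ext_mono {n c : ℕ} (a : Fin c → ℕ) (N : ℕ) (hmono : Monotone a)
    (hN : ∀ i, a i ≤ N) : Monotone (egh26_ext (n := n) a N) := by
  intro i k hik
  unfold egh26_ext
  have hik' : i.val ≤ k.val := hik
  split_ifs with h1 h2 h2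
  · exact hmono (by simpa using hik')
  · exact hN _
  · omega
  · exact le_rfl

/-! ## 2. adding forms of degree `N` (T2) -/

section addforms
variable {F : Type} [Field F] {n : ℕ}

attribute [local instance] MvPolynomial.gradedAlgebra

theorem egh26_isHom_iff_graded (I : Ideal (MvPolynomial (Fin n) F)) :
    IsHomogeneousIdeal I ↔ I.IsHomogeneous (homogeneousSubmodule (Fin n) F) := by
  constructor
  · intro h d p hp
    have := h p hp d
    rwa [← decomposition.decompose'_apply] at this
  · intro h p hp d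
    exact homogeneousComponent_mem_of_mem h hp d

theorem egh26_degree_of_coeff_ne {N : ℕ} {g : MvPolynomial (Fin n) F}
    (hg : g ∈ homogeneousSubmodule (Fin n) F N) {m : Fin n →₀ ℕ} (h0 : coeff m g ≠ 0) :
    m.degree = N := by
  have := (mem_homogeneousSubmodule N g).mp hg h0
  have h2 : (Finsupp.weight 1) m = m.degree :=
    (DFunLike.congr_fun Finsupp.degree_eq_weight_one m).symm
  rw [h2] at this; exact this

/-- the coefficients of degree `< N` of an element of the ideal of forms of degree `N` vanish -/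
theorem egh26_coeff_span_eq_zero {N : ℕ} (s : Set (MvPolynomial (Fin n) F))
    (hs : ∀ g ∈ s, g ∈ homogeneousSubmodule (Fin n) F N) (v : MvPolynomial (Fin n) F)
    (hv : v ∈ Ideal.span s) : ∀ m : Fin n →₀ ℕ, m.degree < N → coeff m v = 0 := by
  classical
  refine Submodule.span_induction
    (p := fun x _ => ∀ m : Fin n →₀ ℕ, m.degree < N → coeff m x = 0) ?_ ?_ ?_ ?_ hv
  · intro g hg m hm
    by_contra h0
    have := egh26_degree_of_coeff_ne (hs g hg) h0
    omega
  · intro m _; exact coeff_zero m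
  · intro x y _ _ hx hy m hm
    rw [coeff_add, hx m hm, hy m hm, add_zero]
  · intro q x _ hx m hm
    rw [smul_eq_mul, coeff_mul]
    apply Finset.sum_eq_zero
    intro y hy
    rw [Finset.HasAntidiagonal.mem_antidiagonal] at hy
    have h3 : m.degree = y.1.degree + y.2.degree := by
      rw [← hy, map_add]
    rw [hx y.2 (by omega), mul_zero]

theorem egh26_component_span_eq_zero {N d : ℕ} (hd : d < N) (s : Set (MvPolynomial (Fin n) F))
    (hs : ∀ g ∈ s, g ∈ homogeneousSubmodule (Fin n) F N) (v : MvPolynomial (Fin n) F)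
    (hv : v ∈ Ideal.span s) : homogeneousComponent d v = 0 := by
  ext m
  rw [coeff_homogeneousComponent, coeff_zero]
  split_ifs with hm
  · exact egh26_coeff_span_eq_zero s hs v hv m (by omega)
  · rfl

/-- **T2**: adding forms of degree `N` keeps homogeneity and the degrees `< N`. -/
theorem egh26_add_forms (I : Ideal (MvPolynomial (Fin n) F))
    (hI : IsHomogeneousIdeal I) (N : ℕ) (s : Set (MvPolynomial (Fin n) F))
    (hs : ∀ g ∈ s, g ∈ homogeneousSubmodule (Fin n) F N) :
    IsHomogeneousIdeal (I ⊔ Ideal.span s) ∧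
      ∀ d, d < N → degPart (I ⊔ Ideal.span s) d = degPart I d := by
  constructor
  · rw [egh26_isHom_iff_graded] at hI ⊢
    exact hI.sup (Ideal.homogeneous_span _ _ fun g hg => ⟨N, hs g hg⟩)
  · intro d hd
    apply le_antisymm
    · intro p hp
      obtain ⟨hp1, hp2⟩ := hp
      refine ⟨?_, hp2⟩
      have hp1' : p ∈ I ⊔ Ideal.span s := hp1
      obtain ⟨u, hu, v, hv, rfl⟩ := Submodule.mem_sup.mp hp1'
      have h1 : homogeneousComponent d (u + v) = u + v :=
        homogeneousComponent_eq_self ((mem_homogeneousSubmodule d _).mp hp2)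
      rw [map_add, egh26_component_span_eq_zero hd s hs v hv, add_zero] at h1
      show u + v ∈ I
      rw [← h1]
      exact hI u hu d
    · intro p hp
      exact ⟨Ideal.mem_sup_left hp.1, hp.2⟩

end addforms

/-! ## 3. the lex-plus-powers sets agree below `N` (T3) -/

section trunc
variable {F : Type} [Field F] {n c : ℕ}

/-- The exponent set of the lex-plus-powers monomials. -/
noncomputable def egh26_lppSet (hc : c ≤ n) (a : Fin c → ℕ)
    (I : Ideal (MvPolynomial (Fin n) F)) : Set (Fin n → ℕ) :=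
  {m | inPowers hc a m = true ∨ m ∈ lexSegment hc a I (∑ i, m i)}

theorem egh26_lppMonomials (hc : c ≤ n) (a : Fin c → ℕ) (I : Ideal (MvPolynomial (Fin n) F)) :
    lppMonomials hc a I =
      (fun m : Fin n → ℕ => monomial (Finsupp.equivFunOnFinite.symm m) (1 : F)) ''
        egh26_lppSet hc a I := rfl

theorem egh26_inPowers_trunc (hc : c ≤ n) (a : Fin c → ℕ) (N : ℕ) (m : Fin n → ℕ)
    (hm : ∑ i, m i < N) :
    inPowers (le_refl n) (egh26_ext a N) m = inPowers hc a m := by
  unfold inPowers
  rw [decide_eq_decide]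
  constructor
  · rintro ⟨i, hi⟩
    by_cases h : i.val < c
    · refine ⟨⟨i.val, h⟩, ?_⟩
      have h1 : egh26_ext a N i = a ⟨i.val, h⟩ := by simp [egh26_ext, h]
      rw [h1] at hi
      exact hi
    · exfalso
      rw [egh26_ext_of_le a N i (Nat.not_lt.mp h)] at hi
      have h2 : m (Fin.castLE (le_refl n) i) ≤ ∑ j, m j :=
        Finset.single_le_sum (f := m) (fun _ _ => Nat.zero_le _) (Finset.mem_univ _)
      omega
  · rintro ⟨i, hi⟩
    refine ⟨Fin.castLE hc i, ?_⟩
    rw [egh26_ext_castLE]
    exact hi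

theorem egh26_nonPower_trunc (hc : c ≤ n) (a : Fin c → ℕ) (N d : ℕ) (hd : d < N) :
    nonPowerMonomials (le_refl n) (egh26_ext a N) d = nonPowerMonomials hc a d := by
  unfold nonPowerMonomials
  apply Finset.filter_congr
  intro m hm
  rw [Finset.Nat.mem_antidiagonalTuple] at hm
  rw [egh26_inPowers_trunc hc a N m (by omega)]

theorem egh26_qDim_trunc (hc : c ≤ n) (a : Fin c → ℕ) (N : ℕ)
    (I I' : Ideal (MvPolynomial (Fin n) F)) (d : ℕ) (hd : d < N)
    (h : Module.finrank F (degPart I' d) = Module.finrank F (degPart I d)) :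
    qDim (le_refl n) (egh26_ext a N) I' d = qDim hc a I d := by
  unfold qDim
  rw [h]
  congr 3
  apply Finset.filter_congr
  intro m hm
  rw [Finset.Nat.mem_antidiagonalTuple] at hm
  rw [egh26_inPowers_trunc hc a N m (by omega)]

theorem egh26_lexSegment_trunc (hc : c ≤ n) (a : Fin c → ℕ) (N : ℕ)
    (I I' : Ideal (MvPolynomial (Fin n) F)) (d : ℕ) (hd : d < N)
    (h : Module.finrank F (degPart I' d) = Module.finrank F (degPart I d)) :
    lexSegment (le_refl n) (egh26_ext a N) I' d = lexSegment hc a I d := by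
  unfold lexSegment
  rw [egh26_nonPower_trunc hc a N d hd, egh26_qDim_trunc hc a N I I' d hd h]

/-- **T3**: below degree `N` the lex-plus-powers set for `(a, N, …, N)` and an ideal with the
same Hilbert function below `N` is the lex-plus-powers set for `a`. -/
theorem egh26_lppSet_trunc (hc : c ≤ n) (a : Fin c → ℕ) (N : ℕ)
    (I I' : Ideal (MvPolynomial (Fin n) F))
    (h : ∀ d, d < N → Module.finrank F (degPart I' d) = Module.finrank F (degPart I d))
    (m : Fin n → ℕ) (hm : ∑ i, m i < N) :
    m ∈ egh26_lppSet (le_refl n) (egh26_ext a N) I' ↔ m ∈ egh26_lppSet hc a I := by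
  unfold egh26_lppSet
  simp only [Set.mem_ofPred_eq]
  rw [egh26_inPowers_trunc hc a N m hm, egh26_lexSegment_trunc hc a N I I' _ hm (h _ hm)]

end trunc

/-! ## 4. the prolonged regular sequence as a family (X) -/

section extend
variable {F : Type} [Field F]

/-- the one-step extension (exit of `Ext76`): a regular sequence of length `< n` in the irrelevant
ideal is prolonged by any positive power of a suitable linear form -/
def Egh26Step (F : Type) [Field F] (n : ℕ) : Prop :=
  ∀ fs : List (MvPolynomial (Fin n) F), (∀ f ∈ fs, constantCoeff f = 0) →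
    RingTheory.Sequence.IsRegular (MvPolynomial (Fin n) F) fs → fs.length < n →
    ∀ D : ℕ, 1 ≤ D → ∃ l ∈ homogeneousSubmodule (Fin n) F 1,
      RingTheory.Sequence.IsRegular (MvPolynomial (Fin n) F) (fs ++ [l ^ D])

theorem egh26_constantCoeff_of_hom {n d : ℕ} (hd : 1 ≤ d) {p : MvPolynomial (Fin n) F}
    (hp : p ∈ homogeneousSubmodule (Fin n) F d) : constantCoeff p = 0 := by
  rw [constantCoeff_eq]
  by_contra h0
  have := egh26_degree_of_coeff_ne hp h0
  simp at this
  omega

theorem egh26_extend_aux {n c : ℕ} (hstep : Egh26Step F n) (a : Fin c → ℕ) (ha : ∀ i, 1 ≤ a i)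
    (f : Fin c → MvPolynomial (Fin n) F)
    (hfdeg : ∀ i, f i ∈ homogeneousSubmodule (Fin n) F (a i))
    (hreg : RingTheory.Sequence.IsRegular (MvPolynomial (Fin n) F) (List.ofFn f))
    (N : ℕ) (hN : 1 ≤ N) (k : ℕ) (hck : c ≤ k) : k ≤ n →
    ∃ g : Fin k → MvPolynomial (Fin n) F,
      (∀ i : Fin c, g (Fin.castLE hck i) = f i) ∧
      (∀ i, g i ∈ homogeneousSubmodule (Fin n) F (egh26_ext a N i)) ∧
      RingTheory.Sequence.IsRegular (MvPolynomial (Fin n) F) (List.ofFn g) := by
  induction k, hck using Nat.le_induction with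
  | base =>
    intro _
    refine ⟨f, fun i => rfl, fun i => ?_, hreg⟩
    have : egh26_ext a N i = a i := by simp [egh26_ext]
    rw [this]; exact hfdeg i
  | succ k hck ih =>
    intro hk
    obtain ⟨g, hg1, hg2, hg3⟩ := ih (by omega)
    have hpos : ∀ i : Fin k, 1 ≤ egh26_ext a N i := by
      intro i
      unfold egh26_ext
      split_ifs
      · exact ha _
      · exact hN
    obtain ⟨l, hl, hlreg⟩ := hstep (List.ofFn g)
      (by
        intro p hp
        rw [List.mem_ofFn] at hp
        obtain ⟨i, rfl⟩ := hp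
        exact egh26_constantCoeff_of_hom (hpos i) (hg2 i))
      hg3 (by simpa using hk) N hN
    refine ⟨Fin.snoc g (l ^ N), ?_, ?_, ?_⟩
    · intro i
      have : Fin.castLE (Nat.le_succ_of_le hck) i = Fin.castSucc (Fin.castLE hck i) := rfl
      rw [this, Fin.snoc_castSucc]
      exact hg1 i
    · intro i
      refine Fin.lastCases ?_ (fun j => ?_) i
      · rw [Fin.snoc_last, egh26_ext_of_le a N _ (by simpa using hck)]
        have := ((mem_homogeneousSubmodule 1 l).mp hl).pow N
        rw [mem_homogeneousSubmodule]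
        simpa using this
      · rw [Fin.snoc_castSucc]
        exact hg2 j
    · rw [List.ofFn_succ', List.concat_eq_append]
      simpa using hlreg

/-- **X**: a homogeneous regular sequence of length `c ≤ n` is prolonged to a full regular sequence
by forms of any given degree `N ≥ 1`. -/
theorem egh26_extend_of_step {n c : ℕ} (hstep : Egh26Step F n) (hc : c ≤ n) (a : Fin c → ℕ)
    (ha : ∀ i, 1 ≤ a i)
    (f : Fin c → MvPolynomial (Fin n) F)
    (hfdeg : ∀ i, f i ∈ homogeneousSubmodule (Fin n) F (a i))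
    (hreg : RingTheory.Sequence.IsRegular (MvPolynomial (Fin n) F) (List.ofFn f))
    (N : ℕ) (hN : 1 ≤ N) :
    ∃ g : Fin n → MvPolynomial (Fin n) F,
      (∀ i : Fin c, g (Fin.castLE hc i) = f i) ∧
      (∀ i, g i ∈ homogeneousSubmodule (Fin n) F (egh26_ext a N i)) ∧
      RingTheory.Sequence.IsRegular (MvPolynomial (Fin n) F) (List.ofFn g) :=
  egh26_extend_aux hstep a ha f hfdeg hreg N hN n hc le_rfl

end extend

/-! ## 5. contract A for `c ≤ n` from the Artinian case -/

section coreA
variable {F : Type} [Field F] {n c : ℕ}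

/-- if the span of the monomials of `T` is an ideal then `T` is closed under raising an exponent -/
theorem egh26_up_of_ideal (T : Set (Fin n → ℕ)) (J : Ideal (MvPolynomial (Fin n) F))
    (hJ : J.restrictScalars F = Submodule.span F
      ((fun m : Fin n → ℕ => monomial (Finsupp.equivFunOnFinite.symm m) (1 : F)) '' T)) :
    ∀ m ∈ T, ∀ i, Function.update m i (m i + 1) ∈ T := by
  intro m hm i
  have h1 : monomial (Finsupp.equivFunOnFinite.symm m) (1 : F) ∈ J := by
    have : monomial (Finsupp.equivFunOnFinite.symm m) (1 : F) ∈ J.restrictScalars F := by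
      rw [hJ]; exact Submodule.subset_span ⟨m, hm, rfl⟩
    exact this
  have h2 : X i * monomial (Finsupp.equivFunOnFinite.symm m) (1 : F) ∈ J.restrictScalars F :=
    J.mul_mem_left _ h1
  have hX : (X i : MvPolynomial (Fin n) F) * monomial (Finsupp.equivFunOnFinite.symm m) (1 : F) =
      monomial (Finsupp.single i 1 + Finsupp.equivFunOnFinite.symm m) (1 : F) := by
    rw [X, monomial_mul, one_mul]
  rw [hJ, eg_span_eq, hX, monomial_mem_restrictSupport] at h2
  rcases h2 with h2 | h2
  · have h3 : (⇑((Finsupp.single i 1 : Fin n →₀ ℕ) + Finsupp.equivFunOnFinite.symm m) :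
        Fin n → ℕ) = Function.update m i (m i + 1) := by
      funext j
      by_cases hj : j = i
      · subst hj; simp [add_comm]
      · simp [Function.update_of_ne hj, Ne.symm hj]
    rw [← h3]; exact h2
  · exact absurd h2 one_ne_zero

open Classical in
/-- **P5**: contract A for `c ≤ n` from the Artinian case (`c = n`, all degree sequences),
Clements--Lindstrom at `c = n` and the one-step extension of regular sequences. -/
theorem egh26_coreA_of_artinian_step (hstep : Egh26Step F n) (hc : c ≤ n)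
    (a : Fin c → ℕ) (ha : ∀ i, 2 ≤ a i) (hmono : Monotone a)
    (I : Ideal (MvPolynomial (Fin n) F)) (hI : IsHomogeneousIdeal I)
    (f : Fin c → MvPolynomial (Fin n) F)
    (hfdeg : ∀ i, f i ∈ homogeneousSubmodule (Fin n) F (a i))
    (hfI : ∀ i, f i ∈ I)
    (hreg : RingTheory.Sequence.IsRegular (MvPolynomial (Fin n) F) (List.ofFn f))
    (hCL : ∀ a' : Fin n → ℕ, Monotone a' → EgCL (le_refl n) a')
    (hArt : ∀ a' : Fin n → ℕ, (∀ i, 2 ≤ a' i) → Monotone a' →
      ∀ I' : Ideal (MvPolynomial (Fin n) F), IsHomogeneousIdeal I' →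
      ∀ f' : Fin n → MvPolynomial (Fin n) F,
        (∀ i, f' i ∈ homogeneousSubmodule (Fin n) F (a' i)) → (∀ i, f' i ∈ I') →
        RingTheory.Sequence.IsRegular (MvPolynomial (Fin n) F) (List.ofFn f') →
        EgCoreA (le_refl n) a' I') :
    EgCoreA hc a I := by
  -- for every cut-off: an ideal `I'` that agrees with `I` below `N` and has an up-closed lpp set
  have key : ∀ N₀ : ℕ, ∃ (N : ℕ) (I' : Ideal (MvPolynomial (Fin n) F)), N₀ ≤ N ∧
      (∀ d, d < N → degPart I' d = degPart I d) ∧
      (∀ m ∈ egh26_lppSet (le_refl n) (egh26_ext a N) I', ∀ i,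
        Function.update m i (m i + 1) ∈ egh26_lppSet (le_refl n) (egh26_ext a N) I') ∧
      (∀ d, Module.finrank F (degPart I' d) = ((Finset.Nat.antidiagonalTuple n d).filter
        (· ∈ egh26_lppSet (le_refl n) (egh26_ext a N) I')).card) := by
    intro N₀
    obtain ⟨N, hN0, hN2, hNa⟩ : ∃ N : ℕ, N₀ ≤ N ∧ 2 ≤ N ∧ ∀ i, a i ≤ N := by
      refine ⟨N₀ + 2 + ∑ i, a i, by omega, by omega, fun i => ?_⟩
      have := Finset.single_le_sum (f := a) (fun _ _ => Nat.zero_le _) (Finset.mem_univ i)
      omega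
    obtain ⟨g, hgf, hgdeg, hgreg⟩ := egh26_extend_of_step hstep hc a
      (fun i => by have := ha i; omega) f hfdeg hreg N (by omega)
    set s : Set (MvPolynomial (Fin n) F) := {q | ∃ i : Fin n, c ≤ i.val ∧ q = g i} with hs
    have hsN : ∀ q ∈ s, q ∈ homogeneousSubmodule (Fin n) F N := by
      rintro q ⟨i, hi, rfl⟩
      have := hgdeg i
      rwa [egh26_ext_of_le a N i hi] at this
    obtain ⟨hI', hdeg⟩ := egh26_add_forms I hI N s hsN
    have hgI' : ∀ i, g i ∈ I ⊔ Ideal.span s := by
      intro i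
      by_cases h : i.val < c
      · have : g i = f ⟨i.val, h⟩ := by
          rw [← hgf ⟨i.val, h⟩]; congr 1
        rw [this]
        exact Ideal.mem_sup_left (hfI _)
      · exact Ideal.mem_sup_right (Ideal.subset_span ⟨i, Nat.not_lt.mp h, rfl⟩)
    have hm' := egh26_ext_mono (n := n) a N hmono hNa
    obtain ⟨_, ⟨J, hJ⟩, h3⟩ := eg_roof (le_refl n) (egh26_ext a N) (I ⊔ Ideal.span s) (hCL _ hm')
      (hArt _ (egh26_ext_two_le a N ha hN2) hm' _ hI' g hgdeg hgI' hgreg)
    refine ⟨N, I ⊔ Ideal.span s, hN0, hdeg, ?_, ?_⟩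
    · rw [egh26_lppMonomials] at hJ
      exact egh26_up_of_ideal _ J hJ
    · intro d
      rw [h3 d, egh26_lppMonomials, eg_finrank_span]
  refine ⟨egh26_lppSet hc a I, ?_, fun m hm => Or.inl hm, ?_⟩
  · intro m hm i
    obtain ⟨N, I', hN, hdeg, hup, _⟩ := key (∑ j, m j + 2)
    have hfr : ∀ d, d < N → Module.finrank F (degPart I' d) = Module.finrank F (degPart I d) :=
      fun d hd => by rw [hdeg d hd]
    have h1 := (egh26_lppSet_trunc hc a N I I' hfr m (by omega)).mpr hm
    have h2 := hup m h1 i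
    exact (egh26_lppSet_trunc hc a N I I' hfr _ (by rw [eg_sum_update]; omega)).mp h2
  · intro d
    obtain ⟨N, I', hN, hdeg, _, hcard⟩ := key (d + 1)
    have hfr : ∀ d, d < N → Module.finrank F (degPart I' d) = Module.finrank F (degPart I d) :=
      fun d hd => by rw [hdeg d hd]
    rw [← hdeg d (by omega), hcard d]
    congr 1
    apply Finset.filter_congr
    intro m hm
    rw [Finset.Nat.mem_antidiagonalTuple] at hm
    exact egh26_lppSet_trunc hc a N I I' hfr m (by omega)

end coreA

/-! ## 6. final forms -/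

section final

theorem egh26_step (F : Type) [Field F] [Infinite F] (n : ℕ) : Egh26Step F n :=
  fun fs h0 hreg hlen D hD => r278x_extend fs h0 hreg hlen D hD

/-- **P5**: contract A for `c ≤ n` from the Artinian case and Clements--Lindstrom at `c = n`. -/
theorem egh26_coreA_of_artinian (F : Type) [Field F] [Infinite F] (n c : ℕ) (hc : c ≤ n)
    (a : Fin c → ℕ) (ha : ∀ i, 2 ≤ a i) (hmono : Monotone a)
    (I : Ideal (MvPolynomial (Fin n) F)) (hI : IsHomogeneousIdeal I)
    (f : Fin c → MvPolynomial (Fin n) F)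
    (hfdeg : ∀ i, f i ∈ homogeneousSubmodule (Fin n) F (a i))
    (hfI : ∀ i, f i ∈ I)
    (hreg : RingTheory.Sequence.IsRegular (MvPolynomial (Fin n) F) (List.ofFn f))
    (hCL : ∀ a' : Fin n → ℕ, Monotone a' → EgCL (le_refl n) a')
    (hArt : ∀ a' : Fin n → ℕ, (∀ i, 2 ≤ a' i) → Monotone a' →
      ∀ I' : Ideal (MvPolynomial (Fin n) F), IsHomogeneousIdeal I' →
      ∀ f' : Fin n → MvPolynomial (Fin n) F,
        (∀ i, f' i ∈ homogeneousSubmodule (Fin n) F (a' i)) → (∀ i, f' i ∈ I') →
        RingTheory.Sequence.IsRegular (MvPolynomial (Fin n) F) (List.ofFn f') →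
        EgCoreA (le_refl n) a' I') :
    EgCoreA hc a I :=
  egh26_coreA_of_artinian_step (egh26_step F n) hc a ha hmono I hI f hfdeg hfI hreg hCL hArt

/-- contract A descends along an extension of the coefficient field -/
theorem egh26_coreA_descend {F E : Type} [Field F] [Field E] (φ : F →+* E) {n c : ℕ} (hc : c ≤ n)
    (a : Fin c → ℕ) (I : Ideal (MvPolynomial (Fin n) F))
    (h : EgCoreA hc a (I.map (MvPolynomial.map φ))) : EgCoreA hc a I := by
  obtain ⟨M, h1, h2, h3⟩ := h
  refine ⟨M, h1, h2, fun d => ?_⟩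
  rw [← h3 d]
  exact (r278d_finrank_map φ I d).symm

/-- **`hub278_reduce`, verbatim**: contract A for `c ≤ n` over any field of characteristic zero from
the Artinian case over algebraically closed fields. -/
theorem egh26_reduce
    (hart : ∀ (E : Type) [Field E] [CharZero E] [IsAlgClosed E] (n : ℕ) (_ : 1 ≤ n)
      (a : Fin n → ℕ) (_ : ∀ i, 2 ≤ a i) (_ : Monotone a)
      (I : Ideal (MvPolynomial (Fin n) E)) (_ : IsHomogeneousIdeal I)
      (f : Fin n → MvPolynomial (Fin n) E)
      (_ : ∀ i, f i ∈ homogeneousSubmodule (Fin n) E (a i)) (_ : ∀ i, f i ∈ I)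
      (_ : RingTheory.Sequence.IsRegular (MvPolynomial (Fin n) E) (List.ofFn f)),
      EgCoreA (le_refl n) a I)
    (hCL : ∀ (n c : ℕ) (hc : c ≤ n) (a : Fin c → ℕ), Monotone a → EgCL hc a)
    (F : Type) [Field F] [CharZero F] (n c : ℕ) (hc1 : 1 ≤ c) (hc : c ≤ n)
    (a : Fin c → ℕ) (ha : ∀ i, 2 ≤ a i) (hmono : Monotone a)
    (I : Ideal (MvPolynomial (Fin n) F)) (hI : IsHomogeneousIdeal I)
    (f : Fin c → MvPolynomial (Fin n) F) (hfdeg : ∀ i, f i ∈ homogeneousSubmodule (Fin n) F (a i))
    (hfI : ∀ i, f i ∈ I)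
    (hreg : RingTheory.Sequence.IsRegular (MvPolynomial (Fin n) F) (List.ofFn f)) :
    EgCoreA hc a I := by
  refine egh26_coreA_of_artinian F n c hc a ha hmono I hI f hfdeg hfI hreg
    (fun a' h => hCL n n (le_refl n) a' h) ?_
  intro a' ha' hmono' I' hI' f' hf'deg hf'I hf'reg
  let E := AlgebraicClosure F
  let φ : F →+* E := algebraMap F E
  have : CharZero E := charZero_of_injective_algebraMap (algebraMap F E).injective
  apply egh26_coreA_descend φ
  exact hart E n (by omega) a' ha' hmono' (I'.map (MvPolynomial.map φ))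
    (r278d_homog_map φ I' hI') (fun i => MvPolynomial.map φ (f' i))
    (fun i => by
      have := hf'deg i
      rw [mem_homogeneousSubmodule] at this ⊢
      exact this.map φ)
    (fun i => Ideal.mem_map_of_mem _ (hf'I i)) (r278d_regular_map φ f' hf'reg)

end final

/-! ## 7. the leaves X, T2, T3 of `R278/Betti66`, verbatim (words of `Claims.C0451`) -/

section betti66

/-- LEAF X of `Betti66`, verbatim. -/
theorem egh26_bt_extend (F : Type) [Field F] [Infinite F] (n c : ℕ) (hc : c ≤ n) (a : Fin c → ℕ)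
    (ha : ∀ i, 1 ≤ a i)
    (f : Fin c → MvPolynomial (Fin n) F) (hfdeg : ∀ i, f i ∈ homogeneousSubmodule (Fin n) F (a i))
    (hreg : RingTheory.Sequence.IsRegular (MvPolynomial (Fin n) F) (List.ofFn f))
    (N : ℕ) (hN : 1 ≤ N) :
    ∃ g : Fin n → MvPolynomial (Fin n) F,
      (∀ i : Fin c, g (Fin.castLE hc i) = f i) ∧
      (∀ i, g i ∈ homogeneousSubmodule (Fin n) F (bt66_ext a N i)) ∧
      RingTheory.Sequence.IsRegular (MvPolynomial (Fin n) F) (List.ofFn g) :=
  egh26_extend_of_step (egh26_step F n) hc a ha f hfdeg hreg N hN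

/-- LEAF T2 of `Betti66`, verbatim. -/
theorem egh26_bt_add_forms {F : Type} [Field F] {n : ℕ} (I : Ideal (MvPolynomial (Fin n) F))
    (hI : Claims.C0451.IsHomogeneousIdeal I) (N : ℕ) (s : Set (MvPolynomial (Fin n) F))
    (hs : ∀ g ∈ s, g ∈ homogeneousSubmodule (Fin n) F N) :
    Claims.C0451.IsHomogeneousIdeal (I ⊔ Ideal.span s) ∧
      ∀ d, d < N → Claims.C0451.degPart (I ⊔ Ideal.span s) d = Claims.C0451.degPart I d :=
  egh26_add_forms I hI N s hs

/-- LEAF T3 of `Betti66`, verbatim. -/
theorem egh26_bt_lppSet_trunc {F : Type} [Field F] {n c : ℕ} (hc : c ≤ n) (a : Fin c → ℕ) (N : ℕ)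
    (I I' : Ideal (MvPolynomial (Fin n) F))
    (h : ∀ d, d < N → Claims.C0451.degPart I' d = Claims.C0451.degPart I d) (m : Fin n → ℕ)
    (hm : ∑ i, m i < N) :
    m ∈ bt66_lppSet (le_refl n) (bt66_ext a N) I' ↔ m ∈ bt66_lppSet hc a I :=
  egh26_lppSet_trunc hc a N I I' (fun d hd => by
    have := h d hd
    rw [egh26_degPart_eq, egh26_degPart_eq] at this
    rw [this]) m hm

end betti66

end Claimed.Agent.R278
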