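-- KEEP
import Claimed.Agent.R278.BettiVoc66

/-!
# Row 278 (S0523): exactness of the Koszul complex of the polynomial model   (pen 46, prefix `ex46_`)

The Euler homotopy `h c T = ∑_{l ∈ T} ± ∂_l c (T \ l)`: `d h + h d = j` on the chains of internal degree `j`.
Scalars: a division ring of characteristic zero.
-/

set_option autoImplicit false

namespace Claimed.Agent.R278

section abstract

variable {D : Type} [DivisionRing D] {n : ℕ} {B : Type} [AddCommGroup B] [Module D B]

/-- the Euler homotopy -/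
noncomputable def ex46_hom (Y : Fin n → Module.End D B) (c : Finset (Fin n) → B) : Finset (Fin n) → B :=
  fun T => ∑ l ∈ T, r278m_sgn (T.erase l) l • Y l (c (T.erase l))

theorem ex46_sgn_sq (U : Finset (Fin n)) (k : Fin n) : r278m_sgn U k * r278m_sgn U k = 1 := by
  unfold r278m_sgn
  rw [← mul_pow]
  simp

theorem ex46_sgn_cross (U : Finset (Fin n)) {k l : Fin n} (hkl : k ≠ l) (hk : k ∉ U) (hl : l ∉ U) :
    r278m_sgn (insert l U) k * r278m_sgn (insert k U) l + r278m_sgn U l * r278m_sgn U k = 0 := by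
  have h := r278m_sgn_swap U hkl hk hl
  have h1 := ex46_sgn_sq U k
  have h2 := ex46_sgn_sq (insert k U) l
  have h3 := ex46_sgn_sq U l
  have h4 := ex46_sgn_sq (insert l U) k
  -- s(U,k) s(U+k,l) = - s(U,l) s(U+l,k)
  have e : r278m_sgn (insert l U) k * r278m_sgn (insert k U) l =
      (r278m_sgn U k * r278m_sgn (insert k U) l) * (r278m_sgn U k * r278m_sgn (insert l U) k) := by
    calc r278m_sgn (insert l U) k * r278m_sgn (insert k U) l
        = (r278m_sgn U k * r278m_sgn U k) * (r278m_sgn (insert l U) k * r278m_sgn (insert k U) l) := by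
          rw [h1, one_mul]
      _ = _ := by ring
  have e2 : r278m_sgn U k * r278m_sgn (insert k U) l = - (r278m_sgn U l * r278m_sgn (insert l U) k) := by
    linarith
  rw [e, e2]
  calc -(r278m_sgn U l * r278m_sgn (insert l U) k) * (r278m_sgn U k * r278m_sgn (insert l U) k) +
        r278m_sgn U l * r278m_sgn U k
      = - (r278m_sgn U l * r278m_sgn U k) * (r278m_sgn (insert l U) k * r278m_sgn (insert l U) k) +
        r278m_sgn U l * r278m_sgn U k := by ring
    _ = 0 := by rw [h4]; ring

theorem ex46_homotopy (X Y : Fin n → Module.End D B)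
    (h1 : ∀ k l, k ≠ l → ∀ b, Y k (X l b) = X l (Y k b)) (h2 : ∀ k b, Y k (X k b) = X k (Y k b) + b)
    (c : Finset (Fin n) → B) (T : Finset (Fin n)) :
    r278m_diff X (ex46_hom Y c) T + ex46_hom Y (r278m_diff X c) T = ∑ k, X k (Y k (c T)) + T.card • c T := by
  classical
  -- first term
  have e1 : r278m_diff X (ex46_hom Y c) T =
      ∑ k ∈ Finset.univ.filter (fun k => k ∉ T), X k (Y k (c T)) +
      ∑ k ∈ Finset.univ.filter (fun k => k ∉ T), ∑ l ∈ T,
        (r278m_sgn T k * r278m_sgn (insert k (T.erase l)) l) • X k (Y l (c (insert k (T.erase l)))) := by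
    rw [r278m_diff_apply, ← Finset.sum_add_distrib]
    refine Finset.sum_congr rfl fun k hk => ?_
    have hkT : k ∉ T := (Finset.mem_filter.mp hk).2
    rw [ex46_hom, Finset.sum_insert hkT, Finset.erase_insert hkT, map_add, smul_add, map_zsmul, smul_smul,
      ex46_sgn_sq, one_smul, map_sum, Finset.smul_sum]
    congr 1
    refine Finset.sum_congr rfl fun l hl => ?_
    have hne : k ≠ l := fun e => hkT (e ▸ hl)
    rw [Finset.erase_insert_of_ne hne, map_zsmul, smul_smul]
  have e2 : ex46_hom Y (r278m_diff X c) T =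
      ∑ l ∈ T, (X l (Y l (c T)) + c T) +
      ∑ l ∈ T, ∑ k ∈ Finset.univ.filter (fun k => k ∉ T),
        (r278m_sgn (T.erase l) l * r278m_sgn (T.erase l) k) • X k (Y l (c (insert k (T.erase l)))) := by
    rw [ex46_hom, ← Finset.sum_add_distrib]
    refine Finset.sum_congr rfl fun l hl => ?_
    have hfil : Finset.univ.filter (fun k => k ∉ T.erase l) = insert l (Finset.univ.filter (fun k => k ∉ T)) := by
      ext k
      simp only [Finset.mem_filter, Finset.mem_univ, true_and, Finset.mem_erase, Finset.mem_insert, not_and]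
      constructor
      · intro h
        by_cases hk : k = l
        · exact Or.inl hk
        · exact Or.inr (h hk)
      · rintro (h | h)
        · intro h'
          exact absurd h h'
        · intro _
          exact h
    have hl' : l ∉ Finset.univ.filter (fun k => k ∉ T) := by simp [hl]
    rw [r278m_diff_apply, hfil, Finset.sum_insert hl', Finset.insert_erase hl, map_add, smul_add, map_zsmul, smul_smul,
      ex46_sgn_sq, one_smul, h2, map_sum, Finset.smul_sum]
    congr 1
    refine Finset.sum_congr rfl fun k hk => ?_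
    have hkT : k ∉ T := (Finset.mem_filter.mp hk).2
    have hne : l ≠ k := fun e => hkT (e ▸ hl)
    rw [map_zsmul, smul_smul, h1 l k hne]
  have e3 : ∑ k ∈ Finset.univ.filter (fun k => k ∉ T), ∑ l ∈ T,
        (r278m_sgn T k * r278m_sgn (insert k (T.erase l)) l) • X k (Y l (c (insert k (T.erase l)))) +
      ∑ l ∈ T, ∑ k ∈ Finset.univ.filter (fun k => k ∉ T),
        (r278m_sgn (T.erase l) l * r278m_sgn (T.erase l) k) • X k (Y l (c (insert k (T.erase l)))) = 0 := by
    rw [Finset.sum_comm, ← Finset.sum_add_distrib]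
    refine Finset.sum_eq_zero fun l hl => ?_
    rw [← Finset.sum_add_distrib]
    refine Finset.sum_eq_zero fun k hk => ?_
    have hkT : k ∉ T := (Finset.mem_filter.mp hk).2
    have hne : k ≠ l := fun e => hkT (e ▸ hl)
    have hs := ex46_sgn_cross (T.erase l) hne (fun h => hkT (Finset.mem_of_mem_erase h)) (Finset.notMem_erase l T)
    rw [Finset.insert_erase hl] at hs
    rw [← add_smul, hs, zero_smul]
  have e4 : ∑ k, X k (Y k (c T)) =
      ∑ k ∈ Finset.univ.filter (fun k => k ∉ T), X k (Y k (c T)) + ∑ l ∈ T, X l (Y l (c T)) := by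
    rw [add_comm, ← Finset.sum_filter_add_sum_filter_not Finset.univ (fun k => k ∈ T)]
    congr 1
    refine Finset.sum_congr ?_ fun _ _ => rfl
    ext k
    simp
  rw [e1, e2, e4, Finset.sum_add_distrib, Finset.sum_const]
  have fin : ∀ (A C1 S N C2 : B), C1 + C2 = 0 → A + C1 + (S + N + C2) = A + S + N := by
    intro A C1 S N C2 h
    calc A + C1 + (S + N + C2) = A + S + N + (C1 + C2) := by abel
      _ = A + S + N := by rw [h, add_zero]
  exact fin _ _ _ _ _ e3

theorem ex46_hom_mem (Y : Fin n → Module.End D B) {P : ℕ → Submodule D B}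
    (hY : ∀ k e, ∀ b ∈ P (e + 1), Y k b ∈ P e) (hY0 : ∀ k, ∀ b ∈ P 0, Y k b = 0)
    {p j : ℕ} {c : Finset (Fin n) → B} (hc : c ∈ r278m_chains (n := n) P p j) :
    ex46_hom Y c ∈ r278m_chains (n := n) P (p + 1) j := by
  rw [r278m_mem_chains] at hc ⊢
  intro T
  refine Submodule.sum_mem _ fun l hl => zsmul_mem ?_ _
  have h := hc (T.erase l)
  rw [Finset.card_erase_of_mem hl] at h
  have hTpos : 0 < T.card := Finset.card_pos.2 ⟨l, hl⟩
  by_cases h1 : T.card = p + 1 ∧ p + 1 ≤ j
  · rw [if_pos h1]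
    rw [if_pos ⟨by omega, by omega⟩, show j - p = (j - (p + 1)) + 1 by omega] at h
    exact hY l _ _ h
  · rw [if_neg h1, Submodule.mem_bot]
    by_cases h2 : T.card - 1 = p ∧ p ≤ j
    · rw [if_pos h2, show j - p = 0 by omega] at h
      exact hY0 l _ h
    · rw [if_neg h2] at h
      rw [(Submodule.mem_bot D).mp h, map_zero]

/-- exactness in positive internal degree -/
theorem ex46_betti_pos [CharZero D] (X Y : Fin n → Module.End D B)
    (h1 : ∀ k l, k ≠ l → ∀ b, Y k (X l b) = X l (Y k b)) (h2 : ∀ k b, Y k (X k b) = X k (Y k b) + b)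
    {P : ℕ → Submodule D B} (hY : ∀ k e, ∀ b ∈ P (e + 1), Y k b ∈ P e) (hY0 : ∀ k, ∀ b ∈ P 0, Y k b = 0)
    (hE : ∀ e, ∀ b ∈ P e, ∑ k, X k (Y k b) = e • b) (hfin : ∀ e, Module.Finite D (P e)) (p j : ℕ) (hj : 1 ≤ j) :
    r278m_betti X P p j = 0 := by
  have hle : r278m_chains (n := n) P p j ⊓ LinearMap.ker (r278m_diff X) ≤
      (r278m_chains (n := n) P (p + 1) j).map (r278m_diff X) := by
    rintro c ⟨hc, hd⟩
    have hd' : r278m_diff X c = 0 := hd
    have key : r278m_diff X (ex46_hom Y c) = j • c := by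
      funext T
      have h3 := ex46_homotopy X Y h1 h2 c T
      have hz : ex46_hom Y (0 : Finset (Fin n) → B) T = 0 := by simp [ex46_hom]
      rw [hd', hz, add_zero] at h3
      rw [h3]
      have hcT := (r278m_mem_chains.1 hc) T
      by_cases h : T.card = p ∧ p ≤ j
      · rw [if_pos h] at hcT
        rw [hE _ _ hcT, h.1, ← add_smul, Pi.smul_apply]
        congr 1
        omega
      · rw [if_neg h] at hcT
        rw [Pi.smul_apply, (Submodule.mem_bot D).mp hcT]
        simp
    refine ⟨(j : D)⁻¹ • ex46_hom Y c, Submodule.smul_mem _ _ (ex46_hom_mem Y hY hY0 hc), ?_⟩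
    have hj0 : (j : D) ≠ 0 := by
      have : j ≠ 0 := by omega
      exact_mod_cast this
    rw [map_smul, key, ← Nat.cast_smul_eq_nsmul D, smul_smul, inv_mul_cancel₀ hj0, one_smul]
  have := r278m_finite_chains (n := n) hfin (p + 1) j
  have h3 := Submodule.finrank_mono hle
  unfold r278m_betti
  omega

theorem ex46_chains_bot (P : ℕ → Submodule D B) (p : ℕ) (hp : 1 ≤ p) : r278m_chains (n := n) P p 0 = ⊥ := by
  rw [eq_bot_iff]
  intro c hc
  rw [r278m_mem_chains] at hc
  rw [Submodule.mem_bot]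
  funext T
  have := hc T
  rw [if_neg (by omega)] at this
  exact (Submodule.mem_bot D).mp this

theorem ex46_betti_zero_pos (X : Fin n → Module.End D B) (P : ℕ → Submodule D B) (p : ℕ) (hp : 1 ≤ p) :
    r278m_betti X P p 0 = 0 := by
  unfold r278m_betti
  rw [ex46_chains_bot P p hp, bot_inf_eq, finrank_bot, Nat.zero_sub]

theorem ex46_betti_zero_zero (X : Fin n → Module.End D B) {P : ℕ → Submodule D B}
    (hfin : ∀ e, Module.Finite D (P e)) : r278m_betti X P 0 0 = Module.finrank D (P 0) := by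
  unfold r278m_betti
  rw [ex46_chains_bot P (0 + 1) le_rfl, Submodule.map_bot, finrank_bot, Nat.sub_zero]
  have : r278m_chains (n := n) P 0 0 ⊓ LinearMap.ker (r278m_diff X) = r278m_chains (n := n) P 0 0 := by
    refine inf_eq_left.2 fun c hc => ?_
    rw [r278m_mem_chains] at hc
    rw [LinearMap.mem_ker]
    funext U
    rw [r278m_diff_apply]
    refine Finset.sum_eq_zero fun k hk => ?_
    have hkU : k ∉ U := (Finset.mem_filter.mp hk).2
    have h := hc (insert k U)
    rw [Finset.card_insert_of_notMem hkU, if_neg (by omega)] at h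
    rw [(Submodule.mem_bot D).mp h, map_zero, smul_zero]
  rw [this, r278m_finrank_chains hfin 0 0]
  simp

end abstract

section model

variable (D : Type) [DivisionRing D] {n : ℕ}

theorem ex46_pc_le (W : Set (Fin n → ℕ)) (e : ℕ) (Q : Submodule D ((Fin n → ℕ) →₀ D))
    (h : ∀ u ∈ W, ∑ i, u i = e → Finsupp.single u (1 : D) ∈ Q) : bt66_pcD D W e ≤ Q := by
  rw [bt66_pcD, Finsupp.supported_eq_span_single, Submodule.span_le]
  rintro _ ⟨u, hu, rfl⟩
  exact h u hu.1 hu.2

theorem ex46_single_mem_pc {W : Set (Fin n → ℕ)} {e : ℕ} {u : Fin n → ℕ} (c : D) (h1 : u ∈ W) (h2 : ∑ i, u i = e) :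
    Finsupp.single u c ∈ bt66_pcD D W e :=
  Finsupp.single_mem_supported D c (show u ∈ {u | u ∈ W ∧ ∑ i, u i = e} from ⟨h1, h2⟩)

theorem ex46_finite_deg (W : Set (Fin n → ℕ)) (e : ℕ) : ({u | u ∈ W ∧ ∑ i, u i = e} : Set (Fin n → ℕ)).Finite := by
  refine (Finset.finite_toSet (Finset.Nat.antidiagonalTuple n e)).subset ?_
  intro m hm
  simpa [Finset.Nat.mem_antidiagonalTuple] using hm.2

theorem ex46_pc_finite (W : Set (Fin n → ℕ)) (e : ℕ) : Module.Finite D (bt66_pcD D W e) := by
  have := (ex46_finite_deg W e).to_subtype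
  exact Module.Finite.equiv (Finsupp.supportedEquivFinsupp (M := D) (R := D) {u | u ∈ W ∧ ∑ i, u i = e}).symm

theorem ex46_finrank_pc (W : Set (Fin n → ℕ)) (e : ℕ) : Module.finrank D (bt66_pcD D W e) = bt66_cnt W e := by
  have := (ex46_finite_deg W e).fintype
  rw [bt66_pcD, (Finsupp.supportedEquivFinsupp (M := D) (R := D) {u | u ∈ W ∧ ∑ i, u i = e}).finrank_eq,
    Module.finrank_finsupp_self, ← Nat.card_eq_fintype_card, Nat.card_coe_set_eq]
  rfl

theorem ex46_eqOn_pc (W : Set (Fin n → ℕ)) (e : ℕ) {B' : Type} [AddCommGroup B'] [Module D B']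
    (f g : ((Fin n → ℕ) →₀ D) →ₗ[D] B')
    (h : ∀ u ∈ W, ∑ i, u i = e → f (Finsupp.single u 1) = g (Finsupp.single u 1)) :
    ∀ b ∈ bt66_pcD D W e, f b = g b := by
  intro b hb
  exact (ex46_pc_le D W e (LinearMap.eqLocus f g) h) hb

/-- the partial derivative -/
noncomputable def ex46_der (k : Fin n) : Module.End D ((Fin n → ℕ) →₀ D) :=
  Finsupp.lsum ℕ fun w => (w k) • Finsupp.lsingle (w - Pi.single k 1)

theorem ex46_der_single (k : Fin n) (w : Fin n → ℕ) (c : D) :
    ex46_der D k (Finsupp.single w c) = (w k) • Finsupp.single (w - Pi.single k 1) c := by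
  unfold ex46_der
  rw [Finsupp.lsum_single]
  rfl

theorem ex46_sh_single (k : Fin n) (w : Fin n → ℕ) (c : D) :
    bt66_shD D Set.univ k (Finsupp.single w c) = Finsupp.single (w + Pi.single k 1) c := by
  rw [bt66_shD_single]
  simp

theorem ex46_sub_add (w : Fin n → ℕ) {k : Fin n} (hk : w k ≠ 0) : w - Pi.single k 1 + Pi.single k 1 = w := by
  funext i
  by_cases hi : i = k
  · subst hi
    simp only [Pi.add_apply, Pi.sub_apply, Pi.single_eq_same]
    omega
  · simp [hi]

theorem ex46_add_sub (w : Fin n → ℕ) (k : Fin n) : w + Pi.single k 1 - Pi.single k 1 = w := by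
  funext i
  simp

theorem ex46_add_sub_comm (w : Fin n → ℕ) {k l : Fin n} (hkl : k ≠ l) :
    w + Pi.single l 1 - Pi.single k 1 = w - Pi.single k 1 + Pi.single l 1 := by
  funext i
  by_cases hi : i = k
  · subst hi
    simp [hkl]
  · simp [hi]

theorem ex46_der_sh_ne {k l : Fin n} (hkl : k ≠ l) (b : (Fin n → ℕ) →₀ D) :
    ex46_der D k (bt66_shD D Set.univ l b) = bt66_shD D Set.univ l (ex46_der D k b) := by
  have : (ex46_der D k) ∘ₗ (bt66_shD D Set.univ l) = (bt66_shD D Set.univ l) ∘ₗ (ex46_der D k) := by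
    refine Finsupp.lhom_ext fun w c => ?_
    simp only [LinearMap.comp_apply]
    rw [ex46_sh_single, ex46_der_single, ex46_der_single, map_nsmul, ex46_sh_single, ex46_add_sub_comm w hkl]
    simp [hkl]
  exact LinearMap.congr_fun this b

theorem ex46_der_sh_self (k : Fin n) (b : (Fin n → ℕ) →₀ D) :
    ex46_der D k (bt66_shD D Set.univ k b) = bt66_shD D Set.univ k (ex46_der D k b) + b := by
  have : (ex46_der D k) ∘ₗ (bt66_shD D Set.univ k) = (bt66_shD D Set.univ k) ∘ₗ (ex46_der D k) + LinearMap.id := by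
    refine Finsupp.lhom_ext fun w c => ?_
    simp only [LinearMap.comp_apply, LinearMap.add_apply, LinearMap.id_apply]
    rw [ex46_sh_single, ex46_der_single, ex46_der_single, map_nsmul, ex46_sh_single, ex46_add_sub]
    by_cases hk : w k = 0
    · simp [hk]
    · rw [ex46_sub_add w hk, Pi.add_apply, Pi.single_eq_same, succ_nsmul]
  exact LinearMap.congr_fun this b

theorem ex46_sum_sub (w : Fin n → ℕ) {k : Fin n} (hk : w k ≠ 0) {e : ℕ} (he : ∑ i, w i = e + 1) :
    ∑ i, (w - Pi.single k 1 : Fin n → ℕ) i = e := by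
  have h1 : ∑ i, (w - Pi.single k 1 + Pi.single k 1 : Fin n → ℕ) i = e + 1 := by rw [ex46_sub_add w hk, he]
  have h2 : ∑ i, (w - Pi.single k 1 + Pi.single k 1 : Fin n → ℕ) i = ∑ i, (w - Pi.single k 1 : Fin n → ℕ) i + 1 := by
    simp [Finset.sum_add_distrib, Pi.single_apply]
  omega

theorem ex46_der_mem (k : Fin n) (e : ℕ) (b : (Fin n → ℕ) →₀ D) (hb : b ∈ bt66_pcD D Set.univ (e + 1)) :
    ex46_der D k b ∈ bt66_pcD D Set.univ e := by
  have : bt66_pcD D Set.univ (e + 1) ≤ (bt66_pcD D (Set.univ : Set (Fin n → ℕ)) e).comap (ex46_der D k) := by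
    refine ex46_pc_le D _ _ _ fun u _ he => ?_
    rw [Submodule.mem_comap, ex46_der_single]
    by_cases hk : u k = 0
    · rw [hk, zero_smul]
      exact Submodule.zero_mem _
    · exact Submodule.smul_of_tower_mem _ _ (ex46_single_mem_pc D 1 (Set.mem_univ _) (ex46_sum_sub u hk he))
  exact this hb

theorem ex46_der_zero (k : Fin n) (b : (Fin n → ℕ) →₀ D) (hb : b ∈ bt66_pcD D Set.univ 0) : ex46_der D k b = 0 := by
  refine ex46_eqOn_pc D Set.univ 0 (ex46_der D k) 0 (fun u _ he => ?_) b hb
  have : u k = 0 := by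
    have := Finset.single_le_sum (f := u) (fun _ _ => Nat.zero_le _) (Finset.mem_univ k)
    omega
  rw [ex46_der_single, this, zero_smul, LinearMap.zero_apply]

theorem ex46_euler (e : ℕ) (b : (Fin n → ℕ) →₀ D) (hb : b ∈ bt66_pcD D Set.univ e) :
    ∑ k, bt66_shD D Set.univ k (ex46_der D k b) = e • b := by
  have := ex46_eqOn_pc D Set.univ e (∑ k, (bt66_shD D Set.univ k) ∘ₗ (ex46_der D k)) (e • LinearMap.id)
    (fun u _ he => ?_) b hb
  · simpa [LinearMap.sum_apply] using this
  · simp only [LinearMap.sum_apply, LinearMap.comp_apply, LinearMap.smul_apply, LinearMap.id_apply]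
    have : ∀ k, bt66_shD D Set.univ k (ex46_der D k (Finsupp.single u (1 : D))) = (u k) • Finsupp.single u (1 : D) := by
      intro k
      rw [ex46_der_single, map_nsmul, ex46_sh_single]
      by_cases hk : u k = 0
      · rw [hk, zero_smul, zero_smul]
      · rw [ex46_sub_add u hk]
    simp only [this]
    rw [← Finset.sum_smul, he]

theorem ex46_cnt_univ_zero : bt66_cnt (Set.univ : Set (Fin n → ℕ)) 0 = 1 := by
  unfold bt66_cnt
  have : (Set.univ ∩ {m : Fin n → ℕ | ∑ i, m i = 0}) = {0} := by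
    ext m
    simp only [Set.mem_inter_iff, Set.mem_univ, true_and, Set.mem_ofPred_eq, Set.mem_singleton_iff]
    constructor
    · intro h
      funext i
      have := Finset.single_le_sum (f := m) (fun _ _ => Nat.zero_le _) (Finset.mem_univ i)
      simp only [Pi.zero_apply]
      omega
    · rintro rfl
      simp
  rw [this, Set.ncard_singleton]

/-- **(KX)** the Koszul complex of the polynomial model is a resolution of the scalars. -/
theorem ex46_KX [CharZero D] (p j : ℕ) :
    r278m_betti (bt66_shD D (Set.univ : Set (Fin n → ℕ))) (bt66_pcD D Set.univ) p j =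
      if p = 0 ∧ j = 0 then 1 else 0 := by
  rcases Nat.eq_zero_or_pos j with hj | hj
  · subst hj
    rcases Nat.eq_zero_or_pos p with hp | hp
    · subst hp
      rw [ex46_betti_zero_zero _ (ex46_pc_finite D Set.univ), ex46_finrank_pc, ex46_cnt_univ_zero]
      simp
    · rw [ex46_betti_zero_pos _ _ p hp, if_neg (by omega)]
  · rw [ex46_betti_pos (bt66_shD D Set.univ) (ex46_der D) (fun k l hkl b => ex46_der_sh_ne D hkl b)
      (ex46_der_sh_self D) (ex46_der_mem D) (ex46_der_zero D) (ex46_euler D) (ex46_pc_finite D Set.univ) p j hj,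
      if_neg (by omega)]

end model

end Claimed.Agent.R278
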