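-- KEEP
/-
Row 278 (S0523), cell C4, pen helper216.  Prefix `egh216q_`.

Leaves M5 `bt66_bet_quot_succ` and M6 `bt66_bet_quot_zero` of `Tor66.lean`:
`β_{p+1,j}(A/H) = β_{p,j}(H)` and `β_{0,j}(A/H) = [j = 0]` on the monomial model, from the exactness
of the Koszul complex of `M(univ)` by rank bookkeeping (no long exact sequence).
-/
import Claimed.Agent.R278.Mod46

set_option autoImplicit false

namespace Claimed.Agent.R278

section Abstract

variable {F : Type} [DivisionRing F] {n : ℕ}
variable {B : Type} [AddCommGroup B] [Module F B]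
variable {B'' : Type} [AddCommGroup B''] [Module F B'']

lemma egh216q_rank_zero (X : Fin n → Module.End F B) (P : ℕ → Submodule F B) (j : ℕ) :
    r278m_rank X P 0 j = 0 := by
  have : (r278m_chains (n := n) P 0 j).map (r278m_diff X) = ⊥ := by
    rw [eq_bot_iff]
    rintro _ ⟨c, hc, rfl⟩
    rw [SetLike.mem_coe, r278m_mem_chains] at hc
    rw [Submodule.mem_bot]
    funext U
    rw [r278m_diff_apply]
    refine Finset.sum_eq_zero fun k hk => ?_
    have hkU : k ∉ U := (Finset.mem_filter.mp hk).2
    have := hc (insert k U)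
    rw [if_neg (by rw [Finset.card_insert_of_notMem hkU]; omega)] at this
    rw [(Submodule.mem_bot F).mp this, map_zero, smul_zero]
  rw [r278m_rank, this, finrank_bot]

lemma egh216q_chains_eq_bot (P : ℕ → Submodule F B) {p j : ℕ} (h : j < p) :
    r278m_chains (n := n) P p j = ⊥ := by
  rw [eq_bot_iff]
  intro c hc
  rw [r278m_mem_chains] at hc
  rw [Submodule.mem_bot]
  funext T
  have := hc T
  rw [if_neg (by omega)] at this
  exact (Submodule.mem_bot F).mp this

lemma egh216q_rank_of_lt (X : Fin n → Module.End F B) (P : ℕ → Submodule F B) {p j : ℕ}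
    (h : j < p) : r278m_rank X P p j = 0 := by
  rw [r278m_rank, egh216q_chains_eq_bot P h, Submodule.map_bot, finrank_bot]

/-- exactness as an equality of subspaces, from the vanishing of the Koszul number. -/
lemma egh216q_exact_of_betti (X : Fin n → Module.End F B)
    (hX : ∀ k l b, X k (X l b) = X l (X k b)) {P : ℕ → Submodule F B}
    (hP : ∀ k e, ∀ b ∈ P e, X k b ∈ P (e + 1)) (hfin : ∀ e, Module.Finite F (P e)) {p j : ℕ}
    (h0 : r278m_betti X P p j = 0) :
    (r278m_chains (n := n) P (p + 1) j).map (r278m_diff X) =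
      r278m_chains (n := n) P p j ⊓ LinearMap.ker (r278m_diff X) := by
  have := r278m_finite_chains (n := n) hfin p j
  have hle : (r278m_chains (n := n) P (p + 1) j).map (r278m_diff X) ≤
      r278m_chains (n := n) P p j ⊓ LinearMap.ker (r278m_diff X) := by
    rintro _ ⟨c, hc, rfl⟩
    exact ⟨r278m_diff_mem_chains X hP hc, r278m_diff_diff X hX c⟩
  have hfin2 : Module.Finite F
      (r278m_chains (n := n) P p j ⊓ LinearMap.ker (r278m_diff X) : Submodule F _) :=
    Submodule.finiteDimensional_of_le inf_le_left
  refine Submodule.eq_of_le_of_finrank_le hle ?_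
  unfold r278m_betti at h0
  omega

/-- **The rank of the quotient complex**, when the big complex is exact one step below. -/
theorem egh216q_rank_quot (X : Fin n → Module.End F B) (X'' : Fin n → Module.End F B'')
    (φ : B →ₗ[F] B'') (hφ : ∀ k b, φ (X k b) = X'' k (φ b))
    {P P' : ℕ → Submodule F B} {P'' : ℕ → Submodule F B''}
    (hPP'' : ∀ e, (P e).map φ = P'' e) (hPP' : ∀ e, P e ⊓ LinearMap.ker φ = P' e)
    (hfin : ∀ e, Module.Finite F (P e)) {p j : ℕ}
    (hex : (r278m_chains (n := n) P (p + 1) j).map (r278m_diff X) =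
      r278m_chains (n := n) P p j ⊓ LinearMap.ker (r278m_diff X)) :
    r278m_rank X'' P'' (p + 1) j + Module.finrank F (r278m_chains (n := n) P' p j) =
      r278m_rank X P (p + 1) j + r278m_rank X P' p j := by
  have hfin' : ∀ e, Module.Finite F (P' e) := fun e => by
    have := hfin e
    exact Submodule.finiteDimensional_of_le (by rw [← hPP' e]; exact inf_le_left : P' e ≤ P e)
  have f1 := r278m_finite_chains (n := n) hfin (p + 1) j
  have f2 := r278m_finite_chains (n := n) hfin' p j
  -- chains of the quotient
  have hch : r278m_chains (n := n) P'' (p + 1) j =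
      (r278m_chains (n := n) P (p + 1) j).map (φ.compLeft _) :=
    le_antisymm (r278m_chains_le_map φ (fun e => (hPP'' e).ge) _ _)
      (r278m_map_chains_le φ (fun e b hb => by rw [← hPP'' e]; exact ⟨b, hb, rfl⟩) _ _)
  set E := (r278m_chains (n := n) P (p + 1) j).map (r278m_diff X) with hE
  have h1 : (r278m_chains (n := n) P'' (p + 1) j).map (r278m_diff X'') =
      E.map (φ.compLeft _) := by
    rw [hch, hE, ← Submodule.map_comp, ← Submodule.map_comp]
    congr 1
    exact LinearMap.ext fun c => r278m_diff_compLeft φ X X'' hφ c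
  have f3 : Module.Finite F E := by rw [hE]; infer_instance
  have h2 := r278m_rank_nullity (φ.compLeft (Finset (Fin n))) E
  have h3 : (E ⊓ LinearMap.ker (φ.compLeft (Finset (Fin n))) : Submodule F _) =
      r278m_chains (n := n) P' p j ⊓ LinearMap.ker (r278m_diff X) := by
    rw [hex]
    ext c
    simp only [Submodule.mem_inf, LinearMap.mem_ker, r278m_mem_chains]
    constructor
    · rintro ⟨⟨hc, hd⟩, hk⟩
      refine ⟨fun T => ?_, hd⟩
      have hT := hc T
      have hkT : φ (c T) = 0 := congrFun hk T
      by_cases hh : T.card = p ∧ p ≤ j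
      · rw [if_pos hh] at hT ⊢
        rw [← hPP']
        exact ⟨hT, hkT⟩
      · rw [if_neg hh] at hT ⊢
        exact hT
    · rintro ⟨hc, hd⟩
      refine ⟨⟨fun T => ?_, hd⟩, ?_⟩
      · have hT := hc T
        by_cases hh : T.card = p ∧ p ≤ j
        · rw [if_pos hh] at hT ⊢
          rw [← hPP'] at hT
          exact hT.1
        · rw [if_neg hh] at hT ⊢
          exact hT
      · funext T
        have hT := hc T
        by_cases hh : T.card = p ∧ p ≤ j
        · rw [if_pos hh, ← hPP'] at hT
          exact hT.2
        · rw [if_neg hh] at hT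
          show φ (c T) = 0
          rw [(Submodule.mem_bot F).mp hT, map_zero]
  have h4 := r278m_rank_nullity (r278m_diff X) (r278m_chains (n := n) P' p j)
  rw [h3] at h2
  simp only [r278m_rank]
  rw [h1, ← hE]
  omega

end Abstract

end Claimed.Agent.R278
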