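-- KEEP
import Claimed.Agent.R278.Exact46
import Claimed.Agent.R278.Quot216

/-!
# Row 278 (S0523): leaves M5, M6 of `Tor66.lean`   (pen 46, prefix `ses46_`)

The short exact sequence `M(U) → M(univ) → M(Uᶜ)`, the exactness (KX) of `Exact46.lean` and the rank formula of `Quot216.lean`.
Characteristic zero (Euler homotopy).
-/

set_option autoImplicit false

namespace Claimed.Agent.R278

variable (F : Type) [Field F] {n : ℕ}

theorem ses46_proj_apply (W : Set (Fin n → ℕ)) (b : (Fin n → ℕ) →₀ F) {u : Fin n → ℕ} (hu : u ∈ W) :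
    md46_proj F W b u = b u := by
  have : (Finsupp.lapply u) ∘ₗ (md46_proj F W) = (Finsupp.lapply u : ((Fin n → ℕ) →₀ F) →ₗ[F] F) := by
    refine Finsupp.lhom_ext fun w c => ?_
    simp only [LinearMap.comp_apply, Finsupp.lapply_apply]
    by_cases hw : w ∈ W
    · rw [md46_proj_pos F c hw]
    · rw [md46_proj_neg F c hw]
      have : w ≠ u := fun e => hw (e ▸ hu)
      simp [this]
  exact LinearMap.congr_fun this b

theorem ses46_proj_sh (U : Set (Fin n → ℕ)) (hU : bt66_Up U) (k : Fin n) (b : (Fin n → ℕ) →₀ F) :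
    md46_proj F Uᶜ (bt66_sh F Set.univ k b) = bt66_sh F Uᶜ k (md46_proj F Uᶜ b) := by
  have : (md46_proj F Uᶜ) ∘ₗ (bt66_sh F Set.univ k) = (bt66_sh F Uᶜ k) ∘ₗ (md46_proj F Uᶜ) := by
    refine Finsupp.lhom_ext fun u c => ?_
    simp only [LinearMap.comp_apply]
    rw [md46_sh_pos F k c (Set.mem_univ u) (Set.mem_univ _)]
    by_cases h1 : u + Pi.single k 1 ∈ U
    · rw [md46_proj_neg F c (show u + Pi.single k 1 ∉ Uᶜ from fun h3 => h3 h1)]
      by_cases h2 : u ∈ Uᶜ
      · rw [md46_proj_pos F c h2, md46_sh_neg]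
        rintro ⟨_, h3⟩
        exact h3 h1
      · rw [md46_proj_neg F c h2, map_zero]
    · have h2 : u ∉ U := fun h3 => h1 (hU u h3 _ (md46_le_add u k))
      rw [md46_proj_pos F c (show _ ∈ Uᶜ from h1), md46_proj_pos F c (show u ∈ Uᶜ from h2),
        md46_sh_pos F k c (show u ∈ Uᶜ from h2) (show _ ∈ Uᶜ from h1)]
  exact LinearMap.congr_fun this b

theorem ses46_map_proj (U : Set (Fin n → ℕ)) (e : ℕ) :
    (bt66_pc F Set.univ e).map (md46_proj F Uᶜ) = bt66_pc F Uᶜ e := by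
  refine le_antisymm ?_ ?_
  · rw [Submodule.map_le_iff_le_comap]
    refine md46_pc_le F _ _ _ fun u _ he => ?_
    rw [Submodule.mem_comap]
    by_cases hu : u ∈ Uᶜ
    · rw [md46_proj_pos F 1 hu]
      exact md46_single_mem_pc F 1 hu he
    · rw [md46_proj_neg F 1 hu]
      exact Submodule.zero_mem _
  · intro b hb
    refine ⟨b, ?_, ?_⟩
    · exact (md46_pc_le F Uᶜ e (bt66_pc F Set.univ e) fun u _ he => md46_single_mem_pc F 1 (Set.mem_univ u) he) hb
    · exact md46_eqOn_pc F Uᶜ e (md46_proj F Uᶜ) LinearMap.id (fun u hu _ => md46_proj_pos F 1 hu) b hb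

theorem ses46_ker_proj (U : Set (Fin n → ℕ)) (e : ℕ) :
    bt66_pc F Set.univ e ⊓ LinearMap.ker (md46_proj F Uᶜ) = bt66_pc F U e := by
  refine le_antisymm ?_ ?_
  · rintro b ⟨hb, hk⟩
    have hk' : md46_proj F Uᶜ b = 0 := hk
    have hb' : (b.support : Set (Fin n → ℕ)) ⊆ {u | u ∈ Set.univ ∧ ∑ i, u i = e} := (Finsupp.mem_supported F b).1 hb
    refine (Finsupp.mem_supported F b).2 fun u hu => ⟨?_, (hb' hu).2⟩
    by_contra hcon
    have h1 := ses46_proj_apply F Uᶜ b (show u ∈ Uᶜ from hcon)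
    rw [hk', Finsupp.zero_apply] at h1
    exact (Finsupp.mem_support_iff.1 hu) h1.symm
  · refine md46_pc_le F _ _ _ fun u hu he => ⟨md46_single_mem_pc F 1 (Set.mem_univ u) he, ?_⟩
    exact md46_proj_neg F 1 (show u ∉ Uᶜ from fun h => h hu)

theorem ses46_cnt_add (U : Set (Fin n → ℕ)) (d : ℕ) : bt66_cnt U d + bt66_cnt Uᶜ d = bt66_cnt (Set.univ : Set (Fin n → ℕ)) d := by
  classical
  have hfin : ({m : Fin n → ℕ | ∑ i, m i = d} : Set _).Finite := by
    refine (Finset.finite_toSet (Finset.Nat.antidiagonalTuple n d)).subset ?_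
    intro m hm
    simpa [Finset.Nat.mem_antidiagonalTuple] using hm
  unfold bt66_cnt
  rw [← Set.ncard_union_eq (Set.disjoint_left.mpr (by
    rintro m ⟨h1, _⟩ ⟨h2, _⟩
    exact h2 h1)) (hfin.subset Set.inter_subset_right) (hfin.subset Set.inter_subset_right)]
  congr 1
  ext m
  by_cases hm : m ∈ U <;> simp [hm]

theorem ses46_cnt_zero (U : Set (Fin n → ℕ)) (h0 : (0 : Fin n → ℕ) ∉ U) : bt66_cnt U 0 = 0 := by
  unfold bt66_cnt
  have : U ∩ {m : Fin n → ℕ | ∑ i, m i = 0} = ∅ := by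
    refine Set.eq_empty_of_forall_notMem ?_
    rintro m ⟨h1, h2⟩
    have : m = 0 := by
      funext i
      have h3 := Finset.single_le_sum (f := m) (fun _ _ => Nat.zero_le _) (Finset.mem_univ i)
      have h4 : ∑ i, m i = 0 := h2
      simp only [Pi.zero_apply]
      omega
    exact h0 (this ▸ h1)
  rw [this, Set.ncard_empty]

theorem ses46_conv_univ : bt66_Conv (Set.univ : Set (Fin n → ℕ)) := fun _ _ _ _ _ _ _ => Set.mem_univ _

theorem ses46_Up_conv {U : Set (Fin n → ℕ)} (hU : bt66_Up U) : bt66_Conv U :=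
  fun u v _ huv _ hu _ => hU u hu v huv

theorem ses46_Up_compl_conv {U : Set (Fin n → ℕ)} (hU : bt66_Up U) : bt66_Conv Uᶜ :=
  fun _ v w _ hvw _ hw hv => hw (hU v hv w hvw)

theorem ses46_bet_univ [CharZero F] (p j : ℕ) :
    bt66_bet F (Set.univ : Set (Fin n → ℕ)) p j = if p = 0 ∧ j = 0 then 1 else 0 := by
  have h := ex46_KX F (n := n) p j
  have e : bt66_shD F (Set.univ : Set (Fin n → ℕ)) = bt66_sh F Set.univ := funext fun k => bt66_shD_eq F _ k
  rw [e] at h
  exact h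

/-- the rank relation between the three complexes, `(p, j) ≠ (0, 0)` -/
theorem ses46_rank_rel [CharZero F] (U : Set (Fin n → ℕ)) (hU : bt66_Up U) (p j : ℕ) (hpj : ¬ (p = 0 ∧ j = 0)) :
    r278m_rank (bt66_sh F Uᶜ) (bt66_pc F Uᶜ) (p + 1) j + (if p ≤ j then n.choose p * bt66_cnt U (j - p) else 0) =
      r278m_rank (bt66_sh F (Set.univ : Set (Fin n → ℕ))) (bt66_pc F Set.univ) (p + 1) j +
        r278m_rank (bt66_sh F U) (bt66_pc F U) p j := by
  have hb : r278m_betti (bt66_sh F (Set.univ : Set (Fin n → ℕ))) (bt66_pc F Set.univ) p j = 0 := by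
    have := ses46_bet_univ F (n := n) p j
    rw [if_neg hpj] at this
    exact this
  have hex := egh216q_exact_of_betti (bt66_sh F (Set.univ : Set (Fin n → ℕ))) (md46_sh_comm F ses46_conv_univ)
    (P := bt66_pc F Set.univ) (md46_sh_mem F Set.univ) (md46_pc_finite F Set.univ) hb
  have h := egh216q_rank_quot (bt66_sh F (Set.univ : Set (Fin n → ℕ))) (bt66_sh F Uᶜ) (md46_proj F Uᶜ)
    (ses46_proj_sh F U hU) (P := bt66_pc F Set.univ) (P' := bt66_pc F U) (P'' := bt66_pc F Uᶜ)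
    (ses46_map_proj F U) (ses46_ker_proj F U) (md46_pc_finite F Set.univ) hex
  rw [r278m_finrank_chains (md46_pc_finite F U) p j, md46_finrank_pc] at h
  rw [h, md46_rank_congr (bt66_sh F Set.univ) (bt66_sh F U) (P := bt66_pc F U) (fun k e => md46_eqOn_pc F U e _ _ (by
    intro u hu _
    rw [md46_sh_pos F k 1 (Set.mem_univ u) (Set.mem_univ _), md46_sh_pos F k 1 hu (hU u hu _ (md46_le_add u k))]))]

theorem ses46_c_add (U : Set (Fin n → ℕ)) (p j : ℕ) :
    (if p ≤ j then n.choose p * bt66_cnt U (j - p) else 0) + (if p ≤ j then n.choose p * bt66_cnt Uᶜ (j - p) else 0) =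
      if p ≤ j then n.choose p * bt66_cnt (Set.univ : Set (Fin n → ℕ)) (j - p) else 0 := by
  split_ifs
  · rw [← ses46_cnt_add U, mul_add]
  · rfl

/-- M5 (characteristic zero) -/
theorem ses46_bet_quot_succ [CharZero F] (U : Set (Fin n → ℕ)) (hU : bt66_Up U)
    (h0 : (0 : Fin n → ℕ) ∉ U) (p j : ℕ) : bt66_bet F Uᶜ (p + 1) j = bt66_bet F U p j := by
  have a1 := md46_bet_add_dfc F Uᶜ (ses46_Up_compl_conv hU) (p + 1) j
  have a2 := md46_bet_add_dfc F U (ses46_Up_conv hU) p j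
  by_cases hpj : p = 0 ∧ j = 0
  · obtain ⟨rfl, rfl⟩ := hpj
    rw [if_neg (by omega)] at a1
    rw [if_pos le_rfl, ses46_cnt_zero U h0, mul_zero] at a2
    omega
  · have a3 := ses46_rank_rel F U hU p j hpj
    have a4 := ses46_rank_rel F U hU (p + 1) j (by omega)
    have a5 := md46_bet_add_dfc F (Set.univ : Set (Fin n → ℕ)) ses46_conv_univ (p + 1) j
    rw [ses46_bet_univ, if_neg (by omega)] at a5
    have a6 := ses46_c_add U (p + 1) j
    unfold bt66_dfc at a1 a2 a5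
    omega

/-- M6 (characteristic zero) -/
theorem ses46_bet_quot_zero [CharZero F] (U : Set (Fin n → ℕ)) (hU : bt66_Up U)
    (h0 : (0 : Fin n → ℕ) ∉ U) (j : ℕ) : bt66_bet F Uᶜ 0 j = if j = 0 then 1 else 0 := by
  have a1 := md46_bet_add_dfc F Uᶜ (ses46_Up_compl_conv hU) 0 j
  have z1 := egh216q_rank_zero (bt66_sh F Uᶜ) (bt66_pc F Uᶜ) j
  unfold bt66_dfc at a1
  by_cases hj : j = 0
  · subst hj
    have z2 := egh216q_rank_of_lt (bt66_sh F Uᶜ) (bt66_pc F Uᶜ) (p := 0 + 1) (j := 0) (by omega)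
    have c1 := ses46_cnt_add U 0
    rw [ses46_cnt_zero U h0, ex46_cnt_univ_zero] at c1
    rw [if_pos le_rfl, Nat.choose_zero_right] at a1
    rw [if_pos rfl]
    simp only [Nat.sub_zero] at a1
    omega
  · have a3 := ses46_rank_rel F U hU 0 j (by omega)
    have a5 := md46_bet_add_dfc F (Set.univ : Set (Fin n → ℕ)) ses46_conv_univ 0 j
    rw [ses46_bet_univ, if_neg (by omega)] at a5
    have a6 := ses46_c_add U 0 j
    have z2 := egh216q_rank_zero (bt66_sh F U) (bt66_pc F U) j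
    have z3 := egh216q_rank_zero (bt66_sh F (Set.univ : Set (Fin n → ℕ))) (bt66_pc F Set.univ) j
    unfold bt66_dfc at a5
    rw [if_neg hj]
    omega

end Claimed.Agent.R278
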