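-- KEEP
/-
R278 / Distr276 (pen 276, prefix `egd_`): Lemma 4.1 of the Betti paper (a root-of-unity
distraction keeps the Koszul numbers) WITHOUT resolutions: an explicit isomorphism of Koszul
complexes, and the stabilisation (Prop 4.3) around it.
-/
import Claimed.Agent.R278.KosMod206
import Claimed.Agent.R278.BettiVoc66

set_option autoImplicit false

namespace Claimed.Agent.R278

open Claims.C0451 MvPolynomial

/-! ## Part 1: elementary operations on the operators keep the Koszul numbers -/

section RingId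

variable {R : Type*} [Ring R]

theorem egd_ring_nil (z s il : R) (hzio : z * il = il * z) (hzs : z * s = s * z)
    (h1 : il * s + s * il = 0) (h2 : il * il = 0) :
    z * (s * il) * (z * (s * il)) = 0 := by
  have h3 : il * s = -(s * il) := eq_neg_of_add_eq_zero_left h1
  calc z * (s * il) * (z * (s * il)) = z * s * (il * z) * (s * il) := by simp only [mul_assoc]
    _ = z * s * z * ((il * s) * il) := by rw [← hzio]; simp only [mul_assoc]
    _ = - (z * s * z * (s * (il * il))) := by rw [h3, neg_mul, mul_neg, mul_assoc s]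
    _ = 0 := by rw [h2, mul_zero, mul_zero, neg_zero]

theorem egd_ring_inv (z s il : R) (hzio : z * il = il * z) (hzs : z * s = s * z)
    (h1 : il * s + s * il = 0) (h2 : il * il = 0) :
    (1 - z * (s * il)) * (1 + z * (s * il)) = 1 := by
  rw [sub_mul, mul_add, mul_add, egd_ring_nil z s il hzio hzs h1 h2]
  simp

theorem egd_ring_inv' (z s il : R) (hzio : z * il = il * z) (hzs : z * s = s * z)
    (h1 : il * s + s * il = 0) (h2 : il * il = 0) :
    (1 + z * (s * il)) * (1 - z * (s * il)) = 1 := by
  rw [add_mul, mul_sub, mul_sub, egd_ring_nil z s il hzio hzs h1 h2]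
  simp

theorem egd_ring_intertwine {ι : Type*} [Fintype ι] [DecidableEq ι]
    (x io : ι → R) (z s : R) (h l : ι)
    (hxio : ∀ k m, x k * io m = io m * x k) (hxs : ∀ k, x k * s = s * x k)
    (hzio : ∀ m, z * io m = io m * z) (hzs : z * s = s * z)
    (hii : ∀ k m, io k * io m + io m * io k = 0) (hsq : ∀ k, io k * io k = 0)
    (hself : io h * s + s * io h = 1) (hne : ∀ k, k ≠ h → io k * s + s * io k = 0)
    (hZ : ∀ k, k ≠ l → z * x k = x k * z) (hl : l ≠ h := by assumption) :
    (∑ k, x k * io k + x h * z * io l) * (1 - z * (s * io l)) =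
      (1 - z * (s * io l)) * ∑ k, x k * io k := by
  have hlw : io l * s = - (s * io l) := eq_neg_of_add_eq_zero_left (hne l hl)
  have t4 : x h * z * io l * (z * (s * io l)) = 0 := by
    calc x h * z * io l * (z * (s * io l))
        = x h * z * (io l * z) * (s * io l) := by simp only [mul_assoc]
      _ = x h * z * z * ((io l * s) * io l) := by rw [← hzio]; simp only [mul_assoc]
      _ = 0 := by rw [hlw, neg_mul, mul_assoc s, hsq, mul_zero, neg_zero, mul_zero]
  have t2 : (∑ k, x k * io k) * (z * (s * io l)) =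
      x h * z * io l - ∑ k, x k * z * (s * (io k * io l)) := by
    rw [Finset.sum_mul]
    have : ∀ k, x k * io k * (z * (s * io l)) =
        (if k = h then x h * z * io l else 0) - x k * z * (s * (io k * io l)) := by
      intro k
      have e0 : x k * io k * (z * (s * io l)) = x k * z * ((io k * s) * io l) := by
        calc x k * io k * (z * (s * io l))
            = x k * (io k * z) * (s * io l) := by simp only [mul_assoc]
          _ = _ := by rw [← hzio]; simp only [mul_assoc]
      rw [e0]
      by_cases hk : k = h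
      · subst hk
        have : io k * s = 1 - s * io k := eq_sub_of_add_eq hself
        rw [this, if_pos rfl, sub_mul, one_mul, mul_sub, mul_assoc s]
      · have : io k * s = - (s * io k) := eq_neg_of_add_eq_zero_left (hne k hk)
        rw [this, if_neg hk, neg_mul, mul_neg, zero_sub, mul_assoc s]
    simp only [this, Finset.sum_sub_distrib, Finset.sum_ite_eq', Finset.mem_univ, if_true]
  have t3 : z * (s * io l) * ∑ k, x k * io k = - ∑ k, x k * z * (s * (io k * io l)) := by
    rw [Finset.mul_sum, ← Finset.sum_neg_distrib]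
    refine Finset.sum_congr rfl fun k _ => ?_
    have e0 : z * (s * io l) * (x k * io k) = z * x k * (s * (io l * io k)) := by
      calc z * (s * io l) * (x k * io k)
          = z * s * (io l * x k) * io k := by simp only [mul_assoc]
        _ = z * (s * x k) * (io l * io k) := by rw [← hxio]; simp only [mul_assoc]
        _ = _ := by rw [← hxs]; simp only [mul_assoc]
    rw [e0]
    by_cases hk : k = l
    · subst hk
      rw [hsq, mul_zero, mul_zero, mul_zero, neg_zero]
    · have : io l * io k = - (io k * io l) := eq_neg_of_add_eq_zero_left (hii l k)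
      rw [this, hZ k hk, mul_neg, mul_neg]
  rw [add_mul, mul_sub, mul_sub, mul_one, mul_one, t4, t2, sub_mul, one_mul, t3]
  abel

end RingId

section Abstract

variable {F : Type} [DivisionRing F] {n : ℕ}
variable {B : Type} [AddCommGroup B] [Module F B]

/-- contraction with the `k`-th exterior generator. -/
def egd_iota (k : Fin n) : Module.End F (Finset (Fin n) → B) :=
  LinearMap.pi fun U => if k ∈ U then 0 else r278m_sgn U k • LinearMap.proj (insert k U)

/-- exterior multiplication by the `h`-th generator. -/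
def egd_wedge (h : Fin n) : Module.End F (Finset (Fin n) → B) :=
  LinearMap.pi fun W => if h ∈ W then r278m_sgn (W.erase h) h • LinearMap.proj (W.erase h) else 0

/-- an operator on the coefficients. -/
def egd_hat (A : Module.End F B) : Module.End F (Finset (Fin n) → B) :=
  A.compLeft (Finset (Fin n))

theorem egd_eqns_cite : True := by
  have := @egd_iota.eq_1
  have := @egd_wedge.eq_1
  have := @egd_hat.eq_1
  trivial

theorem egd_iota_apply (k : Fin n) (w : Finset (Fin n) → B) (U : Finset (Fin n)) :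
    egd_iota (F := F) k w U = if k ∈ U then 0 else r278m_sgn U k • w (insert k U) := by
  unfold egd_iota
  rw [LinearMap.pi_apply]
  split_ifs <;> simp

theorem egd_wedge_apply (h : Fin n) (w : Finset (Fin n) → B) (W : Finset (Fin n)) :
    egd_wedge (F := F) h w W = if h ∈ W then r278m_sgn (W.erase h) h • w (W.erase h) else 0 := by
  unfold egd_wedge
  rw [LinearMap.pi_apply]
  split_ifs <;> simp

theorem egd_hat_apply (A : Module.End F B) (w : Finset (Fin n) → B) (U : Finset (Fin n)) :
    egd_hat A w U = A (w U) := rfl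

theorem egd_sgn_sq (U : Finset (Fin n)) (k : Fin n) : r278m_sgn U k * r278m_sgn U k = 1 := by
  unfold r278m_sgn
  rw [← pow_add, ← two_mul, pow_mul]
  simp

theorem egd_hat_mul (A A' : Module.End F B) :
    egd_hat (n := n) (A * A') = egd_hat A * egd_hat A' := rfl

theorem egd_hat_add (A A' : Module.End F B) :
    egd_hat (n := n) (A + A') = egd_hat A + egd_hat A' := rfl

theorem egd_hat_iota (A : Module.End F B) (k : Fin n) :
    egd_hat A * egd_iota k = egd_iota k * egd_hat A := by
  refine LinearMap.ext fun w => funext fun U => ?_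
  simp only [Module.End.mul_apply, egd_hat_apply, egd_iota_apply]
  split_ifs <;> simp

theorem egd_hat_wedge (A : Module.End F B) (h : Fin n) :
    egd_hat A * egd_wedge h = egd_wedge h * egd_hat A := by
  refine LinearMap.ext fun w => funext fun U => ?_
  simp only [Module.End.mul_apply, egd_hat_apply, egd_wedge_apply]
  split_ifs <;> simp

theorem egd_diff_eq (X : Fin n → Module.End F B) :
    r278m_diff X = ∑ k, egd_hat (X k) * egd_iota k := by
  refine LinearMap.ext fun w => funext fun U => ?_
  rw [r278m_diff_apply, LinearMap.sum_apply, Finset.sum_apply, Finset.sum_filter]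
  refine Finset.sum_congr rfl fun k _ => ?_
  simp only [Module.End.mul_apply, egd_hat_apply, egd_iota_apply]
  split_ifs <;> simp

theorem egd_iota_iota (k l : Fin n) :
    egd_iota (F := F) (B := B) k * egd_iota l + egd_iota l * egd_iota k = 0 := by
  refine LinearMap.ext fun w => funext fun U => ?_
  simp only [LinearMap.add_apply, Pi.add_apply, Module.End.mul_apply, egd_iota_apply,
    LinearMap.zero_apply, Pi.zero_apply, Finset.mem_insert]
  by_cases hkl : k = l
  · subst hkl
    simp
  by_cases hk : k ∈ U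
  · simp [hk]
  by_cases hl : l ∈ U
  · simp [hl]
  have h1 : ¬ (l = k ∨ l ∈ U) := by
    rintro (h | h)
    · exact hkl h.symm
    · exact hl h
  have h2 : ¬ (k = l ∨ k ∈ U) := by
    rintro (h | h)
    · exact hkl h
    · exact hk h
  rw [if_neg hk, if_neg hl, if_neg h1, if_neg h2, smul_smul, smul_smul,
    Finset.insert_comm k l U, ← add_smul, r278m_sgn_swap U hkl hk hl, zero_smul]

theorem egd_iota_sq (k : Fin n) : egd_iota (F := F) (B := B) k * egd_iota k = 0 := by
  refine LinearMap.ext fun w => funext fun U => ?_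
  simp only [Module.End.mul_apply, egd_iota_apply, LinearMap.zero_apply, Pi.zero_apply,
    Finset.mem_insert, true_or, if_true, smul_zero, ite_self]

theorem egd_iota_wedge_self (h : Fin n) :
    egd_iota (F := F) (B := B) h * egd_wedge h + egd_wedge h * egd_iota h = 1 := by
  refine LinearMap.ext fun w => funext fun U => ?_
  simp only [LinearMap.add_apply, Pi.add_apply, Module.End.mul_apply, egd_iota_apply,
    egd_wedge_apply, Module.End.one_apply]
  by_cases hU : h ∈ U
  · simp only [hU, if_true, Finset.mem_erase, ne_eq, not_true_eq_false, false_and, if_false,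
      zero_add, Finset.insert_erase hU, smul_smul, egd_sgn_sq, one_smul]
  · simp only [hU, if_false, Finset.mem_insert, true_or, if_true, Finset.erase_insert hU,
      smul_smul, egd_sgn_sq, one_smul, add_zero]

theorem egd_iota_wedge_ne {k h : Fin n} (hkh : k ≠ h) :
    egd_iota (F := F) (B := B) k * egd_wedge h + egd_wedge h * egd_iota k = 0 := by
  refine LinearMap.ext fun w => funext fun U => ?_
  simp only [LinearMap.add_apply, Pi.add_apply, Module.End.mul_apply, egd_iota_apply,
    egd_wedge_apply, LinearMap.zero_apply, Pi.zero_apply, Finset.mem_insert, Finset.mem_erase]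
  by_cases hk : k ∈ U
  · simp [hk, hkh]
  by_cases hh : h ∈ U
  · have h1 : (h = k ∨ h ∈ U) := Or.inr hh
    have h2 : ¬ (k ≠ h ∧ k ∈ U) := fun h => hk h.2
    rw [if_neg hk, if_pos h1, if_pos hh, if_neg h2, smul_smul, smul_smul]
    set V := U.erase h with hV
    have hhV : h ∉ V := Finset.notMem_erase h U
    have hkV : k ∉ V := fun hx => hk (Finset.mem_of_mem_erase hx)
    have hU : U = insert h V := (Finset.insert_erase hh).symm
    have e1 : (insert k U).erase h = insert k V := by
      rw [hV, Finset.erase_insert_of_ne hkh]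
    rw [e1, ← add_smul, hU]
    have hs := r278m_sgn_swap V hkh hkV hhV
    have a2 := egd_sgn_sq V k
    have e2 := egd_sgn_sq (insert h V) k
    have : r278m_sgn (insert h V) k * r278m_sgn (insert k V) h + r278m_sgn V h * r278m_sgn V k = 0 := by
      have : r278m_sgn (insert h V) k * r278m_sgn (insert k V) h + r278m_sgn V h * r278m_sgn V k
          = (r278m_sgn V k * r278m_sgn (insert h V) k) *
            (r278m_sgn V k * r278m_sgn (insert k V) h + r278m_sgn V h * r278m_sgn (insert h V) k) := by
        have : (r278m_sgn V k * r278m_sgn (insert h V) k) *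
            (r278m_sgn V k * r278m_sgn (insert k V) h + r278m_sgn V h * r278m_sgn (insert h V) k)
            = (r278m_sgn V k * r278m_sgn V k) * (r278m_sgn (insert h V) k * r278m_sgn (insert k V) h)
              + (r278m_sgn (insert h V) k * r278m_sgn (insert h V) k) *
                (r278m_sgn V h * r278m_sgn V k) := by ring
        rw [this, a2, e2, one_mul, one_mul]
      rw [this, hs, mul_zero]
    rw [this, zero_smul]
  · have h1 : ¬ (h = k ∨ h ∈ U) := by
      rintro (h | h)
      · exact hkh h.symm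
      · exact hh h
    rw [if_neg hk, if_neg h1, if_neg hh, smul_zero, add_zero]

/-- the isomorphism of Koszul complexes. -/
def egd_Psi (Z : Module.End F B) (h l : Fin n) : Module.End F (Finset (Fin n) → B) :=
  1 - egd_hat Z * (egd_wedge h * egd_iota l)

/-- its inverse. -/
def egd_Psi' (Z : Module.End F B) (h l : Fin n) : Module.End F (Finset (Fin n) → B) :=
  1 + egd_hat Z * (egd_wedge h * egd_iota l)

theorem egd_eqns_cite2 : True := by
  have := @egd_Psi.eq_1
  have := @egd_Psi'.eq_1
  trivial

theorem egd_Psi_Psi' (Z : Module.End F B) {h l : Fin n} (hl : h ≠ l) :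
    egd_Psi Z h l * egd_Psi' Z h l = 1 :=
  egd_ring_inv (egd_hat Z) (egd_wedge h) (egd_iota l) (egd_hat_iota Z l) (egd_hat_wedge Z h)
    (egd_iota_wedge_ne (Ne.symm hl)) (egd_iota_sq l)

theorem egd_Psi'_Psi (Z : Module.End F B) {h l : Fin n} (hl : h ≠ l) :
    egd_Psi' Z h l * egd_Psi Z h l = 1 :=
  egd_ring_inv' (egd_hat Z) (egd_wedge h) (egd_iota l) (egd_hat_iota Z l) (egd_hat_wedge Z h)
    (egd_iota_wedge_ne (Ne.symm hl)) (egd_iota_sq l)

/-- the differential of the modified operators. -/
theorem egd_diff_update (X : Fin n → Module.End F B) (Z : Module.End F B) (h l : Fin n) :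
    r278m_diff (Function.update X l (X l + X h * Z)) =
      ∑ k, egd_hat (X k) * egd_iota k + egd_hat (X h) * egd_hat Z * egd_iota l := by
  rw [egd_diff_eq]
  rw [← Finset.add_sum_erase _ _ (Finset.mem_univ l), ← Finset.add_sum_erase _ (fun k =>
    egd_hat (X k) * egd_iota k) (Finset.mem_univ l)]
  have : ∑ k ∈ Finset.univ.erase l, egd_hat (Function.update X l (X l + X h * Z) k) * egd_iota k
      = ∑ k ∈ Finset.univ.erase l, egd_hat (X k) * egd_iota k := by
    refine Finset.sum_congr rfl fun k hk => ?_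
    rw [Function.update_of_ne (Finset.ne_of_mem_erase hk)]
  rw [this, Function.update_self, egd_hat_add, egd_hat_mul, add_mul]
  abel

/-- **the intertwining identity**. -/
theorem egd_intertwine (X : Fin n → Module.End F B) (Z : Module.End F B) {h l : Fin n} (hl : h ≠ l)
    (hZ : ∀ k, k ≠ l → Z * X k = X k * Z) :
    r278m_diff (Function.update X l (X l + X h * Z)) * egd_Psi Z h l =
      egd_Psi Z h l * r278m_diff X := by
  rw [egd_diff_update, egd_diff_eq]
  exact egd_ring_intertwine (fun k => egd_hat (X k)) egd_iota (egd_hat Z) (egd_wedge h) h l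
    (fun k m => egd_hat_iota (X k) m) (fun k => egd_hat_wedge (X k) h)
    (fun m => egd_hat_iota Z m) (egd_hat_wedge Z h) egd_iota_iota egd_iota_sq
    (egd_iota_wedge_self h) (fun k hk => egd_iota_wedge_ne hk)
    (fun k hk => by rw [← egd_hat_mul, hZ k hk, egd_hat_mul]) (Ne.symm hl)

/-- an isomorphism of Koszul complexes gives equal Koszul numbers. -/
theorem egd_betti_of_equiv {B' : Type} [AddCommGroup B'] [Module F B']
    (X : Fin n → Module.End F B) (X' : Fin n → Module.End F B')
    (P : ℕ → Submodule F B) (P' : ℕ → Submodule F B')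
    (e : (Finset (Fin n) → B) ≃ₗ[F] (Finset (Fin n) → B'))
    (he : ∀ c, r278m_diff X' (e c) = e (r278m_diff X c))
    (hch : ∀ p j, (r278m_chains (n := n) P p j).map
      (e : (Finset (Fin n) → B) →ₗ[F] (Finset (Fin n) → B')) = r278m_chains (n := n) P' p j)
    (p j : ℕ) : r278m_betti X' P' p j = r278m_betti X P p j := by
  have hA : (r278m_chains (n := n) P p j ⊓ LinearMap.ker (r278m_diff X)).map (e : _ →ₗ[F] _) =
      r278m_chains (n := n) P' p j ⊓ LinearMap.ker (r278m_diff X') := by
    rw [← hch p j]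
    ext c'
    constructor
    · rintro ⟨c, ⟨hc1, hc2⟩, rfl⟩
      refine ⟨⟨c, hc1, rfl⟩, ?_⟩
      have hc2' : r278m_diff X c = 0 := hc2
      show r278m_diff X' (e c) = 0
      rw [he, hc2', map_zero]
    · rintro ⟨⟨c, hc1, rfl⟩, hc2⟩
      refine ⟨c, ⟨hc1, ?_⟩, rfl⟩
      have : e (r278m_diff X c) = 0 := by rw [← he]; exact hc2
      exact (LinearEquiv.map_eq_zero_iff e).mp this
  have hB : ((r278m_chains (n := n) P (p + 1) j).map (r278m_diff X)).map (e : _ →ₗ[F] _) =
      (r278m_chains (n := n) P' (p + 1) j).map (r278m_diff X') := by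
    rw [← hch (p + 1) j]
    ext c'
    constructor
    · rintro ⟨_, ⟨c, hc, rfl⟩, rfl⟩
      exact ⟨e c, ⟨c, hc, rfl⟩, he c⟩
    · rintro ⟨_, ⟨c, hc, rfl⟩, rfl⟩
      exact ⟨_, ⟨c, hc, rfl⟩, (he c).symm⟩
  unfold r278m_betti
  rw [← hA, ← hB, LinearEquiv.finrank_map_eq, LinearEquiv.finrank_map_eq]

/-- transport along an isomorphism of the coefficient modules. -/
theorem egd_betti_transport {B' : Type} [AddCommGroup B'] [Module F B']
    (X : Fin n → Module.End F B) (X' : Fin n → Module.End F B')
    (P : ℕ → Submodule F B) (P' : ℕ → Submodule F B') (φ : B ≃ₗ[F] B')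
    (hφ : ∀ k b, φ (X k b) = X' k (φ b)) (hP : ∀ e, (P e).map (φ : B →ₗ[F] B') = P' e)
    (p j : ℕ) : r278m_betti X' P' p j = r278m_betti X P p j := by
  refine egd_betti_of_equiv X X' P P' (LinearEquiv.piCongrRight fun _ => φ) ?_ ?_ p j
  · intro c
    exact r278m_diff_compLeft (φ : B →ₗ[F] B') X X' hφ c
  · intro p j
    apply le_antisymm
    · exact r278m_map_chains_le (φ : B →ₗ[F] B') (fun e b hb => by
        rw [← hP e]; exact ⟨b, hb, rfl⟩) p j
    · exact r278m_chains_le_map (φ : B →ₗ[F] B') (fun e => by rw [hP e]) p j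

theorem egd_N_mem_chains (Z : Module.End F B) (h l : Fin n) (P : ℕ → Submodule F B)
    (hZP : ∀ e, ∀ b ∈ P e, Z b ∈ P e) (p j : ℕ) (c : Finset (Fin n) → B)
    (hc : c ∈ r278m_chains (n := n) P p j) :
    (egd_hat Z * (egd_wedge h * egd_iota l) : Module.End F (Finset (Fin n) → B)) c ∈
      r278m_chains (n := n) P p j := by
  rw [r278m_mem_chains] at hc ⊢
  intro W
  simp only [Module.End.mul_apply, egd_hat_apply, egd_wedge_apply, egd_iota_apply]
  by_cases hW : h ∈ W
  · rw [if_pos hW]
    by_cases hlW : l ∈ W.erase h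
    · rw [if_pos hlW, smul_zero, map_zero]; exact Submodule.zero_mem _
    · rw [if_neg hlW]
      have hcard : (insert l (W.erase h)).card = W.card := by
        rw [Finset.card_insert_of_notMem hlW, Finset.card_erase_of_mem hW]
        have := Finset.card_pos.mpr ⟨h, hW⟩
        omega
      have := hc (insert l (W.erase h))
      rw [hcard] at this
      by_cases hcond : W.card = p ∧ p ≤ j
      · rw [if_pos hcond] at this ⊢
        rw [map_zsmul, map_zsmul]
        exact zsmul_mem (zsmul_mem (hZP _ _ this) _) _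
      · rw [if_neg hcond] at this ⊢
        rw [(Submodule.mem_bot F).mp this]
        simp
  · rw [if_neg hW, map_zero]; exact Submodule.zero_mem _

/-- **Elementary operation**: replacing `X l` by `X l + X h ∘ Z` keeps the Koszul numbers. -/
theorem egd_betti_update (X : Fin n → Module.End F B) (Z : Module.End F B) {h l : Fin n}
    (hl : h ≠ l) (hZ : ∀ k, k ≠ l → Z * X k = X k * Z)
    (P : ℕ → Submodule F B) (hZP : ∀ e, ∀ b ∈ P e, Z b ∈ P e) (p j : ℕ) :
    r278m_betti (Function.update X l (X l + X h * Z)) P p j = r278m_betti X P p j := by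
  let e : (Finset (Fin n) → B) ≃ₗ[F] (Finset (Fin n) → B) :=
    LinearEquiv.ofLinearMap (egd_Psi Z h l) (egd_Psi' Z h l) (egd_Psi_Psi' Z hl) (egd_Psi'_Psi Z hl)
  refine egd_betti_of_equiv X _ P P e ?_ ?_ p j
  · intro c
    exact LinearMap.congr_fun (egd_intertwine X Z hl hZ) c
  · intro p j
    apply le_antisymm
    · rintro _ ⟨c, hc, rfl⟩
      show egd_Psi Z h l c ∈ _
      unfold egd_Psi
      rw [LinearMap.sub_apply, Module.End.one_apply]
      exact Submodule.sub_mem _ hc (egd_N_mem_chains Z h l P hZP p j c hc)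
    · intro c hc
      refine ⟨egd_Psi' Z h l c, ?_, ?_⟩
      · unfold egd_Psi'
        rw [SetLike.mem_coe, LinearMap.add_apply, Module.End.one_apply]
        exact Submodule.add_mem _ hc (egd_N_mem_chains Z h l P hZP p j c hc)
      · exact LinearMap.congr_fun (egd_Psi_Psi' Z hl) c

end Abstract

/-! ## Part 3a: leading positions of a subspace -/

section Lead

variable {E : Type} [Field E] {M : Type} [AddCommGroup M] [Module E M] {ι : Type} [LinearOrder ι]

open Classical in
/-- the leading (= greatest) positions, inside `T`, of the vectors of `V`. -/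
noncomputable def egd_lead (coord : ι → M →ₗ[E] E) (T : Finset ι) (V : Submodule E M) : Finset ι :=
  T.filter fun i => ∃ v ∈ V, coord i v ≠ 0 ∧ ∀ j ∈ T, i < j → coord j v = 0

theorem egd_eqns_cite3 : True := by
  have := @egd_lead.eq_1
  trivial

theorem egd_mem_lead {coord : ι → M →ₗ[E] E} {T : Finset ι} {V : Submodule E M} {i : ι} :
    i ∈ egd_lead coord T V ↔ i ∈ T ∧ ∃ v ∈ V, coord i v ≠ 0 ∧ ∀ j ∈ T, i < j → coord j v = 0 := by
  classical
  unfold egd_lead
  rw [Finset.mem_filter]

omit [LinearOrder ι] in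
theorem egd_finite_of_sep (coord : ι → M →ₗ[E] E) (T : Finset ι) (V : Submodule E M)
    (hsep : ∀ v ∈ V, (∀ i ∈ T, coord i v = 0) → v = 0) : Module.Finite E V := by
  let f : V →ₗ[E] (T → E) := LinearMap.pi fun i => (coord i.1).comp V.subtype
  have hf : Function.Injective f := by
    rw [← LinearMap.ker_eq_bot, LinearMap.ker_eq_bot']
    intro v hv
    apply Subtype.ext
    apply hsep v.1 v.2
    intro i hi
    exact congrFun hv ⟨i, hi⟩
  exact Module.Finite.of_injective f hf

open Classical in
theorem egd_finrank_map_functional (f : M →ₗ[E] E) (V : Submodule E M) :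
    Module.finrank E (V.map f) = if ∃ v ∈ V, f v ≠ 0 then 1 else 0 := by
  split_ifs with h
  · obtain ⟨v, hv, hne⟩ := h
    have : V.map f = ⊤ := by
      rw [eq_top_iff]
      intro x _
      refine ⟨(x / f v) • v, V.smul_mem _ hv, ?_⟩
      rw [map_smul, smul_eq_mul, div_mul_cancel₀ _ hne]
    rw [this, finrank_top, Module.finrank_self]
  · have : V.map f = ⊥ := by
      rw [eq_bot_iff]
      rintro _ ⟨v, hv, rfl⟩
      rw [Submodule.mem_bot]
      by_contra hne
      exact h ⟨v, hv, hne⟩
    rw [this, finrank_bot]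

/-- **the number of leading positions is the dimension.** -/
theorem egd_card_lead (coord : ι → M →ₗ[E] E) (T : Finset ι) :
    ∀ V : Submodule E M, (∀ v ∈ V, (∀ i ∈ T, coord i v = 0) → v = 0) →
      (egd_lead coord T V).card = Module.finrank E V := by
  induction T using Finset.induction_on_max with
  | empty =>
    intro V hsep
    have : V = ⊥ := by
      rw [eq_bot_iff]
      intro v hv
      exact (Submodule.mem_bot E).mpr (hsep v hv (by simp))
    rw [this, finrank_bot]
    simp [egd_lead]
  | insert a T ha ih =>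
    intro V hsep
    have hnot : a ∉ T := fun h => lt_irrefl _ (ha a h)
    have hfin := egd_finite_of_sep coord _ V hsep
    have hsep0 : ∀ v ∈ V ⊓ LinearMap.ker (coord a), (∀ i ∈ T, coord i v = 0) → v = 0 := by
      rintro v ⟨hv, hva⟩ h
      apply hsep v hv
      intro i hi
      rcases Finset.mem_insert.mp hi with rfl | hi
      · exact hva
      · exact h i hi
    have h0 := ih _ hsep0
    have hrn := r278m_rank_nullity (coord a) V
    rw [egd_finrank_map_functional] at hrn
    rw [← hrn, ← h0]
    have hT : ∀ i ∈ T, (i ∈ egd_lead coord (insert a T) V ↔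
        i ∈ egd_lead coord T (V ⊓ LinearMap.ker (coord a))) := by
      intro i hi
      rw [egd_mem_lead, egd_mem_lead]
      constructor
      · rintro ⟨_, v, hv, hne, hz⟩
        refine ⟨hi, v, ⟨hv, hz a (Finset.mem_insert_self _ _) (ha i hi)⟩, hne, ?_⟩
        intro j hj hij
        exact hz j (Finset.mem_insert_of_mem hj) hij
      · rintro ⟨_, v, ⟨hv, hva⟩, hne, hz⟩
        refine ⟨Finset.mem_insert_of_mem hi, v, hv, hne, ?_⟩
        intro j hj hij
        rcases Finset.mem_insert.mp hj with rfl | hj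
        · exact hva
        · exact hz j hj hij
    have hsub : egd_lead coord T (V ⊓ LinearMap.ker (coord a)) ⊆ T := by
      intro i hi
      exact (egd_mem_lead.mp hi).1
    split_ifs with hex
    · have : egd_lead coord (insert a T) V =
          insert a (egd_lead coord T (V ⊓ LinearMap.ker (coord a))) := by
        ext i
        rw [Finset.mem_insert]
        constructor
        · intro hi
          rcases Finset.mem_insert.mp (egd_mem_lead.mp hi).1 with rfl | hiT
          · exact Or.inl rfl
          · exact Or.inr ((hT i hiT).mp hi)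
        · rintro (rfl | hi)
          · obtain ⟨v, hv, hne⟩ := hex
            refine egd_mem_lead.mpr ⟨Finset.mem_insert_self _ _, v, hv, hne, ?_⟩
            intro j hj hij
            rcases Finset.mem_insert.mp hj with rfl | hj
            · exact absurd hij (lt_irrefl _)
            · exact absurd hij (not_lt.mpr (ha j hj).le)
          · exact (hT i (hsub hi)).mpr hi
      rw [this, Finset.card_insert_of_notMem (fun h => hnot (hsub h))]
    · have : egd_lead coord (insert a T) V = egd_lead coord T (V ⊓ LinearMap.ker (coord a)) := by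
        ext i
        constructor
        · intro hi
          rcases Finset.mem_insert.mp (egd_mem_lead.mp hi).1 with rfl | hiT
          · obtain ⟨_, v, hv, hne, _⟩ := egd_mem_lead.mp hi
            exact absurd ⟨v, hv, hne⟩ hex
          · exact (hT i hiT).mp hi
        · intro hi
          exact (hT i (hsub hi)).mpr hi
      rw [this, add_zero]

end Lead

section Proj

variable {E : Type} [Field E] {M : Type} [AddCommGroup M] [Module E M] {ι : Type}

open Classical in
/-- the coordinates in `T`. -/
noncomputable def egd_proj (coord : ι → M →ₗ[E] E) (T : Finset ι) : M →ₗ[E] (ι → E) :=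
  LinearMap.pi fun i => if i ∈ T then coord i else 0

theorem egd_eqns_cite4 : True := by
  have := @egd_proj.eq_1
  trivial

theorem egd_proj_apply_mem (coord : ι → M →ₗ[E] E) {T : Finset ι} {i : ι} (hi : i ∈ T) (v : M) :
    egd_proj coord T v i = coord i v := by
  unfold egd_proj
  rw [LinearMap.pi_apply, if_pos hi]

theorem egd_proj_apply_not_mem (coord : ι → M →ₗ[E] E) {T : Finset ι} {i : ι} (hi : i ∉ T) (v : M) :
    egd_proj coord T v i = 0 := by
  unfold egd_proj
  rw [LinearMap.pi_apply, if_neg hi, LinearMap.zero_apply]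

theorem egd_card_lead_gen [LinearOrder ι] (coord : ι → M →ₗ[E] E) (T : Finset ι)
    (V : Submodule E M) :
    (egd_lead coord T V).card = Module.finrank E (V.map (egd_proj coord T)) := by
  rw [← egd_card_lead (fun i => (LinearMap.proj i : (ι → E) →ₗ[E] E)) T (V.map (egd_proj coord T))]
  · congr 1
    ext i
    rw [egd_mem_lead, egd_mem_lead]
    constructor
    · rintro ⟨hi, v, hv, hne, hz⟩
      refine ⟨hi, _, ⟨v, hv, rfl⟩, ?_, ?_⟩
      · rw [LinearMap.proj_apply, egd_proj_apply_mem coord hi]; exact hne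
      · intro j hj hij
        rw [LinearMap.proj_apply, egd_proj_apply_mem coord hj]; exact hz j hj hij
    · rintro ⟨hi, _, ⟨v, hv, rfl⟩, hne, hz⟩
      refine ⟨hi, v, hv, ?_, ?_⟩
      · rw [LinearMap.proj_apply, egd_proj_apply_mem coord hi] at hne; exact hne
      · intro j hj hij
        have := hz j hj hij
        rw [LinearMap.proj_apply, egd_proj_apply_mem coord hj] at this; exact this
  · rintro _ ⟨v, _, rfl⟩ h
    funext i
    by_cases hi : i ∈ T
    · exact h i hi
    · exact egd_proj_apply_not_mem coord hi v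

/-- as many leading as trailing positions. -/
theorem egd_card_lead_eq_trail [LinearOrder ι] (coord : ι → M →ₗ[E] E) (T : Finset ι)
    (V : Submodule E M) :
    (egd_lead coord T V).card = (egd_lead (ι := ιᵒᵈ) coord T V).card := by
  rw [egd_card_lead_gen]
  exact (egd_card_lead_gen (ι := ιᵒᵈ) coord T V).symm

theorem egd_mem_trail [LinearOrder ι] {coord : ι → M →ₗ[E] E} {T : Finset ι} {V : Submodule E M}
    {i : ι} : i ∈ egd_lead (ι := ιᵒᵈ) coord T V ↔
      i ∈ T ∧ ∃ v ∈ V, coord i v ≠ 0 ∧ ∀ j ∈ T, j < i → coord j v = 0 :=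
  egd_mem_lead (ι := ιᵒᵈ)

/-- **prefix comparison**: a set `A` of trailing positions inside the top part `T` of the positions
bounds from below the number of leading positions in `T`. -/
theorem egd_card_le_lead [LinearOrder ι] (coord : ι → M →ₗ[E] E) (T : Finset ι) (V : Submodule E M)
    (A : Finset ι) (hA : ∀ i ∈ A, i ∈ T ∧ ∃ v ∈ V, coord i v ≠ 0 ∧ ∀ j ∈ T, j < i → coord j v = 0) :
    A.card ≤ (egd_lead coord T V).card := by
  rw [egd_card_lead_eq_trail]
  apply Finset.card_le_card
  intro i hi
  exact egd_mem_trail.mpr (hA i hi)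

end Proj

/-! ## Part 3b: prefix counts -/

section Prefix

variable {E : Type} [Field E] {n : ℕ}

/-- coefficient at an exponent vector. -/
noncomputable def egd_cf (m : Fin n → ℕ) (p : MvPolynomial (Fin n) E) : E :=
  coeff (Finsupp.equivFunOnFinite.symm m) p

/-- the coordinates, indexed by the lexicographically ordered exponent vectors. -/
noncomputable def egd_co (E : Type) [Field E] {n : ℕ} (i : Lex (Fin n → ℕ)) :
    MvPolynomial (Fin n) E →ₗ[E] E :=
  MvPolynomial.lcoeff E (Finsupp.equivFunOnFinite.symm (ofLex i))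

/-- the exponent vectors of degree `d` which are lexicographically `≥ m₀`. -/
noncomputable def egd_T (n d : ℕ) (m₀ : Fin n → ℕ) : Finset (Lex (Fin n → ℕ)) :=
  ((Finset.Nat.antidiagonalTuple n d).map (toLex : (Fin n → ℕ) ≃ Lex (Fin n → ℕ)).toEmbedding).filter
    fun i => toLex m₀ ≤ i

open Classical in
/-- prefix count: the elements of `U` of the degree of `m₀` which are lexicographically `≥ m₀`. -/
noncomputable def egd_pre (U : Set (Fin n → ℕ)) (m₀ : Fin n → ℕ) : ℕ :=
  ((Finset.Nat.antidiagonalTuple n (∑ i, m₀ i)).filter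
    fun m => m ∈ U ∧ toLex m₀ ≤ toLex m).card

theorem egd_eqns_cite5 : True := by
  have := @egd_cf.eq_1
  have := @egd_co.eq_1
  have := @egd_T.eq_1
  have := @egd_pre.eq_1
  trivial

theorem egd_co_apply (i : Lex (Fin n → ℕ)) (p : MvPolynomial (Fin n) E) :
    egd_co E i p = egd_cf (ofLex i) p := rfl

theorem egd_mem_T {d : ℕ} {m₀ : Fin n → ℕ} {i : Lex (Fin n → ℕ)} :
    i ∈ egd_T n d m₀ ↔ ∑ k, (ofLex i) k = d ∧ toLex m₀ ≤ i := by
  unfold egd_T
  rw [Finset.mem_filter, Finset.mem_map]
  constructor
  · rintro ⟨⟨m, hm, rfl⟩, h⟩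
    exact ⟨Finset.Nat.mem_antidiagonalTuple.mp hm, h⟩
  · rintro ⟨h1, h2⟩
    exact ⟨⟨ofLex i, Finset.Nat.mem_antidiagonalTuple.mpr h1, rfl⟩, h2⟩

/-- `U'` is the set of the leading (lex greatest) exponents of the homogeneous elements of `W`. -/
def egd_IsLead (W : Ideal (MvPolynomial (Fin n) E)) (U' : Set (Fin n → ℕ)) : Prop :=
  ∀ m, m ∈ U' ↔ ∃ p ∈ degPart W (∑ i, m i), egd_cf m p ≠ 0 ∧
    ∀ m' : Fin n → ℕ, ∑ i, m' i = ∑ i, m i → toLex m < toLex m' → egd_cf m' p = 0

theorem egd_pre_eq_lead (W : Ideal (MvPolynomial (Fin n) E)) (U' : Set (Fin n → ℕ))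
    (hU' : egd_IsLead W U') (m₀ : Fin n → ℕ) :
    egd_pre U' m₀ =
      (egd_lead (egd_co E) (egd_T n (∑ i, m₀ i) m₀) (degPart W (∑ i, m₀ i))).card := by
  classical
  unfold egd_pre
  rw [← Finset.card_map (toLex : (Fin n → ℕ) ≃ Lex (Fin n → ℕ)).toEmbedding]
  congr 1
  ext i
  rw [Finset.mem_map, egd_mem_lead, egd_mem_T]
  constructor
  · rintro ⟨m, hm, rfl⟩
    rw [Finset.mem_filter, Finset.Nat.mem_antidiagonalTuple] at hm
    obtain ⟨hd, hmU, hle⟩ := hm
    obtain ⟨p, hp, hne, hz⟩ := (hU' m).mp hmU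
    rw [hd] at hp
    refine ⟨⟨hd, hle⟩, p, hp, hne, ?_⟩
    intro j hj hij
    exact hz (ofLex j) ((egd_mem_T.mp hj).1.trans hd.symm) hij
  · rintro ⟨⟨hd, hle⟩, p, hp, hne, hz⟩
    refine ⟨ofLex i, ?_, rfl⟩
    rw [Finset.mem_filter, Finset.Nat.mem_antidiagonalTuple]
    refine ⟨hd, (hU' _).mpr ⟨p, by rw [hd]; exact hp, hne, ?_⟩, hle⟩
    intro m' hm' hlt
    exact hz (toLex m') (egd_mem_T.mpr ⟨hm'.trans hd, hle.trans hlt.le⟩) hlt

/-- the prefix counts do not decrease. -/
theorem egd_pre_le (W : Ideal (MvPolynomial (Fin n) E)) (U U' : Set (Fin n → ℕ))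
    (hU' : egd_IsLead W U') (w : (Fin n → ℕ) → MvPolynomial (Fin n) E)
    (H1 : ∀ u ∈ U, w u ∈ degPart W (∑ i, u i)) (H2 : ∀ u, egd_cf u (w u) ≠ 0)
    (H3 : ∀ u v, egd_cf v (w u) ≠ 0 → v = u ∨ toLex u < toLex v) (m₀ : Fin n → ℕ) :
    egd_pre U m₀ ≤ egd_pre U' m₀ := by
  classical
  rw [egd_pre_eq_lead W U' hU' m₀]
  unfold egd_pre
  rw [← Finset.card_map (toLex : (Fin n → ℕ) ≃ Lex (Fin n → ℕ)).toEmbedding]
  apply egd_card_le_lead
  intro i hi
  rw [Finset.mem_map] at hi
  obtain ⟨m, hm, rfl⟩ := hi
  rw [Finset.mem_filter, Finset.Nat.mem_antidiagonalTuple] at hm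
  obtain ⟨hd, hmU, hle⟩ := hm
  refine ⟨egd_mem_T.mpr ⟨hd, hle⟩, w m, by rw [← hd]; exact H1 m hmU, H2 m, ?_⟩
  intro j _ hji
  by_contra hne
  rcases H3 m (ofLex j) hne with h | h
  · rw [← h] at hji
    exact lt_irrefl _ hji
  · exact lt_asymm hji h

/-- a strict increase of one prefix count. -/
theorem egd_pre_lt (W : Ideal (MvPolynomial (Fin n) E)) (U U' : Set (Fin n → ℕ))
    (hU' : egd_IsLead W U') (w : (Fin n → ℕ) → MvPolynomial (Fin n) E)
    (H1 : ∀ u ∈ U, w u ∈ degPart W (∑ i, u i)) (H2 : ∀ u, egd_cf u (w u) ≠ 0)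
    (H3 : ∀ u v, egd_cf v (w u) ≠ 0 → v = u ∨ toLex u < toLex v)
    (u m' : Fin n → ℕ) (hu : u ∈ U) (hm' : m' ∉ U) (hd' : ∑ i, m' i = ∑ i, u i)
    (hne' : egd_cf m' (w u) ≠ 0) :
    egd_pre U m' < egd_pre U' m' := by
  classical
  rw [egd_pre_eq_lead W U' hU' m']
  unfold egd_pre
  rw [← Finset.card_map (toLex : (Fin n → ℕ) ≃ Lex (Fin n → ℕ)).toEmbedding, Nat.lt_iff_add_one_le]
  have hnot : toLex m' ∉ ((Finset.Nat.antidiagonalTuple n (∑ i, m' i)).filter
      fun m => m ∈ U ∧ toLex m' ≤ toLex m).map
        (toLex : (Fin n → ℕ) ≃ Lex (Fin n → ℕ)).toEmbedding := by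
    rw [Finset.mem_map]
    rintro ⟨m, hm, hmm⟩
    have : m = m' := hmm
    rw [this, Finset.mem_filter] at hm
    exact hm' hm.2.1
  rw [← Finset.card_insert_of_notMem hnot]
  apply egd_card_le_lead
  intro i hi
  rcases Finset.mem_insert.mp hi with rfl | hi
  · refine ⟨egd_mem_T.mpr ⟨rfl, le_rfl⟩, w u, by rw [hd']; exact H1 u hu, hne', ?_⟩
    intro j hj hji
    exact absurd hji (not_lt.mpr (egd_mem_T.mp hj).2)
  · rw [Finset.mem_map] at hi
    obtain ⟨m, hm, rfl⟩ := hi
    rw [Finset.mem_filter, Finset.Nat.mem_antidiagonalTuple] at hm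
    obtain ⟨hd, hmU, hle⟩ := hm
    refine ⟨egd_mem_T.mpr ⟨hd, hle⟩, w m, by rw [← hd]; exact H1 m hmU, H2 m, ?_⟩
    intro j _ hji
    by_contra hne
    rcases H3 m (ofLex j) hne with h | h
    · rw [← h] at hji
      exact lt_irrefl _ hji
    · exact lt_asymm hji h

end Prefix

/-! ## Part 3c: termination -/

section Termination

variable {n : ℕ}

/-- the potential: sum of the prefix counts in the degrees `< N`. -/
noncomputable def egd_Phi (N : ℕ) (U : Set (Fin n → ℕ)) : ℕ :=
  ∑ d ∈ Finset.range N, ∑ m₀ ∈ Finset.Nat.antidiagonalTuple n d, egd_pre U m₀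

/-- its bound. -/
def egd_Cap (n N : ℕ) : ℕ :=
  ∑ d ∈ Finset.range N, ∑ _m₀ ∈ Finset.Nat.antidiagonalTuple n d,
    (Finset.Nat.antidiagonalTuple n d).card

theorem egd_eqns_cite6 : True := by
  have := @egd_Phi.eq_1
  have := @egd_Cap.eq_1
  have := @egd_IsLead.eq_1
  trivial

theorem egd_Phi_le_Cap (N : ℕ) (U : Set (Fin n → ℕ)) : egd_Phi N U ≤ egd_Cap n N := by
  classical
  unfold egd_Phi egd_Cap
  refine Finset.sum_le_sum fun d _ => Finset.sum_le_sum fun m₀ hm₀ => ?_
  unfold egd_pre
  rw [Finset.Nat.mem_antidiagonalTuple.mp hm₀]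
  exact Finset.card_filter_le _ _

theorem egd_Phi_lt (N : ℕ) (U U' : Set (Fin n → ℕ)) (hle : ∀ m₀, egd_pre U m₀ ≤ egd_pre U' m₀)
    (m₁ : Fin n → ℕ) (hm₁ : ∑ i, m₁ i < N) (hlt : egd_pre U m₁ < egd_pre U' m₁) :
    egd_Phi N U < egd_Phi N U' := by
  unfold egd_Phi
  refine Finset.sum_lt_sum (fun d _ => Finset.sum_le_sum fun m₀ _ => hle m₀)
    ⟨∑ i, m₁ i, Finset.mem_range.mpr hm₁, ?_⟩
  exact Finset.sum_lt_sum (fun m₀ _ => hle m₀)
    ⟨m₁, Finset.Nat.mem_antidiagonalTuple.mpr rfl, hlt⟩

/-- abstract termination of the replacements. -/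
theorem egd_terminate (N : ℕ) (Good Stab : Set (Fin n → ℕ) → Prop)
    (Rel : Set (Fin n → ℕ) → Set (Fin n → ℕ) → Prop) (hrefl : ∀ U, Rel U U)
    (htrans : ∀ U U' U'', Rel U U' → Rel U' U'' → Rel U U'')
    (step : ∀ U, Good U → ¬ Stab U → ∃ U', Good U' ∧ Rel U U' ∧
      (∀ m₀, egd_pre U m₀ ≤ egd_pre U' m₀) ∧
      ∃ m₁ : Fin n → ℕ, ∑ i, m₁ i < N ∧ egd_pre U m₁ < egd_pre U' m₁) :
    ∀ U, Good U → ∃ H, Good H ∧ Stab H ∧ Rel U H := by
  have key : ∀ k : ℕ, ∀ U, Good U → egd_Cap n N - egd_Phi N U ≤ k →
      ∃ H, Good H ∧ Stab H ∧ Rel U H := by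
    intro k
    induction k with
    | zero =>
      intro U hU hk
      by_cases hS : Stab U
      · exact ⟨U, hU, hS, hrefl U⟩
      · obtain ⟨U', _, _, hle, m₁, hm₁, hlt⟩ := step U hU hS
        have h1 := egd_Phi_lt N U U' hle m₁ hm₁ hlt
        have h2 := egd_Phi_le_Cap N U'
        omega
    | succ k ih =>
      intro U hU hk
      by_cases hS : Stab U
      · exact ⟨U, hU, hS, hrefl U⟩
      · obtain ⟨U', hU', hR, hle, m₁, hm₁, hlt⟩ := step U hU hS
        have h1 := egd_Phi_lt N U U' hle m₁ hm₁ hlt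
        have h2 := egd_Phi_le_Cap N U'
        obtain ⟨H, hH, hSH, hRH⟩ := ih U' hU' (by omega)
        exact ⟨H, hH, hSH, htrans _ _ _ hR hRH⟩
  intro U hU
  exact key _ U hU le_rfl

end Termination

end Claimed.Agent.R278
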