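-- KEEP
/-
R278 / DistrDef276 (pen 276, prefix `egd_`): the definitions of the root-of-unity distraction `D`
and of the diagonal operator `Z` (Betti paper, Section 4), for the pens of the leaves (a)-(g).
-/
import Claimed.Agent.R278.BettiVoc66

set_option autoImplicit false

namespace Claimed.Agent.R278

open Claims.C0451 MvPolynomial

variable {E : Type} [Field E] {n : ℕ}

/-- the value of the distraction on the monomial `x^u`. -/
noncomputable def egd_Dmon (ζ : E) (h l : Fin n) (u : Fin n →₀ ℕ) : MvPolynomial (Fin n) E :=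
  monomial (u.erase l) 1 * ∏ s ∈ Finset.range (u l), (X l - C (ζ ^ s) * X h)

/-- the distraction (formula (4.1) of the paper). -/
noncomputable def egd_D (ζ : E) (h l : Fin n) : MvPolynomial (Fin n) E →ₗ[E] MvPolynomial (Fin n) E :=
  (basisMonomials (Fin n) E).constr E (egd_Dmon ζ h l)

/-- the diagonal operator `x^u ↦ ζ^(u l) x^u`. -/
noncomputable def egd_Z (ζ : E) (l : Fin n) : MvPolynomial (Fin n) E →ₗ[E] MvPolynomial (Fin n) E :=
  (basisMonomials (Fin n) E).constr E fun u => monomial u (ζ ^ (u l))

theorem egd_eqns_cite0 : True := by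
  have := @egd_Dmon.eq_1
  have := @egd_D.eq_1
  have := @egd_Z.eq_1
  trivial

theorem egd_D_monomial (ζ : E) (h l : Fin n) (u : Fin n →₀ ℕ) (c : E) :
    egd_D ζ h l (monomial u c) = c • egd_Dmon ζ h l u := by
  have : monomial u c = c • basisMonomials (Fin n) E u := by
    rw [coe_basisMonomials, smul_monomial, smul_eq_mul, mul_one]
  rw [this, map_smul, egd_D, Module.Basis.constr_basis]

theorem egd_Z_monomial (ζ : E) (l : Fin n) (u : Fin n →₀ ℕ) (c : E) :
    egd_Z ζ l (monomial u c) = monomial u (ζ ^ (u l) * c) := by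
  have : monomial u c = c • basisMonomials (Fin n) E u := by
    rw [coe_basisMonomials, smul_monomial, smul_eq_mul, mul_one]
  rw [this, map_smul, egd_Z, Module.Basis.constr_basis, smul_monomial, smul_eq_mul, mul_comm]

end Claimed.Agent.R278
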