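-- KEEP
/-
Row 278 (S0522 / S0523), cell C4, pen helper216.  Prefix `egh216_`.

T1  LOCALITY of `gradedBetti` (Def_0451): the number `gradedBetti K p j` only sees the homogeneous
    elements of `K` of degrees `j - p` and `j - p + 1`.
T2  TRUNCATION of the lex-plus-powers data.
T3  `c < n  =>  c = n`.
-/
import Claimed.Agent.R278.BettiVoc66

set_option autoImplicit false

open MvPolynomial Claims.C0451

namespace Claimed.Agent.R278

section T1

variable {F : Type} [Field F] {n : ℕ}

/-- The Koszul differential of Def_0451, upstairs (on the polynomial ring itself). -/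
noncomputable def egh216_liftDiff (F : Type) [Field F] (n : ℕ) :
    (Finset (Fin n) → MvPolynomial (Fin n) F) →ₗ[F] (Finset (Fin n) → MvPolynomial (Fin n) F) :=
  LinearMap.pi fun U => ∑ k ∈ Finset.univ.filter (fun k => k ∉ U),
    ((-1 : F) ^ (U.filter (fun u => u < k)).card) •
      ((LinearMap.mulLeft F (X k : MvPolynomial (Fin n) F)) ∘ₗ LinearMap.proj (insert k U))

/-- The chains of Def_0451, upstairs. -/
noncomputable def egh216_liftChains (F : Type) [Field F] (n p j : ℕ) :
    Submodule F (Finset (Fin n) → MvPolynomial (Fin n) F) :=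
  Submodule.pi Set.univ fun T =>
    if T.card = p ∧ p ≤ j then homogeneousSubmodule (Fin n) F (j - p) else ⊥

/-- Coordinatewise reduction modulo `K`. -/
noncomputable def egh216_red (K : Ideal (MvPolynomial (Fin n) F)) :
    (Finset (Fin n) → MvPolynomial (Fin n) F) →ₗ[F] (Finset (Fin n) → MvPolynomial (Fin n) F ⧸ K) :=
  (Ideal.Quotient.mkₐ F K).toLinearMap.compLeft (Finset (Fin n))

/-- Families all of whose coordinates lie in `W`. -/
noncomputable def egh216_valued (W : Submodule F (MvPolynomial (Fin n) F)) :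
    Submodule F (Finset (Fin n) → MvPolynomial (Fin n) F) :=
  Submodule.pi Set.univ fun _ => W

lemma egh216_mem_valued {W : Submodule F (MvPolynomial (Fin n) F)}
    {c : Finset (Fin n) → MvPolynomial (Fin n) F} :
    c ∈ egh216_valued W ↔ ∀ T, c T ∈ W := by
  simp [egh216_valued, Submodule.mem_pi]

lemma egh216_red_apply (K : Ideal (MvPolynomial (Fin n) F))
    (c : Finset (Fin n) → MvPolynomial (Fin n) F) (T : Finset (Fin n)) :
    egh216_red K c T = Ideal.Quotient.mk K (c T) := rfl

lemma egh216_ker_red (K : Ideal (MvPolynomial (Fin n) F)) :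
    LinearMap.ker (egh216_red K) = egh216_valued (K.restrictScalars F) := by
  ext c
  rw [LinearMap.mem_ker, egh216_mem_valued]
  constructor
  · intro h T
    have := congrFun h T
    rw [egh216_red_apply] at this
    exact Ideal.Quotient.eq_zero_iff_mem.mp this
  · intro h
    funext T
    rw [egh216_red_apply]
    exact Ideal.Quotient.eq_zero_iff_mem.mpr (h T)

lemma egh216_liftDiff_apply (c : Finset (Fin n) → MvPolynomial (Fin n) F) (U : Finset (Fin n)) :
    egh216_liftDiff F n c U = ∑ k ∈ Finset.univ.filter (fun k => k ∉ U),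
      ((-1 : F) ^ (U.filter (fun u => u < k)).card) • (X k * c (insert k U)) := by
  simp [egh216_liftDiff, LinearMap.sum_apply]

lemma egh216_koszulDiff_apply (K : Ideal (MvPolynomial (Fin n) F))
    (c : Finset (Fin n) → MvPolynomial (Fin n) F ⧸ K) (U : Finset (Fin n)) :
    koszulDiff K c U = ∑ k ∈ Finset.univ.filter (fun k => k ∉ U),
      ((-1 : F) ^ (U.filter (fun u => u < k)).card) •
        (Ideal.Quotient.mk K (X k) * c (insert k U)) := by
  simp [koszulDiff, LinearMap.sum_apply]

lemma egh216_koszulDiff_red (K : Ideal (MvPolynomial (Fin n) F))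
    (c : Finset (Fin n) → MvPolynomial (Fin n) F) :
    koszulDiff K (egh216_red K c) = egh216_red K (egh216_liftDiff F n c) := by
  funext U
  rw [egh216_koszulDiff_apply, egh216_red_apply, egh216_liftDiff_apply, map_sum]
  refine Finset.sum_congr rfl fun k _ => ?_
  rw [egh216_red_apply, ← map_mul]
  exact ((Ideal.Quotient.mkₐ F K).toLinearMap.map_smul _ _).symm

lemma egh216_map_red_liftChains (K : Ideal (MvPolynomial (Fin n) F)) (p j : ℕ) :
    (egh216_liftChains F n p j).map (egh216_red K) = koszulChains K p j := by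
  ext c
  simp only [Submodule.mem_map, egh216_liftChains, koszulChains, Submodule.mem_pi, Set.mem_univ,
    forall_true_left]
  constructor
  · rintro ⟨b, hb, rfl⟩ T
    have hbT := hb T
    by_cases h : T.card = p ∧ p ≤ j
    · rw [if_pos h] at hbT ⊢
      exact ⟨b T, hbT, rfl⟩
    · rw [if_neg h] at hbT ⊢
      rw [Submodule.mem_bot] at hbT ⊢
      rw [egh216_red_apply, hbT, map_zero]
  · intro hc
    have : ∀ T : Finset (Fin n), ∃ b : MvPolynomial (Fin n) F,
        b ∈ (if T.card = p ∧ p ≤ j then homogeneousSubmodule (Fin n) F (j - p) else ⊥) ∧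
          Ideal.Quotient.mk K b = c T := by
      intro T
      have hcT := hc T
      by_cases h : T.card = p ∧ p ≤ j
      · rw [if_pos h] at hcT ⊢
        obtain ⟨b, hb, hbc⟩ := hcT
        exact ⟨b, hb, hbc⟩
      · rw [if_neg h] at hcT ⊢
        rw [Submodule.mem_bot] at hcT
        exact ⟨0, Submodule.zero_mem _, by rw [hcT, map_zero]⟩
    choose b hb hbc using this
    exact ⟨b, hb, funext hbc⟩

instance egh216_finite_homog (e : ℕ) :
    Module.Finite F (homogeneousSubmodule (Fin n) F e) :=
  Module.Finite.iff_fg.mpr (homogeneousSubmodule_fg (Fin n) F e)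

lemma egh216_liftChains_le (p j : ℕ) :
    egh216_liftChains F n p j ≤ egh216_valued (homogeneousSubmodule (Fin n) F (j - p)) := by
  intro c hc
  rw [egh216_mem_valued]
  intro T
  have := (Submodule.mem_pi.mp hc) T (Set.mem_univ _)
  by_cases h : T.card = p ∧ p ≤ j
  · rwa [if_pos h] at this
  · rw [if_neg h, Submodule.mem_bot] at this
    rw [this]; exact Submodule.zero_mem _

instance egh216_finite_valued (W : Submodule F (MvPolynomial (Fin n) F)) [Module.Finite F W] :
    Module.Finite F (egh216_valued W) := by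
  let φ : egh216_valued W →ₗ[F] (Finset (Fin n) → W) :=
    LinearMap.pi fun T =>
      LinearMap.codRestrict W ((LinearMap.proj T) ∘ₗ (egh216_valued W).subtype)
        (fun c => egh216_mem_valued.mp c.2 T)
  refine Module.Finite.of_injective φ ?_
  intro c c' h
  apply Subtype.ext
  funext T
  have := congrArg Subtype.val (congrFun h T)
  exact this

instance egh216_finite_liftChains (p j : ℕ) : Module.Finite F (egh216_liftChains F n p j) :=
  Submodule.finiteDimensional_of_le (egh216_liftChains_le p j)

/-- rank-nullity for the image of a finite-dimensional subspace. -/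
lemma egh216_finrank_map {V V' : Type*} [AddCommGroup V] [Module F V] [AddCommGroup V']
    [Module F V'] (π : V →ₗ[F] V') (Z : Submodule F V) [Module.Finite F Z] :
    Module.finrank F (Z.map π) + Module.finrank F (Z ⊓ LinearMap.ker π : Submodule F V) =
      Module.finrank F Z := by
  have h := LinearMap.finrank_range_add_finrank_ker (π.domRestrict Z)
  rw [LinearMap.range_domRestrict, LinearMap.ker_domRestrict] at h
  rw [← h]
  congr 1
  rw [← Submodule.finrank_map_subtype_eq Z (Submodule.comap Z.subtype (LinearMap.ker π)),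
    Submodule.map_comap_subtype]

/-- **Formula for `gradedBetti` inside the fixed space `Finset (Fin n) → S`.** -/
theorem egh216_gradedBetti_formula (K : Ideal (MvPolynomial (Fin n) F)) (p j : ℕ) :
    gradedBetti K p j =
      (Module.finrank F (egh216_liftChains F n p j ⊓
          (egh216_valued (K.restrictScalars F)).comap (egh216_liftDiff F n) :
            Submodule F (Finset (Fin n) → MvPolynomial (Fin n) F)) -
        Module.finrank F (egh216_liftChains F n p j ⊓ egh216_valued (K.restrictScalars F) :
            Submodule F (Finset (Fin n) → MvPolynomial (Fin n) F))) -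
      (Module.finrank F ((egh216_liftChains F n (p + 1) j).map (egh216_liftDiff F n)) -
        Module.finrank F ((egh216_liftChains F n (p + 1) j).map (egh216_liftDiff F n) ⊓
          egh216_valued (K.restrictScalars F) :
            Submodule F (Finset (Fin n) → MvPolynomial (Fin n) F))) := by
  set L := egh216_liftChains F n p j with hL
  set W := egh216_valued (K.restrictScalars F) with hW
  set Z : Submodule F (Finset (Fin n) → MvPolynomial (Fin n) F) :=
    L ⊓ W.comap (egh216_liftDiff F n) with hZ
  set E := (egh216_liftChains F n (p + 1) j).map (egh216_liftDiff F n) with hE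
  have hker : LinearMap.ker (egh216_red K) = W := egh216_ker_red K
  -- cycles
  have h1 : koszulChains K p j ⊓ LinearMap.ker (koszulDiff K) = Z.map (egh216_red K) := by
    rw [← egh216_map_red_liftChains]
    ext c
    rw [Submodule.mem_inf, Submodule.mem_map, Submodule.mem_map]
    constructor
    · rintro ⟨⟨b, hb, rfl⟩, hc⟩
      refine ⟨b, Submodule.mem_inf.mpr ⟨hb, ?_⟩, rfl⟩
      rw [LinearMap.mem_ker, egh216_koszulDiff_red, ← LinearMap.mem_ker, hker] at hc
      exact hc
    · rintro ⟨b, hbZ, rfl⟩
      obtain ⟨hb, hb'⟩ := Submodule.mem_inf.mp hbZ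
      refine ⟨⟨b, hb, rfl⟩, ?_⟩
      rw [LinearMap.mem_ker, egh216_koszulDiff_red, ← LinearMap.mem_ker, hker]
      exact hb'
  have hWd : W ≤ W.comap (egh216_liftDiff F n) := by
    intro c hc
    rw [← hker, LinearMap.mem_ker] at hc
    rw [Submodule.mem_comap, ← hker, LinearMap.mem_ker, ← egh216_koszulDiff_red, hc, map_zero]
  have h2 : Z ⊓ LinearMap.ker (egh216_red K) = L ⊓ W := by
    rw [hker, hZ, inf_assoc, inf_eq_right.mpr hWd]
  -- boundaries
  have h3 : (koszulChains K (p + 1) j).map (koszulDiff K) = E.map (egh216_red K) := by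
    rw [← egh216_map_red_liftChains, hE, ← Submodule.map_comp, ← Submodule.map_comp]
    congr 1
    exact LinearMap.ext fun c => egh216_koszulDiff_red K c
  have : Module.Finite F Z := Submodule.finiteDimensional_of_le (inf_le_left : Z ≤ L)
  have : Module.Finite F E := by rw [hE]; infer_instance
  have e1 := egh216_finrank_map (egh216_red K) Z
  have e2 := egh216_finrank_map (egh216_red K) E
  rw [h2] at e1
  rw [hker] at e2
  unfold gradedBetti
  rw [h1, h3]
  omega

lemma egh216_liftDiff_mem (p j : ℕ) {c : Finset (Fin n) → MvPolynomial (Fin n) F}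
    (hc : c ∈ egh216_liftChains F n p j) (U : Finset (Fin n)) :
    egh216_liftDiff F n c U ∈ homogeneousSubmodule (Fin n) F (j - p + 1) := by
  rw [egh216_liftDiff_apply]
  refine Submodule.sum_mem _ fun k _ => Submodule.smul_mem _ _ ?_
  have h1 : c (insert k U) ∈ homogeneousSubmodule (Fin n) F (j - p) :=
    egh216_mem_valued.mp (egh216_liftChains_le p j hc) _
  rw [mem_homogeneousSubmodule] at h1 ⊢
  rw [add_comm]
  exact (isHomogeneous_X F k).mul h1

lemma egh216_liftChains_eq_bot {p j : ℕ} (h : j < p) : egh216_liftChains F n p j = ⊥ := by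
  rw [eq_bot_iff]
  intro c hc
  rw [Submodule.mem_bot]
  funext T
  have := (Submodule.mem_pi.mp hc) T (Set.mem_univ _)
  rw [if_neg (by omega), Submodule.mem_bot] at this
  exact this

/-- **T1, LOCALITY.**  `gradedBetti K p j` only sees the homogeneous elements of `K` of degrees
`j - p` and `j - p + 1`. -/
theorem egh216_gradedBetti_congr (K K' : Ideal (MvPolynomial (Fin n) F)) (p j : ℕ)
    (h0 : ∀ g ∈ homogeneousSubmodule (Fin n) F (j - p), g ∈ K ↔ g ∈ K')
    (h1 : ∀ g ∈ homogeneousSubmodule (Fin n) F (j - p + 1), g ∈ K ↔ g ∈ K') :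
    gradedBetti K p j = gradedBetti K' p j := by
  have a1 : (egh216_liftChains F n p j ⊓ egh216_valued (K.restrictScalars F) :
      Submodule F (Finset (Fin n) → MvPolynomial (Fin n) F)) =
      egh216_liftChains F n p j ⊓ egh216_valued (K'.restrictScalars F) := by
    ext c
    simp only [Submodule.mem_inf, egh216_mem_valued, Submodule.restrictScalars_mem]
    refine and_congr_right fun hc => forall_congr' fun T => ?_
    exact h0 _ (egh216_mem_valued.mp (egh216_liftChains_le p j hc) T)
  have a2 : (egh216_liftChains F n p j ⊓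
      (egh216_valued (K.restrictScalars F)).comap (egh216_liftDiff F n) :
      Submodule F (Finset (Fin n) → MvPolynomial (Fin n) F)) =
      egh216_liftChains F n p j ⊓
        (egh216_valued (K'.restrictScalars F)).comap (egh216_liftDiff F n) := by
    ext c
    simp only [Submodule.mem_inf, Submodule.mem_comap, egh216_mem_valued,
      Submodule.restrictScalars_mem]
    refine and_congr_right fun hc => forall_congr' fun U => ?_
    exact h1 _ (egh216_liftDiff_mem p j hc U)
  have a3 : ((egh216_liftChains F n (p + 1) j).map (egh216_liftDiff F n) ⊓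
      egh216_valued (K.restrictScalars F) :
      Submodule F (Finset (Fin n) → MvPolynomial (Fin n) F)) =
      (egh216_liftChains F n (p + 1) j).map (egh216_liftDiff F n) ⊓
        egh216_valued (K'.restrictScalars F) := by
    by_cases hpj : j < p + 1
    · rw [egh216_liftChains_eq_bot hpj, Submodule.map_bot, bot_inf_eq, bot_inf_eq]
    · ext c
      simp only [Submodule.mem_inf, egh216_mem_valued, Submodule.restrictScalars_mem]
      refine and_congr_right fun hc => forall_congr' fun U => ?_
      obtain ⟨b, hb, rfl⟩ := hc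
      have := egh216_liftDiff_mem (p + 1) j hb U
      rw [show j - (p + 1) + 1 = j - p by omega] at this
      exact h0 _ this
  rw [egh216_gradedBetti_formula, egh216_gradedBetti_formula, a1, a2, a3]

end T1

section T2

variable {F : Type} [Field F] {n c : ℕ}

/-- The degree sequence `(a_1, …, a_c, N, …, N)`. -/
def egh216_ext (n : ℕ) {c : ℕ} (a : Fin c → ℕ) (N : ℕ) : Fin n → ℕ :=
  fun i => if h : i.val < c then a ⟨i.val, h⟩ else N

lemma egh216_inPowers_ext (hc : c ≤ n) (a : Fin c → ℕ) (N : ℕ) (m : Fin n → ℕ)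
    (hm : ∀ i, m i < N) :
    inPowers (le_refl n) (egh216_ext n a N) m = inPowers hc a m := by
  unfold inPowers
  rw [decide_eq_decide]
  constructor
  · rintro ⟨i, hi⟩
    have hcast : Fin.castLE (le_refl n) i = i := Fin.ext rfl
    rw [hcast] at hi
    by_cases h : i.val < c
    · refine ⟨⟨i.val, h⟩, ?_⟩
      have : Fin.castLE hc ⟨i.val, h⟩ = i := Fin.ext rfl
      rw [this]
      simpa [egh216_ext, h] using hi
    · exfalso
      have : N ≤ m i := by simpa [egh216_ext, h] using hi
      exact absurd (hm i) (by omega)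
  · rintro ⟨i, hi⟩
    refine ⟨Fin.castLE hc i, ?_⟩
    have hcast : Fin.castLE (le_refl n) (Fin.castLE hc i) = Fin.castLE hc i := Fin.ext rfl
    rw [hcast]
    have h : (Fin.castLE hc i).val < c := i.2
    have : egh216_ext n a N (Fin.castLE hc i) = a i := by
      simp [egh216_ext]
    rw [this]
    exact hi

lemma egh216_lt_of_sum_lt {N : ℕ} {m : Fin n → ℕ} (h : ∑ i, m i < N) (i : Fin n) : m i < N :=
  lt_of_le_of_lt (Finset.single_le_sum (fun _ _ => Nat.zero_le _) (Finset.mem_univ i)) h

lemma egh216_nonPower_ext (hc : c ≤ n) (a : Fin c → ℕ) {N d : ℕ} (hd : d < N) :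
    nonPowerMonomials (le_refl n) (egh216_ext n a N) d = nonPowerMonomials hc a d := by
  unfold nonPowerMonomials
  refine Finset.filter_congr fun m hm => ?_
  rw [Finset.Nat.mem_antidiagonalTuple] at hm
  rw [egh216_inPowers_ext hc a N m (egh216_lt_of_sum_lt (by omega))]

lemma egh216_qDim_ext (hc : c ≤ n) (a : Fin c → ℕ) {N d : ℕ} (hd : d < N)
    (I I' : Ideal (MvPolynomial (Fin n) F)) (hII : degPart I' d = degPart I d) :
    qDim (le_refl n) (egh216_ext n a N) I' d = qDim hc a I d := by
  unfold qDim
  rw [hII]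
  congr 3
  refine Finset.filter_congr fun m hm => ?_
  rw [Finset.Nat.mem_antidiagonalTuple] at hm
  rw [egh216_inPowers_ext hc a N m (egh216_lt_of_sum_lt (by omega))]

lemma egh216_lexSegment_ext (hc : c ≤ n) (a : Fin c → ℕ) {N d : ℕ} (hd : d < N)
    (I I' : Ideal (MvPolynomial (Fin n) F)) (hII : degPart I' d = degPart I d) :
    lexSegment (le_refl n) (egh216_ext n a N) I' d = lexSegment hc a I d := by
  unfold lexSegment
  rw [egh216_nonPower_ext hc a hd, egh216_qDim_ext hc a hd I I' hII]

/-- membership in a monomial ideal spanned by `lppMonomials`. -/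
lemma egh216_mem_span_lpp (hc : c ≤ n) (a : Fin c → ℕ) (I : Ideal (MvPolynomial (Fin n) F))
    (g : MvPolynomial (Fin n) F) :
    g ∈ Ideal.span (lppMonomials hc a I) ↔ ∀ u ∈ g.support, ∃ m : Fin n → ℕ,
      (inPowers hc a m = true ∨ m ∈ lexSegment hc a I (∑ i, m i)) ∧ ∀ i, m i ≤ u i := by
  have : lppMonomials hc a I = (fun s => monomial s (1 : F)) ''
      ((fun m : Fin n → ℕ => (Finsupp.equivFunOnFinite.symm m : Fin n →₀ ℕ)) ''
        {m | inPowers hc a m = true ∨ m ∈ lexSegment hc a I (∑ i, m i)}) := by
    rw [Set.image_image]; rfl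
  rw [this, mem_ideal_span_monomial_image]
  refine forall₂_congr fun u _ => ?_
  constructor
  · rintro ⟨_, ⟨m, hm, rfl⟩, hle⟩
    exact ⟨m, hm, fun i => hle i⟩
  · rintro ⟨m, hm, hle⟩
    exact ⟨_, ⟨m, hm, rfl⟩, fun i => hle i⟩

/-- **T2.**  The ideals spanned by the lex-plus-powers monomials of `(c, a, I)` and of
`(n, (a, N, …, N), I')` have the same homogeneous elements in degrees `< N`, as soon as `I` and `I'`
have the same pieces in degrees `< N`. -/
theorem egh216_span_lpp_ext (hc : c ≤ n) (a : Fin c → ℕ) (N : ℕ)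
    (I I' : Ideal (MvPolynomial (Fin n) F)) (hII : ∀ d < N, degPart I' d = degPart I d)
    {e : ℕ} (he : e < N) (g : MvPolynomial (Fin n) F)
    (hg : g ∈ homogeneousSubmodule (Fin n) F e) :
    g ∈ Ideal.span (lppMonomials hc a I) ↔
      g ∈ Ideal.span (lppMonomials (le_refl n) (egh216_ext n a N) I') := by
  rw [egh216_mem_span_lpp, egh216_mem_span_lpp]
  refine forall₂_congr fun u hu => ?_
  have hdeg : u.degree = e := by
    by_contra hne
    exact (mem_support_iff.mp hu) (((mem_homogeneousSubmodule e g).mp hg).coeff_eq_zero hne)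
  refine exists_congr fun m => and_congr_left fun hle => ?_
  have hsum : ∑ i, m i < N := by
    refine lt_of_le_of_lt ?_ he
    rw [← hdeg, Finsupp.degree_eq_sum]
    exact Finset.sum_le_sum fun i _ => hle i
  rw [egh216_inPowers_ext hc a N m (egh216_lt_of_sum_lt hsum),
    egh216_lexSegment_ext hc a hsum I I' (hII _ hsum)]

lemma egh216_degPart_congr (I I' : Ideal (MvPolynomial (Fin n) F)) (d : ℕ)
    (h : ∀ g ∈ homogeneousSubmodule (Fin n) F d, g ∈ I ↔ g ∈ I') : degPart I' d = degPart I d := by
  ext g
  simp only [degPart, Submodule.mem_inf, Submodule.restrictScalars_mem]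
  exact and_congr_left fun hg => (h g hg).symm

/-- **T3, one pair `(p, j)`.** -/
theorem egh216_betti_reduce (hc : c ≤ n) (a : Fin c → ℕ) (N p j : ℕ) (hN : j + 1 < N)
    (I I' : Ideal (MvPolynomial (Fin n) F))
    (hII : ∀ e < N, ∀ g ∈ homogeneousSubmodule (Fin n) F e, g ∈ I ↔ g ∈ I')
    (hArt : gradedBetti I' p j ≤
      gradedBetti (Ideal.span (lppMonomials (le_refl n) (egh216_ext n a N) I')) p j) :
    gradedBetti I p j ≤ gradedBetti (Ideal.span (lppMonomials hc a I)) p j := by
  have hd : ∀ d < N, degPart I' d = degPart I d :=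
    fun d hd => egh216_degPart_congr I I' d (hII d hd)
  rw [egh216_gradedBetti_congr I I' p j (hII _ (by omega)) (hII _ (by omega)),
    egh216_gradedBetti_congr (Ideal.span (lppMonomials hc a I))
      (Ideal.span (lppMonomials (le_refl n) (egh216_ext n a N) I')) p j
      (fun g hg => egh216_span_lpp_ext hc a N I I' hd (by omega) g hg)
      (fun g hg => egh216_span_lpp_ext hc a N I I' hd (by omega) g hg)]
  exact hArt

end T2

/-! ## The leaves of `Betti66.lean` handed to pen 216 (statements verbatim) -/

section Leaves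

/-- membership in the monomial ideal of a set of exponent vectors. -/
lemma egh216_mem_ideal (F : Type) [Field F] {n : ℕ} (U : Set (Fin n → ℕ))
    (g : MvPolynomial (Fin n) F) :
    g ∈ bt66_ideal F U ↔ ∀ u ∈ g.support, ∃ m ∈ U, ∀ i, m i ≤ u i := by
  have : bt66_mon F '' U = (fun s => monomial s (1 : F)) ''
      ((fun m : Fin n → ℕ => (Finsupp.equivFunOnFinite.symm m : Fin n →₀ ℕ)) '' U) := by
    rw [Set.image_image]; rfl
  unfold bt66_ideal
  rw [this, mem_ideal_span_monomial_image]
  refine forall₂_congr fun u _ => ?_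
  constructor
  · rintro ⟨_, ⟨m, hm, rfl⟩, hle⟩
    exact ⟨m, hm, fun i => hle i⟩
  · rintro ⟨m, hm, hle⟩
    exact ⟨_, ⟨m, hm, rfl⟩, fun i => hle i⟩

/-- LEAF `bt66_ideal_homog`. -/
theorem egh216_ideal_homog (F : Type) [Field F] {n : ℕ} (U : Set (Fin n → ℕ)) :
    IsHomogeneousIdeal (bt66_ideal F U) := by
  intro f hf d
  rw [egh216_mem_ideal] at hf ⊢
  intro u hu
  refine hf u ?_
  rw [mem_support_iff] at hu ⊢
  rw [coeff_homogeneousComponent] at hu
  intro h0
  apply hu
  split_ifs
  · exact h0
  · rfl

lemma egh216_degree_of_mem_support {F : Type} [Field F] {n d : ℕ} {g : MvPolynomial (Fin n) F}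
    (hg : g ∈ homogeneousSubmodule (Fin n) F d) {u : Fin n →₀ ℕ} (hu : u ∈ g.support) :
    ∑ i, u i = d := by
  rw [← Finsupp.degree_eq_sum]
  by_contra hne
  exact (mem_support_iff.mp hu) (((mem_homogeneousSubmodule d g).mp hg).coeff_eq_zero hne)

/-- LEAF `bt66_degPart_ideal_trunc`. -/
theorem egh216_degPart_ideal_trunc (F : Type) [Field F] {n : ℕ} (U U' : Set (Fin n → ℕ)) (N : ℕ)
    (h : ∀ m : Fin n → ℕ, ∑ i, m i < N → (m ∈ U ↔ m ∈ U')) (d : ℕ) (hd : d < N) :
    degPart (bt66_ideal F U) d = degPart (bt66_ideal F U') d := by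
  ext g
  simp only [degPart, Submodule.mem_inf, Submodule.restrictScalars_mem]
  refine and_congr_left fun hg => ?_
  rw [egh216_mem_ideal, egh216_mem_ideal]
  refine forall₂_congr fun u hu => ?_
  have hdeg := egh216_degree_of_mem_support hg hu
  refine exists_congr fun m => and_congr_left fun hle => ?_
  refine h m (lt_of_le_of_lt ?_ hd)
  rw [← hdeg]
  exact Finset.sum_le_sum fun i _ => hle i

/-- LEAF `bt66_betti_trunc` (T1). -/
theorem egh216_betti_trunc {F : Type} [Field F] {n : ℕ} (K K' : Ideal (MvPolynomial (Fin n) F))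
    (_hK : IsHomogeneousIdeal K) (_hK' : IsHomogeneousIdeal K') (p j : ℕ)
    (h : ∀ d, d ≤ j + 1 → degPart K d = degPart K' d) :
    gradedBetti K p j = gradedBetti K' p j := by
  have key : ∀ d, d ≤ j + 1 → ∀ g ∈ homogeneousSubmodule (Fin n) F d, g ∈ K ↔ g ∈ K' := by
    intro d hd g hg
    have := congrArg (fun W : Submodule F (MvPolynomial (Fin n) F) => g ∈ W) (h d hd)
    simp only [degPart, Submodule.mem_inf, Submodule.restrictScalars_mem, hg, and_true,
      eq_iff_iff] at this
    exact this
  exact egh216_gradedBetti_congr K K' p j (key _ (by omega)) (key _ (by omega))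

/-- LEAF `bt66_lppSet_trunc` (T3; was already compiled here when the arbitration came). -/
theorem egh216_lppSet_trunc {F : Type} [Field F] {n c : ℕ} (hc : c ≤ n) (a : Fin c → ℕ) (N : ℕ)
    (I I' : Ideal (MvPolynomial (Fin n) F))
    (h : ∀ d, d < N → degPart I' d = degPart I d) (m : Fin n → ℕ) (hm : ∑ i, m i < N) :
    m ∈ bt66_lppSet (le_refl n) (bt66_ext a N) I' ↔ m ∈ bt66_lppSet hc a I := by
  have hext : (bt66_ext a N : Fin n → ℕ) = egh216_ext n a N := rfl
  simp only [bt66_lppSet, Set.mem_setOf_eq, hext]
  rw [egh216_inPowers_ext hc a N m (egh216_lt_of_sum_lt hm),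
    egh216_lexSegment_ext hc a hm I I' (h _ hm)]

/-- LEAF `bt66_finrank_ideal`. -/
theorem egh216_finrank_ideal (F : Type) [Field F] {n : ℕ} (U : Set (Fin n → ℕ)) (hU : bt66_Up U)
    (d : ℕ) : Module.finrank F (degPart (bt66_ideal F U) d) = bt66_cnt U d := by
  classical
  set T : Finset (Fin n → ℕ) := (Finset.Nat.antidiagonalTuple n d).filter (· ∈ U) with hT
  have hTset : (T : Set (Fin n → ℕ)) = U ∩ {m | ∑ i, m i = d} := by
    ext m
    simp [hT, Finset.Nat.mem_antidiagonalTuple, and_comm]
  have hcnt : bt66_cnt U d = T.card := by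
    unfold bt66_cnt
    rw [← hTset, Set.ncard_coe_finset]
  let b : T → MvPolynomial (Fin n) F := fun m => bt66_mon F m.1
  have hb : LinearIndependent F b := by
    have h1 := (basisMonomials (Fin n) F).linearIndependent
    have h2 := h1.comp (fun m : T => (Finsupp.equivFunOnFinite.symm m.1 : Fin n →₀ ℕ))
      (fun m m' h => Subtype.ext (Finsupp.equivFunOnFinite.symm.injective h))
    have hfun : b = (⇑(basisMonomials (Fin n) F) ∘
        fun m : T => (Finsupp.equivFunOnFinite.symm m.1 : Fin n →₀ ℕ)) := by
      funext m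
      simp [b, bt66_mon]
    rw [hfun]
    exact h2
  have hspan : degPart (bt66_ideal F U) d = Submodule.span F (Set.range b) := by
    apply le_antisymm
    · intro g hg
      obtain ⟨hgI, hgd⟩ := Submodule.mem_inf.mp hg
      rw [Submodule.restrictScalars_mem, egh216_mem_ideal] at hgI
      rw [← support_sum_monomial_coeff g]
      refine Submodule.sum_mem _ fun u hu => ?_
      obtain ⟨m, hmU, hle⟩ := hgI u hu
      have huU : (fun i => u i) ∈ U := hU m hmU _ hle
      have hdeg := egh216_degree_of_mem_support hgd hu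
      have huT : (fun i => u i) ∈ T := by
        rw [hT, Finset.mem_filter, Finset.Nat.mem_antidiagonalTuple]
        exact ⟨hdeg, huU⟩
      have : monomial u (coeff u g) = coeff u g • b ⟨fun i => u i, huT⟩ := by
        have hu' : (Finsupp.equivFunOnFinite.symm (fun i => u i) : Fin n →₀ ℕ) = u := by
          ext i; rfl
        simp [b, bt66_mon, hu', smul_monomial]
      rw [this]
      exact Submodule.smul_mem _ _ (Submodule.subset_span ⟨_, rfl⟩)
    · rw [Submodule.span_le]
      rintro _ ⟨m, rfl⟩
      have hm : ∑ i, m.1 i = d ∧ m.1 ∈ U := by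
        have h0 : m.1 ∈ (T : Set (Fin n → ℕ)) := m.2
        rw [hTset] at h0
        exact ⟨h0.2, h0.1⟩
      refine Submodule.mem_inf.mpr ⟨?_, ?_⟩
      · exact Ideal.subset_span ⟨m.1, hm.2, rfl⟩
      · rw [mem_homogeneousSubmodule]
        refine isHomogeneous_monomial _ ?_
        rw [Finsupp.degree_eq_sum]
        exact hm.1
  rw [hspan, finrank_span_eq_card hb, hcnt, Fintype.card_coe]

end Leaves

end Claimed.Agent.R278
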