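-- KEEP
/-
Row 278 (S0523), Betti paper Lemma 4.1 WITHOUT resolutions (seat 76, prefix `r278y_`).

Over the layer `KosMod206` (operators `X k` on a graded space `B`):
* `r278y_transport`: an isomorphism of the chain spaces that keeps the chains and intertwines the
  differentials keeps the Koszul numbers;
* `r278y_conj`: conjugation by a linear equivalence of the coefficient spaces;
* `r278y_twist`: the Koszul numbers do not change when `X l` is replaced by `X l + X h ∘ Z`,
  where `Z` commutes with all `X k`, `k ≠ l` (it need not commute with `X l`);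
* `r278y_exit`: the form needed for the distraction `D` of Section 4.
-/
import Claimed.Agent.R278.KosMod206

set_option autoImplicit false

namespace Claimed.Agent.R278

open Claims.C0451 MvPolynomial

section general

variable {F : Type} [DivisionRing F] {n : ℕ}
variable {B : Type} [AddCommGroup B] [Module F B]
variable {B' : Type} [AddCommGroup B'] [Module F B']

/-- Transport of the Koszul numbers along an isomorphism of complexes. -/
theorem r278y_transport (X : Fin n → Module.End F B) (X' : Fin n → Module.End F B')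
    (P : ℕ → Submodule F B) (P' : ℕ → Submodule F B')
    (Φ : (Finset (Fin n) → B) ≃ₗ[F] (Finset (Fin n) → B'))
    (hd : ∀ c, r278m_diff X' (Φ c) = Φ (r278m_diff X c))
    (hC : ∀ p j, (r278m_chains (n := n) P p j).map Φ.toLinearMap = r278m_chains (n := n) P' p j)
    (p j : ℕ) : r278m_betti X' P' p j = r278m_betti X P p j := by
  unfold r278m_betti
  have h1 : (r278m_chains (n := n) P p j ⊓ LinearMap.ker (r278m_diff X)).map Φ.toLinearMap =
      r278m_chains (n := n) P' p j ⊓ LinearMap.ker (r278m_diff X') := by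
    rw [← hC p j]
    ext c'
    constructor
    · rintro ⟨c, ⟨hc1, hc2⟩, rfl⟩
      refine ⟨⟨c, hc1, rfl⟩, ?_⟩
      have hc2' : r278m_diff X c = 0 := hc2
      change r278m_diff X' (Φ c) = 0
      rw [hd, hc2', map_zero]
    · rintro ⟨⟨c, hc1, rfl⟩, hc2⟩
      refine ⟨c, ⟨hc1, ?_⟩, rfl⟩
      have hc2' : r278m_diff X' (Φ c) = 0 := hc2
      rw [hd] at hc2'
      exact Φ.map_eq_zero_iff.1 hc2'
  have h2 : ((r278m_chains (n := n) P (p + 1) j).map (r278m_diff X)).map Φ.toLinearMap =
      (r278m_chains (n := n) P' (p + 1) j).map (r278m_diff X') := by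
    rw [← hC (p + 1) j]
    ext c'
    constructor
    · rintro ⟨_, ⟨c, hc1, rfl⟩, rfl⟩
      exact ⟨Φ c, ⟨c, hc1, rfl⟩, hd c⟩
    · rintro ⟨_, ⟨c, hc1, rfl⟩, rfl⟩
      exact ⟨_, ⟨c, hc1, rfl⟩, (hd c).symm⟩
  rw [← h1, ← h2, LinearEquiv.finrank_map_eq, LinearEquiv.finrank_map_eq]

/-- Conjugation by a linear equivalence of the coefficient spaces. -/
theorem r278y_conj (X : Fin n → Module.End F B) (X' : Fin n → Module.End F B')
    (P : ℕ → Submodule F B) (P' : ℕ → Submodule F B') (e : B ≃ₗ[F] B')
    (hX : ∀ k b, e (X k b) = X' k (e b)) (hP : ∀ d, (P d).map e.toLinearMap = P' d)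
    (p j : ℕ) : r278m_betti X' P' p j = r278m_betti X P p j := by
  refine r278y_transport X X' P P' (LinearEquiv.piCongrRight fun _ => e) ?_ ?_ p j
  · intro c
    exact r278m_diff_compLeft e.toLinearMap X X' hX c
  · intro p j
    apply le_antisymm
    · exact r278m_map_chains_le e.toLinearMap (fun d b hb => by
        rw [← hP d]; exact ⟨b, hb, rfl⟩) p j
    · exact r278m_chains_le_map e.toLinearMap (fun d => by rw [hP d]) p j

/-! ## Exterior calculus on the chains -/

theorem r278y_sgn_sq (U : Finset (Fin n)) (k : Fin n) : r278m_sgn U k * r278m_sgn U k = 1 := by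
  unfold r278m_sgn
  rw [← pow_add, ← two_mul, pow_mul]
  simp

/-- contraction with the `k`-th coordinate -/
def r278y_iota (F : Type) [DivisionRing F] {n : ℕ} {B : Type} [AddCommGroup B] [Module F B]
    (k : Fin n) : (Finset (Fin n) → B) →ₗ[F] (Finset (Fin n) → B) where
  toFun c U := if k ∉ U then r278m_sgn U k • c (insert k U) else 0
  map_add' c c' := by
    funext U
    by_cases h : k ∈ U <;> simp [h, smul_add]
  map_smul' a c := by
    funext U
    by_cases h : k ∈ U
    · simp [h]
    · simp only [h, not_false_eq_true, if_true, Pi.smul_apply, RingHom.id_apply]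
      rw [smul_comm]

/-- exterior multiplication by the `h`-th basis vector -/
def r278y_eps (F : Type) [DivisionRing F] {n : ℕ} {B : Type} [AddCommGroup B] [Module F B]
    (h : Fin n) : (Finset (Fin n) → B) →ₗ[F] (Finset (Fin n) → B) where
  toFun c U := if h ∈ U then r278m_sgn (U.erase h) h • c (U.erase h) else 0
  map_add' c c' := by
    funext U
    by_cases hh : h ∈ U <;> simp [hh, smul_add]
  map_smul' a c := by
    funext U
    by_cases hh : h ∈ U
    · simp only [hh, if_true, Pi.smul_apply, RingHom.id_apply]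
      rw [smul_comm]
    · simp [hh]

theorem r278y_iota_apply (k : Fin n) (c : Finset (Fin n) → B) (U : Finset (Fin n)) :
    r278y_iota F k c U = if k ∉ U then r278m_sgn U k • c (insert k U) else 0 := rfl

theorem r278y_eps_apply (h : Fin n) (c : Finset (Fin n) → B) (U : Finset (Fin n)) :
    r278y_eps F h c U = if h ∈ U then r278m_sgn (U.erase h) h • c (U.erase h) else 0 := rfl

theorem r278y_iota_iota_self (l : Fin n) (c : Finset (Fin n) → B) :
    r278y_iota F l (r278y_iota F l c) = 0 := by
  funext U
  simp [r278y_iota_apply]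

theorem r278y_iota_iota (k l : Fin n) (c : Finset (Fin n) → B) :
    r278y_iota F k (r278y_iota F l c) = - r278y_iota F l (r278y_iota F k c) := by
  by_cases hkl : k = l
  · subst hkl
    rw [r278y_iota_iota_self, neg_zero]
  funext U
  simp only [r278y_iota_apply, Pi.neg_apply, Finset.mem_insert, not_or]
  by_cases hk : k ∈ U
  · simp [hk]
  by_cases hl : l ∈ U
  · simp [hl]
  have h1 : l ≠ k := fun h => hkl h.symm
  simp only [hk, hl, hkl, h1, not_false_eq_true, and_self, if_true, smul_smul]
  rw [Finset.insert_comm l k U, eq_neg_iff_add_eq_zero, ← add_smul,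
    r278m_sgn_swap U hkl hk hl, zero_smul]

theorem r278y_iota_eps (k h : Fin n) (c : Finset (Fin n) → B) :
    r278y_iota F k (r278y_eps F h c) + r278y_eps F h (r278y_iota F k c) =
      if k = h then c else 0 := by
  funext U
  by_cases hkh : k = h
  · subst hkh
    simp only [if_true, Pi.add_apply, r278y_iota_apply, r278y_eps_apply]
    by_cases hk : k ∈ U
    · simp only [hk, not_true_eq_false, if_false, if_true, Finset.mem_erase, ne_eq, false_and,
        not_false_eq_true, zero_add, smul_smul, r278y_sgn_sq, one_smul, Finset.insert_erase hk]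
    · simp only [hk, not_false_eq_true, if_true, if_false, Finset.mem_insert_self, add_zero,
        Finset.erase_insert hk, smul_smul, r278y_sgn_sq, one_smul]
  · simp only [hkh, if_false, Pi.add_apply, Pi.zero_apply, r278y_iota_apply, r278y_eps_apply]
    by_cases hk : k ∈ U
    · have : k ∈ U.erase h := Finset.mem_erase.2 ⟨hkh, hk⟩
      simp [hk, this]
    by_cases hh : h ∈ U
    · have h1 : h ∈ insert k U := Finset.mem_insert_of_mem hh
      have h2 : k ∉ U.erase h := fun hc => hk (Finset.mem_of_mem_erase hc)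
      have h3 : h ∉ U.erase h := Finset.notMem_erase h U
      have h4 : (insert k U).erase h = insert k (U.erase h) :=
        Finset.erase_insert_of_ne hkh
      simp only [hk, hh, h1, h2, not_false_eq_true, if_true, smul_smul, h4]
      rw [← add_smul]
      have hswap := r278m_sgn_swap (U.erase h) hkh h2 h3
      rw [Finset.insert_erase hh] at hswap
      have hA := r278y_sgn_sq (U.erase h) k
      have hD := r278y_sgn_sq U k
      have : r278m_sgn U k * r278m_sgn (insert k (U.erase h)) h +
          r278m_sgn (U.erase h) h * r278m_sgn (U.erase h) k = 0 := by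
        linear_combination (r278m_sgn (U.erase h) k * r278m_sgn U k) * hswap
          - (r278m_sgn U k * r278m_sgn (insert k (U.erase h)) h) * hA
          - (r278m_sgn (U.erase h) h * r278m_sgn (U.erase h) k) * hD
      rw [this, zero_smul]
    · have h1 : h ∉ insert k U := by
        simp only [Finset.mem_insert, not_or]
        exact ⟨fun hc => hkh hc.symm, hh⟩
      simp [hk, hh, h1]

theorem r278y_iota_hat (T : B →ₗ[F] B) (k : Fin n) (c : Finset (Fin n) → B) :
    r278y_iota F k (T.compLeft _ c) = T.compLeft _ (r278y_iota F k c) := by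
  funext U
  by_cases hk : k ∈ U <;> simp [r278y_iota_apply, hk]

theorem r278y_eps_hat (T : B →ₗ[F] B) (h : Fin n) (c : Finset (Fin n) → B) :
    r278y_eps F h (T.compLeft _ c) = T.compLeft _ (r278y_eps F h c) := by
  funext U
  by_cases hk : h ∈ U <;> simp [r278y_eps_apply, hk]

theorem r278y_diff_eq (X : Fin n → Module.End F B) (c : Finset (Fin n) → B) :
    r278m_diff X c = ∑ k, (X k).compLeft _ (r278y_iota F k c) := by
  funext U
  rw [r278m_diff_apply, Finset.sum_apply, Finset.sum_filter]
  refine Finset.sum_congr rfl fun k _ => ?_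
  by_cases hk : k ∈ U <;> simp [r278y_iota_apply, hk]

/-- the derivation of the exterior algebra induced by `e_l ↦ e_h` -/
def r278y_theta (F : Type) [DivisionRing F] {n : ℕ} {B : Type} [AddCommGroup B] [Module F B]
    (h l : Fin n) : (Finset (Fin n) → B) →ₗ[F] (Finset (Fin n) → B) :=
  r278y_eps F h ∘ₗ r278y_iota F l

theorem r278y_theta_apply (h l : Fin n) (c : Finset (Fin n) → B) :
    r278y_theta F h l c = r278y_eps F h (r278y_iota F l c) := rfl

theorem r278y_theta_iota_self (h l : Fin n) (c : Finset (Fin n) → B) :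
    r278y_theta F h l (r278y_iota F l c) = 0 := by
  rw [r278y_theta_apply, r278y_iota_iota_self, map_zero]

theorem r278y_iota_theta (h l k : Fin n) (c : Finset (Fin n) → B) :
    r278y_iota F k (r278y_theta F h l c) =
      (if k = h then r278y_iota F l c else 0) + r278y_theta F h l (r278y_iota F k c) := by
  have h1 := r278y_iota_eps (F := F) k h (r278y_iota F l c)
  rw [r278y_theta_apply, r278y_theta_apply, ← h1, r278y_iota_iota l k c, map_neg]
  abel

theorem r278y_theta_theta {h l : Fin n} (hl : h ≠ l) (c : Finset (Fin n) → B) :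
    r278y_theta F h l (r278y_theta F h l c) = 0 := by
  have h1 := r278y_iota_eps (F := F) l h (r278y_iota F l c)
  rw [if_neg (fun e => hl e.symm), r278y_iota_iota_self, map_zero, add_zero] at h1
  rw [r278y_theta_apply, r278y_theta_apply, h1, map_zero]

theorem r278y_theta_hat (T : B →ₗ[F] B) (h l : Fin n) (c : Finset (Fin n) → B) :
    r278y_theta F h l (T.compLeft _ c) = T.compLeft _ (r278y_theta F h l c) := by
  rw [r278y_theta_apply, r278y_theta_apply, r278y_iota_hat, r278y_eps_hat]

theorem r278y_theta_mem {P : ℕ → Submodule F B} (Z : B →ₗ[F] B)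
    (hZ : ∀ e, ∀ b ∈ P e, Z b ∈ P e) (h l : Fin n) {p j : ℕ} {c : Finset (Fin n) → B}
    (hc : c ∈ r278m_chains (n := n) P p j) :
    Z.compLeft _ (r278y_theta F h l c) ∈ r278m_chains (n := n) P p j := by
  rw [r278m_mem_chains] at hc ⊢
  intro U
  simp only [LinearMap.compLeft_apply, Function.comp_apply, r278y_theta_apply, r278y_eps_apply,
    r278y_iota_apply]
  by_cases hh : h ∈ U
  · by_cases hl : l ∈ U.erase h
    · simp [hh, hl]
    · have hcard : (insert l (U.erase h)).card = U.card := by
        rw [Finset.card_insert_of_notMem hl, Finset.card_erase_of_mem hh]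
        have := Finset.card_pos.2 ⟨h, hh⟩
        omega
      have := hc (insert l (U.erase h))
      rw [hcard] at this
      simp only [hh, hl, not_false_eq_true, if_true]
      by_cases hq : U.card = p ∧ p ≤ j
      · rw [if_pos hq] at this ⊢
        rw [map_zsmul, map_zsmul]
        exact zsmul_mem (zsmul_mem (hZ _ _ this) _) _
      · rw [if_neg hq] at this ⊢
        rw [(Submodule.mem_bot F).1 this]
        simp
  · simp [hh]

/-- the unitriangular change of the exterior basis `e_l ↦ e_l + Z e_h` -/
def r278y_phi (Z : B →ₗ[F] B) {h l : Fin n} (hl : h ≠ l) :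
    (Finset (Fin n) → B) ≃ₗ[F] (Finset (Fin n) → B) :=
  LinearEquiv.ofLinearMap
    (LinearMap.id + Z.compLeft _ ∘ₗ r278y_theta F h l)
    (LinearMap.id - Z.compLeft _ ∘ₗ r278y_theta F h l)
    (by
      refine LinearMap.ext fun c => ?_
      simp only [LinearMap.comp_apply, LinearMap.add_apply, LinearMap.sub_apply, LinearMap.id_apply,
        map_sub, r278y_theta_hat, r278y_theta_theta hl, map_zero]
      abel)
    (by
      refine LinearMap.ext fun c => ?_
      simp only [LinearMap.comp_apply, LinearMap.add_apply, LinearMap.sub_apply, LinearMap.id_apply,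
        map_add, r278y_theta_hat, r278y_theta_theta hl, map_zero]
      abel)

theorem r278y_phi_apply (Z : B →ₗ[F] B) {h l : Fin n} (hl : h ≠ l) (c : Finset (Fin n) → B) :
    r278y_phi Z hl c = c + Z.compLeft _ (r278y_theta F h l c) := rfl

theorem r278y_phi_symm_apply (Z : B →ₗ[F] B) {h l : Fin n} (hl : h ≠ l)
    (c : Finset (Fin n) → B) :
    (r278y_phi Z hl).symm c = c - Z.compLeft _ (r278y_theta F h l c) := rfl

/-- **The twist.**  Replacing `X l` by `X l + X h ∘ Z` does not change the Koszul numbers, as soon as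
`Z` commutes with the `X k`, `k ≠ l`, and keeps the pieces. -/
theorem r278y_twist (X : Fin n → Module.End F B) (Z : Module.End F B) {h l : Fin n} (hl : h ≠ l)
    (hZX : ∀ k, k ≠ l → ∀ b, X k (Z b) = Z (X k b))
    (P : ℕ → Submodule F B) (hZ : ∀ e, ∀ b ∈ P e, Z b ∈ P e) (p j : ℕ) :
    r278m_betti (Function.update X l (X l + X h * Z)) P p j = r278m_betti X P p j := by
  symm
  refine r278y_transport (Function.update X l (X l + X h * Z)) X P P (r278y_phi Z hl) ?_ ?_ p j
  · intro c
    -- the twisted differential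
    have hX' : r278m_diff (Function.update X l (X l + X h * Z)) c =
        r278m_diff X c + (X h).compLeft _ (Z.compLeft _ (r278y_iota F l c)) := by
      rw [r278y_diff_eq, r278y_diff_eq]
      have : ∀ k, ((Function.update X l (X l + X h * Z)) k).compLeft _ (r278y_iota F k c) =
          (X k).compLeft _ (r278y_iota F k c) +
            if k = l then (X h).compLeft _ (Z.compLeft _ (r278y_iota F l c)) else 0 := by
        intro k
        by_cases hk : k = l
        · subst hk
          rw [Function.update_self, if_pos rfl]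
          funext U
          simp [LinearMap.compLeft_apply]
        · rw [Function.update_of_ne hk, if_neg hk, add_zero]
      simp only [this, Finset.sum_add_distrib, Finset.sum_ite_eq', Finset.mem_univ, if_true]
    have hL : r278m_diff X (Z.compLeft _ (r278y_theta F h l c)) =
        (X h).compLeft _ (Z.compLeft _ (r278y_iota F l c)) +
          ∑ k, (X k).compLeft _ (Z.compLeft _ (r278y_theta F h l (r278y_iota F k c))) := by
      rw [r278y_diff_eq]
      simp only [r278y_iota_hat, r278y_iota_theta, map_add, Finset.sum_add_distrib]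
      congr 1
      rw [Finset.sum_eq_single h]
      · rw [if_pos rfl]
      · intro k _ hk
        rw [if_neg hk, map_zero, map_zero]
      · intro hh
        exact absurd (Finset.mem_univ h) hh
    have hR : Z.compLeft _ (r278y_theta F h l (r278m_diff X c)) =
        ∑ k, (X k).compLeft _ (Z.compLeft _ (r278y_theta F h l (r278y_iota F k c))) := by
      rw [r278y_diff_eq, map_sum, map_sum]
      refine Finset.sum_congr rfl fun k _ => ?_
      by_cases hk : k = l
      · subst hk
        rw [r278y_theta_hat, r278y_theta_iota_self]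
        simp
      · rw [r278y_theta_hat]
        funext U
        simp only [LinearMap.compLeft_apply, Function.comp_apply]
        exact (hZX k hk _).symm
    have hR2 : Z.compLeft _ (r278y_theta F h l
        ((X h).compLeft _ (Z.compLeft _ (r278y_iota F l c)))) = 0 := by
      rw [r278y_theta_hat, r278y_theta_hat, r278y_theta_iota_self]
      simp
    rw [r278y_phi_apply, r278y_phi_apply, map_add, hL, hX', map_add, map_add, hR, hR2]
    abel
  · intro p j
    apply le_antisymm
    · rintro _ ⟨c, hc, rfl⟩
      change r278y_phi Z hl c ∈ _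
      rw [r278y_phi_apply]
      exact Submodule.add_mem _ hc (r278y_theta_mem Z hZ h l hc)
    · intro c hc
      refine ⟨(r278y_phi Z hl).symm c, ?_, by simp⟩
      rw [SetLike.mem_coe, r278y_phi_symm_apply]
      exact Submodule.sub_mem _ hc (r278y_theta_mem Z hZ h l hc)

end general

/-! ## The exit for the distraction of Section 4 -/

section exit

variable {F : Type} [Field F] {n : ℕ}

/-- The map induced on the quotients by an `F`-linear map of the polynomial ring. -/
noncomputable def r278y_quotMap (K J : Ideal (MvPolynomial (Fin n) F))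
    (T : MvPolynomial (Fin n) F →ₗ[F] MvPolynomial (Fin n) F) (hT : ∀ m ∈ K, T m ∈ J) :
    (MvPolynomial (Fin n) F ⧸ K) →ₗ[F] (MvPolynomial (Fin n) F ⧸ J) :=
  (Submodule.Quotient.restrictScalarsEquiv F J).toLinearMap ∘ₗ
    (Submodule.mapQ (K.restrictScalars F) (J.restrictScalars F) T (fun m hm => hT m hm)) ∘ₗ
      (Submodule.Quotient.restrictScalarsEquiv F K).symm.toLinearMap

theorem r278y_quotMap_mk (K J : Ideal (MvPolynomial (Fin n) F))
    (T : MvPolynomial (Fin n) F →ₗ[F] MvPolynomial (Fin n) F) (hT : ∀ m ∈ K, T m ∈ J)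
    (m : MvPolynomial (Fin n) F) :
    r278y_quotMap K J T hT (Ideal.Quotient.mk K m) = Ideal.Quotient.mk J (T m) := rfl

/-- The equivalence induced on the quotients. -/
noncomputable def r278y_quotEquiv (K J : Ideal (MvPolynomial (Fin n) F))
    (Dm : MvPolynomial (Fin n) F ≃ₗ[F] MvPolynomial (Fin n) F) (hDK : ∀ m, Dm m ∈ J ↔ m ∈ K) :
    (MvPolynomial (Fin n) F ⧸ K) ≃ₗ[F] (MvPolynomial (Fin n) F ⧸ J) :=
  LinearEquiv.ofLinearMap
    (r278y_quotMap K J Dm.toLinearMap (fun m hm => (hDK m).2 hm))
    (r278y_quotMap J K Dm.symm.toLinearMap (fun m hm => by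
      have := (hDK (Dm.symm m)).1 (by simpa using hm)
      exact this))
    (by
      refine LinearMap.ext fun b => ?_
      obtain ⟨m, rfl⟩ := Ideal.Quotient.mk_surjective b
      simp [r278y_quotMap_mk])
    (by
      refine LinearMap.ext fun b => ?_
      obtain ⟨m, rfl⟩ := Ideal.Quotient.mk_surjective b
      simp [r278y_quotMap_mk])

theorem r278y_quotEquiv_mk (K J : Ideal (MvPolynomial (Fin n) F))
    (Dm : MvPolynomial (Fin n) F ≃ₗ[F] MvPolynomial (Fin n) F) (hDK : ∀ m, Dm m ∈ J ↔ m ∈ K)
    (m : MvPolynomial (Fin n) F) :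
    r278y_quotEquiv K J Dm hDK (Ideal.Quotient.mk K m) = Ideal.Quotient.mk J (Dm m) := rfl

/-- **EXIT (Lemma 4.1 of the Betti paper, the Betti numbers).**  `Dm` is the distraction, `Zm` the
diagonal operator `x^u ↦ ζ^{u_l} x^u`. -/
theorem r278y_exit (K J : Ideal (MvPolynomial (Fin n) F))
    (Dm : MvPolynomial (Fin n) F ≃ₗ[F] MvPolynomial (Fin n) F)
    (Zm : MvPolynomial (Fin n) F →ₗ[F] MvPolynomial (Fin n) F) {h l : Fin n} (hl : h ≠ l)
    (hDK : ∀ m, Dm m ∈ J ↔ m ∈ K)
    (hDdeg : ∀ d m, Dm m ∈ homogeneousSubmodule (Fin n) F d ↔ m ∈ homogeneousSubmodule (Fin n) F d)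
    (hDX : ∀ k, k ≠ l → ∀ m, Dm (X k * m) = X k * Dm m)
    (hDl : ∀ m, X l * Dm m = Dm (X l * m + X h * Zm m))
    (hZK : ∀ m ∈ K, Zm m ∈ K)
    (hZdeg : ∀ d, ∀ m ∈ homogeneousSubmodule (Fin n) F d, Zm m ∈ homogeneousSubmodule (Fin n) F d)
    (hZX : ∀ k, k ≠ l → ∀ m, Zm (X k * m) = X k * Zm m) (p j : ℕ) :
    gradedBetti J p j = gradedBetti K p j := by
  rw [r278m_gradedBetti_eq, r278m_gradedBetti_eq]
  set XK : Fin n → Module.End F (MvPolynomial (Fin n) F ⧸ K) :=
    fun k => LinearMap.mulLeft F (Ideal.Quotient.mk K (X k)) with hXK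
  set XJ : Fin n → Module.End F (MvPolynomial (Fin n) F ⧸ J) :=
    fun k => LinearMap.mulLeft F (Ideal.Quotient.mk J (X k)) with hXJ
  let Zb : Module.End F (MvPolynomial (Fin n) F ⧸ K) := r278y_quotMap K K Zm hZK
  have h1 : r278m_betti (Function.update XK l (XK l + XK h * Zb)) (quotPiece K) p j =
      r278m_betti XK (quotPiece K) p j := by
    refine r278y_twist XK Zb hl ?_ (quotPiece K) ?_ p j
    · intro k hk b
      obtain ⟨m, rfl⟩ := Ideal.Quotient.mk_surjective b
      simp only [hXK, Zb, LinearMap.mulLeft_apply, r278y_quotMap_mk, ← map_mul, hZX k hk]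
    · rintro e _ ⟨m, hm, rfl⟩
      exact ⟨Zm m, hZdeg e m hm, rfl⟩
  rw [← h1]
  refine r278y_conj _ XJ (quotPiece K) (quotPiece J) (r278y_quotEquiv K J Dm hDK) ?_ ?_ p j
  · intro k b
    obtain ⟨m, rfl⟩ := Ideal.Quotient.mk_surjective b
    by_cases hk : k = l
    · subst hk
      rw [Function.update_self]
      simp only [hXK, hXJ, Zb, LinearMap.add_apply, Module.End.mul_apply, LinearMap.mulLeft_apply,
        r278y_quotMap_mk, r278y_quotEquiv_mk, ← map_mul, ← map_add, hDl]
    · rw [Function.update_of_ne hk]
      simp only [hXK, hXJ, LinearMap.mulLeft_apply, r278y_quotEquiv_mk, ← map_mul, hDX k hk]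
  · intro d
    apply le_antisymm
    · rintro _ ⟨_, ⟨m, hm, rfl⟩, rfl⟩
      exact ⟨Dm m, (hDdeg d m).2 hm, rfl⟩
    · rintro _ ⟨m, hm, rfl⟩
      refine ⟨Ideal.Quotient.mk K (Dm.symm m), ⟨Dm.symm m, ?_, rfl⟩, ?_⟩
      · exact (hDdeg d _).1 (by simpa using hm)
      · change r278y_quotEquiv K J Dm hDK (Ideal.Quotient.mk K (Dm.symm m)) = _
        rw [r278y_quotEquiv_mk, LinearEquiv.apply_symm_apply]
        rfl

end exit

end Claimed.Agent.R278
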