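-- KEEP
/-
R278 / Stab276 (pen 276, prefix `egs_`): Prop 4.3 of the Betti paper (stabilisation inside the box),
from the distraction `D` (DistrDef276), the shear lemma (Twist76 / Distr276), the leading-position
counts (Distr276) and the leading-submodule comparison (Kos126).
-/
import Claimed.Agent.R278.Distr276
import Claimed.Agent.R278.DistrDef276
import Claimed.Agent.R278.Twist76
import Claimed.Agent.R278.Trunc216
import Claimed.Agent.R278.Kos126
import Claimed.Agent.R278.DistrD76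

set_option autoImplicit false

namespace Claimed.Agent.R278

open Claims.C0451 MvPolynomial

variable {E : Type} [Field E] {n : ℕ}

/-! ## The image of an ideal under a distraction -/

section Image

variable (K : Ideal (MvPolynomial (Fin n) E))
  (Dm : MvPolynomial (Fin n) E ≃ₗ[E] MvPolynomial (Fin n) E)
  (Zm : MvPolynomial (Fin n) E →ₗ[E] MvPolynomial (Fin n) E) (h l : Fin n)

theorem egs_exists_image
    (hDX : ∀ k, k ≠ l → ∀ m, Dm (X k * m) = X k * Dm m)
    (hDl : ∀ m, X l * Dm m = Dm (X l * m + X h * Zm m))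
    (hZK : ∀ m ∈ K, Zm m ∈ K) :
    ∃ W : Ideal (MvPolynomial (Fin n) E), ∀ m, Dm m ∈ W ↔ m ∈ K := by
  have hvar : ∀ k p, Dm.symm p ∈ K → Dm.symm (X k * p) ∈ K := by
    intro k p hp
    obtain ⟨q, rfl⟩ := Dm.surjective p
    rw [LinearEquiv.symm_apply_apply] at hp
    by_cases hk : k = l
    · subst hk
      rw [hDl, LinearEquiv.symm_apply_apply]
      exact K.add_mem (K.mul_mem_left _ hp) (K.mul_mem_left _ (hZK q hp))
    · rw [← hDX k hk, LinearEquiv.symm_apply_apply]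
      exact K.mul_mem_left _ hp
  have hall : ∀ c : MvPolynomial (Fin n) E, ∀ p, Dm.symm p ∈ K → Dm.symm (c * p) ∈ K := by
    intro c
    induction c using MvPolynomial.induction_on with
    | C a =>
      intro p hp
      rw [C_mul', map_smul, ← C_mul']
      exact K.mul_mem_left _ hp
    | add c c' hc hc' =>
      intro p hp
      rw [add_mul, map_add]
      exact K.add_mem (hc p hp) (hc' p hp)
    | mul_X c k hc =>
      intro p hp
      rw [mul_assoc]
      exact hc _ (hvar k p hp)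
  refine ⟨{ carrier := {p | Dm.symm p ∈ K}
            add_mem' := ?_
            zero_mem' := ?_
            smul_mem' := ?_ }, ?_⟩
  · intro p q hp hq
    show Dm.symm (p + q) ∈ K
    rw [map_add]
    exact K.add_mem hp hq
  · show Dm.symm 0 ∈ K
    rw [map_zero]
    exact K.zero_mem
  · intro c p hp
    exact hall c p hp
  · intro m
    show Dm.symm (Dm m) ∈ K ↔ m ∈ K
    rw [LinearEquiv.symm_apply_apply]

theorem egs_comp_comm
    (hDdeg : ∀ d m, Dm m ∈ homogeneousSubmodule (Fin n) E d ↔ m ∈ homogeneousSubmodule (Fin n) E d)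
    (d : ℕ) (q : MvPolynomial (Fin n) E) :
    homogeneousComponent d (Dm q) = Dm (homogeneousComponent d q) := by
  conv_lhs => rw [← sum_homogeneousComponent q]
  rw [map_sum, map_sum]
  have : ∀ i ∈ Finset.range (q.totalDegree + 1),
      homogeneousComponent d (Dm (homogeneousComponent i q)) =
        if i = d then Dm (homogeneousComponent d q) else 0 := by
    intro i _
    rw [homogeneousComponent_of_mem ((hDdeg i _).mpr (homogeneousComponent_mem i q))]
    by_cases hid : i = d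
    · subst hid; simp
    · rw [if_neg hid, if_neg (Ne.symm hid)]
  rw [Finset.sum_congr rfl this, Finset.sum_ite_eq']
  split_ifs with hd
  · rfl
  · rw [Finset.mem_range, not_lt] at hd
    rw [homogeneousComponent_eq_zero _ _ (by omega), map_zero]

variable {K Dm}

theorem egs_image_homog {W : Ideal (MvPolynomial (Fin n) E)} (hW : ∀ m, Dm m ∈ W ↔ m ∈ K)
    (hDdeg : ∀ d m, Dm m ∈ homogeneousSubmodule (Fin n) E d ↔ m ∈ homogeneousSubmodule (Fin n) E d)
    (hK : IsHomogeneousIdeal K) : IsHomogeneousIdeal W := by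
  intro f hf d
  obtain ⟨q, rfl⟩ := Dm.surjective f
  rw [egs_comp_comm Dm hDdeg, hW]
  exact hK q ((hW q).mp hf) d

theorem egs_image_degPart {W : Ideal (MvPolynomial (Fin n) E)} (hW : ∀ m, Dm m ∈ W ↔ m ∈ K)
    (hDdeg : ∀ d m, Dm m ∈ homogeneousSubmodule (Fin n) E d ↔ m ∈ homogeneousSubmodule (Fin n) E d)
    (d : ℕ) : degPart W d = (degPart K d).map (Dm : _ →ₗ[E] MvPolynomial (Fin n) E) := by
  ext p
  constructor
  · rintro ⟨hp1, hp2⟩
    obtain ⟨q, rfl⟩ := Dm.surjective p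
    exact ⟨q, ⟨(hW q).mp hp1, (hDdeg d q).mp hp2⟩, rfl⟩
  · rintro ⟨q, ⟨hq1, hq2⟩, rfl⟩
    exact ⟨(hW q).mpr hq1, (hDdeg d q).mpr hq2⟩

theorem egs_image_finrank {W : Ideal (MvPolynomial (Fin n) E)} (hW : ∀ m, Dm m ∈ W ↔ m ∈ K)
    (hDdeg : ∀ d m, Dm m ∈ homogeneousSubmodule (Fin n) E d ↔ m ∈ homogeneousSubmodule (Fin n) E d)
    (d : ℕ) : Module.finrank E (degPart W d) = Module.finrank E (degPart K d) := by
  rw [egs_image_degPart hW hDdeg d, LinearEquiv.finrank_map_eq]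

end Image

/-! ## Monomial ideals -/

section Mono

theorem egs_mem_ideal_up (U : Set (Fin n → ℕ)) (hU : bt66_Up U) (g : MvPolynomial (Fin n) E) :
    g ∈ bt66_ideal E U ↔ ∀ u ∈ g.support, (⇑u : Fin n → ℕ) ∈ U := by
  rw [egh216_mem_ideal]
  refine forall₂_congr fun u _ => ?_
  constructor
  · rintro ⟨m, hm, hle⟩
    exact hU m hm _ hle
  · intro hu
    exact ⟨_, hu, fun _ => le_rfl⟩

theorem egs_mon_mem (U : Set (Fin n → ℕ)) {m : Fin n → ℕ} (hm : m ∈ U) :
    bt66_mon E m ∈ bt66_ideal E U :=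
  Ideal.subset_span ⟨m, hm, rfl⟩

theorem egs_mon_homog (m : Fin n → ℕ) :
    bt66_mon E m ∈ homogeneousSubmodule (Fin n) E (∑ i, m i) := by
  rw [mem_homogeneousSubmodule]
  unfold bt66_mon
  apply isHomogeneous_monomial
  rw [Finsupp.degree_eq_sum]
  rfl

theorem egs_cf_mon (m m' : Fin n → ℕ) :
    egd_cf m' (bt66_mon E m) = if m = m' then 1 else 0 := by
  unfold egd_cf bt66_mon
  rw [coeff_monomial]
  by_cases h : m = m'
  · subst h; simp
  · rw [if_neg h, if_neg]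
    intro h'
    exact h (Finsupp.equivFunOnFinite.symm.injective h')

theorem egs_up_pow (a : Fin n → ℕ) : bt66_Up {m : Fin n → ℕ | ∃ i, a i ≤ m i} := by
  rintro m ⟨i, hi⟩ m' hle
  exact ⟨i, hi.trans (hle i)⟩

instance egs_finite_degPart (I : Ideal (MvPolynomial (Fin n) E)) (d : ℕ) :
    Module.Finite E (degPart I d) := by
  have : Module.Finite E (homogeneousSubmodule (Fin n) E d) :=
    Module.Finite.iff_fg.mpr (homogeneousSubmodule_fg (Fin n) E d)
  exact Submodule.finiteDimensional_of_le (inf_le_right : degPart I d ≤ _)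

theorem egs_inPowers_iff (a : Fin n → ℕ) (m : Fin n → ℕ) :
    inPowers (le_refl n) a m = true ↔ ∃ i, a i ≤ m i := by
  unfold inPowers
  rw [decide_eq_true_iff]
  simp

end Mono

/-! ## The powers stay inside -/

theorem egs_pow_image (a : Fin n → ℕ)
    (Dm : MvPolynomial (Fin n) E ≃ₗ[E] MvPolynomial (Fin n) E)
    (hDdeg : ∀ d m, Dm m ∈ homogeneousSubmodule (Fin n) E d ↔ m ∈ homogeneousSubmodule (Fin n) E d)
    (hpow : ∀ u : Fin n →₀ ℕ, (∃ i, a i ≤ u i) → ∀ v ∈ (Dm (monomial u 1)).support, ∃ i, a i ≤ v i)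
    (m : Fin n → ℕ) (hm : ∃ i, a i ≤ m i) :
    ∃ q ∈ bt66_ideal E {m : Fin n → ℕ | ∃ i, a i ≤ m i}, Dm q = bt66_mon E m := by
  set Ps : Set (Fin n → ℕ) := {m : Fin n → ℕ | ∃ i, a i ≤ m i} with hPs
  set V := degPart (bt66_ideal E Ps) (∑ i, m i) with hV
  have hle : V.map (Dm : _ →ₗ[E] MvPolynomial (Fin n) E) ≤ V := by
    rintro _ ⟨q, ⟨hq1, hq2⟩, rfl⟩
    refine ⟨?_, (hDdeg _ q).mpr hq2⟩
    have hq1' : ∀ u ∈ q.support, (⇑u : Fin n → ℕ) ∈ Ps :=
      (egs_mem_ideal_up Ps (egs_up_pow a) q).mp hq1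
    show Dm q ∈ bt66_ideal E Ps
    rw [← support_sum_monomial_coeff q, map_sum]
    refine Ideal.sum_mem _ fun u hu => ?_
    have : monomial u (coeff u q) = coeff u q • (monomial u (1 : E)) := by
      rw [smul_monomial, smul_eq_mul, mul_one]
    rw [this, map_smul, ← C_mul']
    apply Ideal.mul_mem_left
    rw [egs_mem_ideal_up Ps (egs_up_pow a)]
    intro v hv
    exact hpow u (hq1' u hu) v hv
  have heq : V.map (Dm : _ →ₗ[E] MvPolynomial (Fin n) E) = V :=
    Submodule.eq_of_le_of_finrank_eq hle (LinearEquiv.finrank_map_eq Dm V)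
  have hmem : bt66_mon E m ∈ V := ⟨egs_mon_mem Ps hm, egs_mon_homog m⟩
  rw [← heq] at hmem
  obtain ⟨q, hq, hq'⟩ := hmem
  exact ⟨q, hq.1, hq'⟩

/-! ## The step -/

/-- the contract on initial ideals (Prop 2.3 of the paper for the lexicographic order). -/
def EgsInLex (E : Type) [Field E] (n : ℕ) : Prop :=
  ∀ W : Ideal (MvPolynomial (Fin n) E), IsHomogeneousIdeal W →
    ∃ U' : Set (Fin n → ℕ), bt66_Up U' ∧
      (∀ d, Module.finrank E (degPart W d) = bt66_cnt U' d) ∧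
      (∀ p j, gradedBetti W p j ≤ gradedBetti (bt66_ideal E U') p j) ∧ egd_IsLead W U'

theorem egs_eqns_cite : True := by
  have := @EgsInLex.eq_1
  trivial

theorem egs_step_abstract (hIn : EgsInLex E n) (a : Fin n → ℕ) (U : Set (Fin n → ℕ))
    (hU : bt66_Up U) (hP : ∀ m : Fin n → ℕ, (∃ i, a i ≤ m i) → m ∈ U)
    (Dm : MvPolynomial (Fin n) E ≃ₗ[E] MvPolynomial (Fin n) E)
    (Zm : MvPolynomial (Fin n) E →ₗ[E] MvPolynomial (Fin n) E) {h l : Fin n} (hl : h ≠ l)
    (hDdeg : ∀ d m, Dm m ∈ homogeneousSubmodule (Fin n) E d ↔ m ∈ homogeneousSubmodule (Fin n) E d)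
    (hDX : ∀ k, k ≠ l → ∀ m, Dm (X k * m) = X k * Dm m)
    (hDl : ∀ m, X l * Dm m = Dm (X l * m + X h * Zm m))
    (hZdeg : ∀ d, ∀ m ∈ homogeneousSubmodule (Fin n) E d, Zm m ∈ homogeneousSubmodule (Fin n) E d)
    (hZX : ∀ k, k ≠ l → ∀ m, Zm (X k * m) = X k * Zm m)
    (hZco : ∀ (u : Fin n →₀ ℕ) p, coeff u (Zm p) ≠ 0 → coeff u p ≠ 0)
    (htri1 : ∀ u : Fin n →₀ ℕ, coeff u (Dm (monomial u 1)) ≠ 0)
    (htri2 : ∀ u v : Fin n →₀ ℕ, coeff v (Dm (monomial u 1)) ≠ 0 →
      v = u ∨ toLex (⇑u : Fin n → ℕ) < toLex (⇑v : Fin n → ℕ))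
    (hpow : ∀ u : Fin n →₀ ℕ, (∃ i, a i ≤ u i) → ∀ v ∈ (Dm (monomial u 1)).support, ∃ i, a i ≤ v i)
    (u m' : Fin n → ℕ) (hu : u ∈ U) (hm' : m' ∉ U) (hd' : ∑ i, m' i = ∑ i, u i)
    (hne : egd_cf m' (Dm (bt66_mon E u)) ≠ 0) :
    ∃ U' : Set (Fin n → ℕ), bt66_Up U' ∧ (∀ m : Fin n → ℕ, (∃ i, a i ≤ m i) → m ∈ U') ∧
      (∀ d, bt66_cnt U' d = bt66_cnt U d) ∧
      (∀ p j, gradedBetti (bt66_ideal E U) p j ≤ gradedBetti (bt66_ideal E U') p j) ∧
      (∀ m₀, egd_pre U m₀ ≤ egd_pre U' m₀) ∧ egd_pre U m' < egd_pre U' m' := by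
  set K := bt66_ideal E U with hK
  have hZK : ∀ m ∈ K, Zm m ∈ K := by
    intro m hm
    rw [hK, egs_mem_ideal_up U hU] at hm ⊢
    intro v hv
    exact hm v (mem_support_iff.mpr (hZco v m (mem_support_iff.mp hv)))
  obtain ⟨W, hW⟩ := egs_exists_image K Dm Zm h l hDX hDl hZK
  have hKh : IsHomogeneousIdeal K := egh216_ideal_homog E U
  have hWh : IsHomogeneousIdeal W := egs_image_homog hW hDdeg hKh
  obtain ⟨U', hU'up, hU'cnt, hU'betti, hU'lead⟩ := hIn W hWh
  have H1 : ∀ v ∈ U, Dm (bt66_mon E v) ∈ degPart W (∑ i, v i) := by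
    intro v hv
    exact ⟨(hW _).mpr (egs_mon_mem U hv), (hDdeg _ _).mpr (egs_mon_homog v)⟩
  have H2 : ∀ v : Fin n → ℕ, egd_cf v (Dm (bt66_mon E v)) ≠ 0 := by
    intro v
    exact htri1 _
  have H3 : ∀ v v' : Fin n → ℕ, egd_cf v' (Dm (bt66_mon E v)) ≠ 0 → v' = v ∨ toLex v < toLex v' := by
    intro v v' hvv
    rcases htri2 _ _ hvv with h1 | h1
    · exact Or.inl (Finsupp.equivFunOnFinite.symm.injective h1)
    · exact Or.inr h1
  refine ⟨U', hU'up, ?_, ?_, ?_, ?_, ?_⟩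
  · intro m hm
    obtain ⟨q, hq, hq'⟩ := egs_pow_image a Dm hDdeg hpow m hm
    have hqK : q ∈ K := by
      have : bt66_ideal E {m : Fin n → ℕ | ∃ i, a i ≤ m i} ≤ K :=
        Ideal.span_mono (Set.image_mono fun m hm => hP m hm)
      exact this hq
    rw [hU'lead m]
    refine ⟨bt66_mon E m, ⟨?_, egs_mon_homog m⟩, ?_, ?_⟩
    · show bt66_mon E m ∈ W
      rw [← hq']
      exact (hW q).mpr hqK
    · rw [egs_cf_mon, if_pos rfl]
      exact one_ne_zero
    · intro m'' _ hlt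
      rw [egs_cf_mon, if_neg]
      rintro rfl
      exact lt_irrefl _ hlt
  · intro d
    rw [← hU'cnt d, egs_image_finrank hW hDdeg d, hK, egh216_finrank_ideal E U hU d]
  · intro p j
    rw [← r278y_exit K W Dm Zm hl hW hDdeg hDX hDl hZK hZdeg hZX p j]
    exact hU'betti p j
  · exact egd_pre_le W U U' hU'lead (fun v => Dm (bt66_mon E v)) H1 H2 H3
  · exact egd_pre_lt W U U' hU'lead (fun v => Dm (bt66_mon E v)) H1 H2 H3 u m' hu hm' hd' hne

/-! ## The concrete step -/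

/-- the contract on the distraction: leaves (a)-(g). -/
structure EgsDistr (ζ : E) (h l : Fin n) : Prop where
  bij : Function.Bijective (egd_D ζ h l)
  Ddeg : ∀ d m, egd_D ζ h l m ∈ homogeneousSubmodule (Fin n) E d ↔
    m ∈ homogeneousSubmodule (Fin n) E d
  DX : ∀ k, k ≠ l → ∀ m, egd_D ζ h l (X k * m) = X k * egd_D ζ h l m
  Dl : ∀ m, X l * egd_D ζ h l m = egd_D ζ h l (X l * m + X h * egd_Z ζ l m)
  Zdeg : ∀ d, ∀ m ∈ homogeneousSubmodule (Fin n) E d, egd_Z ζ l m ∈ homogeneousSubmodule (Fin n) E d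
  ZX : ∀ k, k ≠ l → ∀ m, egd_Z ζ l (X k * m) = X k * egd_Z ζ l m
  Zco : ∀ (u : Fin n →₀ ℕ) p, coeff u (egd_Z ζ l p) = ζ ^ (u l) * coeff u p
  tri1 : ∀ u : Fin n →₀ ℕ, coeff u (egd_Dmon ζ h l u) = 1
  tri2 : ∀ u v : Fin n →₀ ℕ, coeff v (egd_Dmon ζ h l u) ≠ 0 →
    v = u ∨ toLex (⇑u : Fin n → ℕ) < toLex (⇑v : Fin n → ℕ)
  nb : ∀ u : Fin n →₀ ℕ, 0 < u l →
    coeff (u - Finsupp.single l 1 + Finsupp.single h 1) (egd_Dmon ζ h l u) =
      - ∑ s ∈ Finset.range (u l), ζ ^ s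
  pow : ∀ a : Fin n → ℕ, IsPrimitiveRoot ζ (a l) → a h ≤ a l → ∀ u : Fin n →₀ ℕ,
    (∃ i, a i ≤ u i) → ∀ v ∈ (egd_Dmon ζ h l u).support, ∃ i, a i ≤ v i

theorem egs_geom_ne_zero {ζ : E} {N k : ℕ} (hζ : IsPrimitiveRoot ζ N) (hk : 0 < k) (hkN : k < N) :
    ∑ s ∈ Finset.range k, ζ ^ s ≠ 0 := by
  intro h0
  have := geom_sum_mul ζ k
  rw [h0, zero_mul] at this
  exact hζ.pow_ne_one_of_pos_of_lt hk.ne' hkN (sub_eq_zero.mp this.symm)

theorem egs_sum_move (u : Fin n → ℕ) {h l : Fin n} (hl : h ≠ l) (hul : 0 < u l) :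
    ∑ i, Function.update (Function.update u l (u l - 1)) h (u h + 1) i = ∑ i, u i := by
  have key : ∀ i, Function.update (Function.update u l (u l - 1)) h (u h + 1) i +
      (Pi.single l 1 : Fin n → ℕ) i = u i + (Pi.single h 1 : Fin n → ℕ) i := by
    intro i
    by_cases hih : i = h
    · subst hih
      rw [Function.update_self, Pi.single_eq_of_ne hl, Pi.single_eq_same, add_zero]
    · rw [Function.update_of_ne hih, Pi.single_eq_of_ne hih]
      by_cases hil : i = l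
      · subst hil
        rw [Function.update_self, Pi.single_eq_same]
        omega
      · rw [Function.update_of_ne hil, Pi.single_eq_of_ne hil]
  have h2 := Finset.sum_congr (rfl : (Finset.univ : Finset (Fin n)) = Finset.univ)
    (fun i _ => key i)
  rw [Finset.sum_add_distrib, Finset.sum_add_distrib, Finset.sum_pi_single', Finset.sum_pi_single']
    at h2
  simpa using h2

theorem egs_move_finsupp (u : Fin n → ℕ) {h l : Fin n} (hl : h ≠ l) :
    (Finsupp.equivFunOnFinite.symm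
      (Function.update (Function.update u l (u l - 1)) h (u h + 1)) : Fin n →₀ ℕ) =
      Finsupp.equivFunOnFinite.symm u - Finsupp.single l 1 + Finsupp.single h 1 := by
  ext i
  simp only [Finsupp.equivFunOnFinite_symm_apply_apply, Finsupp.coe_add, Finsupp.coe_tsub,
    Pi.add_apply, Pi.sub_apply]
  by_cases hih : i = h
  · subst hih
    rw [Function.update_self, Finsupp.single_eq_same, Finsupp.single_eq_of_ne hl]
    simp
  · rw [Function.update_of_ne hih, Finsupp.single_eq_of_ne hih]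
    by_cases hil : i = l
    · subst hil
      rw [Function.update_self, Finsupp.single_eq_same]
      simp
    · rw [Function.update_of_ne hil, Finsupp.single_eq_of_ne hil]
      simp

theorem egs_step (hIn : EgsInLex E n) (a : Fin n → ℕ) (U : Set (Fin n → ℕ))
    (hU : bt66_Up U) (hP : ∀ m : Fin n → ℕ, (∃ i, a i ≤ m i) → m ∈ U)
    {h l : Fin n} (hhl : h < l) (hah : a h ≤ a l) (ζ : E) (hζ : IsPrimitiveRoot ζ (a l))
    (hD : EgsDistr ζ h l)
    (u : Fin n → ℕ) (hu : u ∈ U) (hbox : ∀ i, u i < a i) (hul : 0 < u l)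
    (hnot : Function.update (Function.update u l (u l - 1)) h (u h + 1) ∉ U) :
    ∃ U' : Set (Fin n → ℕ), bt66_Up U' ∧ (∀ m : Fin n → ℕ, (∃ i, a i ≤ m i) → m ∈ U') ∧
      (∀ d, bt66_cnt U' d = bt66_cnt U d) ∧
      (∀ p j, gradedBetti (bt66_ideal E U) p j ≤ gradedBetti (bt66_ideal E U') p j) ∧
      (∀ m₀, egd_pre U m₀ ≤ egd_pre U' m₀) ∧
      ∃ m₁ : Fin n → ℕ, ∑ i, m₁ i < ∑ i, a i ∧ egd_pre U m₁ < egd_pre U' m₁ := by
  have hl : h ≠ l := hhl.ne
  let Dm : MvPolynomial (Fin n) E ≃ₗ[E] MvPolynomial (Fin n) E :=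
    LinearEquiv.ofBijective (egd_D ζ h l) hD.bij
  have hDm : ∀ p, Dm p = egd_D ζ h l p := fun _ => rfl
  have hDmon : ∀ v : Fin n →₀ ℕ, Dm (monomial v 1) = egd_Dmon ζ h l v := by
    intro v
    rw [hDm, egd_D_monomial, one_smul]
  obtain ⟨U', h1, h2, h3, h4, h5, h6⟩ := egs_step_abstract hIn a U hU hP Dm (egd_Z ζ l) hl
    hD.Ddeg hD.DX hD.Dl hD.Zdeg hD.ZX
    (by
      intro v p hv h0
      rw [hD.Zco, h0, mul_zero] at hv
      exact hv rfl)
    (by
      intro v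
      rw [hDmon, hD.tri1]
      exact one_ne_zero)
    (by
      intro v v' hv
      rw [hDmon] at hv
      exact hD.tri2 v v' hv)
    (by
      intro v hv v' hv'
      rw [hDmon] at hv'
      exact hD.pow a hζ hah v hv v' hv')
    u _ hu hnot (egs_sum_move u hl hul)
    (by
      unfold egd_cf bt66_mon
      rw [hDmon, egs_move_finsupp u hl, hD.nb _ hul, neg_ne_zero]
      exact egs_geom_ne_zero hζ hul (hbox l))
  refine ⟨U', h1, h2, h3, h4, h5, _, ?_, h6⟩
  rw [egs_sum_move u hl hul]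
  exact Finset.sum_lt_sum_of_nonempty ⟨h, Finset.mem_univ _⟩ fun i _ => hbox i

/-- **Prop 4.3** from the two contracts. -/
theorem egs_stabilise_of [CharZero E] [IsAlgClosed E] (hIn : EgsInLex E n)
    (hD : ∀ (ζ : E) (h l : Fin n), h < l → EgsDistr ζ h l)
    (a : Fin n → ℕ) (ha : ∀ i, 2 ≤ a i) (hmono : Monotone a)
    (U : Set (Fin n → ℕ)) (hU : bt66_Up U) (hP : ∀ m, inPowers (le_refl n) a m = true → m ∈ U) :
    ∃ H : Set (Fin n → ℕ), bt66_Up H ∧ (∀ m, inPowers (le_refl n) a m = true → m ∈ H) ∧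
      bt66_Stable a H ∧ (∀ d, bt66_cnt H d = bt66_cnt U d) ∧
      ∀ p j, gradedBetti (bt66_ideal E U) p j ≤ gradedBetti (bt66_ideal E H) p j := by
  obtain ⟨H, ⟨hH1, hH2⟩, hH3, hH4, hH5⟩ := egd_terminate (∑ i, a i)
    (fun U => bt66_Up U ∧ ∀ m : Fin n → ℕ, (∃ i, a i ≤ m i) → m ∈ U) (bt66_Stable a)
    (fun U U' => (∀ d, bt66_cnt U' d = bt66_cnt U d) ∧
      ∀ p j, gradedBetti (bt66_ideal E U) p j ≤ gradedBetti (bt66_ideal E U') p j)
    (fun U => ⟨fun _ => rfl, fun _ _ => le_rfl⟩)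
    (fun U U' U'' h1 h2 => ⟨fun d => (h2.1 d).trans (h1.1 d),
      fun p j => (h1.2 p j).trans (h2.2 p j)⟩)
    (by
      rintro U ⟨hU, hP⟩ hS
      unfold bt66_Stable at hS
      push Not at hS
      obtain ⟨u, hu, hbox, h, l, hhl, hul, _, hnot⟩ := hS
      have hpos : 0 < a l := by have := ha l; omega
      obtain ⟨ζ, hζ⟩ : ∃ ζ : E, IsPrimitiveRoot ζ (a l) := by
        have : NeZero (a l) := ⟨hpos.ne'⟩
        have : NeZero ((a l : ℕ) : E) := ⟨by exact_mod_cast hpos.ne'⟩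
        exact HasEnoughRootsOfUnity.exists_primitiveRoot E (a l)
      obtain ⟨U', h1, h2, h3, h4, h5, h6⟩ := egs_step hIn a U hU hP hhl (hmono hhl.le) ζ hζ
        (hD ζ h l hhl) u hu hbox hul hnot
      exact ⟨U', ⟨h1, h2⟩, ⟨h3, h4⟩, h5, h6⟩)
    U ⟨hU, fun m hm => hP m ((egs_inPowers_iff a m).mpr hm)⟩
  exact ⟨H, hH1, fun m hm => hH2 m ((egs_inPowers_iff a m).mp hm), hH3, hH4, hH5⟩

/-! ## Contract 1: initial sets for the lexicographic order (from Kos126) -/

theorem egs_cf_sub (m : Fin n → ℕ) (p q : MvPolynomial (Fin n) E) :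
    egd_cf m (p - q) = egd_cf m p - egd_cf m q := by
  unfold egd_cf
  rw [coeff_sub]

theorem egs_cf_smul (m : Fin n → ℕ) (c : E) (p : MvPolynomial (Fin n) E) :
    egd_cf m (c • p) = c * egd_cf m p := by
  unfold egd_cf
  rw [coeff_smul, smul_eq_mul]

theorem egs_cf_span_zero (A : Set (Fin n → ℕ)) (m : Fin n → ℕ) (hm : m ∉ A)
    (g : MvPolynomial (Fin n) E) (hg : g ∈ Submodule.span E (bt66_mon E '' A)) :
    egd_cf m g = 0 := by
  have : Submodule.span E (bt66_mon E '' A) ≤ LinearMap.ker (egd_co E (toLex m)) := by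
    rw [Submodule.span_le]
    rintro _ ⟨γ, hγ, rfl⟩
    show egd_cf m (bt66_mon E γ) = 0
    rw [egs_cf_mon, if_neg]
    rintro rfl
    exact hm hγ
  exact this hg

theorem egs_mem_span_of_support (A : Set (Fin n → ℕ)) (g : MvPolynomial (Fin n) E)
    (hg : ∀ m : Fin n → ℕ, egd_cf m g ≠ 0 → m ∈ A) :
    g ∈ Submodule.span E (bt66_mon E '' A) := by
  rw [← support_sum_monomial_coeff g]
  refine Submodule.sum_mem _ fun u hu => ?_
  have h1 : monomial u (coeff u g) = coeff u g • bt66_mon E (⇑u : Fin n → ℕ) := by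
    unfold bt66_mon
    rw [Finsupp.equivFunOnFinite_symm_coe, smul_monomial, smul_eq_mul, mul_one]
  rw [h1]
  refine Submodule.smul_mem _ _ (Submodule.subset_span ⟨_, hg _ ?_, rfl⟩)
  unfold egd_cf
  rw [Finsupp.equivFunOnFinite_symm_coe]
  exact mem_support_iff.mp hu

theorem egs_cf_eq_zero_of_degree {d : ℕ} {g : MvPolynomial (Fin n) E}
    (hg : g ∈ homogeneousSubmodule (Fin n) E d) (m : Fin n → ℕ) (hm : ∑ i, m i ≠ d) :
    egd_cf m g = 0 := by
  unfold egd_cf
  apply ((mem_homogeneousSubmodule d g).mp hg).coeff_eq_zero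
  rw [Finsupp.degree_eq_sum]
  exact hm

theorem egs_inLex : EgsInLex E n := by
  intro W _
  refine ⟨Kos.r278k_inSet W (Kos.r278k_rhoLex n), Kos.r278k_inSet_up W _ Kos.r278k_rhoLex_add,
    Kos.r278k_inSet_cnt W _ Kos.r278k_rhoLex_inj,
    Kos.r278k_gradedBetti_le_inSet W _ Kos.r278k_rhoLex_inj Kos.r278k_rhoLex_add, ?_⟩
  intro m
  rw [Kos.r278k_mem_inSet]
  have hρ : ∀ γ : Fin n → ℕ, Kos.r278k_rhoLex n m < Kos.r278k_rhoLex n γ ↔ toLex γ < toLex m :=
    fun γ => Iff.rfl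
  constructor
  · rintro ⟨g, hg, hgW⟩
    have hgh : g ∈ homogeneousSubmodule (Fin n) E (∑ i, m i) := by
      have : Submodule.span E (bt66_mon E '' {γ : Fin n → ℕ | ∑ i, γ i = ∑ i, m i ∧
          Kos.r278k_rhoLex n m < Kos.r278k_rhoLex n γ}) ≤
          homogeneousSubmodule (Fin n) E (∑ i, m i) := by
        rw [Submodule.span_le]
        rintro _ ⟨γ, ⟨hγ, _⟩, rfl⟩
        rw [← hγ]
        exact egs_mon_homog γ
      exact this hg
    refine ⟨bt66_mon E m - g, ⟨hgW, Submodule.sub_mem _ (egs_mon_homog m) hgh⟩, ?_, ?_⟩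
    · rw [egs_cf_sub, egs_cf_mon, if_pos rfl, egs_cf_span_zero _ m ?_ g hg, sub_zero]
      · exact one_ne_zero
      · rintro ⟨_, h2⟩
        exact lt_irrefl _ h2
    · intro m' _ hlt
      rw [egs_cf_sub, egs_cf_mon, if_neg, egs_cf_span_zero _ m' ?_ g hg, sub_zero]
      · rintro ⟨_, h2⟩
        exact lt_asymm hlt ((hρ m').mp h2)
      · rintro rfl
        exact lt_irrefl _ hlt
  · rintro ⟨p, ⟨hpW, hph⟩, hne, hz⟩
    refine ⟨bt66_mon E m - (egd_cf m p)⁻¹ • p, ?_, ?_⟩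
    · apply egs_mem_span_of_support
      intro γ hγ
      have hdeg : ∑ i, γ i = ∑ i, m i := by
        by_contra hd
        exact hγ (egs_cf_eq_zero_of_degree
          (Submodule.sub_mem _ (egs_mon_homog m) (Submodule.smul_mem _ _ hph)) γ hd)
      refine ⟨hdeg, (hρ γ).mpr ?_⟩
      rcases lt_trichotomy (toLex γ) (toLex m) with h | h | h
      · exact h
      · exfalso
        have : γ = m := h
        subst this
        apply hγ
        rw [egs_cf_sub, egs_cf_mon, if_pos rfl, egs_cf_smul, inv_mul_cancel₀ hne, sub_self]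
      · exfalso
        apply hγ
        rw [egs_cf_sub, egs_cf_mon, if_neg, egs_cf_smul, hz γ hdeg h, mul_zero, sub_zero]
        rintro rfl
        exact lt_irrefl _ h
    · rw [sub_sub_cancel, ← C_mul']
      exact W.mul_mem_left _ hpW

/-! ## Contract 2: the distraction (over DistrD76) -/

theorem egs_D_eq (ζ : E) (h l : Fin n) : egd_D ζ h l = r278z_D ζ h l := rfl

theorem egs_Z_eq (ζ : E) (l : Fin n) : egd_Z ζ l = r278z_Z ζ l := rfl

theorem egs_Dmon_eq (ζ : E) (h l : Fin n) (u : Fin n →₀ ℕ) :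
    egd_Dmon ζ h l u = r278z_D ζ h l (monomial u 1) := by
  rw [r278z_D_monomial]
  rfl

theorem egs_D_injective (ζ : E) {h l : Fin n} (hl : h < l) :
    Function.Injective (r278z_D ζ h l) := by
  rw [← LinearMap.ker_eq_bot, LinearMap.ker_eq_bot']
  intro p hp
  by_contra hne
  have hsupp : p.support.Nonempty := by
    rw [Finset.nonempty_iff_ne_empty, Ne, support_eq_empty]
    exact hne
  obtain ⟨u₀, hu₀, hmin⟩ := Finset.exists_min_image p.support
    (fun u => toLex (⇑u : Fin n → ℕ)) hsupp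
  have h1 : coeff u₀ (r278z_D ζ h l p) = coeff u₀ p := by
    rw [r278z_D_eq_sum, coeff_sum, Finset.sum_eq_single u₀]
    · rw [coeff_smul, r278z_coeff_self ζ hl.ne, smul_eq_mul, mul_one]
    · intro u hu hne'
      rw [coeff_smul, smul_eq_mul]
      by_contra hc
      have hc' : coeff u₀ (r278z_D ζ h l (monomial u 1)) ≠ 0 := fun h0 => hc (by rw [h0, mul_zero])
      rcases r278z_lex ζ hl u u₀ hc' with h2 | h2
      · exact hne' h2.symm
      · exact absurd h2 (not_lt.mpr (hmin u hu))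
    · intro hu
      exact absurd hu₀ hu
  rw [hp, coeff_zero] at h1
  exact (mem_support_iff.mp hu₀) h1.symm

theorem egs_D_map_homog (ζ : E) {h l : Fin n} (hl : h < l) (d : ℕ) :
    (homogeneousSubmodule (Fin n) E d).map (r278z_D ζ h l) = homogeneousSubmodule (Fin n) E d := by
  have : Module.Finite E (homogeneousSubmodule (Fin n) E d) :=
    Module.Finite.iff_fg.mpr (homogeneousSubmodule_fg (Fin n) E d)
  apply Submodule.eq_of_le_of_finrank_eq
  · rintro _ ⟨p, hp, rfl⟩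
    exact r278z_D_homog ζ h l d p hp
  · exact (Submodule.equivMapOfInjective _ (egs_D_injective ζ hl) _).finrank_eq.symm

theorem egs_D_surjective (ζ : E) {h l : Fin n} (hl : h < l) :
    Function.Surjective (r278z_D ζ h l) := by
  intro p
  have : ∀ i, ∃ q, r278z_D ζ h l q = homogeneousComponent i p := by
    intro i
    have hmem : homogeneousComponent i p ∈
        (homogeneousSubmodule (Fin n) E i).map (r278z_D ζ h l) := by
      rw [egs_D_map_homog ζ hl i]
      exact homogeneousComponent_mem i p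
    obtain ⟨q, _, hq⟩ := hmem
    exact ⟨q, hq⟩
  choose q hq using this
  refine ⟨∑ i ∈ Finset.range (p.totalDegree + 1), q i, ?_⟩
  rw [map_sum, Finset.sum_congr rfl fun i _ => hq i, sum_homogeneousComponent]

theorem egs_D_deg_iff (ζ : E) {h l : Fin n} (hl : h < l) (d : ℕ) (m : MvPolynomial (Fin n) E) :
    r278z_D ζ h l m ∈ homogeneousSubmodule (Fin n) E d ↔ m ∈ homogeneousSubmodule (Fin n) E d := by
  constructor
  · intro hm
    have hmem : r278z_D ζ h l m ∈ (homogeneousSubmodule (Fin n) E d).map (r278z_D ζ h l) := by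
      rw [egs_D_map_homog ζ hl d]
      exact hm
    obtain ⟨q, hq, hq'⟩ := hmem
    rw [← egs_D_injective ζ hl hq']
    exact hq
  · exact r278z_D_homog ζ h l d m

theorem egs_Z_coeff (ζ : E) (l : Fin n) (u : Fin n →₀ ℕ) (p : MvPolynomial (Fin n) E) :
    coeff u (r278z_Z ζ l p) = ζ ^ (u l) * coeff u p := by
  have : (lcoeff E u) ∘ₗ r278z_Z ζ l = (ζ ^ (u l)) • lcoeff E u := by
    refine r278z_ext _ _ fun v => ?_
    simp only [LinearMap.comp_apply, r278z_Z_monomial, lcoeff_apply, LinearMap.smul_apply,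
      coeff_monomial, smul_eq_mul]
    by_cases hv : v = u
    · subst hv; simp
    · simp [hv]
  exact LinearMap.congr_fun this p

/-- contract 2, up to leaf (g). -/
theorem egs_distr_of (ζ : E) {h l : Fin n} (hl : h < l)
    (hpow : ∀ a : Fin n → ℕ, IsPrimitiveRoot ζ (a l) → a h ≤ a l → ∀ u : Fin n →₀ ℕ,
      (∃ i, a i ≤ u i) → ∀ v ∈ (r278z_D ζ h l (monomial u 1)).support, ∃ i, a i ≤ v i) :
    EgsDistr ζ h l where
  bij := ⟨egs_D_injective ζ hl, egs_D_surjective ζ hl⟩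
  Ddeg := egs_D_deg_iff ζ hl
  DX := fun _ hk m => r278z_D_X_mul ζ h l hk m
  Dl := fun m => r278z_X_mul_D ζ hl.ne m
  Zdeg := fun d m hm => r278z_Z_homog ζ l d m hm
  ZX := fun _ hk m => r278z_Z_X_mul ζ l hk m
  Zco := egs_Z_coeff ζ l
  tri1 := fun u => by rw [egs_Dmon_eq]; exact r278z_coeff_self ζ hl.ne u
  tri2 := fun u v hv => by rw [egs_Dmon_eq] at hv; exact r278z_lex ζ hl u v hv
  nb := fun u hu => by rw [egs_Dmon_eq]; exact r278z_coeff_next ζ hl.ne u hu
  pow := fun a hζ hah u hu v hv => by rw [egs_Dmon_eq] at hv; exact hpow a hζ hah u hu v hv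

/-! ## Prop 4.3 -/

/-- LEAF B2 `bt66_stabilise` of `Betti66.lean`, VERBATIM. -/
theorem egs_stabilise (E : Type) [Field E] [CharZero E] [IsAlgClosed E] (n : ℕ)
    (a : Fin n → ℕ) (ha : ∀ i, 2 ≤ a i) (hmono : Monotone a)
    (U : Set (Fin n → ℕ)) (hU : bt66_Up U) (hP : ∀ m, inPowers (le_refl n) a m = true → m ∈ U) :
    ∃ H : Set (Fin n → ℕ), bt66_Up H ∧ (∀ m, inPowers (le_refl n) a m = true → m ∈ H) ∧
      bt66_Stable a H ∧ (∀ d, bt66_cnt H d = bt66_cnt U d) ∧
      ∀ p j, gradedBetti (bt66_ideal E U) p j ≤ gradedBetti (bt66_ideal E H) p j :=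
  egs_stabilise_of egs_inLex (fun ζ _ _ hl => egs_distr_of ζ hl (r278z_pow ζ hl.ne)) a ha hmono U hU hP

end Claimed.Agent.R278
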