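-- KEEP
/-
Row 278 (S0523).  Leaves TB `bt66_tbasis` and PW `bt66_pow_rel` of `Mono66.lean`, verbatim
(ordered basis of `D[x]` in the commuting forms; leading position of the triangular identity).
Over `Sec2Box.lean` (246: `eg2T`, `eg2Psi`).  Pen: helper242.  Prefix `tb242_`.
-/
import Claimed.Agent.R278.MonoVoc66

set_option autoImplicit false

open MvPolynomial Claims.C0451

namespace Claimed.Agent.R278

section proj

variable {D : Type} [DivisionRing D] {n : ℕ}

theorem tb242_Pi_add (d : ℕ) (x y : Eg2N D n) :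
    eg2Pi D n d (x + y) = eg2Pi D n d x + eg2Pi D n d y := by
  apply AddMonoidAlgebra.ext
  ext α
  rw [AddMonoidAlgebra.coeff_add, Finsupp.add_apply, eg2Pi_coeff, eg2Pi_coeff, eg2Pi_coeff,
    AddMonoidAlgebra.coeff_add, Finsupp.add_apply]
  split_ifs <;> simp

theorem tb242_Pi_zero (d : ℕ) : eg2Pi D n d (0 : Eg2N D n) = 0 := by
  apply AddMonoidAlgebra.ext
  ext α
  rw [eg2Pi_coeff]
  simp

theorem tb242_Pi_of_mem {d e : ℕ} {y : Eg2N D n} (hy : y ∈ eg2Deg D n e) :
    eg2Pi D n d y = if e = d then y else 0 := by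
  apply AddMonoidAlgebra.ext
  ext α
  rw [eg2Pi_coeff]
  by_cases h0 : y.coeff α = 0
  · split_ifs <;> simp [h0]
  · have := hy α h0
    rw [this]
    split_ifs <;> simp

theorem tb242_Pi_mem (d : ℕ) (y : Eg2N D n) : eg2Pi D n d y ∈ eg2Deg D n d := by
  intro α hα
  rw [eg2Pi_coeff] at hα
  by_contra h
  rw [if_neg h] at hα
  exact hα rfl

theorem tb242_eq_zero_of_Pi {y : Eg2N D n} (h : ∀ d, eg2Pi D n d y = 0) : y = 0 := by
  apply AddMonoidAlgebra.ext
  ext α
  have := congrArg (fun z => AddMonoidAlgebra.coeff z α) (h (∑ i, α i))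
  simp only [eg2Pi_coeff, if_true] at this
  simpa using this

theorem tb242_Pi_Psi (t : Fin n → Eg2N D n) (hc : ∀ i k, Commute (t i) (t k))
    (ht : ∀ i, t i ∈ eg2Deg D n 1) (d : ℕ) (f : Eg2N D n) :
    eg2Pi D n d (eg2Psi t hc f) = eg2Psi t hc (eg2Pi D n d f) := by
  induction f using AddMonoidAlgebra.induction_linear with
  | zero => rw [map_zero, tb242_Pi_zero, map_zero]
  | add f g hf hg => rw [map_add, tb242_Pi_add, tb242_Pi_add, map_add, hf, hg]
  | single α r =>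
    rw [tb242_Pi_of_mem (eg2d_single α r rfl),
      tb242_Pi_of_mem (eg2Psi_deg t hc ht (eg2d_single α r rfl))]
    split_ifs
    · rfl
    · rw [map_zero]

end proj

section basis

variable {D : Type} [DivisionRing D] {n : ℕ}

theorem tb242_Psi_injective (T : Bt66Forms D n) :
    Function.Injective (eg2Psi (fun i => eg2Lin (T.τ i)) T.comm) := by
  rw [injective_iff_map_eq_zero]
  intro f hf
  apply tb242_eq_zero_of_Pi
  intro d
  apply eg2Psi_inj T.τ T.σ T.inv T.comm d (tb242_Pi_mem d f)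
  rw [← tb242_Pi_Psi _ _ (fun i => eg2d_lin (T.τ i)), hf, tb242_Pi_zero]

theorem tb242_Psi_surjective (T : Bt66Forms D n) :
    Function.Surjective (eg2Psi (fun i => eg2Lin (T.τ i)) T.comm) := by
  intro y
  induction y using AddMonoidAlgebra.induction_linear with
  | zero => exact ⟨0, map_zero _⟩
  | add f g hf hg =>
    obtain ⟨a, ha⟩ := hf
    obtain ⟨b, hb⟩ := hg
    exact ⟨a + b, by rw [map_add, ha, hb]⟩
  | single α r =>
    obtain ⟨x, _, hx⟩ := eg2Psi_surj T.τ T.σ T.inv T.comm _ (eg2d_single α r rfl)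
    exact ⟨x, hx⟩

/-- `x^α ↦ t^α` as a linear equivalence. -/
noncomputable def tb242_PsiE (T : Bt66Forms D n) : Eg2N D n ≃ₗ[D] Eg2N D n :=
  LinearEquiv.ofBijective (eg2Psi (fun i => eg2Lin (T.τ i)) T.comm)
    ⟨tb242_Psi_injective T, tb242_Psi_surjective T⟩

theorem tb242_PsiE_apply (T : Bt66Forms D n) (f : Eg2N D n) :
    tb242_PsiE T f = eg2Psi (fun i => eg2Lin (T.τ i)) T.comm f := rfl

/-- the coordinates `x^α ↦ e_α`. -/
noncomputable def tb242_kap (D : Type) [DivisionRing D] (n : ℕ) :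
    Eg2N D n ≃ₗ[D] ((Fin n → ℕ) →₀ D) :=
  (AddMonoidAlgebra.coeffLinearEquiv D).trans (Finsupp.domLCongr Finsupp.equivFunOnFinite)

theorem tb242_kap_single (α : Fin n →₀ ℕ) (c : D) :
    tb242_kap D n (AddMonoidAlgebra.single α c) = Finsupp.single (⇑α) c := by
  unfold tb242_kap
  rw [LinearEquiv.trans_apply, AddMonoidAlgebra.coeffLinearEquiv_apply,
    AddMonoidAlgebra.coeff_single, Finsupp.domLCongr_single]
  rfl

theorem tb242_kap_mul_X (f : Eg2N D n) (i : Fin n) :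
    tb242_kap D n (f * AddMonoidAlgebra.single (Finsupp.single i 1) 1) =
      bt66_shD D Set.univ i (tb242_kap D n f) := by
  induction f using AddMonoidAlgebra.induction_linear with
  | zero => simp
  | add f g hf hg => rw [add_mul, map_add, map_add, map_add, hf, hg]
  | single α r =>
    rw [AddMonoidAlgebra.single_mul_single, mul_one, tb242_kap_single, tb242_kap_single,
      bt66_shD_single, if_pos ⟨Set.mem_univ _, Set.mem_univ _⟩]
    congr 1
    funext k
    simp [Finsupp.single_apply, Pi.single_apply, eq_comm]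

theorem tb242_kap_deg (e : ℕ) :
    (eg2Deg D n e).map (tb242_kap D n : Eg2N D n →ₗ[D] ((Fin n → ℕ) →₀ D)) =
      bt66_pcD D Set.univ e := by
  apply le_antisymm
  · rw [Submodule.map_le_iff_le_comap]
    refine eg2d_le _ e fun α hα => ?_
    rw [Submodule.mem_comap]
    show tb242_kap D n _ ∈ _
    rw [tb242_kap_single, bt66_pcD_eq_span]
    exact Submodule.subset_span ⟨⇑α, ⟨Set.mem_univ _, hα⟩, rfl⟩
  · rw [bt66_pcD_eq_span, Submodule.span_le]
    rintro _ ⟨u, ⟨_, hu⟩, rfl⟩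
    refine ⟨AddMonoidAlgebra.single (Finsupp.equivFunOnFinite.symm u) 1,
      eg2d_single _ _ (by simpa using hu), ?_⟩
    show tb242_kap D n _ = _
    rw [tb242_kap_single]
    simp

theorem tb242_PsiE_deg (T : Bt66Forms D n) (e : ℕ) :
    (eg2Deg D n e).map ((tb242_PsiE T).symm : Eg2N D n →ₗ[D] Eg2N D n) = eg2Deg D n e := by
  apply le_antisymm
  · rintro _ ⟨y, hy, rfl⟩
    obtain ⟨x, hx, hxy⟩ := eg2Psi_surj T.τ T.σ T.inv T.comm e hy
    have : (tb242_PsiE T).symm y = x := by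
      rw [LinearEquiv.symm_apply_eq, tb242_PsiE_apply, hxy]
    show (tb242_PsiE T).symm y ∈ _
    rw [this]
    exact hx
  · intro x hx
    refine ⟨tb242_PsiE T x, eg2Psi_deg _ _ (fun i => eg2d_lin (T.τ i)) hx, ?_⟩
    show (tb242_PsiE T).symm (tb242_PsiE T x) = x
    rw [LinearEquiv.symm_apply_apply]

/-- LEAF TB, verbatim. -/
theorem tb242_tbasis (D : Type) [DivisionRing D] (n : ℕ) (T : Bt66Forms D n) :
    ∃ θ : Eg2N D n ≃ₗ[D] ((Fin n → ℕ) →₀ D),
      θ 1 = Finsupp.single 0 1 ∧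
      (∀ i w, θ (w * eg2Lin (T.τ i)) = bt66_shD D Set.univ i (θ w)) ∧
      ∀ e, (eg2Deg D n e).map (θ : Eg2N D n →ₗ[D] ((Fin n → ℕ) →₀ D)) = bt66_pcD D Set.univ e := by
  refine ⟨(tb242_PsiE T).symm.trans (tb242_kap D n), ?_, ?_, ?_⟩
  · have h1 : (tb242_PsiE T).symm 1 = 1 := by
      rw [LinearEquiv.symm_apply_eq, tb242_PsiE_apply, AddMonoidAlgebra.one_def, eg2Psi_single,
        eg2T_zero, one_smul, AddMonoidAlgebra.one_def]
    rw [LinearEquiv.trans_apply, h1, AddMonoidAlgebra.one_def, tb242_kap_single]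
    rfl
  · intro i w
    obtain ⟨f, rfl⟩ := (tb242_PsiE T).surjective w
    have h1 : tb242_PsiE T f * eg2Lin (T.τ i) =
        tb242_PsiE T (f * AddMonoidAlgebra.single (Finsupp.single i 1) 1) := by
      rw [tb242_PsiE_apply, tb242_PsiE_apply, eg2Psi_mul_X]
    rw [h1, LinearEquiv.trans_apply, LinearEquiv.trans_apply, LinearEquiv.symm_apply_apply,
      LinearEquiv.symm_apply_apply, tb242_kap_mul_X]
  · intro e
    have : (((tb242_PsiE T).symm.trans (tb242_kap D n) : Eg2N D n ≃ₗ[D] ((Fin n → ℕ) →₀ D)) :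
        Eg2N D n →ₗ[D] ((Fin n → ℕ) →₀ D)) =
        (tb242_kap D n : Eg2N D n →ₗ[D] ((Fin n → ℕ) →₀ D)) ∘ₗ
          ((tb242_PsiE T).symm : Eg2N D n →ₗ[D] Eg2N D n) := rfl
    rw [this, Submodule.map_comp, tb242_PsiE_deg, tb242_kap_deg]

end basis

section pow

variable {D : Type} [DivisionRing D] {n : ℕ}

theorem tb242_sh_supported (d : Fin n) (e : ℕ) :
    bt66_pcD D Set.univ e ≤
      (Finsupp.supported D D {γ : Fin n → ℕ | ∑ k, γ k = e + 1 ∧ 1 ≤ γ d}).comap
        (bt66_shD D Set.univ d) := by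
  rw [bt66_pcD_eq_span, Submodule.span_le]
  rintro _ ⟨u, ⟨_, hu⟩, rfl⟩
  have hu' : ∑ k, u k = e := hu
  rw [SetLike.mem_coe, Submodule.mem_comap, bt66_shD_single,
    if_pos ⟨Set.mem_univ _, Set.mem_univ _⟩]
  apply Finsupp.single_mem_supported
  constructor
  · simp [Finset.sum_add_distrib, hu']
  · simp

theorem tb242_rho_single_lt (i : Fin n) (a : ℕ) (γ : Fin n → ℕ) (d : Fin n) (hd : i < d)
    (hγ : 1 ≤ γ d) : bt66_rho (Pi.single i a) < bt66_rho γ := by
  have h := eg2Key_single_lt i a (Finsupp.equivFunOnFinite.symm γ) d hd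
    (by simp only [Finsupp.equivFunOnFinite_symm_apply_apply]; omega)
  have h1 : eg2Key (Finsupp.single i a) = bt66_rho (Pi.single i a) := by
    unfold eg2Key bt66_rho
    congr 1
    funext k
    simp [Finsupp.single_apply, Pi.single_apply, eq_comm]
  have h2 : eg2Key (Finsupp.equivFunOnFinite.symm γ) = bt66_rho γ := rfl
  rwa [h1, h2] at h

/-- LEAF PW, verbatim. -/
theorem tb242_pow_rel (D : Type) [DivisionRing D] (n : ℕ) (T : Bt66Forms D n)
    (θ : Eg2N D n ≃ₗ[D] ((Fin n → ℕ) →₀ D)) (h1 : θ 1 = Finsupp.single 0 1)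
    (hsh : ∀ i w, θ (w * eg2Lin (T.τ i)) = bt66_shD D Set.univ i (θ w))
    (hdeg : ∀ e, (eg2Deg D n e).map (θ : Eg2N D n →ₗ[D] ((Fin n → ℕ) →₀ D)) =
      bt66_pcD D Set.univ e)
    (i : Fin n) (a : ℕ) (ha : 1 ≤ a) (C : Fin n → Eg2N D n) (hC0 : ∀ d, d ≤ i → C d = 0)
    (hCd : ∀ d, C d ∈ eg2Deg D n (a - 1)) :
    θ (eg2Lin (T.τ i) ^ a - ∑ d, C d * eg2Lin (T.τ d)) (Pi.single i a) ≠ 0 ∧
      ∀ γ ∈ (θ (eg2Lin (T.τ i) ^ a - ∑ d, C d * eg2Lin (T.τ d))).support,
        ∑ k, γ k = ∑ k, (Pi.single i a : Fin n → ℕ) k ∧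
          (γ ≠ Pi.single i a → bt66_rho (Pi.single i a) < bt66_rho γ) := by
  classical
  have hpow : ∀ m : ℕ, θ (eg2Lin (T.τ i) ^ m) = Finsupp.single (Pi.single i m) 1 := by
    intro m
    induction m with
    | zero => rw [pow_zero, h1]; congr 1; simp
    | succ m ih =>
      rw [pow_succ, hsh, ih, bt66_shD_single, if_pos ⟨Set.mem_univ _, Set.mem_univ _⟩]
      congr 1
      rw [← Pi.single_add]
  set S : Set (Fin n → ℕ) := {γ | ∑ k, γ k = a ∧ ∃ d, i < d ∧ 1 ≤ γ d} with hS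
  have hR : θ (∑ d, C d * eg2Lin (T.τ d)) ∈ Finsupp.supported D D S := by
    rw [map_sum]
    refine Submodule.sum_mem _ fun d _ => ?_
    by_cases hd : d ≤ i
    · rw [hC0 d hd, zero_mul, map_zero]
      exact Submodule.zero_mem _
    · rw [hsh]
      have hmem : θ (C d) ∈ bt66_pcD D Set.univ (a - 1) := by
        rw [← hdeg]
        exact ⟨C d, hCd d, rfl⟩
      have := tb242_sh_supported d (a - 1) hmem
      rw [Submodule.mem_comap] at this
      refine Finsupp.supported_mono ?_ this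
      rintro γ ⟨hγ1, hγ2⟩
      exact ⟨by omega, d, not_le.1 hd, hγ2⟩
  set R := θ (∑ d, C d * eg2Lin (T.τ d)) with hRdef
  have hRz : ∀ γ, γ ∉ S → R γ = 0 := by
    intro γ hγ
    by_contra hne
    exact hγ ((Finsupp.mem_supported D R).1 hR (Finsupp.mem_support_iff.2 hne))
  have hnot : (Pi.single i a : Fin n → ℕ) ∉ S := by
    rintro ⟨_, d, hd, hd1⟩
    rw [Pi.single_eq_of_ne hd.ne'] at hd1
    omega
  rw [map_sub, hpow]
  constructor
  · rw [Finsupp.sub_apply, Finsupp.single_eq_same, hRz _ hnot, sub_zero]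
    exact one_ne_zero
  · intro γ hγ
    by_cases hγe : γ = Pi.single i a
    · exact ⟨by rw [hγe], fun h => absurd hγe h⟩
    · have hγS : γ ∈ S := by
        by_contra hcon
        rw [Finsupp.mem_support_iff, Finsupp.sub_apply, hRz _ hcon,
          Finsupp.single_eq_of_ne hγe, sub_zero] at hγ
        exact hγ rfl
      obtain ⟨hs, d, hd, hd1⟩ := hγS
      refine ⟨?_, fun _ => tb242_rho_single_lt i a γ d hd hd1⟩
      rw [hs]
      simp

end pow

end Claimed.Agent.R278
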