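-- KEEP
/-
Row 278 (S0523), Betti paper Lemma 3.1 (transfer) WITHOUT resolutions (seat 136, prefix `tr136_`).

Part A (this file): the MANIN TRANSFER.  `B` a space over a division ring `D`, operators `X k`, and
operators `R i j` commuting with the `X k` which satisfy the Manin relations (= the forms
`T i = ∑ j, X j * R i j` "commute formally"), with a one-sided inverse `S`.  Then the Koszul ranks of the
families `T` and `X` agree in every bidegree.
-/
import Claimed.Agent.R278.Twist76

set_option autoImplicit false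

namespace Claimed.Agent.R278

/-! ## Ordered products of anticommuting families -/

section KL

variable {A : Type} [Ring A] {n : ℕ}

/-- the product of the `a u`, `u ∈ U`, in DECREASING order of the indices -/
def tr136_rp (a : Fin n → A) (U : Finset (Fin n)) : A := ((U.sort (· ≤ ·)).map a).reverse.prod

theorem tr136_rp_empty (a : Fin n → A) : tr136_rp a ∅ = 1 := by
  simp [tr136_rp]

theorem tr136_rp_insert_min (a : Fin n → A) (h : Fin n) (U : Finset (Fin n)) (hU : ∀ x ∈ U, h < x) :
    tr136_rp a (insert h U) = tr136_rp a U * a h := by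
  have hn : h ∉ U := fun hh => lt_irrefl _ (hU h hh)
  unfold tr136_rp
  rw [Finset.sort_insert (· ≤ ·) (fun b hb => (hU b hb).le) hn]
  simp

theorem tr136_sgn_of_lt (U : Finset (Fin n)) (l : Fin n) (hU : ∀ x ∈ U, l < x) : r278m_sgn U l = 1 := by
  unfold r278m_sgn
  have : U.filter (fun u => u < l) = ∅ := by
    apply Finset.filter_eq_empty_iff.2
    intro x hx
    exact not_lt.2 (hU x hx).le
  rw [this]; simp

theorem tr136_sgn_insert_lt (U : Finset (Fin n)) (h l : Fin n) (hh : h ∉ U) (hl : h < l) :
    r278m_sgn (insert h U) l = - r278m_sgn U l := by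
  unfold r278m_sgn
  rw [Finset.filter_insert, if_pos hl, Finset.card_insert_of_notMem (by simp [hh]), pow_succ]
  ring

/-- **the sign rule** -/
theorem tr136_rp_mul (a : Fin n → A) (hsq : ∀ i, a i * a i = 0) (hanti : ∀ i k, a i * a k = -(a k * a i))
    (U : Finset (Fin n)) (l : Fin n) :
    tr136_rp a U * a l = if l ∈ U then 0 else r278m_sgn U l • tr136_rp a (insert l U) := by
  induction U using Finset.induction_on_min with
  | empty =>
    rw [if_neg (Finset.notMem_empty l), tr136_rp_insert_min a l ∅ (by simp),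
      tr136_sgn_of_lt ∅ l (by simp), one_smul]
  | insert h U hU ih =>
    have hn : h ∉ U := fun hh => lt_irrefl _ (hU h hh)
    rw [tr136_rp_insert_min a h U hU]
    rcases lt_trichotomy l h with hlt | heq | hgt
    · have hall : ∀ x ∈ insert h U, l < x := by
        intro x hx
        rcases Finset.mem_insert.1 hx with rfl | hx
        · exact hlt
        · exact hlt.trans (hU x hx)
      have hl : l ∉ insert h U := fun hh => lt_irrefl _ (hall l hh)
      rw [if_neg hl, tr136_rp_insert_min a l _ hall, tr136_rp_insert_min a h U hU,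
        tr136_sgn_of_lt _ l hall, one_smul]
    · subst heq
      rw [if_pos (Finset.mem_insert_self _ _), mul_assoc, hsq, mul_zero]
    · rw [mul_assoc, hanti h l, mul_neg, ← mul_assoc, ih]
      by_cases hl : l ∈ U
      · rw [if_pos hl, if_pos (Finset.mem_insert_of_mem hl), zero_mul, neg_zero]
      · have hl' : l ∉ insert h U := by
          simp only [Finset.mem_insert, not_or]
          exact ⟨hgt.ne', hl⟩
        have hall : ∀ x ∈ insert l U, h < x := by
          intro x hx
          rcases Finset.mem_insert.1 hx with rfl | hx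
          · exact hgt
          · exact hU x hx
        rw [if_neg hl, if_neg hl', Finset.insert_comm l h U, tr136_rp_insert_min a h _ hall,
          tr136_sgn_insert_lt U h l hn hgt, smul_mul_assoc, neg_smul]

theorem tr136_rp_commute (a : Fin n → A) (y : A) (h : ∀ i, Commute (a i) y) (U : Finset (Fin n)) :
    Commute (tr136_rp a U) y := by
  unfold tr136_rp
  apply Commute.list_prod_left
  intro x hx
  simp only [List.mem_reverse, List.mem_map] at hx
  obtain ⟨i, _, rfl⟩ := hx
  exact h i

end KL

/-! ## The exterior calculus with coefficients in `End B` -/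

section Manin

variable {D : Type} [DivisionRing D] {n : ℕ}
variable {B : Type} [AddCommGroup B] [Module D B]

/-- the coefficientwise operator, as a ring homomorphism -/
def tr136_hat : Module.End D B →+* Module.End D (Finset (Fin n) → B) where
  toFun T := T.compLeft (Finset (Fin n))
  map_one' := rfl
  map_mul' _ _ := rfl
  map_zero' := rfl
  map_add' _ _ := rfl

theorem tr136_hat_apply (T : Module.End D B) (c : Finset (Fin n) → B) (U : Finset (Fin n)) :
    tr136_hat T c U = T (c U) := rfl

/-- the contraction, as an element of the endomorphism ring -/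
def tr136_io (k : Fin n) : Module.End D (Finset (Fin n) → B) := r278y_iota D k

theorem tr136_io_apply (k : Fin n) (c : Finset (Fin n) → B) (U : Finset (Fin n)) :
    tr136_io (D := D) k c U = if k ∉ U then r278m_sgn U k • c (insert k U) else 0 := rfl

theorem tr136_io_sq (k : Fin n) : tr136_io (D := D) (B := B) k * tr136_io k = 0 :=
  LinearMap.ext fun c => r278y_iota_iota_self k c

theorem tr136_io_anti (k l : Fin n) :
    tr136_io (D := D) (B := B) k * tr136_io l = -(tr136_io l * tr136_io k) :=
  LinearMap.ext fun c => r278y_iota_iota k l c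

theorem tr136_io_hat (k : Fin n) (T : Module.End D B) :
    tr136_io k * tr136_hat T = tr136_hat T * tr136_io k :=
  LinearMap.ext fun c => r278y_iota_hat T k c

/-- a symmetric matrix of coefficients against the antisymmetric `ι_i ι_k` -/
theorem tr136_sym_anti (M : Fin n → Fin n → Module.End D B) (hM : ∀ i k, M i k = M k i) :
    ∑ x : Fin n × Fin n, tr136_hat (M x.1 x.2) * (tr136_io x.1 * tr136_io x.2) = 0 := by
  refine Finset.sum_involution (fun x _ => (x.2, x.1)) ?_ ?_ ?_ ?_
  · rintro ⟨i, k⟩ _
    simp only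
    rw [hM k i, ← mul_add, tr136_io_anti i k, neg_add_cancel, mul_zero]
  · rintro ⟨i, k⟩ _ hne heq
    simp only [Prod.mk.injEq] at heq
    apply hne
    simp only
    rw [heq.1, tr136_io_sq, mul_zero]
  · intro x _
    exact Finset.mem_univ _
  · rintro ⟨i, k⟩ _
    rfl

/-- `φ_j = ∑_i R_ij ι_i` -/
def tr136_phi (R : Fin n → Fin n → Module.End D B) (j : Fin n) : Module.End D (Finset (Fin n) → B) :=
  ∑ i, tr136_hat (R i j) * tr136_io i

theorem tr136_phi_mul (R : Fin n → Fin n → Module.End D B) (j l : Fin n) :
    tr136_phi R j * tr136_phi R l =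
      ∑ x : Fin n × Fin n, tr136_hat (R x.1 j * R x.2 l) * (tr136_io x.1 * tr136_io x.2) := by
  unfold tr136_phi
  rw [Finset.sum_mul_sum, ← Finset.univ_product_univ, Finset.sum_product]
  refine Finset.sum_congr rfl fun i _ => Finset.sum_congr rfl fun k _ => ?_
  rw [map_mul, mul_assoc, ← mul_assoc (tr136_io i), tr136_io_hat, mul_assoc, mul_assoc]

theorem tr136_phi_sq (R : Fin n → Fin n → Module.End D B)
    (hM' : ∀ i k j, R i j * R k j = R k j * R i j) (j : Fin n) :
    tr136_phi R j * tr136_phi R j = 0 := by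
  rw [tr136_phi_mul]
  exact tr136_sym_anti (fun i k => R i j * R k j) (fun i k => hM' i k j)

theorem tr136_phi_anti (R : Fin n → Fin n → Module.End D B)
    (hM : ∀ i k j l, R i j * R k l + R i l * R k j = R k j * R i l + R k l * R i j) (j l : Fin n) :
    tr136_phi R j * tr136_phi R l = -(tr136_phi R l * tr136_phi R j) := by
  rw [eq_neg_iff_add_eq_zero, tr136_phi_mul, tr136_phi_mul, ← Finset.sum_add_distrib]
  have := tr136_sym_anti (fun i k => R i j * R k l + R i l * R k j) (fun i k => hM i k j l)
  rw [← this]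
  refine Finset.sum_congr rfl fun x _ => ?_
  rw [map_add, add_mul]

theorem tr136_diff_eq (X : Fin n → Module.End D B) :
    r278m_diff X = ∑ k, tr136_hat (X k) * tr136_io k := by
  refine LinearMap.ext fun c => ?_
  rw [r278y_diff_eq, LinearMap.sum_apply]
  rfl

theorem tr136_diff_T (X : Fin n → Module.End D B) (R : Fin n → Fin n → Module.End D B) :
    r278m_diff (fun i => ∑ j, X j * R i j) = ∑ j, tr136_hat (X j) * tr136_phi R j := by
  rw [tr136_diff_eq]
  unfold tr136_phi
  simp only [map_sum, map_mul, Finset.sum_mul, Finset.mul_sum, mul_assoc]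
  exact Finset.sum_comm

/-- the comparison map -/
def tr136_Psi (R : Fin n → Fin n → Module.End D B) :
    (Finset (Fin n) → B) →ₗ[D] (Finset (Fin n) → B) :=
  LinearMap.pi fun U => LinearMap.proj ∅ ∘ₗ tr136_rp (tr136_phi R) U

theorem tr136_Psi_apply (R : Fin n → Fin n → Module.End D B) (c : Finset (Fin n) → B)
    (U : Finset (Fin n)) : tr136_Psi R c U = tr136_rp (tr136_phi R) U c ∅ := rfl

theorem tr136_io_Psi (R : Fin n → Fin n → Module.End D B)
    (hM : ∀ i k j l, R i j * R k l + R i l * R k j = R k j * R i l + R k l * R i j)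
    (hM' : ∀ i k j, R i j * R k j = R k j * R i j) (l : Fin n) (c : Finset (Fin n) → B) :
    tr136_io (D := D) l (tr136_Psi R c) = tr136_Psi R (tr136_phi R l c) := by
  funext U
  rw [tr136_io_apply, tr136_Psi_apply, tr136_Psi_apply, ← Module.End.mul_apply,
    tr136_rp_mul _ (tr136_phi_sq R hM') (tr136_phi_anti R hM)]
  by_cases hl : l ∈ U
  · simp [hl]
  · simp [hl]

theorem tr136_phi_commute (R : Fin n → Fin n → Module.End D B) (Y : Module.End D B)
    (hY : ∀ i j, R i j * Y = Y * R i j) (j : Fin n) :
    Commute (tr136_phi R j) (tr136_hat Y) := by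
  unfold tr136_phi
  refine Commute.sum_left _ _ _ fun i _ => ?_
  refine Commute.mul_left ?_ (tr136_io_hat i Y)
  change tr136_hat (R i j) * tr136_hat Y = tr136_hat Y * tr136_hat (R i j)
  rw [← map_mul, ← map_mul, hY]

theorem tr136_Psi_hat (R : Fin n → Fin n → Module.End D B) (Y : Module.End D B)
    (hY : ∀ i j, R i j * Y = Y * R i j) (c : Finset (Fin n) → B) :
    tr136_Psi R (tr136_hat Y c) = tr136_hat Y (tr136_Psi R c) := by
  funext U
  rw [tr136_Psi_apply, tr136_hat_apply, tr136_Psi_apply, ← Module.End.mul_apply,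
    (tr136_rp_commute _ _ (tr136_phi_commute R Y hY) U).eq, Module.End.mul_apply, tr136_hat_apply]

/-- `Ψ` is a morphism from the Koszul complex of `T` to that of `X`. -/
theorem tr136_Psi_diff (X : Fin n → Module.End D B) (R : Fin n → Fin n → Module.End D B)
    (hRX : ∀ i j k, R i j * X k = X k * R i j)
    (hM : ∀ i k j l, R i j * R k l + R i l * R k j = R k j * R i l + R k l * R i j)
    (hM' : ∀ i k j, R i j * R k j = R k j * R i j) (c : Finset (Fin n) → B) :
    tr136_Psi R (r278m_diff (fun i => ∑ j, X j * R i j) c) = r278m_diff X (tr136_Psi R c) := by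
  rw [tr136_diff_T, tr136_diff_eq, LinearMap.sum_apply, LinearMap.sum_apply, map_sum]
  refine Finset.sum_congr rfl fun j _ => ?_
  rw [Module.End.mul_apply, Module.End.mul_apply, tr136_Psi_hat R (X j) (fun i k => hRX i k j),
    tr136_io_Psi R hM hM']

/-! ### supports -/

/-- chains of exterior degree `q` with coefficients in `V` -/
def tr136_S (V : Submodule D B) (q : ℤ) : Submodule D (Finset (Fin n) → B) :=
  Submodule.pi Set.univ fun U => if (U.card : ℤ) = q then V else ⊥

theorem tr136_mem_S {V : Submodule D B} {q : ℤ} {c : Finset (Fin n) → B} :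
    c ∈ tr136_S V q ↔ (∀ U, c U ∈ V) ∧ ∀ U : Finset (Fin n), (U.card : ℤ) ≠ q → c U = 0 := by
  simp only [tr136_S, Submodule.mem_pi, Set.mem_univ, true_implies]
  constructor
  · intro h
    refine ⟨fun U => ?_, fun U hU => ?_⟩
    · have := h U
      by_cases hq : (U.card : ℤ) = q
      · rwa [if_pos hq] at this
      · rw [if_neg hq, Submodule.mem_bot] at this
        rw [this]; exact Submodule.zero_mem _
    · have := h U
      rwa [if_neg hU, Submodule.mem_bot] at this
  · rintro ⟨h1, h2⟩ U
    by_cases hq : (U.card : ℤ) = q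
    · rw [if_pos hq]; exact h1 U
    · rw [if_neg hq, Submodule.mem_bot]; exact h2 U hq

theorem tr136_S_mono {V V' : Submodule D B} (h : V ≤ V') (q : ℤ) :
    tr136_S (n := n) V q ≤ tr136_S V' q := by
  intro c hc
  rw [tr136_mem_S] at hc ⊢
  exact ⟨fun U => h (hc.1 U), hc.2⟩

theorem tr136_io_mem {V : Submodule D B} {q : ℤ} {c : Finset (Fin n) → B} (hc : c ∈ tr136_S V q)
    (k : Fin n) : tr136_io (D := D) k c ∈ tr136_S V (q - 1) := by
  rw [tr136_mem_S] at hc ⊢
  refine ⟨fun U => ?_, fun U hU => ?_⟩
  · rw [tr136_io_apply]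
    split_ifs
    · exact Submodule.zero_mem _
    · exact zsmul_mem (hc.1 _) _
  · rw [tr136_io_apply]
    split_ifs with hk
    · rfl
    · rw [hc.2 (insert k U), smul_zero]
      rw [Finset.card_insert_of_notMem hk]
      push_cast
      intro h
      exact hU (by omega)

theorem tr136_hat_mem {V V' : Submodule D B} {q : ℤ} {c : Finset (Fin n) → B}
    (hc : c ∈ tr136_S V q) (T : Module.End D B) (hT : ∀ b ∈ V, T b ∈ V') :
    tr136_hat T c ∈ tr136_S V' q := by
  rw [tr136_mem_S] at hc ⊢
  refine ⟨fun U => hT _ (hc.1 U), fun U hU => ?_⟩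
  rw [tr136_hat_apply, hc.2 U hU, map_zero]

theorem tr136_phi_mem (R : Fin n → Fin n → Module.End D B) {V : Submodule D B}
    (hR : ∀ i j, ∀ b ∈ V, R i j b ∈ V) {q : ℤ} {c : Finset (Fin n) → B}
    (hc : c ∈ tr136_S V q) (l : Fin n) : tr136_phi R l c ∈ tr136_S V (q - 1) := by
  unfold tr136_phi
  rw [LinearMap.sum_apply]
  refine Submodule.sum_mem _ fun i _ => ?_
  rw [Module.End.mul_apply]
  exact tr136_hat_mem (tr136_io_mem hc i) _ (hR i l)

theorem tr136_rp_mem (R : Fin n → Fin n → Module.End D B) {V : Submodule D B}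
    (hR : ∀ i j, ∀ b ∈ V, R i j b ∈ V) (U : Finset (Fin n)) :
    ∀ (q : ℤ) (c : Finset (Fin n) → B), c ∈ tr136_S V q →
      tr136_rp (tr136_phi R) U c ∈ tr136_S V (q - U.card) := by
  induction U using Finset.induction_on_min with
  | empty =>
    intro q c hc
    rw [tr136_rp_empty]
    simpa using hc
  | insert h U hU ih =>
    intro q c hc
    have hn : h ∉ U := fun hh => lt_irrefl _ (hU h hh)
    rw [tr136_rp_insert_min _ h U hU, Module.End.mul_apply, Finset.card_insert_of_notMem hn]
    have := ih (q - 1) _ (tr136_phi_mem R hR hc h)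
    have e : q - ((U.card + 1 : ℕ) : ℤ) = q - 1 - U.card := by push_cast; ring
    rw [e]
    exact this

theorem tr136_Psi_mem (R : Fin n → Fin n → Module.End D B) {V : Submodule D B}
    (hR : ∀ i j, ∀ b ∈ V, R i j b ∈ V) {q : ℤ} {c : Finset (Fin n) → B}
    (hc : c ∈ tr136_S V q) : tr136_Psi R c ∈ tr136_S V q := by
  rw [tr136_mem_S]
  refine ⟨fun U => ?_, fun U hU => ?_⟩
  · rw [tr136_Psi_apply]
    exact (tr136_mem_S.1 (tr136_rp_mem R hR U q c hc)).1 ∅
  · rw [tr136_Psi_apply]
    refine (tr136_mem_S.1 (tr136_rp_mem R hR U q c hc)).2 ∅ ?_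
    simp only [Finset.card_empty, Nat.cast_zero]
    intro h
    exact hU (by omega)

theorem tr136_chains_eq (P : ℕ → Submodule D B) {p j : ℕ} (hpj : p ≤ j) :
    r278m_chains (n := n) P p j = tr136_S (P (j - p)) (p : ℤ) := by
  ext c
  rw [r278m_mem_chains]
  simp only [tr136_S, Submodule.mem_pi, Set.mem_univ, true_implies, hpj, and_true, Nat.cast_inj]

/-- `ι_m = ∑_l S_lm φ_l` -/
theorem tr136_io_eq (R S : Fin n → Fin n → Module.End D B)
    (hS : ∀ i m, ∑ l, S l m * R i l = if i = m then 1 else 0) (m : Fin n) :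
    tr136_io m = ∑ l, tr136_hat (S l m) * tr136_phi R l := by
  unfold tr136_phi
  simp only [Finset.mul_sum, ← mul_assoc, ← map_mul]
  rw [Finset.sum_comm]
  simp only [← Finset.sum_mul, ← map_sum, hS]
  rw [Finset.sum_eq_single m]
  · simp
  · intro i _ hi
    simp [hi]
  · intro h
    exact absurd (Finset.mem_univ m) h

/-- `Ψ` is injective on the chains of a fixed exterior degree. -/
theorem tr136_Psi_inj_nat (R S : Fin n → Fin n → Module.End D B)
    (hM : ∀ i k j l, R i j * R k l + R i l * R k j = R k j * R i l + R k l * R i j)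
    (hM' : ∀ i k j, R i j * R k j = R k j * R i j)
    (hS : ∀ i m, ∑ l, S l m * R i l = if i = m then 1 else 0) (p : ℕ) :
    ∀ c : Finset (Fin n) → B, c ∈ tr136_S (⊤ : Submodule D B) (p : ℤ) → tr136_Psi R c = 0 → c = 0 := by
  induction p with
  | zero =>
    intro c hc h0
    funext U
    by_cases hU : U = ∅
    · subst hU
      have := congrFun h0 ∅
      rw [tr136_Psi_apply, tr136_rp_empty] at this
      exact this
    · refine (tr136_mem_S.1 hc).2 U ?_
      simp only [Nat.cast_zero, ne_eq, Nat.cast_eq_zero, Finset.card_eq_zero]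
      exact hU
  | succ p ih =>
    intro c hc h0
    have h1 : ∀ l, tr136_phi R l c = 0 := by
      intro l
      apply ih
      · have := tr136_phi_mem R (V := ⊤) (fun _ _ _ _ => Submodule.mem_top) hc l
        simpa using this
      · rw [← tr136_io_Psi R hM hM', h0, map_zero]
    have h2 : ∀ m, tr136_io (D := D) m c = 0 := by
      intro m
      rw [tr136_io_eq R S hS m, LinearMap.sum_apply]
      refine Finset.sum_eq_zero fun l _ => ?_
      rw [Module.End.mul_apply, h1 l, map_zero]
    funext U
    by_cases hU : U = ∅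
    · subst hU
      refine (tr136_mem_S.1 hc).2 ∅ ?_
      simp only [Finset.card_empty, Nat.cast_zero]
      push_cast
      omega
    · obtain ⟨m, hm⟩ := Finset.nonempty_iff_ne_empty.2 hU
      have := congrFun (h2 m) (U.erase m)
      rw [tr136_io_apply, if_pos (Finset.notMem_erase m U), Finset.insert_erase hm] at this
      have h3 := congrArg (fun b => r278m_sgn (U.erase m) m • b) this
      simp only [smul_smul, r278y_sgn_sq, one_smul, Pi.zero_apply, smul_zero] at h3
      exact h3

theorem tr136_Psi_inj (R S : Fin n → Fin n → Module.End D B)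
    (hM : ∀ i k j l, R i j * R k l + R i l * R k j = R k j * R i l + R k l * R i j)
    (hM' : ∀ i k j, R i j * R k j = R k j * R i j)
    (hS : ∀ i m, ∑ l, S l m * R i l = if i = m then 1 else 0) (q : ℤ)
    (c : Finset (Fin n) → B) (hc : c ∈ tr136_S (⊤ : Submodule D B) q) (h0 : tr136_Psi R c = 0) :
    c = 0 := by
  by_cases hq : 0 ≤ q
  · obtain ⟨p, rfl⟩ := Int.eq_ofNat_of_zero_le hq
    exact tr136_Psi_inj_nat R S hM hM' hS p c hc h0
  · funext U
    refine (tr136_mem_S.1 hc).2 U ?_
    have : (0 : ℤ) ≤ U.card := Int.natCast_nonneg _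
    omega

theorem tr136_finrank_map_Psi (R S : Fin n → Fin n → Module.End D B)
    (hM : ∀ i k j l, R i j * R k l + R i l * R k j = R k j * R i l + R k l * R i j)
    (hM' : ∀ i k j, R i j * R k j = R k j * R i j)
    (hS : ∀ i m, ∑ l, S l m * R i l = if i = m then 1 else 0) (q : ℤ)
    (Z : Submodule D (Finset (Fin n) → B)) (hZ : Z ≤ tr136_S ⊤ q) :
    Module.finrank D (Z.map (tr136_Psi R)) = Module.finrank D Z := by
  have hinj : Function.Injective ((tr136_Psi R).domRestrict Z) := by
    rw [← LinearMap.ker_eq_bot, LinearMap.ker_eq_bot']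
    intro z hz
    apply Subtype.ext
    exact tr136_Psi_inj R S hM hM' hS q z.1 (hZ z.2) hz
  rw [← LinearMap.range_domRestrict, LinearMap.finrank_range_of_inj hinj]

/-- **THE MANIN TRANSFER** (Lemma 3.1 of the Betti paper in Koszul words): the Koszul ranks of the
families `T i = ∑ j, X j * R i j` and `X` agree. -/
theorem tr136_rank_transfer (X : Fin n → Module.End D B) (R S : Fin n → Fin n → Module.End D B)
    (hRX : ∀ i j k, R i j * X k = X k * R i j)
    (hM : ∀ i k j l, R i j * R k l + R i l * R k j = R k j * R i l + R k l * R i j)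
    (hM' : ∀ i k j, R i j * R k j = R k j * R i j)
    (hS : ∀ i m, ∑ l, S l m * R i l = if i = m then 1 else 0)
    (P : ℕ → Submodule D B) (hfin : ∀ e, Module.Finite D (P e))
    (hRP : ∀ i j e, ∀ b ∈ P e, R i j b ∈ P e) (p j : ℕ) :
    r278m_rank (fun i => ∑ j, X j * R i j) P p j = r278m_rank X P p j := by
  unfold r278m_rank
  by_cases hpj : p ≤ j
  · have hfinC := r278m_finite_chains (n := n) hfin p j
    set C := r278m_chains (n := n) P p j with hC
    have hCS : C = tr136_S (P (j - p)) (p : ℤ) := tr136_chains_eq P hpj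
    have hCtop : C ≤ tr136_S ⊤ (p : ℤ) := by
      rw [hCS]; exact tr136_S_mono le_top _
    have h1 : C.map (tr136_Psi R) = C := by
      apply Submodule.eq_of_le_of_finrank_eq
      · rintro _ ⟨c, hc, rfl⟩
        rw [SetLike.mem_coe, hCS] at hc
        rw [hCS]
        exact tr136_Psi_mem R (fun i k => hRP i k _) hc
      · exact tr136_finrank_map_Psi R S hM hM' hS _ C hCtop
    have h2 : (C.map (r278m_diff (fun i => ∑ j, X j * R i j))).map (tr136_Psi R) =
        C.map (r278m_diff X) := by
      conv_rhs => rw [← h1]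
      rw [← Submodule.map_comp, ← Submodule.map_comp]
      congr 1
      exact LinearMap.ext fun c => tr136_Psi_diff X R hRX hM hM' c
    rw [← h2]
    refine (tr136_finrank_map_Psi R S hM hM' hS ((p : ℤ) - 1) _ ?_).symm
    rintro _ ⟨c, hc, rfl⟩
    rw [tr136_diff_T, LinearMap.sum_apply]
    refine Submodule.sum_mem _ fun l _ => ?_
    rw [Module.End.mul_apply]
    exact tr136_hat_mem (tr136_phi_mem R (V := ⊤) (fun _ _ _ _ => Submodule.mem_top) (hCtop hc) l) _
      (fun _ _ => Submodule.mem_top)
  · have : r278m_chains (n := n) P p j = ⊥ := by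
      rw [eq_bot_iff]
      intro c hc
      rw [r278m_mem_chains] at hc
      rw [Submodule.mem_bot]
      funext T
      have := hc T
      rw [if_neg (by omega), Submodule.mem_bot] at this
      exact this
    rw [this, Submodule.map_bot, Submodule.map_bot]

end Manin

end Claimed.Agent.R278
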