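-- KEEP (row 278, S0523; leaf TR = `bt66_transfer` of Mono66, from the Manin transfer `tr136_rank_transfer` of 136; pen 186, prefix tr186_)
import Claimed.Agent.R278.MonoVoc66
import Claimed.Agent.R278.Transfer136

set_option autoImplicit false

open MvPolynomial Claims.C0451

namespace Claimed.Agent.R278

section coeffs

variable {D : Type} [DivisionRing D] {n : ℕ}

theorem tr186_pair_iff (a b j l : Fin n) :
    (Finsupp.single a 1 + Finsupp.single b 1 : Fin n →₀ ℕ) = Finsupp.single j 1 + Finsupp.single l 1 ↔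
      (a = j ∧ b = l) ∨ (a = l ∧ b = j) := by
  constructor
  · intro h
    have ha := DFunLike.congr_fun h a
    simp only [Finsupp.add_apply, Finsupp.single_apply] at ha
    by_cases h1 : j = a
    · subst h1
      left
      exact ⟨rfl, Finsupp.single_left_injective one_ne_zero (add_left_cancel h)⟩
    · by_cases h2 : l = a
      · subst h2
        right
        rw [add_comm (Finsupp.single j 1)] at h
        exact ⟨rfl, Finsupp.single_left_injective one_ne_zero (add_left_cancel h)⟩
      · simp [h1, h2] at ha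
  · rintro (⟨rfl, rfl⟩ | ⟨rfl, rfl⟩)
    · rfl
    · exact add_comm _ _

/-- the coefficient of `x_j x_l` in a product of two linear forms -/
theorem tr186_coeff_mul (u v : Fin n → D) (j l : Fin n) :
    (eg2Lin u * eg2Lin v).coeff (Finsupp.single j 1 + Finsupp.single l 1) =
      if j = l then u j * v j else u j * v l + u l * v j := by
  classical
  unfold eg2Lin
  rw [Finset.sum_mul_sum]
  simp only [AddMonoidAlgebra.single_mul_single, AddMonoidAlgebra.coeff_sum, Finsupp.finsetSum_apply,
    AddMonoidAlgebra.coeff_single, Finsupp.single_apply, tr186_pair_iff]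
  rw [← Finset.sum_product' (s := Finset.univ) (t := Finset.univ)
    (f := fun a b => if (a = j ∧ b = l) ∨ (a = l ∧ b = j) then u a * v b else 0), ← Finset.sum_filter]
  by_cases hjl : j = l
  · subst hjl
    rw [if_pos rfl]
    have : (Finset.univ ×ˢ Finset.univ : Finset (Fin n × Fin n)).filter
        (fun x => (x.1 = j ∧ x.2 = j) ∨ (x.1 = j ∧ x.2 = j)) = {(j, j)} := by
      ext ⟨a, b⟩
      simp
    rw [this, Finset.sum_singleton]
  · rw [if_neg hjl]
    have : (Finset.univ ×ˢ Finset.univ : Finset (Fin n × Fin n)).filter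
        (fun x => (x.1 = j ∧ x.2 = l) ∨ (x.1 = l ∧ x.2 = j)) = {(j, l), (l, j)} := by
      ext ⟨a, b⟩
      simp
    rw [this, Finset.sum_pair (by
      intro h
      exact hjl (Prod.mk.inj h).1)]

/-- the Manin relations of commuting forms -/
theorem tr186_manin_sq {u v : Fin n → D} (h : Commute (eg2Lin u) (eg2Lin v)) (j : Fin n) :
    u j * v j = v j * u j := by
  have h1 := tr186_coeff_mul u v j j
  have h2 := tr186_coeff_mul v u j j
  rw [if_pos rfl] at h1 h2
  rw [← h1, ← h2, h.eq]

theorem tr186_manin {u v : Fin n → D} (h : Commute (eg2Lin u) (eg2Lin v)) (j l : Fin n) :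
    u j * v l + u l * v j = v j * u l + v l * u j := by
  by_cases hjl : j = l
  · subst hjl
    rw [tr186_manin_sq h j]
  · have h1 := tr186_coeff_mul u v j l
    have h2 := tr186_coeff_mul v u j l
    rw [if_neg hjl] at h1 h2
    rw [← h1, ← h2, h.eq]

theorem tr186_right_inv (T : Bt66Forms D n) (i m : Fin n) :
    ∑ l, T.τ i l * T.σ l m = if i = m then 1 else 0 := by
  have h1 : (Matrix.of T.σ) * (Matrix.of T.τ) = 1 := by
    ext i k
    rw [Matrix.mul_apply, Matrix.one_apply]
    exact T.inv i k
  have h2 := mul_eq_one_comm.1 h1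
  have h3 := congrFun (congrFun h2 i) m
  rw [Matrix.mul_apply, Matrix.one_apply] at h3
  exact h3

end coeffs

section Q

variable {F : Type} [Field F] (D : Type) [DivisionRing D] [Algebra F D] {n : ℕ}
variable (I : Ideal (MvPolynomial (Fin n) F))

theorem tr186_rmul_mul (s t : Eg2N D n) :
    bt66_rmul D I s * bt66_rmul D I t = bt66_rmul D I (t * s) := by
  refine LinearMap.ext fun b => ?_
  obtain ⟨w, rfl⟩ := (eg2Ext D I).mkQ_surjective b
  rw [Module.End.mul_apply, bt66_rmul_mk, bt66_rmul_mk, bt66_rmul_mk, mul_assoc]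

theorem tr186_rmul_add (s t : Eg2N D n) :
    bt66_rmul D I (s + t) = bt66_rmul D I s + bt66_rmul D I t := by
  refine LinearMap.ext fun b => ?_
  obtain ⟨w, rfl⟩ := (eg2Ext D I).mkQ_surjective b
  rw [LinearMap.add_apply, bt66_rmul_mk, bt66_rmul_mk, bt66_rmul_mk, mul_add, map_add]

theorem tr186_rmul_zero : bt66_rmul D I (0 : Eg2N D n) = 0 := by
  refine LinearMap.ext fun b => ?_
  obtain ⟨w, rfl⟩ := (eg2Ext D I).mkQ_surjective b
  rw [bt66_rmul_mk, mul_zero, map_zero, LinearMap.zero_apply]

theorem tr186_rmul_one : bt66_rmul D I (1 : Eg2N D n) = 1 := by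
  refine LinearMap.ext fun b => ?_
  obtain ⟨w, rfl⟩ := (eg2Ext D I).mkQ_surjective b
  rw [bt66_rmul_mk, mul_one, Module.End.one_apply]

theorem tr186_rmul_sum {ι : Type} (S : Finset ι) (f : ι → Eg2N D n) :
    bt66_rmul D I (∑ i ∈ S, f i) = ∑ i ∈ S, bt66_rmul D I (f i) := by
  classical
  induction S using Finset.induction_on with
  | empty => simp [tr186_rmul_zero]
  | insert a S ha ih => rw [Finset.sum_insert ha, Finset.sum_insert ha, tr186_rmul_add, ih]

/-- right multiplication by a homogeneous element moves the pieces -/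
theorem tr186_rmul_pc {t : Eg2N D n} {d : ℕ} (ht : t ∈ eg2Deg D n d) (e : ℕ) :
    ∀ b ∈ bt66_Qpc D I e, bt66_rmul D I t b ∈ bt66_Qpc D I (e + d) := by
  rintro _ ⟨w, hw, rfl⟩
  rw [bt66_rmul_mk]
  exact ⟨w * t, eg2d_mul hw ht, rfl⟩

theorem tr186_Qpc_finite (e : ℕ) : Module.Finite D (bt66_Qpc D I e) := by
  have := eg2d_finite (D := D) (n := n) e
  unfold bt66_Qpc
  infer_instance

/-- the constant `d` of `D[x]` -/
noncomputable def tr186_c (n : ℕ) (d : D) : Eg2N D n := AddMonoidAlgebra.single 0 d

theorem tr186_c_mul (a b : D) : tr186_c D n a * tr186_c D n b = tr186_c D n (a * b) := by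
  unfold tr186_c
  rw [AddMonoidAlgebra.single_mul_single, add_zero]

theorem tr186_c_add (a b : D) : tr186_c D n (a + b) = tr186_c D n a + tr186_c D n b := by
  unfold tr186_c
  rw [AddMonoidAlgebra.single_add]

theorem tr186_c_sum {ι : Type} (S : Finset ι) (f : ι → D) :
    tr186_c D n (∑ i ∈ S, f i) = ∑ i ∈ S, tr186_c D n (f i) := by
  classical
  induction S using Finset.induction_on with
  | empty => simp [tr186_c]
  | insert a S ha ih => rw [Finset.sum_insert ha, Finset.sum_insert ha, tr186_c_add, ih]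

theorem tr186_c_var (a : D) (k : Fin n) :
    tr186_c D n a * bt66_var D n k = bt66_var D n k * tr186_c D n a := by
  unfold tr186_c bt66_var
  rw [AddMonoidAlgebra.single_mul_single, AddMonoidAlgebra.single_mul_single, zero_add, add_zero,
    mul_one, one_mul]

theorem tr186_lin_eq (τ : Fin n → D) : eg2Lin τ = ∑ j, tr186_c D n (τ j) * bt66_var D n j := by
  unfold eg2Lin tr186_c bt66_var
  refine Finset.sum_congr rfl fun j _ => ?_
  rw [AddMonoidAlgebra.single_mul_single, zero_add, mul_one]

theorem tr186_var_comm (k l : Fin n) : bt66_var D n k * bt66_var D n l = bt66_var D n l * bt66_var D n k := by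
  unfold bt66_var
  rw [AddMonoidAlgebra.single_mul_single, AddMonoidAlgebra.single_mul_single, add_comm]

theorem tr186_var_deg (k : Fin n) : bt66_var D n k ∈ eg2Deg D n 1 :=
  eg2d_single _ _ (by simp [Finsupp.single_apply])

theorem tr186_c_deg (a : D) : tr186_c D n a ∈ eg2Deg D n 0 :=
  eg2d_single _ _ (by simp)

/-- **LEAF TR** (`bt66_transfer` of Mono66, verbatim). -/
theorem tr186_transfer (T : Bt66Forms D n) (p j : ℕ) :
    r278m_betti (fun k => bt66_rmul D I (eg2Lin (T.τ k))) (bt66_Qpc D I) p j =
      r278m_betti (fun k => bt66_rmul D I (bt66_var D n k)) (bt66_Qpc D I) p j := by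
  set X : Fin n → Module.End D (Bt66Q D I) := fun k => bt66_rmul D I (bt66_var D n k) with hX
  set R : Fin n → Fin n → Module.End D (Bt66Q D I) := fun i k => bt66_rmul D I (tr186_c D n (T.τ i k)) with hR
  set S : Fin n → Fin n → Module.End D (Bt66Q D I) := fun i k => bt66_rmul D I (tr186_c D n (T.σ i k)) with hS
  have hT : (fun k => bt66_rmul D I (eg2Lin (T.τ k))) = fun i => ∑ k, X k * R i k := by
    funext i
    rw [tr186_lin_eq, tr186_rmul_sum]
    refine Finset.sum_congr rfl fun k _ => ?_
    rw [hX, hR, tr186_rmul_mul]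
  have hRX : ∀ i k l, R i k * X l = X l * R i k := by
    intro i k l
    simp only [hX, hR, tr186_rmul_mul, tr186_c_var]
  have hM : ∀ i k a b, R i a * R k b + R i b * R k a = R k a * R i b + R k b * R i a := by
    intro i k a b
    simp only [hR, tr186_rmul_mul, tr186_c_mul, ← tr186_rmul_add, ← tr186_c_add]
    rw [add_comm, tr186_manin (T.comm k i) a b, add_comm]
  have hM' : ∀ i k a, R i a * R k a = R k a * R i a := by
    intro i k a
    simp only [hR, tr186_rmul_mul, tr186_c_mul]
    rw [tr186_manin_sq (T.comm k i) a]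
  have hSR : ∀ i m, ∑ l, S l m * R i l = if i = m then 1 else 0 := by
    intro i m
    simp only [hR, hS, tr186_rmul_mul, tr186_c_mul, ← tr186_rmul_sum, ← tr186_c_sum, tr186_right_inv T i m]
    split_ifs
    · have : tr186_c D n (1 : D) = 1 := rfl
      rw [this, tr186_rmul_one]
    · have : tr186_c D n (0 : D) = 0 := by simp [tr186_c]
      rw [this, tr186_rmul_zero]
  have hfin := tr186_Qpc_finite D I
  have hRP : ∀ i k e, ∀ b ∈ bt66_Qpc D I e, R i k b ∈ bt66_Qpc D I e := by
    intro i k e b hb
    exact tr186_rmul_pc D I (tr186_c_deg D (T.τ i k)) e b hb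
  have hrk := tr136_rank_transfer X R S hRX hM hM' hSR (bt66_Qpc D I) hfin hRP
  have h1 := r278m_betti_add_ranks X (fun k l b => by
      have := tr186_rmul_mul D I (bt66_var D n k) (bt66_var D n l)
      have h2 := tr186_rmul_mul D I (bt66_var D n l) (bt66_var D n k)
      rw [tr186_var_comm] at this
      have h3 := this.trans h2.symm
      exact LinearMap.congr_fun h3 b)
    (fun k e b hb => tr186_rmul_pc D I (tr186_var_deg D k) e b hb) hfin p j
  have h2 := r278m_betti_add_ranks (fun k => bt66_rmul D I (eg2Lin (T.τ k))) (fun k l b => by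
      have := tr186_rmul_mul D I (eg2Lin (T.τ k)) (eg2Lin (T.τ l))
      have h2 := tr186_rmul_mul D I (eg2Lin (T.τ l)) (eg2Lin (T.τ k))
      rw [(T.comm l k).eq] at this
      have h3 := this.trans h2.symm
      exact LinearMap.congr_fun h3 b)
    (fun k e b hb => tr186_rmul_pc D I (eg2d_lin (T.τ k)) e b hb) hfin p j
  have e1 := hrk p j
  have e2 := hrk (p + 1) j
  rw [← hT] at e1 e2
  omega

end Q

end Claimed.Agent.R278
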