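-- KEEP
/-
R278 / Betti66 (pen 66, prefix `bt66_`): the Betti paper ("The Artinian Lex-Plus-Powers Betti
Theorem"), whole: `bt66_S0523_of_wall : Bt66Wall → (the statement of S0523, verbatim)`, where
`Bt66Wall` is the statement of THE BOX (Theorem 1.1 of the EGH paper, `hub278_BOX`).

Parts of this file (formerly Bridge66, Tor66, Mono66, Betti66; merged to spare files):
  I   the bridge  gradedBetti ⟨U⟩ = Koszul number of the monomial model on `Uᶜ`          (M1)
  II  Theorem 6.2 (box-stable ⇒ lex plus powers), induction on the number of variables   (B4)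
  III Proposition 3.2 from THE BOX, left dimensions over the division ring               (B1)
  IV  the chain:  S0523 ⇐ truncation (replaces Caviglia-Kummini) + extension of the regular
      sequence + the Artinian case ⇐ base change + B1 + B2 (Prop 4.3, pen 276) + B4.
Leaves by 216 26 76 236 46 242 206 126 136 186 276 (their files are imported).
-/
import Claimed.Agent.R278.MonoVoc66
import Claimed.Agent.R278.Kos126
import Claimed.Agent.R278.BettiVoc66
import Claimed.Agent.R278.Lam242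
import Claimed.Agent.R278.Mod46
import Claimed.Agent.R278.Dec236
import Claimed.Agent.R278.Ses46
import Claimed.Agent.R278.TBasis242
import Claimed.Agent.R278.BaseD126
import Claimed.Agent.R278.Transfer186
import Claimed.Agent.R278.Trunc216
import Claimed.Agent.R278.Full26
import Claimed.Agent.R278.Descent236
import Claimed.Agent.R278.Stab276

set_option autoImplicit false

open MvPolynomial Claims.C0451

namespace Claimed.Agent.R278

open Kos

/-! # Part I: the bridge (M1) -/


/-- A family vanishing on `U` and independent off `U` has the leading set `U`. -/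
theorem bt66_leadSet_eq {D : Type} [DivisionRing D] {Q : Type} [AddCommGroup Q] [Module D Q]
    {n : ℕ} (e : (Fin n → ℕ) → Q) (U : Set (Fin n → ℕ)) (h0 : ∀ α ∈ U, e α = 0)
    (hind : ∀ d, LinearIndepOn D e (r278k_std U d)) {Λ : Type} [LinearOrder Λ]
    (ρ : (Fin n → ℕ) → Λ) (hρ : Function.Injective ρ) : r278k_leadSet D e ρ = U := by
  have hsup : U ⊆ r278k_leadSet D e ρ := by
    intro α hα
    rw [r278k_leadSet_eqns_cite, h0 α hα]
    exact Submodule.zero_mem _
  refine Set.Subset.antisymm ?_ hsup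
  intro α hα
  by_contra hαU
  have h1 := r278k_finrank_piece (F := D) e ρ hρ (∑ i, α i)
  have h2 := r278k_finrank_piece_mono (F := D) e U h0 (∑ i, α i) (hind _)
  have hsub : r278k_std (r278k_leadSet D e ρ) (∑ i, α i) ⊆ r278k_std U (∑ i, α i) :=
    fun β hβ => ⟨fun h => hβ.1 (hsup h), hβ.2⟩
  have heq := Set.eq_of_subset_of_ncard_le hsub (by rw [← h1, ← h2]) (r278k_std_finite U _)
  have : α ∈ r278k_std (r278k_leadSet D e ρ) (∑ i, α i) := heq ▸ ⟨hαU, rfl⟩
  exact this.1 hα

open Classical in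
/-- The generating family of the model on `Uᶜ`. -/
noncomputable def bt66_eD (D : Type) [DivisionRing D] {n : ℕ} (U : Set (Fin n → ℕ))
    (α : Fin n → ℕ) : (Fin n → ℕ) →₀ D :=
  if α ∈ U then 0 else Finsupp.single α 1

theorem bt66_eD_zero (D : Type) [DivisionRing D] {n : ℕ} (U : Set (Fin n → ℕ)) :
    ∀ α ∈ U, bt66_eD D U α = 0 := fun _ hα => if_pos hα

theorem bt66_eD_sh (D : Type) [DivisionRing D] {n : ℕ} (U : Set (Fin n → ℕ)) (hUp : bt66_Up U)
    (i : Fin n) (α : Fin n → ℕ) :
    bt66_shD D Uᶜ i (bt66_eD D U α) = bt66_eD D U (α + Pi.single i 1) := by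
  classical
  unfold bt66_eD
  by_cases hα : α ∈ U
  · have : α + Pi.single i 1 ∈ U := hUp α hα _ (by intro k; simp)
    rw [if_pos hα, if_pos this, map_zero]
  · rw [if_neg hα, bt66_shD_single]
    by_cases h2 : α + Pi.single i 1 ∈ U
    · rw [if_pos h2, if_neg (by simp [h2])]
    · rw [if_neg h2, if_pos ⟨hα, h2⟩]

theorem bt66_eD_indep (D : Type) [DivisionRing D] {n : ℕ} (U : Set (Fin n → ℕ)) (d : ℕ) :
    LinearIndepOn D (bt66_eD D U) (r278k_std U d) := by
  have hbase : LinearIndependent D (fun u : Fin n → ℕ => Finsupp.single u (1 : D)) := by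
    have := (Finsupp.basisSingleOne (R := D) (ι := Fin n → ℕ)).linearIndependent
    simpa [Finsupp.coe_basisSingleOne] using this
  have h1 : LinearIndepOn D (fun u : Fin n → ℕ => Finsupp.single u (1 : D)) (r278k_std U d) :=
    hbase.linearIndepOn _
  refine h1.congr ?_
  intro u hu
  simp only [bt66_eD, if_neg hu.1]

theorem bt66_piece_eD (D : Type) [DivisionRing D] {n : ℕ} (U : Set (Fin n → ℕ)) :
    r278k_piece (F := D) (bt66_eD D U) = bt66_pcD D Uᶜ := by
  funext d
  rw [bt66_pcD_eq_span, r278k_piece]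
  apply le_antisymm
  · rw [Submodule.span_le]
    rintro _ ⟨α, hα, rfl⟩
    by_cases hαU : α ∈ U
    · simp only [bt66_eD, if_pos hαU]; exact Submodule.zero_mem _
    · simp only [bt66_eD, if_neg hαU]
      exact Submodule.subset_span ⟨α, ⟨hαU, hα⟩, rfl⟩
  · rw [Submodule.span_le]
    rintro _ ⟨α, ⟨hαU, hα⟩, rfl⟩
    refine Submodule.subset_span ⟨α, hα, ?_⟩
    simp only [bt66_eD, if_neg hαU]

/-- **Leaf M1, verbatim.** -/
theorem bt66_bridge' (F : Type) [Field F] {n : ℕ} (U : Set (Fin n → ℕ)) (hU : bt66_Up U)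
    (p j : ℕ) : gradedBetti (bt66_ideal F U) p j = bt66_bet F Uᶜ p j := by
  have hUc : bt66_Conv Uᶜ := fun _ v w _ hvw _ hw hv => hw (hU v hv w hvw)
  have e1 : quotPiece (bt66_ideal F U) = r278k_piece (F := F) (r278k_eK (bt66_ideal F U)) :=
    funext fun d => (r278k_piece_eq_quotPiece _ d).symm
  have e2 : bt66_bet F Uᶜ p j =
      r278m_betti (bt66_shD F Uᶜ) (r278k_piece (F := F) (bt66_eD F U)) p j := by
    rw [bt66_piece_eD]
    have hsh : bt66_shD F Uᶜ = bt66_sh F Uᶜ := funext fun k => bt66_shD_eq F Uᶜ k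
    rw [hsh]
    rfl
  have e3 : gradedBetti (bt66_ideal F U) p j =
      r278m_betti (r278k_XK (bt66_ideal F U))
        (r278k_piece (F := F) (r278k_eK (bt66_ideal F U))) p j := by
    rw [r278m_gradedBetti_eq, e1]
    rfl
  rw [e3, e2]
  have hL1 : r278k_leadSet F (r278k_eK (bt66_ideal F U)) bt66_rho = U :=
    bt66_leadSet_eq _ U (fun α hα => r278k_eK_ideal_zero U hα) (r278k_eK_ideal_indep U hU)
      bt66_rho bt66_rho_inj
  have hL2 : r278k_leadSet F (bt66_eD F U) bt66_rho = U :=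
    bt66_leadSet_eq _ U (bt66_eD_zero F U) (bt66_eD_indep F U) bt66_rho bt66_rho_inj
  have hA := r278k_lead_betti_le (r278k_XK (bt66_ideal F U)) (bt66_shD F Uᶜ) (r278k_hX _)
      (bt66_shD_comm F Uᶜ hUc)
      (r278k_eK (bt66_ideal F U)) (bt66_eD F U) (r278k_he _) (bt66_eD_sh F U hU) bt66_rho
      bt66_rho_inj bt66_rho_add (hL1.symm ▸ bt66_eD_zero F U) (hL1.symm ▸ bt66_eD_indep F U) p j
  have hB := r278k_lead_betti_le (bt66_shD F Uᶜ) (r278k_XK (bt66_ideal F U))
      (bt66_shD_comm F Uᶜ hUc) (r278k_hX _)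
      (bt66_eD F U) (r278k_eK (bt66_ideal F U)) (bt66_eD_sh F U hU) (r278k_he _) bt66_rho
      bt66_rho_inj bt66_rho_add (hL2.symm ▸ fun α hα => r278k_eK_ideal_zero U hα)
      (hL2.symm ▸ r278k_eK_ideal_indep U hU) p j
  exact le_antisymm hA hB


/-! # Part II: Theorem 6.2 (B4) -/

/-! ## Contracts on the model -/

/-- LEAF M1 (bridge): the frozen `gradedBetti` of a monomial ideal is the Koszul number of the
model on the complement. -/
theorem bt66_bridge (F : Type) [Field F] {n : ℕ} (U : Set (Fin n → ℕ)) (hU : bt66_Up U) (p j : ℕ) :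
    gradedBetti (bt66_ideal F U) p j = bt66_bet F Uᶜ p j :=
  bt66_bridge' F U hU p j

/-- LEAF M2 (Lemma 6.1, first sentence, on the model): term dimension = number + deficit. -/
theorem bt66_bet_add_dfc (F : Type) [Field F] {n : ℕ} (W : Set (Fin n → ℕ)) (hW : bt66_Conv W)
    (p j : ℕ) :
    bt66_bet F W p j + bt66_dfc F W p j = if p ≤ j then n.choose p * bt66_cnt W (j - p) else 0 :=
  md46_bet_add_dfc F W hW p j

/-- LEAF M3 (Lemma 6.1, submodules): the deficit grows with the up-closed set. -/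
theorem bt66_dfc_mono_sub (F : Type) [Field F] {n : ℕ} (U U' : Set (Fin n → ℕ)) (hU : bt66_Up U)
    (hU' : bt66_Up U') (h : U ⊆ U') (p j : ℕ) : bt66_dfc F U p j ≤ bt66_dfc F U' p j :=
  md46_dfc_mono_sub F U U' hU hU' h p j

/-- LEAF M4 (Lemma 6.1, quotients): the deficit of the quotient decreases. -/
theorem bt66_dfc_mono_quot (F : Type) [Field F] {n : ℕ} (U U' : Set (Fin n → ℕ)) (hU : bt66_Up U)
    (hU' : bt66_Up U') (h : U ⊆ U') (p j : ℕ) : bt66_dfc F U'ᶜ p j ≤ bt66_dfc F Uᶜ p j :=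
  md46_dfc_mono_quot F U U' hU hU' h p j

/-- LEAF M5 (formula (2.1) `filt:ideal-quotient`): `β_{p+1,j}(A/H) = β_{p,j}(H)`, `H` proper. -/
theorem bt66_bet_quot_succ (F : Type) [Field F] [CharZero F] {n : ℕ} (U : Set (Fin n → ℕ)) (hU : bt66_Up U)
    (h0 : (0 : Fin n → ℕ) ∉ U) (p j : ℕ) : bt66_bet F Uᶜ (p + 1) j = bt66_bet F U p j :=
  ses46_bet_quot_succ F U hU h0 p j

/-- LEAF M6: `β_{0,j}(A/H)`, `H` proper. -/
theorem bt66_bet_quot_zero (F : Type) [Field F] [CharZero F] {n : ℕ} (U : Set (Fin n → ℕ)) (hU : bt66_Up U)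
    (h0 : (0 : Fin n → ℕ) ∉ U) (j : ℕ) : bt66_bet F Uᶜ 0 j = if j = 0 then 1 else 0 :=
  ses46_bet_quot_zero F U hU h0 j

/-- LEAF M7 (formulas (6.5), (6.6), (6.7): reduction modulo the last variable, decomposition by
the exponent of the last variable, the middle slices have zero differentials). -/
theorem bt66_endpoint (F : Type) [Field F] {n : ℕ} (H : Set (Fin (n + 1) → ℕ)) (hH : bt66_Up H)
    (a : ℕ) (ha : 1 ≤ a) (htop : ∀ u : Fin (n + 1) → ℕ, a ≤ u (Fin.last n) → u ∈ H)
    (hann : ∀ s, 1 ≤ s → s < a → ∀ u ∈ bt66_slice H s, ∀ i : Fin n,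
      u + Pi.single i 1 ∈ bt66_slice H (s - 1)) (p j : ℕ) :
    bt66_bet F H p j + bt66_dfc F (bt66_slice H 0) p j +
        (if a ≤ j then bt66_dfc F (bt66_slice H (a - 1))ᶜ p (j - a) else 0) =
      if p ≤ j then n.choose p * (bt66_cnt H (j - p) - if j - p = 0 then 0 else bt66_cnt H (j - p - 1))
      else 0 :=
  ep236_endpoint F H hH a ha htop hann p j

/-! ## Contracts on the combinatorics (Section 5, Section 7) -/

/-- LEAF C1 (Prop 5.2 `box:ideal`). -/
theorem bt66_Lam_props {n : ℕ} (a : Fin n → ℕ) (ha : ∀ i, 2 ≤ a i) (H : Set (Fin n → ℕ))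
    (hH : bt66_Up H) (hP : bt66_Pow a ⊆ H) (hS : bt66_Stable a H) :
    bt66_Up (bt66_Lam a H) ∧ bt66_Stable a (bt66_Lam a H) ∧
      ∀ d, bt66_cnt (bt66_Lam a H) d = bt66_cnt H d :=
  lam242_Lam_props a ha H hH hP hS

/-- LEAF C2 (formula (6.10) `tor:endpoint-inclusions`, from the slice inequalities of Lemma 5.1). -/
theorem bt66_Lam_slices {n : ℕ} (a : Fin (n + 1) → ℕ) (ha : ∀ i, 2 ≤ a i)
    (H : Set (Fin (n + 1) → ℕ)) (hH : bt66_Up H) (hP : bt66_Pow a ⊆ H) (hS : bt66_Stable a H) :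
    bt66_slice (bt66_Lam a H) 0 ⊆ bt66_Lam (Fin.init a) (bt66_slice H 0) ∧
      bt66_Lam (Fin.init a) (bt66_slice H (a (Fin.last n) - 1)) ⊆
        bt66_slice (bt66_Lam a H) (a (Fin.last n) - 1) :=
  lam242_Lam_slices a ha H hH hP hS

/-- LEAF C3: slices of an up-closed stable set containing the powers. -/
theorem bt66_slice_props {n : ℕ} (a : Fin (n + 1) → ℕ) (H : Set (Fin (n + 1) → ℕ))
    (hH : bt66_Up H) (hP : bt66_Pow a ⊆ H) (hS : bt66_Stable a H) (s : ℕ)
    (hs : s < a (Fin.last n)) :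
    bt66_Up (bt66_slice H s) ∧ bt66_Pow (Fin.init a) ⊆ bt66_slice H s ∧
      bt66_Stable (Fin.init a) (bt66_slice H s) :=
  lam242_slice_props a H hH hP hS s hs

/-- LEAF C4 (formula (6.3) `tor:slice-annihilation`). -/
theorem bt66_slice_ann {n : ℕ} (a : Fin (n + 1) → ℕ) (H : Set (Fin (n + 1) → ℕ))
    (hH : bt66_Up H) (hP : bt66_Pow a ⊆ H) (hS : bt66_Stable a H) (s : ℕ) (hs1 : 1 ≤ s)
    (hs : s < a (Fin.last n)) (u : Fin n → ℕ) (hu : u ∈ bt66_slice H s) (i : Fin n) :
    u + Pi.single i 1 ∈ bt66_slice H (s - 1) :=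
  lam242_slice_ann a H hH hP hS s hs1 hs u hu i

/-- LEAF C5 (Section 7): the frozen lex-plus-powers set of a monomial ideal is `ΛH`. -/
theorem bt66_lppSet_eq_Lam (E : Type) [Field E] {n : ℕ} (a : Fin n → ℕ) (H : Set (Fin n → ℕ))
    (hH : bt66_Up H) (hP : bt66_Pow a ⊆ H) :
    bt66_lppSet (le_refl n) a (bt66_ideal E H) = bt66_Lam a H :=
  lam242_lppSet_eq_Lam E a H hH hP

/-- LEAF C6: an up-closed set with the counts of everything is everything; used for `H = A`. -/
theorem bt66_eq_of_cnt {n : ℕ} (U U' : Set (Fin n → ℕ)) (h : U ⊆ U')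
    (hc : ∀ d, bt66_cnt U d = bt66_cnt U' d) : U = U' :=
  lam242_eq_of_cnt U U' h hc

/-! ## The induction of Theorem 6.2 -/

theorem bt66_Up_conv {n : ℕ} {U : Set (Fin n → ℕ)} (hU : bt66_Up U) : bt66_Conv U :=
  fun u v _ huv _ hu _ => hU u hu v huv

theorem bt66_Up_compl_conv {n : ℕ} {U : Set (Fin n → ℕ)} (hU : bt66_Up U) : bt66_Conv Uᶜ :=
  fun _ v w _ hvw _ hw hv => hw (hU v hv w hvw)

theorem bt66_Pow_sub_Lam {n : ℕ} (a : Fin n → ℕ) (H : Set (Fin n → ℕ)) :
    bt66_Pow a ⊆ bt66_Lam a H := fun _ hm => Or.inl hm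

/-- counts of the complement -/
theorem bt66_cnt_compl {n : ℕ} (U U' : Set (Fin n → ℕ)) (h : ∀ d, bt66_cnt U d = bt66_cnt U' d)
    (d : ℕ) : bt66_cnt Uᶜ d = bt66_cnt U'ᶜ d := by
  classical
  have key : ∀ V : Set (Fin n → ℕ), bt66_cnt V d + bt66_cnt Vᶜ d =
      ({m : Fin n → ℕ | ∑ i, m i = d} : Set _).ncard := by
    intro V
    have hfin : ({m : Fin n → ℕ | ∑ i, m i = d} : Set _).Finite := by
      refine (Finset.finite_toSet (Finset.Nat.antidiagonalTuple n d)).subset ?_
      intro m hm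
      simpa [Finset.Nat.mem_antidiagonalTuple] using hm
    unfold bt66_cnt
    rw [← Set.ncard_union_eq (Set.disjoint_left.mpr (by
      rintro m ⟨h1, _⟩ ⟨h2, _⟩
      exact h2 h1)) (hfin.subset Set.inter_subset_right) (hfin.subset Set.inter_subset_right)]
    congr 1
    ext m
    by_cases hm : m ∈ V <;> simp [hm]
  have h1 := key U
  have h2 := key U'
  have := h d
  omega

/-- **Theorem 6.2** in terms of deficits, for ideals and quotients, by induction on the number of
variables. -/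
theorem bt66_tor_main (F : Type) [Field F] [CharZero F] : ∀ (n : ℕ) (a : Fin n → ℕ), (∀ i, 2 ≤ a i) →
    ∀ H : Set (Fin n → ℕ), bt66_Up H → bt66_Pow a ⊆ H → bt66_Stable a H → ∀ p j : ℕ,
      bt66_dfc F (bt66_Lam a H) p j ≤ bt66_dfc F H p j ∧
      bt66_dfc F (bt66_Lam a H)ᶜ p j ≤ bt66_dfc F Hᶜ p j := by
  intro n
  induction n with
  | zero =>
    intro a _ H _ _ _ p j
    have hz : ∀ (W : Set (Fin 0 → ℕ)) (p j : ℕ), bt66_dfc F W p j = 0 := by
      intro W p j
      unfold bt66_dfc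
      rw [r278m_rank_eq_zero _ (fun k => k.elim0), r278m_rank_eq_zero _ (fun k => k.elim0)]
    simp [hz]
  | succ n ih =>
    intro a ha H hH hP hS p j
    obtain ⟨hG, hGS, hGc⟩ := bt66_Lam_props a ha H hH hP hS
    set G := bt66_Lam a H with hGdef
    have hGP : bt66_Pow a ⊆ G := bt66_Pow_sub_Lam a H
    by_cases h0 : (0 : Fin (n + 1) → ℕ) ∈ H
    · -- `H` is everything
      have hHuniv : H = Set.univ := Set.eq_univ_of_forall fun m => hH 0 h0 m (fun i => Nat.zero_le _)
      have hGuniv : G = Set.univ := by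
        apply bt66_eq_of_cnt G Set.univ (Set.subset_univ _)
        intro d; rw [hGc d, hHuniv]
      rw [hGuniv, hHuniv]
      exact ⟨le_rfl, le_rfl⟩
    have h0G : (0 : Fin (n + 1) → ℕ) ∉ G := by
      intro h
      have hGuniv : G = Set.univ := Set.eq_univ_of_forall fun m => hG 0 h m (fun i => Nat.zero_le _)
      have : H = Set.univ := by
        apply bt66_eq_of_cnt H Set.univ (Set.subset_univ _)
        intro d; rw [← hGc d, hGuniv]
      exact h0 (this ▸ Set.mem_univ _)
    set al := a (Fin.last n) with hal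
    have hal2 : 2 ≤ al := ha _
    have ha' : ∀ i, 2 ≤ Fin.init a i := fun i => ha _
    -- the ideal comparison, for all `p j`
    have hideal : ∀ p j, bt66_bet F H p j ≤ bt66_bet F G p j := by
      intro p j
      have eH := bt66_endpoint F H hH al (by omega)
        (fun u hu => hP ⟨Fin.last n, hu⟩)
        (fun s hs1 hs u hu i => bt66_slice_ann a H hH hP hS s hs1 hs u hu i) p j
      have eG := bt66_endpoint F G hG al (by omega)
        (fun u hu => hGP ⟨Fin.last n, hu⟩)
        (fun s hs1 hs u hu i => bt66_slice_ann a G hG hGP hGS s hs1 hs u hu i) p j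
      obtain ⟨hincl0, hincl1⟩ := bt66_Lam_slices a ha H hH hP hS
      obtain ⟨hH0u, hH0p, hH0s⟩ := bt66_slice_props a H hH hP hS 0 (by omega)
      obtain ⟨hH1u, hH1p, hH1s⟩ := bt66_slice_props a H hH hP hS (al - 1) (by omega)
      obtain ⟨hG0u, _, _⟩ := bt66_slice_props a G hG hGP hGS 0 (by omega)
      obtain ⟨hG1u, _, _⟩ := bt66_slice_props a G hG hGP hGS (al - 1) (by omega)
      obtain ⟨hL0u, _, _⟩ := bt66_Lam_props (Fin.init a) ha' _ hH0u hH0p hH0s
      obtain ⟨hL1u, _, _⟩ := bt66_Lam_props (Fin.init a) ha' _ hH1u hH1p hH1s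
      have d0 : bt66_dfc F (bt66_slice G 0) p j ≤ bt66_dfc F (bt66_slice H 0) p j :=
        (bt66_dfc_mono_sub F _ _ hG0u hL0u hincl0 p j).trans
          (ih (Fin.init a) ha' _ hH0u hH0p hH0s p j).1
      have d1 : bt66_dfc F (bt66_slice G (al - 1))ᶜ p (j - al) ≤
          bt66_dfc F (bt66_slice H (al - 1))ᶜ p (j - al) :=
        (bt66_dfc_mono_quot F _ _ hL1u hG1u hincl1 p (j - al)).trans
          (ih (Fin.init a) ha' _ hH1u hH1p hH1s p (j - al)).2
      simp only [hGc] at eG
      rw [← eH] at eG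
      split_ifs at eG <;> omega
    have hsubI : bt66_dfc F G p j ≤ bt66_dfc F H p j := by
      have e1 := bt66_bet_add_dfc F H (bt66_Up_conv hH) p j
      have e2 := bt66_bet_add_dfc F G (bt66_Up_conv hG) p j
      simp only [hGc] at e2
      have := hideal p j
      omega
    refine ⟨hsubI, ?_⟩
    have e1 := bt66_bet_add_dfc F Hᶜ (bt66_Up_compl_conv hH) p j
    have e2 := bt66_bet_add_dfc F Gᶜ (bt66_Up_compl_conv hG) p j
    rw [bt66_cnt_compl G H hGc] at e2
    have hb : bt66_bet F Hᶜ p j ≤ bt66_bet F Gᶜ p j := by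
      cases p with
      | zero => rw [bt66_bet_quot_zero F H hH h0, bt66_bet_quot_zero F G hG h0G]
      | succ p =>
        rw [bt66_bet_quot_succ F H hH h0, bt66_bet_quot_succ F G hG h0G]
        exact hideal p j
    omega

/-- `inPowers` in the words of `bt66_Pow`. -/
theorem bt66_inPowers_iff {n : ℕ} (a : Fin n → ℕ) (m : Fin n → ℕ) :
    inPowers (le_refl n) a m = true ↔ m ∈ bt66_Pow a := by
  simp [inPowers, bt66_Pow]

/-- **Leaf B4 of `Betti66.lean`, verbatim.** -/
theorem bt66_tor_stable' (E : Type) [Field E] [CharZero E] (n : ℕ)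
    (a : Fin n → ℕ) (ha : ∀ i, 2 ≤ a i) (_hmono : Monotone a)
    (H : Set (Fin n → ℕ)) (hH : bt66_Up H) (hP : ∀ m, inPowers (le_refl n) a m = true → m ∈ H)
    (hS : bt66_Stable a H) :
    ∀ p j, gradedBetti (bt66_ideal E H) p j ≤
      gradedBetti (bt66_ideal E (bt66_lppSet (le_refl n) a (bt66_ideal E H))) p j := by
  intro p j
  have hP' : bt66_Pow a ⊆ H := fun m hm => hP m ((bt66_inPowers_iff a m).mpr hm)
  obtain ⟨hG, _, hGc⟩ := bt66_Lam_props a ha H hH hP' hS
  rw [bt66_lppSet_eq_Lam E a H hH hP', bt66_bridge E H hH, bt66_bridge E _ hG]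
  have e1 := bt66_bet_add_dfc E Hᶜ (bt66_Up_compl_conv hH) p j
  have e2 := bt66_bet_add_dfc E (bt66_Lam a H)ᶜ (bt66_Up_compl_conv hG) p j
  rw [bt66_cnt_compl _ H hGc] at e2
  have := (bt66_tor_main E n a ha H hH hP' hS p j).2
  omega


/-! # Part III: Proposition 3.2 from THE BOX (B1) -/


/-! ## Contracts -/

/-- LEAF TB (ordered basis, EGH paper Sec 2 / Theorem 2.1 of the Betti paper "basis of the FULL
algebra"): commuting linear forms that are a left basis of `D[x]_1` make `D[x]` the free left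
`D`-module on the ordered monomials `t^α`, right multiplication by `t_i` being the shift. -/
theorem bt66_tbasis (D : Type) [DivisionRing D] (n : ℕ) (T : Bt66Forms D n) :
    ∃ θ : Eg2N D n ≃ₗ[D] ((Fin n → ℕ) →₀ D),
      θ 1 = Finsupp.single 0 1 ∧
      (∀ i w, θ (w * eg2Lin (T.τ i)) = bt66_shD D Set.univ i (θ w)) ∧
      ∀ e, (eg2Deg D n e).map (θ : Eg2N D n →ₗ[D] ((Fin n → ℕ) →₀ D)) = bt66_pcD D Set.univ e :=
  tb242_tbasis D n T

/-- LEAF BCX (base change `F → D` for `S/I`): left `D`-dimension of the Koszul homology of the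
variables on `Q = D ⊗_F S/I`. -/
theorem bt66_bcx {F : Type} [Field F] (D : Type) [DivisionRing D] [Algebra F D] {n : ℕ}
    (I : Ideal (MvPolynomial (Fin n) F)) (p j : ℕ) :
    r278m_betti (fun k => bt66_rmul D I (bt66_var D n k)) (bt66_Qpc D I) p j = gradedBetti I p j :=
  bd126_bcx D I p j

/-- LEAF HF (base change for the Hilbert function): `dim_D Q_e + dim_F I_e = #{monomials}`. -/
theorem bt66_bch {F : Type} [Field F] (D : Type) [DivisionRing D] [Algebra F D] {n : ℕ}
    (I : Ideal (MvPolynomial (Fin n) F)) (hI : IsHomogeneousIdeal I) (e : ℕ) :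
    Module.finrank D (bt66_Qpc D I e) + Module.finrank F (degPart I e) =
      ({m : Fin n → ℕ | ∑ i, m i = e} : Set (Fin n → ℕ)).ncard :=
  bd126_bch D I e

/-- LEAF BCM (base change for the monomial model). -/
theorem bt66_bcm (F : Type) [Field F] (D : Type) [DivisionRing D] [Algebra F D] {n : ℕ}
    (W : Set (Fin n → ℕ)) (hW : bt66_Conv W) (p j : ℕ) :
    r278m_betti (bt66_shD D W) (bt66_pcD D W) p j = bt66_bet F W p j :=
  bd126_bcm F D W p j

/-- LEAF TR (Lemma 3.1 `mono:transfer`): the Koszul numbers of the forms `t_i` (acting on the right)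
and of the variables on `Q` agree.  PROOF PLAN (no Manin determinants): both `K(x; D[x])` and
`K(t; D[x])` are exact (TB + KX); build by induction on `p` matrices `Φ_p` over `D`
(`Φ_p (e'_J) ∈ D ⊗ Λ^p`, solving `d_t Φ_p (e'_J) = Φ_{p-1} (d_x e'_J)` by exactness in bidegree
`(p - 1, p)`), the same for `Ψ`; `Ψ Φ = 1` because a cycle of bidegree `(p, p)` is a boundary from
bidegree `(p + 1, p)`, which is zero.  The maps `c ↦ (K ↦ ∑_J c J * Φ J K)` are left `D[x]`-linear,
so they pass to `Q`. -/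
theorem bt66_transfer {F : Type} [Field F] (D : Type) [DivisionRing D] [Algebra F D] {n : ℕ}
    (I : Ideal (MvPolynomial (Fin n) F)) (T : Bt66Forms D n) (p j : ℕ) :
    r278m_betti (fun k => bt66_rmul D I (eg2Lin (T.τ k))) (bt66_Qpc D I) p j =
      r278m_betti (fun k => bt66_rmul D I (bt66_var D n k)) (bt66_Qpc D I) p j :=
  tr186_transfer D I T p j

/-- LEAF M1 again (`bt66_bridge` of Tor66.lean, pen 296), restated here to avoid the import. -/
theorem bt66_bridge2 (F : Type) [Field F] {n : ℕ} (U : Set (Fin n → ℕ)) (hU : bt66_Up U) (p j : ℕ) :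
    gradedBetti (bt66_ideal F U) p j = bt66_bet F Uᶜ p j :=
  bt66_bridge' F U hU p j

/-- LEAF PW (the power containment in the proof of Prop 3.2): the triangular identity has leading
position `a e_i` for the order `bt66_rho`. -/
theorem bt66_pow_rel (D : Type) [DivisionRing D] (n : ℕ) (T : Bt66Forms D n)
    (θ : Eg2N D n ≃ₗ[D] ((Fin n → ℕ) →₀ D)) (h1 : θ 1 = Finsupp.single 0 1)
    (hsh : ∀ i w, θ (w * eg2Lin (T.τ i)) = bt66_shD D Set.univ i (θ w))
    (hdeg : ∀ e, (eg2Deg D n e).map (θ : Eg2N D n →ₗ[D] ((Fin n → ℕ) →₀ D)) =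
      bt66_pcD D Set.univ e)
    (i : Fin n) (a : ℕ) (ha : 1 ≤ a) (C : Fin n → Eg2N D n) (hC0 : ∀ d, d ≤ i → C d = 0)
    (hCd : ∀ d, C d ∈ eg2Deg D n (a - 1)) :
    θ (eg2Lin (T.τ i) ^ a - ∑ d, C d * eg2Lin (T.τ d)) (Pi.single i a) ≠ 0 ∧
      ∀ γ ∈ (θ (eg2Lin (T.τ i) ^ a - ∑ d, C d * eg2Lin (T.τ d))).support,
        ∑ k, γ k = ∑ k, (Pi.single i a : Fin n → ℕ) k ∧
          (γ ≠ Pi.single i a → bt66_rho (Pi.single i a) < bt66_rho γ) :=
  tb242_pow_rel D n T θ h1 hsh hdeg i a ha C hC0 hCd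

/-- **Proposition 3.2 from the BOX.** -/
theorem bt66_box_bound (F : Type) [Field F] (n : ℕ) (a : Fin n → ℕ) (ha : ∀ i, 1 ≤ a i)
    (I : Ideal (MvPolynomial (Fin n) F)) (hI : IsHomogeneousIdeal I) (hbox : Eg2Box F n a I) :
    ∃ U : Set (Fin n → ℕ), bt66_Up U ∧ (∀ m, inPowers (le_refl n) a m = true → m ∈ U) ∧
      (∀ d, Module.finrank F (degPart I d) = bt66_cnt U d) ∧
      ∀ p j, gradedBetti I p j ≤ gradedBetti (bt66_ideal F U) p j := by
  classical
  obtain ⟨D, iD, iA, τ, σ, hinv, hcomm, htri⟩ := hbox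
  let T : Bt66Forms D n := ⟨τ, σ, hinv, hcomm⟩
  obtain ⟨θ, hθ1, hθsh, hθdeg⟩ := bt66_tbasis D n T
  set W := eg2Ext D I with hW
  let X : Fin n → Module.End D (Bt66Q D I) := fun k => bt66_rmul D I (eg2Lin (τ k))
  let e : (Fin n → ℕ) → Bt66Q D I := fun α => W.mkQ (θ.symm (Finsupp.single α 1))
  have hXmk : ∀ k w, X k (W.mkQ w) = W.mkQ (w * eg2Lin (τ k)) := by
    intro k w
    simp only [X, bt66_rmul, dif_pos (bt66_ext_mul D I (eg2Lin (τ k)))]
    rfl
  have he : ∀ i α, X i (e α) = e (α + Pi.single i 1) := by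
    intro i α
    simp only [e]
    rw [hXmk]
    congr 1
    apply θ.injective
    rw [hθsh i, LinearEquiv.apply_symm_apply, LinearEquiv.apply_symm_apply, bt66_shD_single]
    simp
  have hX : ∀ k l b, X k (X l b) = X l (X k b) := by
    intro k l b
    obtain ⟨w, rfl⟩ := W.mkQ_surjective b
    rw [hXmk, hXmk, hXmk, hXmk, mul_assoc, mul_assoc, (hcomm l k).eq]
  set U := r278k_leadSet D e bt66_rho with hU
  have hUp : bt66_Up U := r278k_leadSet_up X e he bt66_rho bt66_rho_add
  have hUc : bt66_Conv Uᶜ := fun _ v w _ hvw _ hw hv => hw (hUp v hv w hvw)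
  let X' : Fin n → Module.End D ((Fin n → ℕ) →₀ D) := bt66_shD D Uᶜ
  let e' : (Fin n → ℕ) → ((Fin n → ℕ) →₀ D) := fun α => if α ∈ U then 0 else Finsupp.single α 1
  have he' : ∀ i α, X' i (e' α) = e' (α + Pi.single i 1) := by
    intro i α
    simp only [e', X']
    by_cases hα : α ∈ U
    · have : α + Pi.single i 1 ∈ U := hUp α hα _ (by
        intro k; simp)
      rw [if_pos hα, if_pos this, map_zero]
    · rw [if_neg hα, bt66_shD_single]
      by_cases h2 : α + Pi.single i 1 ∈ U
      · rw [if_pos h2, if_neg (by simp [h2])]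
      · rw [if_neg h2, if_pos ⟨hα, h2⟩]
  have h0 : ∀ α ∈ U, e' α = 0 := fun α hα => if_pos hα
  have hind : ∀ d, LinearIndepOn D e' (r278k_std U d) := by
    intro d
    have hbase : LinearIndependent D (fun u : Fin n → ℕ => Finsupp.single u (1 : D)) := by
      have := (Finsupp.basisSingleOne (R := D) (ι := Fin n → ℕ)).linearIndependent
      simpa [Finsupp.coe_basisSingleOne] using this
    have h1 : LinearIndepOn D (fun u : Fin n → ℕ => Finsupp.single u (1 : D)) (r278k_std U d) :=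
      hbase.linearIndepOn _
    refine h1.congr ?_
    intro u hu
    simp only [e', if_neg hu.1]
  have hpieceQ : (r278k_piece (F := D) e) = bt66_Qpc D I := by
    funext d
    have h1 : eg2Deg D n d = (bt66_pcD D Set.univ d).map
        (θ.symm : ((Fin n → ℕ) →₀ D) →ₗ[D] Eg2N D n) := by
      rw [← hθdeg d, ← Submodule.map_comp]
      simp
    rw [bt66_Qpc, h1, bt66_pcD_eq_span, Submodule.map_span, Submodule.map_span, r278k_piece,
      ← Set.image_comp, ← Set.image_comp]
    congr 1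
    apply Set.ext
    intro y
    simp [e]
  have hpieceM : (r278k_piece (F := D) e') = bt66_pcD D Uᶜ := by
    funext d
    rw [bt66_pcD_eq_span, r278k_piece]
    apply le_antisymm
    · rw [Submodule.span_le]
      rintro _ ⟨α, hα, rfl⟩
      by_cases hαU : α ∈ U
      · simp only [e', if_pos hαU]; exact Submodule.zero_mem _
      · simp only [e', if_neg hαU]
        exact Submodule.subset_span ⟨α, ⟨hαU, hα⟩, rfl⟩
    · rw [Submodule.span_le]
      rintro _ ⟨α, ⟨hαU, hα⟩, rfl⟩
      refine Submodule.subset_span ⟨α, hα, ?_⟩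
      simp only [e', if_neg hαU]
  refine ⟨U, hUp, ?_, ?_, ?_⟩
  · -- the powers
    intro m hm
    obtain ⟨i, hi⟩ : ∃ i : Fin n, a i ≤ m i := by
      simpa [inPowers] using hm
    obtain ⟨C, hC0, hCd, hCW⟩ := htri i
    obtain ⟨hr1, hr2⟩ := bt66_pow_rel D n T θ hθ1 hθsh hθdeg i (a i) (ha i) C hC0 hCd
    have hmem : (Pi.single i (a i) : Fin n → ℕ) ∈ U := by
      refine r278k_mem_leadSet_of_rel e bt66_rho _ ?_ _ hr1 (fun γ hγ => (hr2 γ hγ).1)
        (fun γ hγ => (hr2 γ hγ).2)
      -- the relation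
      have hlc : ∀ r : (Fin n → ℕ) →₀ D, Finsupp.linearCombination D e r = W.mkQ (θ.symm r) := by
        intro r
        induction r using Finsupp.induction_linear with
        | zero => simp
        | add f g hf hg => rw [map_add, hf, hg, map_add, map_add]
        | single u c =>
          rw [Finsupp.linearCombination_single]
          simp only [e]
          rw [← map_smul, ← map_smul, Finsupp.smul_single, smul_eq_mul, mul_one]
      rw [hlc, LinearEquiv.symm_apply_apply]
      exact (Submodule.Quotient.mk_eq_zero W).mpr hCW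
    refine hUp _ hmem m ?_
    intro k
    by_cases hk : k = i
    · subst hk; simpa using hi
    · simp [Pi.single_eq_of_ne hk]
  · -- the Hilbert function
    intro d
    have h1 := r278k_finrank_piece (F := D) e bt66_rho bt66_rho_inj d
    rw [hpieceQ, ← hU] at h1
    have h2 := bt66_bch D I hI d
    have hfin : ({m : Fin n → ℕ | ∑ i, m i = d} : Set _).Finite := r278k_deg_finite d
    have h3 : bt66_cnt U d + (r278k_std U d).ncard =
        ({m : Fin n → ℕ | ∑ i, m i = d} : Set _).ncard := by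
      unfold bt66_cnt
      rw [← Set.ncard_union_eq (Set.disjoint_left.mpr (by
        rintro m ⟨h1, _⟩ ⟨h2, _⟩
        exact h2 h1)) (hfin.subset Set.inter_subset_right) (r278k_std_finite U d)]
      congr 1
      ext m
      by_cases hm : m ∈ U <;> simp [hm, r278k_std]
    omega
  · intro p j
    have hle := r278k_lead_betti_le X X' hX (bt66_shD_comm D Uᶜ hUc) e e' he he' bt66_rho
      bt66_rho_inj bt66_rho_add h0 hind p j
    rw [hpieceQ, hpieceM] at hle
    rw [bt66_bridge2 F U hUp, ← bt66_bcm F D Uᶜ hUc, ← bt66_bcx D I, ← bt66_transfer D I T]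
    exact hle


/-! # Part IV: the chain -/

/-! ## Leaves: monomial ideals -/

/-- LEAF (API): a monomial ideal is homogeneous. -/
theorem bt66_ideal_homog (F : Type) [Field F] {n : ℕ} (U : Set (Fin n → ℕ)) :
    IsHomogeneousIdeal (bt66_ideal F U) :=
  egh216_ideal_homog F U

/-- LEAF (API): Hilbert function of the monomial ideal of an up-closed set. -/
theorem bt66_finrank_ideal (F : Type) [Field F] {n : ℕ} (U : Set (Fin n → ℕ)) (hU : bt66_Up U)
    (d : ℕ) : Module.finrank F (degPart (bt66_ideal F U) d) = bt66_cnt U d :=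
  egh216_finrank_ideal F U hU d

/-- LEAF (API): the degree-`d` part of a monomial ideal only sees the generators of degree
`≤ d`. -/
theorem bt66_degPart_ideal_trunc (F : Type) [Field F] {n : ℕ} (U U' : Set (Fin n → ℕ)) (N : ℕ)
    (h : ∀ m : Fin n → ℕ, ∑ i, m i < N → (m ∈ U ↔ m ∈ U')) (d : ℕ) (hd : d < N) :
    degPart (bt66_ideal F U) d = degPart (bt66_ideal F U') d :=
  egh216_degPart_ideal_trunc F U U' N h d hd

/-! ## T: truncation -/

/-- LEAF T1: `gradedBetti K p j` only sees the degrees `≤ j + 1` of the homogeneous ideal `K`. -/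
theorem bt66_betti_trunc {F : Type} [Field F] {n : ℕ} (K K' : Ideal (MvPolynomial (Fin n) F))
    (hK : IsHomogeneousIdeal K) (hK' : IsHomogeneousIdeal K') (p j : ℕ)
    (h : ∀ d, d ≤ j + 1 → degPart K d = degPart K' d) :
    gradedBetti K p j = gradedBetti K' p j :=
  egh216_betti_trunc K K' hK hK' p j h

/-- LEAF X (= P5, pen 26): a homogeneous regular sequence of length `c ≤ n` over an infinite field
is prolonged to a full regular sequence by forms of any given degree `N ≥ 1`. -/
theorem bt66_extend (F : Type) [Field F] [Infinite F] (n c : ℕ) (hc : c ≤ n) (a : Fin c → ℕ)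
    (ha : ∀ i, 1 ≤ a i)
    (f : Fin c → MvPolynomial (Fin n) F) (hfdeg : ∀ i, f i ∈ homogeneousSubmodule (Fin n) F (a i))
    (hreg : RingTheory.Sequence.IsRegular (MvPolynomial (Fin n) F) (List.ofFn f))
    (N : ℕ) (hN : 1 ≤ N) :
    ∃ g : Fin n → MvPolynomial (Fin n) F,
      (∀ i : Fin c, g (Fin.castLE hc i) = f i) ∧
      (∀ i, g i ∈ homogeneousSubmodule (Fin n) F (bt66_ext a N i)) ∧
      RingTheory.Sequence.IsRegular (MvPolynomial (Fin n) F) (List.ofFn g) :=
  egh26_bt_extend F n c hc a ha f hfdeg hreg N hN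

/-- LEAF T2: adding forms of degree `N` keeps homogeneity and the degrees `< N`. -/
theorem bt66_add_forms {F : Type} [Field F] {n : ℕ} (I : Ideal (MvPolynomial (Fin n) F))
    (hI : IsHomogeneousIdeal I) (N : ℕ) (s : Set (MvPolynomial (Fin n) F))
    (hs : ∀ g ∈ s, g ∈ homogeneousSubmodule (Fin n) F N) :
    IsHomogeneousIdeal (I ⊔ Ideal.span s) ∧
      ∀ d, d < N → degPart (I ⊔ Ideal.span s) d = degPart I d :=
  egh26_bt_add_forms I hI N s hs

/-- LEAF T3: below degree `N` the lex-plus-powers set for `(a, N, …, N)` and an ideal with the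
same Hilbert function below `N` is the lex-plus-powers set for `a`. -/
theorem bt66_lppSet_trunc {F : Type} [Field F] {n c : ℕ} (hc : c ≤ n) (a : Fin c → ℕ) (N : ℕ)
    (I I' : Ideal (MvPolynomial (Fin n) F))
    (h : ∀ d, d < N → degPart I' d = degPart I d) (m : Fin n → ℕ) (hm : ∑ i, m i < N) :
    m ∈ bt66_lppSet (le_refl n) (bt66_ext a N) I' ↔ m ∈ bt66_lppSet hc a I :=
  egh216_lppSet_trunc hc a N I I' h m hm

/-! ## BC: base change -/

/-- LEAF BC1: `gradedBetti` is invariant under extension of the coefficient field. -/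
theorem bt66_betti_map {F E : Type} [Field F] [Field E] (φ : F →+* E) {n : ℕ}
    (K : Ideal (MvPolynomial (Fin n) F)) (hK : IsHomogeneousIdeal K) (p j : ℕ) :
    gradedBetti (K.map (MvPolynomial.map φ)) p j = gradedBetti K p j :=
  r278d_betti_map φ K p j

/-- LEAF BC2 (= P6): the Hilbert function is invariant under extension of the field. -/
theorem bt66_finrank_map {F E : Type} [Field F] [Field E] (φ : F →+* E) {n : ℕ}
    (K : Ideal (MvPolynomial (Fin n) F)) (hK : IsHomogeneousIdeal K) (d : ℕ) :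
    Module.finrank E (degPart (K.map (MvPolynomial.map φ)) d) = Module.finrank F (degPart K d) :=
  r278d_finrank_map φ K d

/-- LEAF BC3: homogeneity is kept. -/
theorem bt66_homog_map {F E : Type} [Field F] [Field E] (φ : F →+* E) {n : ℕ}
    (K : Ideal (MvPolynomial (Fin n) F)) (hK : IsHomogeneousIdeal K) :
    IsHomogeneousIdeal (K.map (MvPolynomial.map φ)) :=
  r278d_homog_map φ K hK

/-- LEAF BC4 (= P6): regular sequences are kept (flat base change; properness by degrees). -/
theorem bt66_regular_map {F E : Type} [Field F] [Field E] (φ : F →+* E) {n c : ℕ}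
    (f : Fin c → MvPolynomial (Fin n) F)
    (hreg : RingTheory.Sequence.IsRegular (MvPolynomial (Fin n) F) (List.ofFn f)) :
    RingTheory.Sequence.IsRegular (MvPolynomial (Fin n) E)
      (List.ofFn fun i => MvPolynomial.map φ (f i)) :=
  r278d_regular_map φ f hreg

/-! ## The Artinian case over an algebraically closed field -/

/-- THE WALL: the statement of THE BOX (Theorem 1.1 of the EGH paper; `hub278_BOX` of `Hub.lean`),
as a proposition.  Everything below is proved FROM it. -/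
def Bt66Wall : Prop :=
  ∀ (E : Type) [Field E] [CharZero E] [IsAlgClosed E] (n : ℕ) (_ : 1 ≤ n)
    (a : Fin n → ℕ) (_ : ∀ i, 2 ≤ a i) (_ : Monotone a)
    (f : Fin n → MvPolynomial (Fin n) E)
    (_ : ∀ i, f i ∈ homogeneousSubmodule (Fin n) E (a i))
    (_ : RingTheory.Sequence.IsRegular (MvPolynomial (Fin n) E) (List.ofFn f)),
    Eg2Box E n a (Ideal.span (Set.range f))

/-- the box passes to every larger ideal -/
theorem bt66_box_mono {F : Type} [Field F] {n : ℕ} {a : Fin n → ℕ}
    {I J : Ideal (MvPolynomial (Fin n) F)} (hIJ : I ≤ J) (h : Eg2Box F n a I) : Eg2Box F n a J := by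
  obtain ⟨D, iD, iA, τ, σ, h1, h2, h3⟩ := h
  refine ⟨D, iD, iA, τ, σ, h1, h2, fun i => ?_⟩
  obtain ⟨C, hC1, hC2, hC3⟩ := h3 i
  refine ⟨C, hC1, hC2, ?_⟩
  exact Submodule.span_mono (Set.image_mono (by intro x hx; exact hIJ hx)) hC3

/-- B1 = `Mono66.lean` (Prop 3.2 of the paper, `mono:bound`; needs the BOX = Theorem 1.1 of the EGH paper,
Lemma 3.1 "transfer of a minimal resolution" and Prop 2.3 "leading-submodule comparison"). -/
theorem bt66_mono_bound (hwall : Bt66Wall)
    (E : Type) [Field E] [CharZero E] [IsAlgClosed E] (n : ℕ) (hn : 1 ≤ n)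
    (a : Fin n → ℕ) (ha : ∀ i, 2 ≤ a i) (hmono : Monotone a)
    (I : Ideal (MvPolynomial (Fin n) E)) (hI : IsHomogeneousIdeal I)
    (f : Fin n → MvPolynomial (Fin n) E) (hfdeg : ∀ i, f i ∈ homogeneousSubmodule (Fin n) E (a i))
    (hfI : ∀ i, f i ∈ I)
    (hreg : RingTheory.Sequence.IsRegular (MvPolynomial (Fin n) E) (List.ofFn f)) :
    ∃ U : Set (Fin n → ℕ), bt66_Up U ∧ (∀ m, inPowers (le_refl n) a m = true → m ∈ U) ∧
      (∀ d, Module.finrank E (degPart I d) = bt66_cnt U d) ∧
      ∀ p j, gradedBetti I p j ≤ gradedBetti (bt66_ideal E U) p j :=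
  bt66_box_bound E n a (fun i => by have := ha i; omega) I hI
    (bt66_box_mono (Ideal.span_le.2 (by rintro _ ⟨i, rfl⟩; exact hfI i))
      (hwall E n hn a ha hmono f hfdeg hreg))

/-- LEAF B2 (Prop 4.3 of the paper, `stab:main`: root-of-unity distractions + initial ideals). -/
theorem bt66_stabilise (E : Type) [Field E] [CharZero E] [IsAlgClosed E] (n : ℕ)
    (a : Fin n → ℕ) (ha : ∀ i, 2 ≤ a i) (hmono : Monotone a)
    (U : Set (Fin n → ℕ)) (hU : bt66_Up U) (hP : ∀ m, inPowers (le_refl n) a m = true → m ∈ U) :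
    ∃ H : Set (Fin n → ℕ), bt66_Up H ∧ (∀ m, inPowers (le_refl n) a m = true → m ∈ H) ∧
      bt66_Stable a H ∧ (∀ d, bt66_cnt H d = bt66_cnt U d) ∧
      ∀ p j, gradedBetti (bt66_ideal E U) p j ≤ gradedBetti (bt66_ideal E H) p j :=
  egs_stabilise E n a ha hmono U hU hP

/-- B4 = `Tor66.lean` (Thm 6.2 `tor:stable` with Lemma 5.1, Prop 5.2 and Sec 7): a box-stable monomial ideal
containing the powers is bounded by its lex-plus-powers ideal.  Any field. -/
theorem bt66_tor_stable (E : Type) [Field E] [CharZero E] (n : ℕ)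
    (a : Fin n → ℕ) (ha : ∀ i, 2 ≤ a i) (hmono : Monotone a)
    (H : Set (Fin n → ℕ)) (hH : bt66_Up H) (hP : ∀ m, inPowers (le_refl n) a m = true → m ∈ H)
    (hS : bt66_Stable a H) :
    ∀ p j, gradedBetti (bt66_ideal E H) p j ≤
      gradedBetti (bt66_ideal E (bt66_lppSet (le_refl n) a (bt66_ideal E H))) p j := 
  bt66_tor_stable' E n a ha hmono H hH hP hS

/-- A': the Artinian case over an algebraically closed field (Theorem 1.1 of the paper). -/
theorem bt66_artinian_closed (hwall : Bt66Wall)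
    (E : Type) [Field E] [CharZero E] [IsAlgClosed E] (n : ℕ) (hn : 1 ≤ n)
    (a : Fin n → ℕ) (ha : ∀ i, 2 ≤ a i) (hmono : Monotone a)
    (I : Ideal (MvPolynomial (Fin n) E)) (hI : IsHomogeneousIdeal I)
    (f : Fin n → MvPolynomial (Fin n) E) (hfdeg : ∀ i, f i ∈ homogeneousSubmodule (Fin n) E (a i))
    (hfI : ∀ i, f i ∈ I)
    (hreg : RingTheory.Sequence.IsRegular (MvPolynomial (Fin n) E) (List.ofFn f)) :
    ∀ p j, gradedBetti I p j ≤ gradedBetti (bt66_ideal E (bt66_lppSet (le_refl n) a I)) p j := by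
  obtain ⟨U, hU, hPU, hcU, hbU⟩ := bt66_mono_bound hwall E n hn a ha hmono I hI f hfdeg hfI hreg
  obtain ⟨H, hH, hPH, hSH, hcH, hbH⟩ := bt66_stabilise E n a ha hmono U hU hPU
  have hset : bt66_lppSet (le_refl n) a (bt66_ideal E H) = bt66_lppSet (le_refl n) a I := by
    apply bt66_lppSet_congr
    intro d
    rw [bt66_finrank_ideal E H hH d, hcH d, hcU d]
  intro p j
  calc gradedBetti I p j ≤ gradedBetti (bt66_ideal E U) p j := hbU p j
    _ ≤ gradedBetti (bt66_ideal E H) p j := hbH p j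
    _ ≤ _ := bt66_tor_stable E n a ha hmono H hH hPH hSH p j
    _ = _ := by rw [hset]

/-- A: the Artinian case over every field of characteristic zero. -/
theorem bt66_artinian (hwall : Bt66Wall) (F : Type) [Field F] [CharZero F] (n : ℕ) (hn : 1 ≤ n)
    (a : Fin n → ℕ) (ha : ∀ i, 2 ≤ a i) (hmono : Monotone a)
    (I : Ideal (MvPolynomial (Fin n) F)) (hI : IsHomogeneousIdeal I)
    (f : Fin n → MvPolynomial (Fin n) F) (hfdeg : ∀ i, f i ∈ homogeneousSubmodule (Fin n) F (a i))
    (hfI : ∀ i, f i ∈ I)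
    (hreg : RingTheory.Sequence.IsRegular (MvPolynomial (Fin n) F) (List.ofFn f)) :
    ∀ p j, gradedBetti I p j ≤ gradedBetti (bt66_ideal F (bt66_lppSet (le_refl n) a I)) p j := by
  intro p j
  let E := AlgebraicClosure F
  let φ : F →+* E := algebraMap F E
  have : CharZero E := charZero_of_injective_algebraMap (algebraMap F E).injective
  have hmain := bt66_artinian_closed hwall E n hn a ha hmono (I.map (MvPolynomial.map φ))
    (bt66_homog_map φ I hI) (fun i => MvPolynomial.map φ (f i))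
    (fun i => by
      have := hfdeg i
      rw [mem_homogeneousSubmodule] at this ⊢
      exact this.map φ)
    (fun i => Ideal.mem_map_of_mem _ (hfI i)) (bt66_regular_map φ f hreg) p j
  have hset : bt66_lppSet (le_refl n) a (I.map (MvPolynomial.map φ)) =
      bt66_lppSet (le_refl n) a I :=
    bt66_lppSet_congr _ a _ _ (fun d => bt66_finrank_map φ I hI d)
  rw [bt66_betti_map φ I hI, hset, ← bt66_ideal_map φ,
    bt66_betti_map φ _ (bt66_ideal_homog F _)] at hmain
  exact hmain

/-! ## The statement of S0523 -/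

/-- **The statement of S0523 (verbatim) from THE WALL alone.** -/
theorem bt66_S0523_of_wall (hwall : Bt66Wall) (F : Type) [Field F] [CharZero F] (n c : ℕ) (hc1 : 1 ≤ c) (hc : c ≤ n)
    (a : Fin c → ℕ) (ha : ∀ i, 2 ≤ a i) (hmono : Monotone a)
    (I : Ideal (MvPolynomial (Fin n) F)) (hI : IsHomogeneousIdeal I)
    (f : Fin c → MvPolynomial (Fin n) F) (hfdeg : ∀ i, f i ∈ homogeneousSubmodule (Fin n) F (a i))
    (hfI : ∀ i, f i ∈ I) (hreg : RingTheory.Sequence.IsRegular (MvPolynomial (Fin n) F) (List.ofFn f)) :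
    ∀ p j : ℕ, gradedBetti I p j ≤ gradedBetti (Ideal.span (lppMonomials hc a I)) p j := by
  intro p j
  rw [bt66_span_lpp]
  -- the cut-off degree
  obtain ⟨N, hNj, hNa⟩ : ∃ N : ℕ, j + 1 < N ∧ ∀ i, a i ≤ N := by
    refine ⟨j + 2 + ∑ i, a i, by omega, fun i => ?_⟩
    have := Finset.single_le_sum (f := a) (fun _ _ => Nat.zero_le _) (Finset.mem_univ i)
    omega
  obtain ⟨g, hgf, hgdeg, hgreg⟩ := bt66_extend F n c hc a (fun i => by have := ha i; omega)
    f hfdeg hreg N (by omega)
  set s : Set (MvPolynomial (Fin n) F) := {q | ∃ i : Fin n, c ≤ i.val ∧ q = g i} with hs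
  have hsN : ∀ q ∈ s, q ∈ homogeneousSubmodule (Fin n) F N := by
    rintro q ⟨i, hi, rfl⟩
    have := hgdeg i
    simpa [bt66_ext, Nat.not_lt.mpr hi] using this
  obtain ⟨hI', hdeg⟩ := bt66_add_forms I hI N s hsN
  set I' := I ⊔ Ideal.span s with hI'def
  have ha' : ∀ i : Fin n, 2 ≤ bt66_ext a N i := by
    intro i
    unfold bt66_ext
    split_ifs with h
    · exact ha _
    · omega
  have hmono' : Monotone (bt66_ext (n := n) a N) := by
    intro i k hik
    unfold bt66_ext
    have hik' : i.val ≤ k.val := hik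
    split_ifs with h1 h2 h2
    · exact hmono (by simpa using hik')
    · exact hNa _
    · omega
    · exact le_rfl
  have hgI' : ∀ i, g i ∈ I' := by
    intro i
    by_cases h : i.val < c
    · have : g i = f ⟨i.val, h⟩ := by
        rw [← hgf ⟨i.val, h⟩]; congr 1
      rw [this]
      exact Ideal.mem_sup_left (hfI _)
    · exact Ideal.mem_sup_right (Ideal.subset_span ⟨i, Nat.not_lt.mp h, rfl⟩)
  have hmain := bt66_artinian hwall F n (by omega) (bt66_ext a N) ha' hmono' I' hI' g hgdeg hgI' hgreg p j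
  have h1 : gradedBetti I' p j = gradedBetti I p j :=
    bt66_betti_trunc I' I hI' hI p j (fun d hd => hdeg d (by omega))
  have h2 : gradedBetti (bt66_ideal F (bt66_lppSet (le_refl n) (bt66_ext a N) I')) p j =
      gradedBetti (bt66_ideal F (bt66_lppSet hc a I)) p j :=
    bt66_betti_trunc _ _ (bt66_ideal_homog F _) (bt66_ideal_homog F _) p j (fun d hd =>
      bt66_degPart_ideal_trunc F _ _ N (fun m hm => bt66_lppSet_trunc hc a N I I' hdeg m hm) d
        (by omega))
  rw [h1, h2] at hmain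
  exact hmain

end Claimed.Agent.R278
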