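-- KEEP
/-
Row 278 (S0522, S0523).  Betti paper, Section 5, Lemma 5.1 "Shadows and end slices":
pure combinatorics of exponent vectors in a box.  Pen: helper242.  Prefix `bx_`.
-/
import Mathlib

set_option autoImplicit false

namespace Claimed.Agent.R278

open Finset

/-! ### Definitions -/

/-- The unit vector. -/
def bx_e {r : ℕ} (h : Fin r) : Fin r → ℕ := Pi.single h 1

/-- The exponent box in degree `d`. -/
def bx_box {r : ℕ} (b : Fin r → ℕ) (d : ℕ) : Finset (Fin r → ℕ) :=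
  (Finset.Nat.antidiagonalTuple r d).filter fun u => ∀ h, u h ≤ b h

/-- The bounded shadow. -/
def bx_shadow {r : ℕ} (b : Fin r → ℕ) (X : Finset (Fin r → ℕ)) : Finset (Fin r → ℕ) :=
  (X.biUnion fun u => Finset.univ.image fun h => u + bx_e h).filter fun v => ∀ i, v i ≤ b i

/-- Stability inside the box: a unit may be moved to an earlier coordinate with free capacity. -/
def bx_Stable {r : ℕ} (b : Fin r → ℕ) (X : Finset (Fin r → ℕ)) : Prop :=
  ∀ u ∈ X, ∀ v : Fin r → ℕ, ∀ h l : Fin r, h < l → v + bx_e l = u + bx_e h →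
    (∀ i, v i ≤ b i) → v ∈ X

/-- `Y` is a lex segment of `B`: it starts with the greatest vectors. -/
def bx_IsSeg {r : ℕ} (B Y : Finset (Fin r → ℕ)) : Prop :=
  Y ⊆ B ∧ ∀ u ∈ Y, ∀ v ∈ B, toLex u < toLex v → v ∈ Y

/-- The slice of `X` at last coordinate `s`. -/
def bx_slice {r : ℕ} (X : Finset (Fin (r + 1) → ℕ)) (s : ℕ) : Finset (Fin r → ℕ) :=
  (X.filter fun w => w (Fin.last r) = s).image fun w => Fin.init w

open scoped Classical

/-! ### Basic API -/

theorem bx_e_apply {r : ℕ} (h i : Fin r) : bx_e h i = if i = h then 1 else 0 := by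
  simp [bx_e, Pi.single_apply]

@[simp] theorem bx_e_self {r : ℕ} (h : Fin r) : bx_e h h = 1 := by simp [bx_e]

theorem bx_e_ne {r : ℕ} {h i : Fin r} (hi : i ≠ h) : bx_e h i = 0 := by
  simp [bx_e, hi]

theorem bx_sum_e {r : ℕ} (h : Fin r) : ∑ i, bx_e h i = 1 := by
  simp [bx_e]

theorem bx_mem_box {r : ℕ} {b : Fin r → ℕ} {d : ℕ} {u : Fin r → ℕ} :
    u ∈ bx_box b d ↔ ∑ i, u i = d ∧ ∀ h, u h ≤ b h := by
  simp [bx_box, Finset.Nat.mem_antidiagonalTuple]

theorem bx_mem_shadow {r : ℕ} {b : Fin r → ℕ} {X : Finset (Fin r → ℕ)} {v : Fin r → ℕ} :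
    v ∈ bx_shadow b X ↔ (∃ u ∈ X, ∃ h, v = u + bx_e h) ∧ ∀ i, v i ≤ b i := by
  simp only [bx_shadow, mem_filter, mem_biUnion, mem_image, mem_univ, true_and]
  constructor
  · rintro ⟨⟨u, hu, h, rfl⟩, hb⟩
    exact ⟨⟨u, hu, h, rfl⟩, hb⟩
  · rintro ⟨⟨u, hu, h, rfl⟩, hb⟩
    exact ⟨⟨u, hu, h, rfl⟩, hb⟩

theorem bx_mem_slice {r : ℕ} {X : Finset (Fin (r + 1) → ℕ)} {s : ℕ} {u : Fin r → ℕ} :
    u ∈ bx_slice X s ↔ (Fin.snoc u s : Fin (r + 1) → ℕ) ∈ X := by
  simp only [bx_slice, mem_image, mem_filter]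
  constructor
  · rintro ⟨w, ⟨hw, rfl⟩, rfl⟩
    rwa [Fin.snoc_init_self]
  · intro h
    exact ⟨_, ⟨h, Fin.snoc_last _ _⟩, Fin.init_snoc _ _⟩

theorem bx_shadow_mono {r : ℕ} {b : Fin r → ℕ} {X X' : Finset (Fin r → ℕ)} (h : X ⊆ X') :
    bx_shadow b X ⊆ bx_shadow b X' := by
  intro v hv
  rw [bx_mem_shadow] at hv ⊢
  obtain ⟨⟨u, hu, k, rfl⟩, hb⟩ := hv
  exact ⟨⟨u, h hu, k, rfl⟩, hb⟩

theorem bx_shadow_subset_box {r : ℕ} {b : Fin r → ℕ} {d : ℕ} {X : Finset (Fin r → ℕ)}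
    (hX : X ⊆ bx_box b d) : bx_shadow b X ⊆ bx_box b (d + 1) := by
  intro v hv
  rw [bx_mem_shadow] at hv
  obtain ⟨⟨u, hu, k, rfl⟩, hb⟩ := hv
  rw [bx_mem_box]
  refine ⟨?_, hb⟩
  have := (bx_mem_box.1 (hX hu)).1
  simp [Finset.sum_add_distrib, this, bx_sum_e]

theorem bx_slice_mono {r : ℕ} {X X' : Finset (Fin (r + 1) → ℕ)} (h : X ⊆ X') (s : ℕ) :
    bx_slice X s ⊆ bx_slice X' s := by
  intro u hu
  rw [bx_mem_slice] at hu ⊢
  exact h hu

/-! ### Segments in a finite chain -/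

theorem bx_seg_subset_or {r : ℕ} {B Y₁ Y₂ : Finset (Fin r → ℕ)}
    (h₁ : bx_IsSeg B Y₁) (h₂ : bx_IsSeg B Y₂) : Y₁ ⊆ Y₂ ∨ Y₂ ⊆ Y₁ := by
  by_contra hcon
  rw [not_or] at hcon
  obtain ⟨hA, hB⟩ := hcon
  obtain ⟨u, hu1, hu2⟩ := Finset.not_subset.1 hA
  obtain ⟨v, hv2, hv1⟩ := Finset.not_subset.1 hB
  rcases lt_trichotomy (toLex u) (toLex v) with hlt | heq | hgt
  · exact hv1 (h₁.2 u hu1 v (h₂.1 hv2) hlt)
  · have : u = v := toLex.injective heq
    exact hu2 (this ▸ hv2)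
  · exact hu2 (h₂.2 v hv2 u (h₁.1 hu1) hgt)

theorem bx_seg_subset_of_card_le {r : ℕ} {B Y₁ Y₂ : Finset (Fin r → ℕ)}
    (h₁ : bx_IsSeg B Y₁) (h₂ : bx_IsSeg B Y₂) (hc : Y₁.card ≤ Y₂.card) : Y₁ ⊆ Y₂ := by
  rcases bx_seg_subset_or h₁ h₂ with h | h
  · exact h
  · exact (Finset.eq_of_subset_of_card_le h hc).symm ▸ Finset.Subset.refl _

theorem bx_seg_eq_of_card_eq {r : ℕ} {B Y₁ Y₂ : Finset (Fin r → ℕ)}
    (h₁ : bx_IsSeg B Y₁) (h₂ : bx_IsSeg B Y₂) (hc : Y₁.card = Y₂.card) : Y₁ = Y₂ :=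
  Finset.Subset.antisymm (bx_seg_subset_of_card_le h₁ h₂ hc.le)
    (bx_seg_subset_of_card_le h₂ h₁ hc.ge)

theorem bx_isSeg_empty {r : ℕ} (B : Finset (Fin r → ℕ)) : bx_IsSeg B ∅ :=
  ⟨Finset.empty_subset _, fun _ hu => absurd hu (Finset.notMem_empty _)⟩

theorem bx_isSeg_self {r : ℕ} (B : Finset (Fin r → ℕ)) : bx_IsSeg B B :=
  ⟨Finset.Subset.refl _, fun _ _ _ hv _ => hv⟩

/-- The vectors of `B` strictly above `y`. -/
theorem bx_isSeg_above {r : ℕ} (B : Finset (Fin r → ℕ)) (y : Fin r → ℕ) :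
    bx_IsSeg B (B.filter fun w => toLex y < toLex w) := by
  refine ⟨Finset.filter_subset _ _, ?_⟩
  intro u hu v hv huv
  rw [mem_filter] at hu ⊢
  exact ⟨hv, hu.2.trans huv⟩

/-- Segments of every admissible cardinality exist. -/
theorem bx_exists_seg {r : ℕ} (B : Finset (Fin r → ℕ)) :
    ∀ k, k ≤ B.card → ∃ Y, bx_IsSeg B Y ∧ Y.card = k := by
  intro k
  induction k with
  | zero => intro _; exact ⟨∅, bx_isSeg_empty B, rfl⟩
  | succ k ih =>
    intro hk
    obtain ⟨Y, hY, hYc⟩ := ih (by omega)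
    have hne : (B \ Y).Nonempty := by
      rw [← Finset.card_pos, Finset.card_sdiff_of_subset hY.1]
      omega
    obtain ⟨m, hm, hmax⟩ := Finset.exists_max_image (B \ Y) (fun w => toLex w) hne
    rw [mem_sdiff] at hm
    refine ⟨insert m Y, ⟨?_, ?_⟩, ?_⟩
    · intro w hw
      rcases mem_insert.1 hw with rfl | hw
      · exact hm.1
      · exact hY.1 hw
    · intro u hu v hv huv
      rcases mem_insert.1 hu with rfl | hu
      · by_contra hcon
        have hvY : v ∉ Y := fun h => hcon (mem_insert_of_mem h)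
        have := hmax v (mem_sdiff.2 ⟨hv, hvY⟩)
        exact absurd huv (not_lt.2 this)
      · exact mem_insert_of_mem (hY.2 u hu v hv huv)
    · rw [Finset.card_insert_of_notMem hm.2, hYc]

/-! ### The shadow of a lex segment is a lex segment -/

theorem bx_eq_of_le_of_sum_eq {r : ℕ} {u w : Fin r → ℕ} (hle : ∀ j, w j ≤ u j)
    (hs : ∑ j, u j = ∑ j, w j) : u = w := by
  funext j
  have := (Finset.sum_eq_sum_iff_of_le (s := Finset.univ) (fun j _ => hle j)).1 hs.symm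
  exact (this j (mem_univ j)).symm

theorem bx_exists_last_pos {r : ℕ} {w : Fin r → ℕ} (hw : 0 < ∑ i, w i) :
    ∃ k, 0 < w k ∧ ∀ j, k < j → w j = 0 := by
  have hne : (univ.filter fun i => 0 < w i).Nonempty := by
    by_contra hcon
    rw [not_nonempty_iff_eq_empty, filter_eq_empty_iff] at hcon
    have : ∑ i, w i = 0 := Finset.sum_eq_zero (fun i hi => by have := hcon hi; omega)
    omega
  refine ⟨(univ.filter fun i => 0 < w i).max' hne, ?_, ?_⟩
  · exact (mem_filter.1 (max'_mem _ hne)).2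
  · intro j hj
    by_contra hcon
    have : j ≤ _ := le_max' (univ.filter fun i => 0 < w i) j
      (mem_filter.2 ⟨mem_univ _, Nat.pos_of_ne_zero hcon⟩)
    exact absurd hj (not_lt.2 this)

theorem bx_lex_lt_iff {r : ℕ} {u v : Fin r → ℕ} :
    toLex u < toLex v ↔ ∃ i, (∀ j < i, u j = v j) ∧ u i < v i := Iff.rfl

/-- Membership in a segment from a weak inequality. -/
theorem bx_IsSeg.mem_of_le {r : ℕ} {B Y : Finset (Fin r → ℕ)} (hY : bx_IsSeg B Y)
    {u v : Fin r → ℕ} (hu : u ∈ Y) (hv : v ∈ B) (h : toLex u ≤ toLex v) : v ∈ Y := by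
  rcases h.lt_or_eq with h | h
  · exact hY.2 u hu v hv h
  · exact (toLex.injective h) ▸ hu

theorem bx_sub_e_add {r : ℕ} {w : Fin r → ℕ} {k : Fin r} (hk : 0 < w k) :
    (fun j => w j - bx_e k j) + bx_e k = w := by
  funext j
  by_cases hj : j = k
  · subst hj; simp; omega
  · simp [bx_e_ne hj]

theorem bx_shadow_isSeg {r : ℕ} {b : Fin r → ℕ} {d : ℕ} {Y : Finset (Fin r → ℕ)}
    (hY : bx_IsSeg (bx_box b d) Y) : bx_IsSeg (bx_box b (d + 1)) (bx_shadow b Y) := by
  refine ⟨bx_shadow_subset_box hY.1, ?_⟩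
  intro v hv w hw hvw
  rw [bx_mem_shadow] at hv
  obtain ⟨⟨u, hu, h, rfl⟩, -⟩ := hv
  obtain ⟨hwd, hwb⟩ := bx_mem_box.1 hw
  obtain ⟨hud, -⟩ := bx_mem_box.1 (hY.1 hu)
  obtain ⟨k, hk, hklast⟩ := bx_exists_last_pos (w := w) (by omega)
  set w' : Fin r → ℕ := fun j => w j - bx_e k j with hw'
  have hw'k : w' + bx_e k = w := bx_sub_e_add hk
  have hw'ne : ∀ j, j ≠ k → w' j = w j := by
    intro j hj; simp [hw', bx_e_ne hj]
  have hw'le : ∀ j, w' j ≤ w j := fun j => Nat.sub_le _ _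
  have hw'd : ∑ j, w' j = d := by
    have h1 : ∑ j, (w' + bx_e k) j = d + 1 := by rw [hw'k]; exact hwd
    simp only [Pi.add_apply, Finset.sum_add_distrib, bx_sum_e] at h1
    omega
  have hw'B : w' ∈ bx_box b d := bx_mem_box.2 ⟨hw'd, fun j => (hw'le j).trans (hwb j)⟩
  rw [bx_mem_shadow]
  refine ⟨⟨w', ?_, k, hw'k.symm⟩, hwb⟩
  refine hY.mem_of_le hu hw'B ?_
  obtain ⟨i, hi1, hi2⟩ := bx_lex_lt_iff.1 hvw
  have hik : i ≤ k := by
    by_contra hcon
    have := hklast i (not_le.1 hcon)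
    omega
  by_cases hhi : h < i
  · refine le_of_lt (bx_lex_lt_iff.2 ⟨h, ?_, ?_⟩)
    · intro j hj
      have h1 := hi1 j (hj.trans hhi)
      simp only [Pi.add_apply, bx_e_ne hj.ne] at h1
      rw [hw'ne j (ne_of_lt (hj.trans (hhi.trans_le hik)))]
      omega
    · have h1 := hi1 h hhi
      simp only [Pi.add_apply, bx_e_self] at h1
      rw [hw'ne h (ne_of_lt (hhi.trans_le hik))]
      omega
  · have hih : i ≤ h := not_lt.1 hhi
    have hpre : ∀ j < i, u j = w' j := by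
      intro j hj
      have h1 := hi1 j hj
      simp only [Pi.add_apply, bx_e_ne (hj.trans_le hih).ne] at h1
      rw [hw'ne j (ne_of_lt (hj.trans_le hik))]
      omega
    have hui : u i < w i := by
      simp only [Pi.add_apply] at hi2
      omega
    by_cases hlt : u i < w' i
    · exact le_of_lt (bx_lex_lt_iff.2 ⟨i, hpre, hlt⟩)
    · have hik' : i = k := by
        by_contra hne
        rw [hw'ne i hne] at hlt
        exact hlt hui
      have : u = w' := by
        apply bx_eq_of_le_of_sum_eq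
        · intro j
          rcases lt_trichotomy j i with hj | hj | hj
          · exact (hpre j hj).ge
          · subst hj; exact not_lt.1 hlt
          · have := hklast j (hik' ▸ hj)
            have h2 := hw'le j
            omega
        · rw [hud, hw'd]
      rw [this]

/-! ### The last coordinate -/

theorem bx_snoc_add_e_castSucc {r : ℕ} (u : Fin r → ℕ) (s : ℕ) (h : Fin r) :
    (Fin.snoc u s : Fin (r + 1) → ℕ) + bx_e h.castSucc = Fin.snoc (u + bx_e h) s := by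
  funext j
  refine Fin.lastCases ?_ (fun j => ?_) j
  · simp [bx_e_ne (Fin.castSucc_lt_last h).ne']
  · by_cases hj : j = h
    · subst hj; simp
    · have : j.castSucc ≠ h.castSucc := fun hh => hj (Fin.castSucc_injective _ hh)
      simp [bx_e_ne hj, bx_e_ne this]

theorem bx_snoc_add_e_last {r : ℕ} (u : Fin r → ℕ) (s : ℕ) :
    (Fin.snoc u s : Fin (r + 1) → ℕ) + bx_e (Fin.last r) = Fin.snoc u (s + 1) := by
  funext j
  refine Fin.lastCases ?_ (fun j => ?_) j
  · simp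
  · simp [bx_e_ne (Fin.castSucc_lt_last j).ne]

theorem bx_snoc_mem_box {r : ℕ} {b : Fin (r + 1) → ℕ} {d s : ℕ} {u : Fin r → ℕ} :
    (Fin.snoc u s : Fin (r + 1) → ℕ) ∈ bx_box b d ↔
      (∑ i, u i + s = d ∧ (∀ h, u h ≤ Fin.init b h)) ∧ s ≤ b (Fin.last r) := by
  rw [bx_mem_box, Fin.sum_univ_castSucc]
  simp only [Fin.snoc_castSucc, Fin.snoc_last, Fin.init]
  constructor
  · rintro ⟨h1, h2⟩
    refine ⟨⟨h1, fun h => ?_⟩, ?_⟩
    · simpa using h2 h.castSucc
    · simpa using h2 (Fin.last r)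
  · rintro ⟨⟨h1, h2⟩, h3⟩
    refine ⟨h1, fun j => ?_⟩
    refine Fin.lastCases ?_ (fun j => ?_) j
    · simpa using h3
    · simpa using h2 j

theorem bx_snoc_lex_lt {r : ℕ} {u v : Fin r → ℕ} {s t : ℕ} :
    toLex (Fin.snoc u s : Fin (r + 1) → ℕ) < toLex (Fin.snoc v t : Fin (r + 1) → ℕ) ↔
      toLex u < toLex v ∨ (u = v ∧ s < t) := by
  rw [bx_lex_lt_iff, bx_lex_lt_iff]
  constructor
  · rintro ⟨i, hi1, hi2⟩
    revert hi1 hi2
    refine Fin.lastCases ?_ (fun i => ?_) i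
    · intro hi1 hi2
      right
      refine ⟨?_, by simpa using hi2⟩
      funext j
      simpa using hi1 j.castSucc (Fin.castSucc_lt_last j)
    · intro hi1 hi2
      left
      refine ⟨i, fun j hj => ?_, by simpa using hi2⟩
      simpa using hi1 j.castSucc (Fin.castSucc_lt_castSucc_iff.2 hj)
  · rintro (⟨i, hi1, hi2⟩ | ⟨rfl, hst⟩)
    · refine ⟨i.castSucc, fun j hj => ?_, by simpa using hi2⟩
      revert hj
      refine Fin.lastCases ?_ (fun j => ?_) j
      · intro hj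
        exact absurd hj (not_lt.2 (Fin.le_last _))
      · intro hj
        simpa using hi1 j (Fin.castSucc_lt_castSucc_iff.1 hj)
    · refine ⟨Fin.last r, fun j hj => ?_, by simpa using hst⟩
      revert hj
      refine Fin.lastCases ?_ (fun j => ?_) j
      · intro hj; exact absurd hj (lt_irrefl _)
      · intro _; simp

theorem bx_card_slice {r : ℕ} (X : Finset (Fin (r + 1) → ℕ)) (s : ℕ) :
    (bx_slice X s).card = (X.filter fun w => w (Fin.last r) = s).card := by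
  unfold bx_slice
  apply Finset.card_image_of_injOn
  intro w hw w' hw' hh
  rw [mem_coe, mem_filter] at hw hw'
  rw [← Fin.snoc_init_self w, ← Fin.snoc_init_self w', hw.2, hw'.2]
  simp only at hh
  rw [hh]

theorem bx_card_eq_sum_slices {r : ℕ} {b : Fin (r + 1) → ℕ} {d : ℕ}
    {X : Finset (Fin (r + 1) → ℕ)} (hX : X ⊆ bx_box b d) :
    X.card = ∑ s ∈ range (b (Fin.last r) + 1), (bx_slice X s).card := by
  rw [Finset.card_eq_sum_card_fiberwise (f := fun w => w (Fin.last r))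
    (t := range (b (Fin.last r) + 1))]
  · exact Finset.sum_congr rfl fun s _ => (bx_card_slice X s).symm
  · intro w hw
    have := (bx_mem_box.1 (hX hw)).2 (Fin.last r)
    simp only [coe_range, Set.mem_Iio]
    omega

/-! ### Slices of stable sets and of segments -/

theorem bx_slice_subset_box {r : ℕ} {b : Fin (r + 1) → ℕ} {d : ℕ}
    {X : Finset (Fin (r + 1) → ℕ)} (hX : X ⊆ bx_box b d) (s : ℕ) :
    bx_slice X s ⊆ bx_box (Fin.init b) (d - s) := by
  intro u hu
  have := bx_snoc_mem_box.1 (hX (bx_mem_slice.1 hu))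
  rw [bx_mem_box]
  exact ⟨by omega, this.1.2⟩

theorem bx_slice_eq_empty {r : ℕ} {b : Fin (r + 1) → ℕ} {d : ℕ}
    {X : Finset (Fin (r + 1) → ℕ)} (hX : X ⊆ bx_box b d) {s : ℕ} (hs : d < s) :
    bx_slice X s = ∅ := by
  rw [Finset.eq_empty_iff_forall_notMem]
  intro u hu
  have := bx_snoc_mem_box.1 (hX (bx_mem_slice.1 hu))
  omega

theorem bx_slice_stable {r : ℕ} {b : Fin (r + 1) → ℕ} {d : ℕ}
    {X : Finset (Fin (r + 1) → ℕ)} (hX : X ⊆ bx_box b d) (hst : bx_Stable b X) (s : ℕ) :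
    bx_Stable (Fin.init b) (bx_slice X s) := by
  intro u hu v h l hhl heq hvb
  rw [bx_mem_slice] at hu ⊢
  have hub := bx_snoc_mem_box.1 (hX hu)
  refine hst _ hu _ h.castSucc l.castSucc (Fin.castSucc_lt_castSucc_iff.2 hhl) ?_ ?_
  · rw [bx_snoc_add_e_castSucc, bx_snoc_add_e_castSucc, heq]
  · intro j
    refine Fin.lastCases ?_ (fun j => ?_) j
    · simpa using hub.2
    · simpa [Fin.init] using hvb j

theorem bx_shadow_slice_subset {r : ℕ} {b : Fin (r + 1) → ℕ} {d : ℕ}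
    {X : Finset (Fin (r + 1) → ℕ)} (hX : X ⊆ bx_box b d) (hst : bx_Stable b X) (s : ℕ) :
    bx_shadow (Fin.init b) (bx_slice X (s + 1)) ⊆ bx_slice X s := by
  intro v hv
  rw [bx_mem_shadow] at hv
  obtain ⟨⟨u, hu, h, rfl⟩, hvb⟩ := hv
  rw [bx_mem_slice] at hu ⊢
  have hub := bx_snoc_mem_box.1 (hX hu)
  refine hst _ hu _ h.castSucc (Fin.last r) (Fin.castSucc_lt_last h) ?_ ?_
  · rw [bx_snoc_add_e_castSucc, bx_snoc_add_e_last]
  · intro j
    refine Fin.lastCases ?_ (fun j => ?_) j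
    · have := hub.2
      simp only [Fin.snoc_last]
      omega
    · simpa [Fin.init] using hvb j

theorem bx_IsSeg.stable {r : ℕ} {b : Fin r → ℕ} {d : ℕ} {Y : Finset (Fin r → ℕ)}
    (hY : bx_IsSeg (bx_box b d) Y) : bx_Stable b Y := by
  intro u hu v h l hhl heq hvb
  have hud := (bx_mem_box.1 (hY.1 hu)).1
  have hvd : ∑ j, v j = d := by
    have h1 : ∑ j, (v + bx_e l) j = ∑ j, (u + bx_e h) j := by rw [heq]
    simp only [Pi.add_apply, Finset.sum_add_distrib, bx_sum_e] at h1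
    omega
  refine hY.2 u hu v (bx_mem_box.2 ⟨hvd, hvb⟩) (bx_lex_lt_iff.2 ⟨h, ?_, ?_⟩)
  · intro j hj
    have h1 := congrFun heq j
    simp only [Pi.add_apply, bx_e_ne hj.ne, bx_e_ne (hj.trans hhl).ne] at h1
    omega
  · have h1 := congrFun heq h
    simp only [Pi.add_apply, bx_e_self, bx_e_ne hhl.ne] at h1
    omega

theorem bx_IsSeg.slice {r : ℕ} {b : Fin (r + 1) → ℕ} {d : ℕ}
    {Y : Finset (Fin (r + 1) → ℕ)} (hY : bx_IsSeg (bx_box b d) Y) (s : ℕ) :
    bx_IsSeg (bx_box (Fin.init b) (d - s)) (bx_slice Y s) := by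
  refine ⟨bx_slice_subset_box hY.1 s, ?_⟩
  intro u hu v hv huv
  rw [bx_mem_slice] at hu ⊢
  have hub := bx_snoc_mem_box.1 (hY.1 hu)
  have hvb := bx_mem_box.1 hv
  refine hY.2 _ hu _ (bx_snoc_mem_box.2 ⟨⟨by omega, hvb.2⟩, hub.2⟩) ?_
  exact bx_snoc_lex_lt.2 (Or.inl huv)

/-! ### The zero slice -/

theorem bx_step {r : ℕ} {b u v : Fin r → ℕ} (hv : ∀ i, v i ≤ b i)
    (hlt : toLex u < toLex v) (hs : ∑ i, u i < ∑ i, v i) :
    ∃ h, u h < b h ∧ toLex (u + bx_e h) ≤ toLex v := by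
  obtain ⟨k, hk1, hk2⟩ := bx_lex_lt_iff.1 hlt
  by_cases hex : ∃ j, k < j ∧ u j < b j
  · obtain ⟨j, hkj, hj⟩ := hex
    refine ⟨j, hj, le_of_lt (bx_lex_lt_iff.2 ⟨k, ?_, ?_⟩)⟩
    · intro i hi
      simp only [Pi.add_apply, bx_e_ne (hi.trans hkj).ne]
      exact hk1 i hi
    · simp only [Pi.add_apply, bx_e_ne hkj.ne]
      exact hk2
  · have hfull : ∀ j, k < j → b j ≤ u j := by
      intro j hj
      by_contra hcon
      exact hex ⟨j, hj, not_le.1 hcon⟩
    refine ⟨k, lt_of_lt_of_le hk2 (hv k), ?_⟩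
    by_cases hlt2 : u k + 1 < v k
    · refine le_of_lt (bx_lex_lt_iff.2 ⟨k, ?_, ?_⟩)
      · intro i hi
        simp only [Pi.add_apply, bx_e_ne hi.ne]
        exact hk1 i hi
      · simpa using hlt2
    · have hle : ∀ j, v j ≤ (u + bx_e k) j := by
        intro j
        rcases lt_trichotomy j k with hj | hj | hj
        · simp only [Pi.add_apply, bx_e_ne hj.ne]
          exact (hk1 j hj).ge
        · subst hj
          simp only [Pi.add_apply, bx_e_self]
          omega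
        · simp only [Pi.add_apply, bx_e_ne hj.ne']
          exact (hv j).trans (hfull j hj)
      have hsum1 : ∑ j, (u + bx_e k) j = ∑ j, u j + 1 := by
        simp only [Pi.add_apply, Finset.sum_add_distrib, bx_sum_e]
      have hsum2 : ∑ j, v j ≤ ∑ j, (u + bx_e k) j := Finset.sum_le_sum fun j _ => hle j
      have : u + bx_e k = v := bx_eq_of_le_of_sum_eq hle (by omega)
      rw [this]

theorem bx_zero_claim {r : ℕ} {b' : Fin r → ℕ} {d : ℕ} {Zs : ℕ → Finset (Fin r → ℕ)}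
    (hseg : ∀ s, bx_IsSeg (bx_box b' (d - s)) (Zs s))
    (hsh : ∀ s, bx_shadow b' (Zs (s + 1)) ⊆ Zs s)
    (hdeg : ∀ s, d < s → Zs s = ∅) :
    ∀ s, ∀ u ∈ Zs s, ∀ v ∈ bx_box b' d, toLex u ≤ toLex v → v ∈ Zs 0 := by
  intro s
  induction s with
  | zero =>
    intro u hu v hv huv
    exact (hseg 0).mem_of_le hu (by simpa using hv) huv
  | succ s ih =>
    intro u hu v hv huv
    have hsd : s + 1 ≤ d := by
      by_contra hcon
      rw [hdeg (s + 1) (by omega)] at hu
      exact absurd hu (Finset.notMem_empty _)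
    obtain ⟨hud, hub⟩ := bx_mem_box.1 ((hseg (s + 1)).1 hu)
    obtain ⟨hvd, hvb⟩ := bx_mem_box.1 hv
    have hne : u ≠ v := by
      rintro rfl
      omega
    have hlt : toLex u < toLex v := lt_of_le_of_ne huv fun h => hne (toLex.injective h)
    obtain ⟨h, hh, hle⟩ := bx_step hvb hlt (by omega)
    refine ih (u + bx_e h) (hsh s ?_) v hv hle
    rw [bx_mem_shadow]
    refine ⟨⟨u, hu, h, rfl⟩, fun i => ?_⟩
    by_cases hi : i = h
    · subst hi
      simp only [Pi.add_apply, bx_e_self]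
      omega
    · simp only [Pi.add_apply, bx_e_ne hi]
      exact hub i

/-- The shadow inequality in `r` coordinates (the induction hypothesis). -/
def bx_ShadowLe (r : ℕ) : Prop :=
  ∀ (b : Fin r → ℕ) (d : ℕ) (X Y : Finset (Fin r → ℕ)), X ⊆ bx_box b d → bx_Stable b X →
    bx_IsSeg (bx_box b d) Y → Y.card = X.card → (bx_shadow b Y).card ≤ (bx_shadow b X).card

theorem bx_slice_zero_subset {r : ℕ} (hA : bx_ShadowLe r) {b : Fin (r + 1) → ℕ} {d : ℕ}
    {X Y : Finset (Fin (r + 1) → ℕ)} (hX : X ⊆ bx_box b d) (hst : bx_Stable b X)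
    (hY : bx_IsSeg (bx_box b d) Y) (hc : Y.card = X.card)
    {L : Finset (Fin r → ℕ)} (hL : bx_IsSeg (bx_box (Fin.init b) d) L)
    (hLc : L.card = (bx_slice X 0).card) : bx_slice Y 0 ⊆ L := by
  have hex : ∀ s, ∃ Z, bx_IsSeg (bx_box (Fin.init b) (d - s)) Z ∧ Z.card = (bx_slice X s).card :=
    fun s => bx_exists_seg _ _ (Finset.card_le_card (bx_slice_subset_box hX s))
  choose Zs hseg hcard using hex
  have hdeg : ∀ s, d < s → Zs s = ∅ := by
    intro s hs
    rw [← Finset.card_eq_zero, hcard s, bx_slice_eq_empty hX hs, Finset.card_empty]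
  have hsh : ∀ s, bx_shadow (Fin.init b) (Zs (s + 1)) ⊆ Zs s := by
    intro s
    by_cases hsd : s + 1 ≤ d
    · have h1 : bx_IsSeg (bx_box (Fin.init b) (d - s)) (bx_shadow (Fin.init b) (Zs (s + 1))) := by
        have := bx_shadow_isSeg (hseg (s + 1))
        have he : d - (s + 1) + 1 = d - s := by omega
        rwa [he] at this
      refine bx_seg_subset_of_card_le h1 (hseg s) ?_
      calc (bx_shadow (Fin.init b) (Zs (s + 1))).card
          ≤ (bx_shadow (Fin.init b) (bx_slice X (s + 1))).card :=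
            hA _ _ _ _ (bx_slice_subset_box hX (s + 1)) (bx_slice_stable hX hst (s + 1))
              (hseg (s + 1)) (hcard (s + 1))
        _ ≤ (bx_slice X s).card := Finset.card_le_card (bx_shadow_slice_subset hX hst s)
        _ = (Zs s).card := (hcard s).symm
    · rw [hdeg (s + 1) (by omega)]
      intro v hv
      rw [bx_mem_shadow] at hv
      obtain ⟨⟨u, hu, -⟩, -⟩ := hv
      exact absurd hu (Finset.notMem_empty _)
  have hZ0 : Zs 0 = L := by
    refine bx_seg_eq_of_card_eq (B := bx_box (Fin.init b) d) ?_ hL ?_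
    · simpa using hseg 0
    · rw [hcard 0, hLc]
  intro y hy
  rw [← hZ0]
  by_contra hyZ
  have hyB : y ∈ bx_box (Fin.init b) d := by
    simpa using bx_slice_subset_box hY.1 0 hy
  have hclaim := bx_zero_claim hseg hsh hdeg
  set U := (bx_box b d).filter fun w => toLex (Fin.snoc y 0 : Fin (r + 1) → ℕ) < toLex w with hU
  have hUseg : bx_IsSeg (bx_box b d) U := bx_isSeg_above _ _
  have hsub : ∀ s ∈ range (b (Fin.last r) + 1), (Zs s).card ≤ (bx_slice U s).card := by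
    intro s hs
    apply Finset.card_le_card
    intro u hu
    have hsd : s ≤ d := by
      by_contra hcon
      rw [hdeg s (by omega)] at hu
      exact absurd hu (Finset.notMem_empty _)
    obtain ⟨hud, hub⟩ := bx_mem_box.1 ((hseg s).1 hu)
    rw [bx_mem_slice, hU, mem_filter]
    refine ⟨bx_snoc_mem_box.2 ⟨⟨by omega, hub⟩, by have := mem_range.1 hs; omega⟩, ?_⟩
    refine bx_snoc_lex_lt.2 (Or.inl ?_)
    by_contra hcon
    exact hyZ (hclaim s u hu y hyB (not_lt.1 hcon))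
  have hcardU : Y.card ≤ U.card := by
    rw [hc, bx_card_eq_sum_slices hX, bx_card_eq_sum_slices hUseg.1]
    calc ∑ s ∈ range (b (Fin.last r) + 1), (bx_slice X s).card
        = ∑ s ∈ range (b (Fin.last r) + 1), (Zs s).card :=
          Finset.sum_congr rfl fun s _ => (hcard s).symm
      _ ≤ _ := Finset.sum_le_sum hsub
  have hYU := bx_seg_subset_of_card_le hY hUseg hcardU
  have := hYU (bx_mem_slice.1 hy)
  rw [hU, mem_filter] at this
  exact lt_irrefl _ this.2

theorem bx_slice_zero_le {r : ℕ} (hA : bx_ShadowLe r) {b : Fin (r + 1) → ℕ} {d : ℕ}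
    {X Y : Finset (Fin (r + 1) → ℕ)} (hX : X ⊆ bx_box b d) (hst : bx_Stable b X)
    (hY : bx_IsSeg (bx_box b d) Y) (hc : Y.card = X.card) :
    (bx_slice Y 0).card ≤ (bx_slice X 0).card := by
  obtain ⟨L, hL, hLc⟩ := bx_exists_seg (bx_box (Fin.init b) d) (bx_slice X 0).card
    (Finset.card_le_card (by simpa using bx_slice_subset_box hX 0))
  rw [← hLc]
  exact Finset.card_le_card (bx_slice_zero_subset hA hX hst hY hc hL hLc)

/-! ### Reflection and the top slice -/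

/-- The reflection of the box. -/
def bx_refl {r : ℕ} (b u : Fin r → ℕ) : Fin r → ℕ := fun i => b i - u i

theorem bx_refl_refl {r : ℕ} {b u : Fin r → ℕ} (hu : ∀ i, u i ≤ b i) :
    bx_refl b (bx_refl b u) = u := by
  funext i
  have := hu i
  simp only [bx_refl]
  omega

theorem bx_refl_le {r : ℕ} (b u : Fin r → ℕ) (i : Fin r) : bx_refl b u i ≤ b i :=
  Nat.sub_le _ _

theorem bx_sum_refl {r : ℕ} {b u : Fin r → ℕ} (hu : ∀ i, u i ≤ b i) :
    ∑ i, bx_refl b u i = ∑ i, b i - ∑ i, u i :=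
  Finset.sum_tsub_distrib _ fun i _ => hu i

theorem bx_refl_mem_box {r : ℕ} {b u : Fin r → ℕ} {d : ℕ} (hu : u ∈ bx_box b d) :
    bx_refl b u ∈ bx_box b (∑ i, b i - d) := by
  obtain ⟨h1, h2⟩ := bx_mem_box.1 hu
  exact bx_mem_box.2 ⟨by rw [bx_sum_refl h2, h1], bx_refl_le b u⟩

theorem bx_le_sum_of_mem_box {r : ℕ} {b u : Fin r → ℕ} {d : ℕ} (hu : u ∈ bx_box b d) :
    d ≤ ∑ i, b i := by
  obtain ⟨h1, h2⟩ := bx_mem_box.1 hu
  rw [← h1]
  exact Finset.sum_le_sum fun i _ => h2 i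

theorem bx_refl_mem_box' {r : ℕ} {b u : Fin r → ℕ} {d : ℕ} (hd : d ≤ ∑ i, b i)
    (hu : u ∈ bx_box b (∑ i, b i - d)) : bx_refl b u ∈ bx_box b d := by
  have := bx_refl_mem_box hu
  have he : ∑ i, b i - (∑ i, b i - d) = d := by omega
  rwa [he] at this

theorem bx_refl_lex {r : ℕ} {b u v : Fin r → ℕ} (hv : ∀ i, v i ≤ b i)
    (h : toLex u < toLex v) : toLex (bx_refl b v) < toLex (bx_refl b u) := by
  obtain ⟨k, hk1, hk2⟩ := bx_lex_lt_iff.1 h
  refine bx_lex_lt_iff.2 ⟨k, fun j hj => ?_, ?_⟩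
  · simp only [bx_refl, hk1 j hj]
  · have := hv k
    simp only [bx_refl]
    omega

theorem bx_refl_injOn {r : ℕ} (b : Fin r → ℕ) (d : ℕ) :
    Set.InjOn (bx_refl b) (bx_box b d : Set (Fin r → ℕ)) := by
  intro u hu v hv h
  rw [← bx_refl_refl (bx_mem_box.1 hu).2, ← bx_refl_refl (bx_mem_box.1 hv).2, h]

/-- The reflected complement. -/
def bx_star {r : ℕ} (b : Fin r → ℕ) (d : ℕ) (X : Finset (Fin r → ℕ)) : Finset (Fin r → ℕ) :=
  (bx_box b d \ X).image (bx_refl b)

theorem bx_star_subset {r : ℕ} (b : Fin r → ℕ) (d : ℕ) (X : Finset (Fin r → ℕ)) :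
    bx_star b d X ⊆ bx_box b (∑ i, b i - d) := by
  intro v hv
  obtain ⟨x, hx, rfl⟩ := mem_image.1 hv
  exact bx_refl_mem_box (mem_sdiff.1 hx).1

theorem bx_card_star {r : ℕ} {b : Fin r → ℕ} {d : ℕ} {X : Finset (Fin r → ℕ)}
    (hX : X ⊆ bx_box b d) : (bx_star b d X).card = (bx_box b d).card - X.card := by
  unfold bx_star
  rw [Finset.card_image_of_injOn, Finset.card_sdiff_of_subset hX]
  exact (bx_refl_injOn b d).mono (by
    intro x hx
    exact (mem_sdiff.1 (mem_coe.1 hx)).1)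

theorem bx_star_stable {r : ℕ} {b : Fin r → ℕ} {d : ℕ} {X : Finset (Fin r → ℕ)}
    (hst : bx_Stable b X) : bx_Stable b (bx_star b d X) := by
  intro u hu v h l hhl heq hvb
  obtain ⟨x, hx, rfl⟩ := mem_image.1 hu
  obtain ⟨hxB, hxX⟩ := mem_sdiff.1 hx
  obtain ⟨hxd, hxb⟩ := bx_mem_box.1 hxB
  have hd : d ≤ ∑ i, b i := bx_le_sum_of_mem_box hxB
  have hvd : ∑ j, v j = ∑ i, b i - d := by
    have h1 : ∑ j, (v + bx_e l) j = ∑ j, (bx_refl b x + bx_e h) j := by rw [heq]
    simp only [Pi.add_apply, Finset.sum_add_distrib, bx_sum_e, bx_sum_refl hxb, hxd] at h1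
    omega
  have hvB : v ∈ bx_box b (∑ i, b i - d) := bx_mem_box.2 ⟨hvd, hvb⟩
  refine mem_image.2 ⟨bx_refl b v, mem_sdiff.2 ⟨bx_refl_mem_box' hd hvB, ?_⟩, bx_refl_refl hvb⟩
  intro hcon
  apply hxX
  refine hst _ hcon x h l hhl ?_ hxb
  funext j
  have h1 := congrFun heq j
  have h2 := hxb j
  have h3 := hvb j
  simp only [Pi.add_apply, bx_refl] at h1 ⊢
  by_cases hjh : j = h
  · subst hjh
    simp only [bx_e_self, bx_e_ne hhl.ne] at h1 ⊢
    omega
  · by_cases hjl : j = l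
    · subst hjl
      simp only [bx_e_self, bx_e_ne hjh] at h1 ⊢
      omega
    · simp only [bx_e_ne hjh, bx_e_ne hjl] at h1 ⊢
      omega

theorem bx_star_isSeg {r : ℕ} {b : Fin r → ℕ} {d : ℕ} {Y : Finset (Fin r → ℕ)}
    (hY : bx_IsSeg (bx_box b d) Y) : bx_IsSeg (bx_box b (∑ i, b i - d)) (bx_star b d Y) := by
  refine ⟨bx_star_subset b d Y, ?_⟩
  intro u hu w hw huw
  obtain ⟨y, hy, rfl⟩ := mem_image.1 hu
  obtain ⟨hyB, hyY⟩ := mem_sdiff.1 hy
  have hd : d ≤ ∑ i, b i := bx_le_sum_of_mem_box hyB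
  have hwb := (bx_mem_box.1 hw).2
  refine mem_image.2 ⟨bx_refl b w, mem_sdiff.2 ⟨bx_refl_mem_box' hd hw, ?_⟩, bx_refl_refl hwb⟩
  intro hcon
  apply hyY
  have := bx_refl_lex hwb huw
  rw [bx_refl_refl (bx_mem_box.1 hyB).2] at this
  exact hY.2 _ hcon y hyB this

theorem bx_card_slice_star {r : ℕ} {b : Fin (r + 1) → ℕ} {d : ℕ}
    {X : Finset (Fin (r + 1) → ℕ)} (hX : X ⊆ bx_box b d) :
    (bx_slice (bx_star b d X) 0).card =
      (bx_slice (bx_box b d) (b (Fin.last r))).card - (bx_slice X (b (Fin.last r))).card := by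
  rw [bx_card_slice, bx_card_slice, bx_card_slice]
  have h1 : (bx_star b d X).filter (fun w => w (Fin.last r) = 0) =
      (((bx_box b d).filter fun w => w (Fin.last r) = b (Fin.last r)) \
        (X.filter fun w => w (Fin.last r) = b (Fin.last r))).image (bx_refl b) := by
    ext v
    simp only [bx_star, mem_filter, mem_image, mem_sdiff]
    constructor
    · rintro ⟨⟨x, ⟨hxB, hxX⟩, rfl⟩, h0⟩
      have hb := (bx_mem_box.1 hxB).2 (Fin.last r)
      have hl : x (Fin.last r) = b (Fin.last r) := by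
        simp only [bx_refl] at h0
        omega
      exact ⟨x, ⟨⟨hxB, hl⟩, fun hh => hxX hh.1⟩, rfl⟩
    · rintro ⟨x, ⟨⟨hxB, hl⟩, hxX⟩, rfl⟩
      refine ⟨⟨x, ⟨hxB, fun hh => hxX ⟨hh, hl⟩⟩, rfl⟩, ?_⟩
      simp only [bx_refl, hl]
      omega
  rw [h1, Finset.card_image_of_injOn, Finset.card_sdiff_of_subset]
  · exact Finset.filter_subset_filter _ hX
  · exact (bx_refl_injOn b d).mono (by
      intro x hx
      exact (mem_filter.1 (mem_sdiff.1 (mem_coe.1 hx)).1).1)

theorem bx_slice_top_le {r : ℕ} (hA : bx_ShadowLe r) {b : Fin (r + 1) → ℕ} {d : ℕ}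
    {X Y : Finset (Fin (r + 1) → ℕ)} (hX : X ⊆ bx_box b d) (hst : bx_Stable b X)
    (hY : bx_IsSeg (bx_box b d) Y) (hc : Y.card = X.card) :
    (bx_slice X (b (Fin.last r))).card ≤ (bx_slice Y (b (Fin.last r))).card := by
  have h0 := bx_slice_zero_le hA (bx_star_subset b d X) (bx_star_stable (d := d) hst)
    (bx_star_isSeg hY) (by rw [bx_card_star hX, bx_card_star hY.1, hc])
  rw [bx_card_slice_star hX, bx_card_slice_star hY.1] at h0
  have h1 := Finset.card_le_card (bx_slice_mono hX (b (Fin.last r)))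
  have h2 := Finset.card_le_card (bx_slice_mono hY.1 (b (Fin.last r)))
  omega

/-! ### The shadow count and the induction -/

theorem bx_slice_shadow_zero {r : ℕ} (b : Fin (r + 1) → ℕ) (X : Finset (Fin (r + 1) → ℕ)) :
    bx_slice (bx_shadow b X) 0 = bx_shadow (Fin.init b) (bx_slice X 0) := by
  ext v
  rw [bx_mem_slice, bx_mem_shadow, bx_mem_shadow]
  constructor
  · rintro ⟨⟨x, hx, h, heq⟩, hb⟩
    refine ⟨?_, fun i => by simpa [Fin.init] using hb i.castSucc⟩
    revert heq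
    refine Fin.lastCases ?_ (fun h => ?_) h
    · intro heq
      have := congrFun heq (Fin.last r)
      simp at this
    · intro heq
      have hlast : x (Fin.last r) = 0 := by
        have := congrFun heq (Fin.last r)
        simp only [Fin.snoc_last, Pi.add_apply, bx_e_ne (Fin.castSucc_lt_last h).ne'] at this
        omega
      refine ⟨Fin.init x, ?_, h, ?_⟩
      · rw [bx_mem_slice, ← hlast, Fin.snoc_init_self]
        exact hx
      · rw [← Fin.snoc_init_self x, bx_snoc_add_e_castSucc] at heq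
        exact (Fin.snoc_injective2 heq).1
  · rintro ⟨⟨u, hu, h, rfl⟩, hb⟩
    refine ⟨⟨_, bx_mem_slice.1 hu, h.castSucc, (bx_snoc_add_e_castSucc u 0 h).symm⟩, fun j => ?_⟩
    refine Fin.lastCases ?_ (fun j => ?_) j
    · simp
    · simpa [Fin.init] using hb j

theorem bx_shadow_pos_eq {r : ℕ} {b : Fin (r + 1) → ℕ} {d : ℕ}
    {X : Finset (Fin (r + 1) → ℕ)} (hX : X ⊆ bx_box b d) (hst : bx_Stable b X) :
    (bx_shadow b X).filter (fun w => ¬ w (Fin.last r) = 0) =
      (X.filter fun w => ¬ w (Fin.last r) = b (Fin.last r)).image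
        (fun w => w + bx_e (Fin.last r)) := by
  ext v
  simp only [mem_filter, mem_image, bx_mem_shadow]
  constructor
  · rintro ⟨⟨⟨u, hu, h, rfl⟩, hb⟩, hpos⟩
    by_cases hh : h = Fin.last r
    · subst hh
      refine ⟨u, ⟨hu, ?_⟩, rfl⟩
      have := hb (Fin.last r)
      simp only [Pi.add_apply, bx_e_self] at this
      omega
    · have hlt : h < Fin.last r := lt_of_le_of_ne (Fin.le_last h) hh
      have hpos' : 0 < (u + bx_e h) (Fin.last r) := Nat.pos_of_ne_zero hpos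
      have hx := bx_sub_e_add hpos'
      refine ⟨_, ⟨hst u hu _ h (Fin.last r) hlt hx fun i => (Nat.sub_le _ _).trans (hb i), ?_⟩, hx⟩
      have := hb (Fin.last r)
      simp only [bx_e_self]
      omega
  · rintro ⟨x, ⟨hx, hne⟩, rfl⟩
    have hxb := (bx_mem_box.1 (hX hx)).2
    refine ⟨⟨⟨x, hx, Fin.last r, rfl⟩, fun i => ?_⟩, ?_⟩
    · by_cases hi : i = Fin.last r
      · subst hi
        have := hxb (Fin.last r)
        simp only [Pi.add_apply, bx_e_self]
        omega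
      · simp only [Pi.add_apply, bx_e_ne hi]
        exact hxb i
    · simp

/-- `|∂X| + |X(b_r)| = |∂'X(0)| + |X|` for stable `X`. -/
theorem bx_shadow_count {r : ℕ} {b : Fin (r + 1) → ℕ} {d : ℕ}
    {X : Finset (Fin (r + 1) → ℕ)} (hX : X ⊆ bx_box b d) (hst : bx_Stable b X) :
    (bx_shadow b X).card + (bx_slice X (b (Fin.last r))).card =
      (bx_shadow (Fin.init b) (bx_slice X 0)).card + X.card := by
  have h1 := Finset.card_filter_add_card_filter_not (s := bx_shadow b X)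
    (fun w => w (Fin.last r) = 0)
  have h2 := Finset.card_filter_add_card_filter_not (s := X)
    (fun w => w (Fin.last r) = b (Fin.last r))
  rw [← bx_card_slice, bx_slice_shadow_zero, bx_shadow_pos_eq hX hst,
    Finset.card_image_of_injective _ (add_left_injective _)] at h1
  rw [← bx_card_slice] at h2
  omega

theorem bx_shadowLe_succ {r : ℕ} (hA : bx_ShadowLe r) : bx_ShadowLe (r + 1) := by
  intro b d X Y hX hst hY hc
  have hcX := bx_shadow_count hX hst
  have hcY := bx_shadow_count hY.1 hY.stable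
  have htop := bx_slice_top_le hA hX hst hY hc
  obtain ⟨L, hL, hLc⟩ := bx_exists_seg (bx_box (Fin.init b) d) (bx_slice X 0).card
    (Finset.card_le_card (by simpa using bx_slice_subset_box hX 0))
  have hsub := bx_slice_zero_subset hA hX hst hY hc hL hLc
  have h1 : (bx_shadow (Fin.init b) (bx_slice Y 0)).card ≤ (bx_shadow (Fin.init b) L).card :=
    Finset.card_le_card (bx_shadow_mono hsub)
  have h2 : (bx_shadow (Fin.init b) L).card ≤ (bx_shadow (Fin.init b) (bx_slice X 0)).card :=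
    hA _ d _ _ (by simpa using bx_slice_subset_box hX 0) (bx_slice_stable hX hst 0) hL hLc
  omega

theorem bx_shadowLe_zero : bx_ShadowLe 0 := by
  intro b d X Y _ _ _ _
  have : bx_shadow b Y = ∅ := by
    rw [Finset.eq_empty_iff_forall_notMem]
    intro v hv
    obtain ⟨⟨_, _, h, _⟩, _⟩ := bx_mem_shadow.1 hv
    exact h.elim0
  rw [this]
  exact Nat.zero_le _

/-- **Betti paper, Lemma 5.1, shadow inequality**, all `r`, bounds in any order. -/
theorem bx_shadowLe : ∀ r, bx_ShadowLe r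
  | 0 => bx_shadowLe_zero
  | r + 1 => bx_shadowLe_succ (bx_shadowLe r)

/-- **Lemma 5.1**, final form. -/
theorem bx_lemma51 {r : ℕ} {b : Fin (r + 1) → ℕ} {d : ℕ}
    {X Y : Finset (Fin (r + 1) → ℕ)} (hX : X ⊆ bx_box b d) (hst : bx_Stable b X)
    (hY : bx_IsSeg (bx_box b d) Y) (hc : Y.card = X.card) :
    bx_IsSeg (bx_box b (d + 1)) (bx_shadow b Y) ∧
      (bx_shadow b Y).card ≤ (bx_shadow b X).card ∧
      (bx_slice Y 0).card ≤ (bx_slice X 0).card ∧
      (bx_slice X (b (Fin.last r))).card ≤ (bx_slice Y (b (Fin.last r))).card :=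
  ⟨bx_shadow_isSeg hY, bx_shadowLe _ b d X Y hX hst hY hc,
    bx_slice_zero_le (bx_shadowLe r) hX hst hY hc, bx_slice_top_le (bx_shadowLe r) hX hst hY hc⟩

end Claimed.Agent.R278
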