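-- KEEP
import Mathlib

/-!
# Row 278 (S0523, also S0522): B3 = shadows and end slices in an exponent box   (pen 46, prefix `r278b_`)

[Betti paper, Section 5]: Lemma `box:inequalities` and Proposition `box:ideal`.  Purely combinatorial, no field.

* `r278b_box b d`  : the exponent vectors `u : Fin r → ℕ` with `∑ u = d`, `u h ≤ b h`;
* `r278b_gt m' m`  : `m'` is lexicographically greater than `m` (first coordinate first); the frozen `lexGt m' m` is `decide` of it;
* `r278b_top S q`  : the `q` lex-greatest elements of `S` (same formula as the frozen `lexSegment`);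
* `R278bSeg S Y`   : `Y` is a lex segment of `S` (starts with the greatest);
* `R278bStable b X`: closed under the transfers `w + e_ℓ ↦ w + e_h`, `h < ℓ`, that stay under the bounds;
* `r278b_shadow b X`: the bounded shadow; `r278b_slice X s`: the slice `{u | (u, s) ∈ X}`.
-/

set_option autoImplicit false

namespace Claimed.Agent.R278

open Finset

/-- the box -/
def r278b_box {r : ℕ} (b : Fin r → ℕ) (d : ℕ) : Finset (Fin r → ℕ) :=
  (Finset.Nat.antidiagonalTuple r d).filter fun u => ∀ h, u h ≤ b h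

/-- `m'` is lexicographically greater than `m` -/
def r278b_gt {r : ℕ} (m' m : Fin r → ℕ) : Prop :=
  ∃ i : Fin r, (∀ j : Fin r, j < i → m' j = m j) ∧ m i < m' i

instance r278b_gt_dec {r : ℕ} (m' m : Fin r → ℕ) : Decidable (r278b_gt m' m) := by
  unfold r278b_gt; infer_instance

/-- the `q` greatest elements of `S` -/
def r278b_top {r : ℕ} (S : Finset (Fin r → ℕ)) (q : ℕ) : Finset (Fin r → ℕ) :=
  S.filter fun m => (S.filter fun m' => r278b_gt m' m).card < q

/-- lex segments of `S` -/
def R278bSeg {r : ℕ} (S Y : Finset (Fin r → ℕ)) : Prop :=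
  Y ⊆ S ∧ ∀ u ∈ Y, ∀ v ∈ S, r278b_gt v u → v ∈ Y

/-- stability under the bounded transfers -/
def R278bStable {r : ℕ} (b : Fin r → ℕ) (X : Finset (Fin r → ℕ)) : Prop :=
  ∀ (w : Fin r → ℕ) (h l : Fin r), h < l → w + Pi.single l 1 ∈ X → w h < b h → w + Pi.single h 1 ∈ X

/-- the bounded shadow -/
def r278b_shadow {r : ℕ} (b : Fin r → ℕ) (X : Finset (Fin r → ℕ)) : Finset (Fin r → ℕ) :=
  X.biUnion fun u => (univ.filter fun h => u h < b h).image fun h => u + Pi.single h 1

/-- the slice at the value `s` of the last coordinate -/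
def r278b_slice {r : ℕ} (X : Finset (Fin (r + 1) → ℕ)) (s : ℕ) : Finset (Fin r → ℕ) :=
  (X.filter fun w => w (Fin.last r) = s).image Fin.init

/-! ## basic API -/

theorem r278b_gt_iff {r : ℕ} (m' m : Fin r → ℕ) : r278b_gt m' m ↔ toLex m < toLex m' := by
  constructor
  · rintro ⟨i, h1, h2⟩
    exact ⟨i, fun j hj => (h1 j hj).symm, h2⟩
  · rintro ⟨i, h1, h2⟩
    exact ⟨i, fun j hj => (h1 j hj).symm, h2⟩

theorem r278b_gt_irrefl {r : ℕ} (m : Fin r → ℕ) : ¬ r278b_gt m m := fun h =>
  lt_irrefl _ ((r278b_gt_iff m m).1 h)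

theorem r278b_gt_trans {r : ℕ} {x y z : Fin r → ℕ} (h1 : r278b_gt x y) (h2 : r278b_gt y z) : r278b_gt x z :=
  (r278b_gt_iff x z).2 (((r278b_gt_iff y z).1 h2).trans ((r278b_gt_iff x y).1 h1))

theorem r278b_gt_tri {r : ℕ} (x y : Fin r → ℕ) : r278b_gt y x ∨ x = y ∨ r278b_gt x y := by
  rcases lt_trichotomy (toLex x) (toLex y) with h | h | h
  · exact Or.inl ((r278b_gt_iff y x).2 h)
  · exact Or.inr (Or.inl (toLex.injective h))
  · exact Or.inr (Or.inr ((r278b_gt_iff x y).2 h))

theorem r278b_gt_asymm {r : ℕ} {x y : Fin r → ℕ} (h1 : r278b_gt x y) (h2 : r278b_gt y x) : False :=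
  r278b_gt_irrefl _ (r278b_gt_trans h1 h2)

theorem r278b_mem_box {r : ℕ} {b : Fin r → ℕ} {d : ℕ} {u : Fin r → ℕ} :
    u ∈ r278b_box b d ↔ ∑ i, u i = d ∧ ∀ h, u h ≤ b h := by
  simp [r278b_box, Finset.Nat.mem_antidiagonalTuple]

theorem r278b_sum_add_single {r : ℕ} (u : Fin r → ℕ) (h : Fin r) :
    ∑ i, (u + Pi.single h 1 : Fin r → ℕ) i = ∑ i, u i + 1 := by
  simp [Finset.sum_add_distrib, Pi.single_apply]

theorem r278b_add_single_self {r : ℕ} (u : Fin r → ℕ) (h : Fin r) : (u + Pi.single h 1 : Fin r → ℕ) h = u h + 1 := by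
  simp

theorem r278b_add_single_ne {r : ℕ} (u : Fin r → ℕ) {h j : Fin r} (hj : j ≠ h) : (u + Pi.single h 1 : Fin r → ℕ) j = u j := by
  simp [hj]

theorem r278b_sub_add {r : ℕ} (w : Fin r → ℕ) {k : Fin r} (hk : 0 < w k) : (w - Pi.single k 1 : Fin r → ℕ) + Pi.single k 1 = w := by
  funext j
  by_cases hj : j = k
  · subst hj
    simp only [Pi.add_apply, Pi.sub_apply, Pi.single_eq_same]
    omega
  · simp [hj]

theorem r278b_mem_shadow {r : ℕ} {b : Fin r → ℕ} {X : Finset (Fin r → ℕ)} {v : Fin r → ℕ} :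
    v ∈ r278b_shadow b X ↔ ∃ u ∈ X, ∃ h, u h < b h ∧ v = u + Pi.single h 1 := by
  simp only [r278b_shadow, mem_biUnion, mem_image, mem_filter, mem_univ, true_and]
  constructor
  · rintro ⟨u, hu, h, hh, rfl⟩
    exact ⟨u, hu, h, hh, rfl⟩
  · rintro ⟨u, hu, h, hh, rfl⟩
    exact ⟨u, hu, h, hh, rfl⟩

theorem r278b_add_single_mem_box {r : ℕ} {b : Fin r → ℕ} {d : ℕ} {u : Fin r → ℕ} (hu : u ∈ r278b_box b d) {h : Fin r}
    (hh : u h < b h) : u + Pi.single h 1 ∈ r278b_box b (d + 1) := by
  rw [r278b_mem_box] at hu ⊢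
  refine ⟨by rw [r278b_sum_add_single, hu.1], fun j => ?_⟩
  by_cases hj : j = h
  · subst hj
    rw [r278b_add_single_self]
    exact hh
  · rw [r278b_add_single_ne u hj]
    exact hu.2 j

theorem r278b_shadow_subset_box {r : ℕ} {b : Fin r → ℕ} {d : ℕ} {X : Finset (Fin r → ℕ)} (hX : X ⊆ r278b_box b d) :
    r278b_shadow b X ⊆ r278b_box b (d + 1) := by
  intro v hv
  obtain ⟨u, hu, h, hh, rfl⟩ := r278b_mem_shadow.1 hv
  exact r278b_add_single_mem_box (hX hu) hh

theorem r278b_shadow_mono {r : ℕ} (b : Fin r → ℕ) {X X' : Finset (Fin r → ℕ)} (h : X ⊆ X') :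
    r278b_shadow b X ⊆ r278b_shadow b X' := by
  intro v hv
  obtain ⟨u, hu, k, hk, rfl⟩ := r278b_mem_shadow.1 hv
  exact r278b_mem_shadow.2 ⟨u, h hu, k, hk, rfl⟩

theorem r278b_exists_last {r : ℕ} (p : Fin r → Prop) [DecidablePred p] (h : ∃ i, p i) :
    ∃ k, p k ∧ ∀ j, k < j → ¬ p j := by
  obtain ⟨i, hi⟩ := h
  have hne : (univ.filter p).Nonempty := ⟨i, by simp [hi]⟩
  refine ⟨(univ.filter p).max' hne, (mem_filter.1 (max'_mem _ hne)).2, fun j hj hp => ?_⟩
  exact absurd (le_max' _ j (by simp [hp])) (not_le.2 hj)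

theorem r278b_eq_of_le_of_sum {r : ℕ} {u v : Fin r → ℕ} (hle : ∀ j, u j ≤ v j) (hs : ∑ i, u i = ∑ i, v i) : u = v := by
  funext j
  exact (Finset.sum_eq_sum_iff_of_le (fun i _ => hle i)).1 hs j (mem_univ j)

theorem r278b_sub_single_mem_box {r : ℕ} {b : Fin r → ℕ} {d : ℕ} {w : Fin r → ℕ} (hw : w ∈ r278b_box b (d + 1)) {k : Fin r}
    (hk : 0 < w k) : w - Pi.single k 1 ∈ r278b_box b d ∧ (w - Pi.single k 1 : Fin r → ℕ) k < b k := by
  have h1 := r278b_sub_add w hk
  rw [r278b_mem_box] at hw
  have h2 : ∑ i, ((w - Pi.single k 1 : Fin r → ℕ) + Pi.single k 1 : Fin r → ℕ) i = d + 1 := by rw [h1]; exact hw.1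
  rw [r278b_sum_add_single] at h2
  refine ⟨r278b_mem_box.2 ⟨by omega, fun j => ?_⟩, ?_⟩
  · exact le_trans (by simp) (hw.2 j)
  · have := hw.2 k
    simp only [Pi.sub_apply, Pi.single_eq_same]
    omega

/-! ## segments -/

theorem r278b_top_subset {r : ℕ} (S : Finset (Fin r → ℕ)) (q : ℕ) : r278b_top S q ⊆ S := filter_subset _ _

theorem r278b_top_seg {r : ℕ} (S : Finset (Fin r → ℕ)) (q : ℕ) : R278bSeg S (r278b_top S q) := by
  refine ⟨r278b_top_subset S q, fun u hu v hv hvu => ?_⟩
  rw [r278b_top, mem_filter] at hu ⊢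
  refine ⟨hv, lt_of_le_of_lt (card_le_card ?_) hu.2⟩
  intro m hm
  rw [mem_filter] at hm ⊢
  exact ⟨hm.1, r278b_gt_trans hm.2 hvu⟩

theorem r278b_card_top_aux {α : Type*} (R : α → α → Prop) [DecidableRel R] (hirr : ∀ x, ¬ R x x)
    (htr : ∀ x y z, R x y → R y z → R x z) (htri : ∀ x y, R x y ∨ x = y ∨ R y x)
    (s : Finset α) (q : ℕ) (hq : q ≤ s.card) :
    (s.filter fun x => (s.filter fun y => R x y).card < q).card = q := by
  classical
  set g : α → ℕ := fun x => (s.filter fun y => R x y).card with hg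
  have hanti : ∀ x ∈ s, ∀ y ∈ s, R x y → g y < g x := by
    intro x _ y hy hxy
    refine Finset.card_lt_card ?_
    refine ⟨fun z hz => ?_, fun h => ?_⟩
    · rw [Finset.mem_filter] at hz ⊢
      exact ⟨hz.1, htr _ _ _ hxy hz.2⟩
    · have := h (Finset.mem_filter.2 ⟨hy, hxy⟩)
      exact hirr _ (Finset.mem_filter.1 this).2
  have hinj : Set.InjOn g s := by
    intro x hx y hy hxy
    rcases htri x y with h | h | h
    · exact absurd hxy (hanti x hx y hy h).ne'
    · exact h
    · exact absurd hxy (hanti y hy x hx h).ne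
  have hlt : ∀ x ∈ s, g x < s.card := by
    intro x hx
    refine Finset.card_lt_card ?_
    refine ⟨Finset.filter_subset _ _, fun h => ?_⟩
    exact hirr _ (Finset.mem_filter.1 (h hx)).2
  have himg : s.image g = Finset.range s.card := by
    refine Finset.eq_of_subset_of_card_le ?_ ?_
    · intro k hk
      obtain ⟨x, hx, rfl⟩ := Finset.mem_image.1 hk
      exact Finset.mem_range.2 (hlt x hx)
    · rw [Finset.card_range, Finset.card_image_of_injOn hinj]
  have h1 : (s.filter fun x => g x < q).image g = (Finset.range s.card).filter (· < q) := by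
    rw [← himg, Finset.filter_image]
  have h2 : ((s.filter fun x => g x < q).image g).card = (s.filter fun x => g x < q).card :=
    Finset.card_image_of_injOn (hinj.mono (by intro x hx; exact (Finset.mem_filter.1 hx).1))
  rw [← h2, h1]
  have h3 : (Finset.range s.card).filter (· < q) = Finset.range q := by
    ext k
    simp only [Finset.mem_filter, Finset.mem_range]
    exact ⟨fun h => h.2, fun h => ⟨h.trans_le hq, h⟩⟩
  rw [h3, Finset.card_range]

theorem r278b_card_top {r : ℕ} (S : Finset (Fin r → ℕ)) (q : ℕ) (hq : q ≤ S.card) : (r278b_top S q).card = q := by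
  refine r278b_card_top_aux (fun m m' : Fin r → ℕ => r278b_gt m' m) ?_ ?_ ?_ S q hq
  · exact fun x => r278b_gt_irrefl x
  · exact fun x y z h1 h2 => r278b_gt_trans h2 h1
  · exact fun x y => r278b_gt_tri x y

/-- two segments are nested -/
theorem r278b_seg_subset {r : ℕ} {S Y Y' : Finset (Fin r → ℕ)} (hY : R278bSeg S Y) (hY' : R278bSeg S Y')
    (h : Y.card ≤ Y'.card) : Y ⊆ Y' := by
  by_contra hne
  obtain ⟨u, hu, hu'⟩ := not_subset.1 hne
  have hsub : Y' ⊆ Y := by
    intro v hv
    rcases r278b_gt_tri u v with h1 | h1 | h1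
    · exact hY.2 u hu v (hY'.1 hv) h1
    · exact h1 ▸ hu
    · exact absurd (hY'.2 v hv u (hY.1 hu) h1) hu'
  have hlt : Y'.card < Y.card := card_lt_card ⟨hsub, fun h2 => hu' (h2 hu)⟩
  omega

theorem r278b_seg_eq_top {r : ℕ} {S Y : Finset (Fin r → ℕ)} (hY : R278bSeg S Y) : Y = r278b_top S Y.card := by
  have hc := r278b_card_top S Y.card (card_le_card hY.1)
  exact eq_of_subset_of_card_le (r278b_seg_subset hY (r278b_top_seg S _) hc.ge) hc.le

/-- lex segments are stable -/
theorem r278b_seg_stable {r : ℕ} (b : Fin r → ℕ) (d : ℕ) {Y : Finset (Fin r → ℕ)}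
    (hY : R278bSeg (r278b_box b d) Y) : R278bStable b Y := by
  intro w h l hhl hw hh
  have hwb := r278b_mem_box.1 (hY.1 hw)
  refine hY.2 _ hw _ ?_ ⟨h, fun j hj => ?_, ?_⟩
  · refine r278b_mem_box.2 ⟨?_, fun j => ?_⟩
    · rw [r278b_sum_add_single, ← hwb.1, r278b_sum_add_single]
    · by_cases hj : j = h
      · subst hj
        rw [r278b_add_single_self]
        exact hh
      · rw [r278b_add_single_ne w hj]
        have := hwb.2 j
        by_cases hjl : j = l
        · subst hjl
          rw [r278b_add_single_self] at this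
          omega
        · rwa [r278b_add_single_ne w hjl] at this
  · rw [r278b_add_single_ne w hj.ne, r278b_add_single_ne w (hj.trans hhl).ne]
  · rw [r278b_add_single_self, r278b_add_single_ne w hhl.ne]
    omega

/-- (i) the shadow of a lex segment is a lex segment -/
theorem r278b_seg_shadow {r : ℕ} (b : Fin r → ℕ) (d : ℕ) {Y : Finset (Fin r → ℕ)}
    (hY : R278bSeg (r278b_box b d) Y) : R278bSeg (r278b_box b (d + 1)) (r278b_shadow b Y) := by
  refine ⟨r278b_shadow_subset_box hY.1, fun v hv w hw hwv => ?_⟩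
  obtain ⟨y, hy, h, hh, rfl⟩ := r278b_mem_shadow.1 hv
  obtain ⟨i, hi1, hi2⟩ := hwv
  obtain ⟨k, hk, hklast⟩ := r278b_exists_last (fun j => 0 < w j) ⟨i, by omega⟩
  have hik : i ≤ k := by
    by_contra hlt
    exact hklast i (not_le.1 hlt) (by omega)
  obtain ⟨hw'box, hw'k⟩ := r278b_sub_single_mem_box hw hk
  set w' := w - Pi.single k 1 with hw'
  have hww' : w' + Pi.single k 1 = w := r278b_sub_add w hk
  have hw'ne : ∀ j, j ≠ k → w' j = w j := by
    intro j hj
    rw [← hww', r278b_add_single_ne w' hj]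
  have hw'kk : w' k + 1 = w k := by
    rw [← hww', r278b_add_single_self]
  have hyne : ∀ j, j ≠ h → (y + Pi.single h 1 : Fin r → ℕ) j = y j := fun j hj => r278b_add_single_ne y hj
  have hyh : (y + Pi.single h 1 : Fin r → ℕ) h = y h + 1 := r278b_add_single_self y h
  refine r278b_mem_shadow.2 ⟨w', ?_, k, hw'k, hww'.symm⟩
  have key : w' = y ∨ r278b_gt w' y := by
    rcases lt_trichotomy h i with hhi | hhi | hhi
    · -- h < i
      refine Or.inr ⟨h, fun j hj => ?_, ?_⟩
      · rw [hw'ne j (hj.trans (hhi.trans_le hik)).ne, hi1 j (hj.trans hhi), hyne j hj.ne]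
      · rw [hw'ne h (hhi.trans_le hik).ne, hi1 h hhi, hyh]
        omega
    · -- h = i
      subst hhi
      refine Or.inr ⟨h, fun j hj => ?_, ?_⟩
      · rw [hw'ne j (hj.trans_le hik).ne, hi1 j hj, hyne j hj.ne]
      · rw [hyh] at hi2
        rcases eq_or_lt_of_le hik with e | e
        · subst e
          omega
        · rw [hw'ne h e.ne]
          omega
    · -- i < h
      rw [hyne i hhi.ne] at hi2
      rcases eq_or_lt_of_le hik with e | e
      · subst e
        by_cases hc : y i + 1 < w i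
        · refine Or.inr ⟨i, fun j hj => ?_, by omega⟩
          rw [hw'ne j hj.ne, hi1 j hj, hyne j (hj.trans hhi).ne]
        · refine Or.inl (r278b_eq_of_le_of_sum (fun j => ?_) ?_)
          · rcases lt_trichotomy j i with hj | hj | hj
            · rw [hw'ne j hj.ne, hi1 j hj, hyne j (hj.trans hhi).ne]
            · subst hj
              omega
            · rw [hw'ne j hj.ne']
              have := hklast j hj
              omega
          · rw [(r278b_mem_box.1 hw'box).1, (r278b_mem_box.1 (hY.1 hy)).1]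
      · refine Or.inr ⟨i, fun j hj => ?_, ?_⟩
        · rw [hw'ne j (hj.trans e).ne, hi1 j hj, hyne j (hj.trans hhi).ne]
        · rw [hw'ne i e.ne]
          exact hi2
  rcases key with e | e
  · exact e ▸ hy
  · exact hY.2 y hy w' hw'box e

/-! ## adding a last coordinate; slices -/

/-- `(u, s)` -/
def r278b_sn {r : ℕ} (u : Fin r → ℕ) (s : ℕ) : Fin (r + 1) → ℕ := Fin.snoc (α := fun _ => ℕ) u s

theorem r278b_sn_last {r : ℕ} (u : Fin r → ℕ) (s : ℕ) : r278b_sn u s (Fin.last r) = s := by
  simp [r278b_sn]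

theorem r278b_sn_cast {r : ℕ} (u : Fin r → ℕ) (s : ℕ) (i : Fin r) : r278b_sn u s i.castSucc = u i := by
  simp [r278b_sn]

theorem r278b_sn_init {r : ℕ} (w : Fin (r + 1) → ℕ) : r278b_sn (Fin.init w) (w (Fin.last r)) = w :=
  Fin.snoc_init_self w

theorem r278b_init_sn {r : ℕ} (u : Fin r → ℕ) (s : ℕ) : Fin.init (r278b_sn u s) = u := by
  funext i
  simp [Fin.init, r278b_sn_cast]

theorem r278b_sn_inj {r : ℕ} {u v : Fin r → ℕ} {s t : ℕ} : r278b_sn u s = r278b_sn v t ↔ u = v ∧ s = t := by
  constructor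
  · intro h
    refine ⟨?_, ?_⟩
    · rw [← r278b_init_sn u s, h, r278b_init_sn]
    · rw [← r278b_sn_last u s, h, r278b_sn_last]
  · rintro ⟨rfl, rfl⟩
    rfl

theorem r278b_sum_sn {r : ℕ} (u : Fin r → ℕ) (s : ℕ) : ∑ i, r278b_sn u s i = ∑ i, u i + s := by
  rw [Fin.sum_univ_castSucc]
  simp [r278b_sn_cast, r278b_sn_last]

theorem r278b_sn_mem_box {r : ℕ} {b : Fin (r + 1) → ℕ} {d : ℕ} {u : Fin r → ℕ} {s : ℕ} :
    r278b_sn u s ∈ r278b_box b d ↔ s ≤ b (Fin.last r) ∧ s ≤ d ∧ u ∈ r278b_box (Fin.init b) (d - s) := by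
  rw [r278b_mem_box, r278b_mem_box, r278b_sum_sn]
  constructor
  · rintro ⟨h1, h2⟩
    refine ⟨?_, by omega, by omega, fun h => ?_⟩
    · have := h2 (Fin.last r)
      rwa [r278b_sn_last] at this
    · have := h2 h.castSucc
      rwa [r278b_sn_cast] at this
  · rintro ⟨h1, h2, h3, h4⟩
    refine ⟨by omega, fun h => ?_⟩
    refine Fin.lastCases ?_ (fun j => ?_) h
    · rwa [r278b_sn_last]
    · rw [r278b_sn_cast]
      exact h4 j

theorem r278b_sn_add_last {r : ℕ} (u : Fin r → ℕ) (s : ℕ) :
    r278b_sn u s + Pi.single (Fin.last r) 1 = r278b_sn u (s + 1) := by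
  funext i
  refine Fin.lastCases ?_ (fun j => ?_) i
  · rw [r278b_add_single_self, r278b_sn_last, r278b_sn_last]
  · rw [r278b_add_single_ne _ (Fin.castSucc_lt_last j).ne, r278b_sn_cast, r278b_sn_cast]

theorem r278b_sn_add_cast {r : ℕ} (u : Fin r → ℕ) (s : ℕ) (h : Fin r) :
    r278b_sn u s + Pi.single h.castSucc 1 = r278b_sn (u + Pi.single h 1) s := by
  funext i
  refine Fin.lastCases ?_ (fun j => ?_) i
  · rw [r278b_add_single_ne _ (Fin.castSucc_lt_last h).ne', r278b_sn_last, r278b_sn_last]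
  · by_cases hj : j = h
    · subst hj
      rw [r278b_add_single_self, r278b_sn_cast, r278b_sn_cast, r278b_add_single_self]
    · have hj' : j.castSucc ≠ h.castSucc := fun e => hj (Fin.castSucc_injective _ e)
      rw [r278b_add_single_ne _ hj', r278b_sn_cast, r278b_sn_cast, r278b_add_single_ne _ hj]

theorem r278b_gt_sn {r : ℕ} {u v : Fin r → ℕ} {s t : ℕ} :
    r278b_gt (r278b_sn u s) (r278b_sn v t) ↔ r278b_gt u v ∨ (u = v ∧ t < s) := by
  constructor
  · rintro ⟨i, h1, h2⟩
    revert h1 h2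
    refine Fin.lastCases ?_ (fun i' => ?_) i
    · intro h1 h2
      refine Or.inr ⟨?_, ?_⟩
      · funext j
        have := h1 j.castSucc (Fin.castSucc_lt_last j)
        rwa [r278b_sn_cast, r278b_sn_cast] at this
      · rwa [r278b_sn_last, r278b_sn_last] at h2
    · intro h1 h2
      refine Or.inl ⟨i', fun j hj => ?_, ?_⟩
      · have := h1 j.castSucc (Fin.castSucc_lt_castSucc_iff.2 hj)
        rwa [r278b_sn_cast, r278b_sn_cast] at this
      · rwa [r278b_sn_cast, r278b_sn_cast] at h2
  · rintro (⟨i, h1, h2⟩ | ⟨rfl, h⟩)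
    · refine ⟨i.castSucc, fun j => ?_, ?_⟩
      · refine Fin.lastCases ?_ (fun j' => ?_) j
        · intro hj
          exact absurd hj (not_lt.2 (Fin.le_last _))
        · intro hj
          rw [r278b_sn_cast, r278b_sn_cast]
          exact h1 j' (Fin.castSucc_lt_castSucc_iff.1 hj)
      · rwa [r278b_sn_cast, r278b_sn_cast]
    · refine ⟨Fin.last r, fun j => ?_, ?_⟩
      · refine Fin.lastCases ?_ (fun j' => ?_) j
        · intro hj
          exact absurd hj (lt_irrefl _)
        · intro _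
          rw [r278b_sn_cast, r278b_sn_cast]
      · rwa [r278b_sn_last, r278b_sn_last]

theorem r278b_mem_slice {r : ℕ} {X : Finset (Fin (r + 1) → ℕ)} {s : ℕ} {u : Fin r → ℕ} :
    u ∈ r278b_slice X s ↔ r278b_sn u s ∈ X := by
  constructor
  · intro hu
    obtain ⟨w, hw, rfl⟩ := mem_image.1 hu
    obtain ⟨hwX, rfl⟩ := mem_filter.1 hw
    rwa [r278b_sn_init]
  · intro hu
    exact mem_image.2 ⟨_, mem_filter.2 ⟨hu, r278b_sn_last u s⟩, r278b_init_sn u s⟩

theorem r278b_slice_mono {r : ℕ} {X X' : Finset (Fin (r + 1) → ℕ)} (h : X ⊆ X') (s : ℕ) :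
    r278b_slice X s ⊆ r278b_slice X' s := fun _ hu => r278b_mem_slice.2 (h (r278b_mem_slice.1 hu))

theorem r278b_slice_subset_box {r : ℕ} {b : Fin (r + 1) → ℕ} {d : ℕ} {X : Finset (Fin (r + 1) → ℕ)}
    (hX : X ⊆ r278b_box b d) (s : ℕ) : r278b_slice X s ⊆ r278b_box (Fin.init b) (d - s) := fun _ hu =>
  (r278b_sn_mem_box.1 (hX (r278b_mem_slice.1 hu))).2.2

theorem r278b_slice_eq_empty {r : ℕ} {b : Fin (r + 1) → ℕ} {d : ℕ} {X : Finset (Fin (r + 1) → ℕ)}
    (hX : X ⊆ r278b_box b d) {s : ℕ} (hs : b (Fin.last r) < s ∨ d < s) : r278b_slice X s = ∅ := by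
  refine eq_empty_of_forall_notMem fun u hu => ?_
  have := r278b_sn_mem_box.1 (hX (r278b_mem_slice.1 hu))
  omega

theorem r278b_card_eq_sum_slice {r : ℕ} {b : Fin (r + 1) → ℕ} {d : ℕ} {X : Finset (Fin (r + 1) → ℕ)}
    (hX : X ⊆ r278b_box b d) : X.card = ∑ s ∈ range (b (Fin.last r) + 1), (r278b_slice X s).card := by
  rw [card_eq_sum_card_fiberwise (f := fun w : Fin (r + 1) → ℕ => w (Fin.last r)) (t := range (b (Fin.last r) + 1))]
  · refine sum_congr rfl fun s _ => ?_
    rw [r278b_slice, card_image_of_injOn]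
    intro w hw w' hw' h
    have h1 := (mem_filter.1 (mem_coe.1 hw)).2
    have h2 := (mem_filter.1 (mem_coe.1 hw')).2
    rw [← r278b_sn_init w, ← r278b_sn_init w', h, h1, h2]
  · intro w hw
    have := (r278b_mem_box.1 (hX (mem_coe.1 hw))).2 (Fin.last r)
    exact mem_coe.2 (mem_range.2 (Nat.lt_succ_of_le this))

/-- slices of a segment are segments -/
theorem r278b_seg_slice {r : ℕ} (b : Fin (r + 1) → ℕ) (d s : ℕ) {Y : Finset (Fin (r + 1) → ℕ)}
    (hY : R278bSeg (r278b_box b d) Y) : R278bSeg (r278b_box (Fin.init b) (d - s)) (r278b_slice Y s) := by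
  refine ⟨r278b_slice_subset_box hY.1 s, fun u hu v hv hvu => ?_⟩
  have hu' := r278b_mem_slice.1 hu
  have hb := r278b_sn_mem_box.1 (hY.1 hu')
  exact r278b_mem_slice.2 (hY.2 _ hu' _ (r278b_sn_mem_box.2 ⟨hb.1, hb.2.1, hv⟩) (r278b_gt_sn.2 (Or.inl hvu)))

/-- slices of a stable set are stable -/
theorem r278b_stable_slice {r : ℕ} (b : Fin (r + 1) → ℕ) (s : ℕ) {X : Finset (Fin (r + 1) → ℕ)}
    (hst : R278bStable b X) : R278bStable (Fin.init b) (r278b_slice X s) := by
  intro w h l hhl hw hh
  rw [r278b_mem_slice, ← r278b_sn_add_cast] at hw ⊢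
  refine hst _ _ _ (Fin.castSucc_lt_castSucc_iff.2 hhl) hw ?_
  rw [r278b_sn_cast]
  exact hh

/-- (F2) the shadow of the slice `s + 1` lies in the slice `s` -/
theorem r278b_shadow_slice_succ {r : ℕ} (b : Fin (r + 1) → ℕ) (s : ℕ) {X : Finset (Fin (r + 1) → ℕ)}
    (hst : R278bStable b X) : r278b_shadow (Fin.init b) (r278b_slice X (s + 1)) ⊆ r278b_slice X s := by
  intro v hv
  obtain ⟨u, hu, h, hh, rfl⟩ := r278b_mem_shadow.1 hv
  rw [r278b_mem_slice, ← r278b_sn_add_last] at hu
  rw [r278b_mem_slice, ← r278b_sn_add_cast]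
  refine hst _ _ _ (Fin.castSucc_lt_last h) hu ?_
  rw [r278b_sn_cast]
  exact hh

/-- a set cut out of the box by an upward closed condition on the first `r` coordinates is a segment -/
theorem r278b_seg_of_init {r : ℕ} (b : Fin (r + 1) → ℕ) (d : ℕ) (P : (Fin r → ℕ) → Prop) [DecidablePred P]
    (hP : ∀ u u', P u → r278b_gt u' u → P u') :
    R278bSeg (r278b_box b d) ((r278b_box b d).filter fun w => P (Fin.init w)) := by
  refine ⟨filter_subset _ _, fun w hw w' hw' hgt => ?_⟩
  rw [mem_filter] at hw ⊢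
  refine ⟨hw', ?_⟩
  rw [← r278b_sn_init w, ← r278b_sn_init w', r278b_gt_sn] at hgt
  rcases hgt with h | ⟨h, _⟩
  · exact hP _ _ hw.2 h
  · rw [h]
    exact hw.2

theorem r278b_top_zero {r : ℕ} (S : Finset (Fin r → ℕ)) : r278b_top S 0 = ∅ := by
  simp [r278b_top]

theorem r278b_shadow_empty {r : ℕ} (b : Fin r → ℕ) : r278b_shadow b ∅ = ∅ := by
  simp [r278b_shadow]

/-! ## the induction on the number of coordinates -/

theorem r278b_exists_greatest {r : ℕ} {S : Finset (Fin r → ℕ)} (h : S.Nonempty) :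
    ∃ v ∈ S, ∀ v' ∈ S, ¬ r278b_gt v' v := by
  obtain ⟨v, hv, hmax⟩ := exists_max_image S (fun u => toLex u) h
  exact ⟨v, hv, fun v' hv' hgt => absurd ((r278b_gt_iff v' v).1 hgt) (not_lt.2 (hmax v' hv'))⟩

theorem r278b_exists_least {r : ℕ} {S : Finset (Fin r → ℕ)} (h : S.Nonempty) :
    ∃ v ∈ S, ∀ v' ∈ S, ¬ r278b_gt v v' := by
  obtain ⟨v, hv, hmin⟩ := exists_min_image S (fun u => toLex u) h
  exact ⟨v, hv, fun v' hv' hgt => absurd ((r278b_gt_iff v v').1 hgt) (not_lt.2 (hmin v' hv'))⟩

/-- the shadow inequality in `r` coordinates (= the induction hypothesis) -/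
def R278bSh (r : ℕ) : Prop :=
  ∀ (b : Fin r → ℕ) (d : ℕ) (X : Finset (Fin r → ℕ)), X ⊆ r278b_box b d → R278bStable b X →
    (r278b_shadow b (r278b_top (r278b_box b d) X.card)).card ≤ (r278b_shadow b X).card

/-- the slicewise lex replacement -/
def r278b_Z {r : ℕ} (b : Fin (r + 1) → ℕ) (d : ℕ) (X : Finset (Fin (r + 1) → ℕ)) (s : ℕ) : Finset (Fin r → ℕ) :=
  r278b_top (r278b_box (Fin.init b) (d - s)) (r278b_slice X s).card

theorem r278b_Z_seg {r : ℕ} (b : Fin (r + 1) → ℕ) (d : ℕ) (X : Finset (Fin (r + 1) → ℕ)) (s : ℕ) :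
    R278bSeg (r278b_box (Fin.init b) (d - s)) (r278b_Z b d X s) := r278b_top_seg _ _

theorem r278b_Z_card {r : ℕ} {b : Fin (r + 1) → ℕ} {d : ℕ} {X : Finset (Fin (r + 1) → ℕ)} (hX : X ⊆ r278b_box b d)
    (s : ℕ) : (r278b_Z b d X s).card = (r278b_slice X s).card :=
  r278b_card_top _ _ (card_le_card (r278b_slice_subset_box hX s))

theorem r278b_Z_le {r : ℕ} {b : Fin (r + 1) → ℕ} {d : ℕ} {X : Finset (Fin (r + 1) → ℕ)} (hX : X ⊆ r278b_box b d)
    {s : ℕ} {u : Fin r → ℕ} (hu : u ∈ r278b_Z b d X s) : s ≤ d := by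
  by_contra hcon
  have : r278b_slice X s = ∅ := r278b_slice_eq_empty hX (Or.inr (by omega))
  rw [r278b_Z, this, card_empty, r278b_top_zero] at hu
  exact absurd hu (notMem_empty _)

/-- (F3) -/
theorem r278b_Z_shadow {r : ℕ} (IH : R278bSh r) {b : Fin (r + 1) → ℕ} {d : ℕ} {X : Finset (Fin (r + 1) → ℕ)}
    (hX : X ⊆ r278b_box b d) (hst : R278bStable b X) (s : ℕ) :
    r278b_shadow (Fin.init b) (r278b_Z b d X (s + 1)) ⊆ r278b_Z b d X s := by
  by_cases hs : s + 1 ≤ d
  · have e : d - s = (d - (s + 1)) + 1 := by omega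
    have h1 : R278bSeg (r278b_box (Fin.init b) (d - s)) (r278b_shadow (Fin.init b) (r278b_Z b d X (s + 1))) := by
      rw [e]
      exact r278b_seg_shadow _ _ (r278b_Z_seg b d X (s + 1))
    refine r278b_seg_subset h1 (r278b_Z_seg b d X s) ?_
    rw [r278b_Z_card hX s]
    exact (IH _ _ _ (r278b_slice_subset_box hX (s + 1)) (r278b_stable_slice b (s + 1) hst)).trans
      (card_le_card (r278b_shadow_slice_succ b s hst))
  · have : r278b_slice X (s + 1) = ∅ := r278b_slice_eq_empty hX (Or.inr (by omega))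
    rw [r278b_Z, this, card_empty, r278b_top_zero, r278b_shadow_empty]
    exact empty_subset _

theorem r278b_zero_aux {r : ℕ} (IH : R278bSh r) (b : Fin (r + 1) → ℕ) (d : ℕ) {X : Finset (Fin (r + 1) → ℕ)}
    (hX : X ⊆ r278b_box b d) (hst : R278bStable b X) {v : Fin r → ℕ} (hv : v ∈ r278b_box (Fin.init b) d)
    (hv0 : ∀ u ∈ r278b_Z b d X 0, r278b_gt u v) : ∀ s, ∀ u ∈ r278b_Z b d X s, r278b_gt u v := by
  intro s
  induction s with
  | zero => exact hv0
  | succ s ih =>
    intro u hu
    have hub := r278b_mem_box.1 ((r278b_Z_seg b d X (s + 1)).1 hu)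
    have hsd : s + 1 ≤ d := r278b_Z_le hX hu
    have hvb := r278b_mem_box.1 hv
    rcases r278b_gt_tri u v with hh | hh | hh
    · exfalso
      obtain ⟨k, hk1, hk2⟩ := hh
      have hkroom : u k < Fin.init b k := lt_of_lt_of_le hk2 (hvb.2 k)
      obtain ⟨p, hp, hlast⟩ := r278b_exists_last (fun j => u j < Fin.init b j) ⟨k, hkroom⟩
      have hp' : u p < Fin.init b p := hp
      have hkp : k ≤ p := by
        by_contra hlt
        exact hlast k (not_le.1 hlt) hkroom
      have hmem : u + Pi.single p 1 ∈ r278b_Z b d X s :=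
        r278b_Z_shadow IH hX hst s (r278b_mem_shadow.2 ⟨u, hu, p, hp', rfl⟩)
      have hgt := ih _ hmem
      rcases eq_or_lt_of_le hkp with e | e
      · subst e
        by_cases hc : u k + 1 < v k
        · refine r278b_gt_asymm hgt ⟨k, fun j hj => ?_, ?_⟩
          · rw [r278b_add_single_ne u hj.ne]
            exact hk1 j hj
          · rw [r278b_add_single_self]
            exact hc
        · have hle : ∀ j, v j ≤ (u + Pi.single k 1 : Fin r → ℕ) j := by
            intro j
            rcases lt_trichotomy j k with hj | hj | hj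
            · rw [r278b_add_single_ne u hj.ne, hk1 j hj]
            · subst hj
              rw [r278b_add_single_self]
              omega
            · rw [r278b_add_single_ne u hj.ne']
              have h1 : ¬ (u j < Fin.init b j) := hlast j hj
              have h2 := hvb.2 j
              omega
          have hsum : ∑ j, v j = ∑ j, (u + Pi.single k 1 : Fin r → ℕ) j := by
            refine le_antisymm (sum_le_sum fun j _ => hle j) ?_
            rw [r278b_sum_add_single, hub.1, hvb.1]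
            omega
          have hveq := r278b_eq_of_le_of_sum hle hsum
          rw [← hveq] at hgt
          exact r278b_gt_irrefl _ hgt
      · refine r278b_gt_asymm hgt ⟨k, fun j hj => ?_, ?_⟩
        · rw [r278b_add_single_ne u (hj.trans e).ne]
          exact hk1 j hj
        · rw [r278b_add_single_ne u e.ne]
          exact hk2
    · exfalso
      subst hh
      have h1 := hub.1
      have h2 := hvb.1
      omega
    · exact hh

/-- the zero slice, given the shadow inequality one dimension lower -/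
theorem r278b_zero_core {r : ℕ} (IH : R278bSh r) (b : Fin (r + 1) → ℕ) (d : ℕ) {X Y : Finset (Fin (r + 1) → ℕ)}
    (hX : X ⊆ r278b_box b d) (hst : R278bStable b X) (hY : R278bSeg (r278b_box b d) Y) (hc : Y.card = X.card) :
    (r278b_slice Y 0).card ≤ (r278b_slice X 0).card := by
  rw [← r278b_Z_card hX 0]
  by_cases hfull : r278b_box (Fin.init b) d ⊆ r278b_Z b d X 0
  · refine card_le_card (fun u hu => hfull ?_)
    have := r278b_slice_subset_box hY.1 0 hu
    simpa using this
  · obtain ⟨v0, hv0, hv0'⟩ := not_subset.1 hfull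
    obtain ⟨v, hv, hvmax⟩ := r278b_exists_greatest
      (S := r278b_box (Fin.init b) d \ r278b_Z b d X 0) ⟨v0, mem_sdiff.2 ⟨hv0, hv0'⟩⟩
    have hvb : v ∈ r278b_box (Fin.init b) d := (mem_sdiff.1 hv).1
    have hvZ : v ∉ r278b_Z b d X 0 := (mem_sdiff.1 hv).2
    have hseg0 := r278b_Z_seg b d X 0
    have hZ0 : ∀ u ∈ r278b_Z b d X 0, r278b_gt u v := by
      intro u hu
      rcases r278b_gt_tri u v with h | h | h
      · exact absurd (hseg0.2 u hu v (by simpa using hvb) h) hvZ
      · exact absurd (h ▸ hu) hvZ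
      · exact h
    have hall := r278b_zero_aux IH b d hX hst hvb hZ0
    have hGseg : R278bSeg (r278b_box b d) ((r278b_box b d).filter fun w => r278b_gt (Fin.init w) v) :=
      r278b_seg_of_init b d (fun u => r278b_gt u v) (fun u u' h1 h2 => r278b_gt_trans h2 h1)
    have hcard : Y.card ≤ ((r278b_box b d).filter fun w => r278b_gt (Fin.init w) v).card := by
      rw [hc, r278b_card_eq_sum_slice hX, r278b_card_eq_sum_slice hGseg.1]
      refine sum_le_sum fun s hs => ?_
      rw [← r278b_Z_card hX s]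
      refine card_le_card fun u hu => ?_
      rw [r278b_mem_slice, mem_filter, r278b_init_sn]
      have hs' := mem_range.1 hs
      exact ⟨r278b_sn_mem_box.2 ⟨by omega, r278b_Z_le hX hu, (r278b_Z_seg b d X s).1 hu⟩, hall s u hu⟩
    have hYG := r278b_seg_subset hY hGseg hcard
    refine card_le_card fun u hu => ?_
    have h1 := hYG (r278b_mem_slice.1 hu)
    rw [mem_filter, r278b_init_sn] at h1
    by_contra hcon
    have hub : u ∈ r278b_box (Fin.init b) d := by simpa using (r278b_sn_mem_box.1 h1.1).2.2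
    exact hvmax u (mem_sdiff.2 ⟨hub, hcon⟩) h1.2

theorem r278b_top_aux {r : ℕ} (IH : R278bSh r) (b : Fin (r + 1) → ℕ) (d : ℕ) {X : Finset (Fin (r + 1) → ℕ)}
    (hX : X ⊆ r278b_box b d) (hst : R278bStable b X) (hβ : b (Fin.last r) ≤ d)
    {v : Fin r → ℕ} (hv : v ∈ r278b_box (Fin.init b) (d - b (Fin.last r)))
    (hvβ : ∀ u ∈ r278b_box (Fin.init b) (d - b (Fin.last r)), (u = v ∨ r278b_gt u v) →
      u ∈ r278b_Z b d X (b (Fin.last r))) :
    ∀ t s, s + t = b (Fin.last r) → ∀ u ∈ r278b_box (Fin.init b) (d - s), (u = v ∨ r278b_gt u v) →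
      u ∈ r278b_Z b d X s := by
  intro t
  induction t with
  | zero =>
    intro s hs
    have hs' : s = b (Fin.last r) := by omega
    rw [hs']
    exact hvβ
  | succ t ih =>
    intro s hs u hu huv
    have hub := r278b_mem_box.1 hu
    have hvb := r278b_mem_box.1 hv
    have hgt : r278b_gt u v := by
      rcases huv with e | e
      · exfalso
        subst e
        have h1 := hub.1
        have h2 := hvb.1
        omega
      · exact e
    obtain ⟨k, hk1, hk2⟩ := hgt
    have hkpos : 0 < u k := by omega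
    obtain ⟨p, hp, hlast⟩ := r278b_exists_last (fun j => 0 < u j) ⟨k, hkpos⟩
    have hp' : 0 < u p := hp
    have hkp : k ≤ p := by
      by_contra hlt
      exact hlast k (not_le.1 hlt) hkpos
    have e1 : d - s = (d - (s + 1)) + 1 := by omega
    rw [e1] at hu
    obtain ⟨hu'box, hu'p⟩ := r278b_sub_single_mem_box hu hp'
    set u' := u - Pi.single p 1 with hu'
    have huu' : u' + Pi.single p 1 = u := r278b_sub_add u hp'
    have hu'ne : ∀ j, j ≠ p → u' j = u j := by
      intro j hj
      rw [← huu', r278b_add_single_ne u' hj]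
    have hu'pp : u' p + 1 = u p := by
      rw [← huu', r278b_add_single_self]
    have key : u' = v ∨ r278b_gt u' v := by
      rcases eq_or_lt_of_le hkp with e | e
      · subst e
        by_cases hc : v k + 1 < u k
        · refine Or.inr ⟨k, fun j hj => ?_, by omega⟩
          rw [hu'ne j hj.ne]
          exact hk1 j hj
        · have hle : ∀ j, u' j ≤ v j := by
            intro j
            rcases lt_trichotomy j k with hj | hj | hj
            · rw [hu'ne j hj.ne, hk1 j hj]
            · subst hj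
              omega
            · rw [hu'ne j hj.ne']
              have h1 : ¬ (0 < u j) := hlast j hj
              omega
          have hsum : ∑ j, u' j = ∑ j, v j := by
            refine le_antisymm (sum_le_sum fun j _ => hle j) ?_
            rw [(r278b_mem_box.1 hu'box).1, hvb.1]
            omega
          exact Or.inl (r278b_eq_of_le_of_sum hle hsum)
      · refine Or.inr ⟨k, fun j hj => ?_, ?_⟩
        · rw [hu'ne j (hj.trans e).ne]
          exact hk1 j hj
        · rw [hu'ne k e.ne]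
          exact hk2
    have hmem := ih (s + 1) (by omega) u' hu'box key
    have hfin : u' + Pi.single p 1 ∈ r278b_Z b d X s :=
      r278b_Z_shadow IH hX hst s (r278b_mem_shadow.2 ⟨u', hmem, p, hu'p, rfl⟩)
    rwa [huu'] at hfin

/-- the top slice, given the shadow inequality one dimension lower -/
theorem r278b_top_core {r : ℕ} (IH : R278bSh r) (b : Fin (r + 1) → ℕ) (d : ℕ) {X Y : Finset (Fin (r + 1) → ℕ)}
    (hX : X ⊆ r278b_box b d) (hst : R278bStable b X) (hY : R278bSeg (r278b_box b d) Y) (hc : Y.card = X.card) :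
    (r278b_slice X (b (Fin.last r))).card ≤ (r278b_slice Y (b (Fin.last r))).card := by
  rw [← r278b_Z_card hX (b (Fin.last r))]
  rcases (r278b_Z b d X (b (Fin.last r))).eq_empty_or_nonempty with he | hne
  · rw [he]
    simp
  · obtain ⟨v, hv, hvmin⟩ := r278b_exists_least hne
    have hβd : b (Fin.last r) ≤ d := r278b_Z_le hX hv
    have hseg := r278b_Z_seg b d X (b (Fin.last r))
    have hvβ : ∀ u ∈ r278b_box (Fin.init b) (d - b (Fin.last r)), (u = v ∨ r278b_gt u v) →
        u ∈ r278b_Z b d X (b (Fin.last r)) := by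
      intro u hu h
      rcases h with e | e
      · exact e ▸ hv
      · exact hseg.2 v hv u hu e
    have hall := r278b_top_aux IH b d hX hst hβd (hseg.1 hv) hvβ
    have hEseg : R278bSeg (r278b_box b d)
        ((r278b_box b d).filter fun w => Fin.init w = v ∨ r278b_gt (Fin.init w) v) :=
      r278b_seg_of_init b d (fun u => u = v ∨ r278b_gt u v) (fun u u' h1 h2 => Or.inr (by
        rcases h1 with e | e
        · exact e ▸ h2
        · exact r278b_gt_trans h2 e))
    have hcard : ((r278b_box b d).filter fun w => Fin.init w = v ∨ r278b_gt (Fin.init w) v).card ≤ Y.card := by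
      rw [hc, r278b_card_eq_sum_slice hX, r278b_card_eq_sum_slice hEseg.1]
      refine sum_le_sum fun s hs => ?_
      rw [← r278b_Z_card hX s]
      refine card_le_card fun u hu => ?_
      rw [r278b_mem_slice, mem_filter, r278b_init_sn] at hu
      have hs' := mem_range.1 hs
      exact hall (b (Fin.last r) - s) s (by omega) u (r278b_sn_mem_box.1 hu.1).2.2 hu.2
    have hEY := r278b_seg_subset hEseg hY hcard
    refine card_le_card fun u hu => ?_
    rw [r278b_mem_slice]
    refine hEY ?_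
    rw [mem_filter, r278b_init_sn]
    refine ⟨r278b_sn_mem_box.2 ⟨le_rfl, hβd, hseg.1 hu⟩, ?_⟩
    rcases r278b_gt_tri u v with h | h | h
    · exact absurd h (hvmin u hu)
    · exact Or.inl h
    · exact Or.inr h

theorem r278b_slice_shadow_zero {r : ℕ} (b : Fin (r + 1) → ℕ) (X : Finset (Fin (r + 1) → ℕ)) :
    r278b_slice (r278b_shadow b X) 0 = r278b_shadow (Fin.init b) (r278b_slice X 0) := by
  ext u
  rw [r278b_mem_slice, r278b_mem_shadow, r278b_mem_shadow]
  constructor
  · rintro ⟨w, hw, h, hh, e⟩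
    revert hh e
    refine Fin.lastCases ?_ (fun h' => ?_) h
    · intro _ e
      have := congrFun e (Fin.last r)
      rw [r278b_sn_last, r278b_add_single_self] at this
      omega
    · intro hh e
      rw [← r278b_sn_init w, r278b_sn_add_cast, r278b_sn_inj] at e
      refine ⟨Fin.init w, ?_, h', hh, e.1⟩
      rw [r278b_mem_slice, e.2, r278b_sn_init]
      exact hw
  · rintro ⟨u', hu', h, hh, rfl⟩
    refine ⟨r278b_sn u' 0, r278b_mem_slice.1 hu', h.castSucc, ?_, (r278b_sn_add_cast u' 0 h).symm⟩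
    rw [r278b_sn_cast]
    exact hh

theorem r278b_slice_shadow_succ {r : ℕ} (b : Fin (r + 1) → ℕ) {X : Finset (Fin (r + 1) → ℕ)}
    (hst : R278bStable b X) {t : ℕ} (ht : t < b (Fin.last r)) :
    r278b_slice (r278b_shadow b X) (t + 1) = r278b_slice X t := by
  ext u
  rw [r278b_mem_slice, r278b_mem_shadow, r278b_mem_slice]
  constructor
  · rintro ⟨w, hw, h, hh, e⟩
    revert hh e
    refine Fin.lastCases ?_ (fun h' => ?_) h
    · intro _ e
      rw [← r278b_sn_init w, r278b_sn_add_last, r278b_sn_inj] at e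
      have e2 : t = w (Fin.last r) := by omega
      rw [e.1, e2, r278b_sn_init]
      exact hw
    · intro hh e
      rw [← r278b_sn_init w, r278b_sn_add_cast, r278b_sn_inj] at e
      have hw' : r278b_sn (Fin.init w) t + Pi.single (Fin.last r) 1 ∈ X := by
        rw [r278b_sn_add_last, e.2, r278b_sn_init]
        exact hw
      have h3 := hst _ _ _ (Fin.castSucc_lt_last h') hw' (by rw [r278b_sn_cast]; exact hh)
      rw [r278b_sn_add_cast, ← e.1] at h3
      exact h3
  · intro hu
    exact ⟨r278b_sn u t, hu, Fin.last r, by rw [r278b_sn_last]; exact ht, (r278b_sn_add_last u t).symm⟩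

/-- the shadow count of a stable set -/
theorem r278b_shadow_count {r : ℕ} (b : Fin (r + 1) → ℕ) (d : ℕ) {X : Finset (Fin (r + 1) → ℕ)}
    (hX : X ⊆ r278b_box b d) (hst : R278bStable b X) :
    (r278b_shadow b X).card + (r278b_slice X (b (Fin.last r))).card =
      (r278b_shadow (Fin.init b) (r278b_slice X 0)).card + X.card := by
  have h1 : (r278b_shadow b X).card = (r278b_shadow (Fin.init b) (r278b_slice X 0)).card +
      ∑ t ∈ range (b (Fin.last r)), (r278b_slice X t).card := by
    rw [r278b_card_eq_sum_slice (r278b_shadow_subset_box hX), sum_range_succ', r278b_slice_shadow_zero, add_comm]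
    congr 1
    exact sum_congr rfl fun t ht => by rw [r278b_slice_shadow_succ b hst (mem_range.1 ht)]
  have h2 : X.card = ∑ t ∈ range (b (Fin.last r)), (r278b_slice X t).card +
      (r278b_slice X (b (Fin.last r))).card := by
    rw [r278b_card_eq_sum_slice hX, sum_range_succ]
  omega

theorem r278b_sh_all (r : ℕ) : R278bSh r := by
  induction r with
  | zero =>
    intro b d X _ _
    have : r278b_shadow b (r278b_top (r278b_box b d) X.card) = ∅ := by
      refine eq_empty_of_forall_notMem fun v hv => ?_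
      obtain ⟨_, _, h, _⟩ := r278b_mem_shadow.1 hv
      exact h.elim0
    rw [this]
    simp
  | succ r IH =>
    intro b d X hX hst
    have hY : R278bSeg (r278b_box b d) (r278b_top (r278b_box b d) X.card) := r278b_top_seg _ _
    have hc : (r278b_top (r278b_box b d) X.card).card = X.card := r278b_card_top _ _ (card_le_card hX)
    have h0 := r278b_zero_core IH b d hX hst hY hc
    have h1 := r278b_top_core IH b d hX hst hY hc
    have cX := r278b_shadow_count b d hX hst
    have cY := r278b_shadow_count b d hY.1 (r278b_seg_stable b d hY)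
    have h2 : (r278b_shadow (Fin.init b) (r278b_slice (r278b_top (r278b_box b d) X.card) 0)).card ≤
        (r278b_shadow (Fin.init b) (r278b_slice X 0)).card := by
      have hX0 : r278b_slice X 0 ⊆ r278b_box (Fin.init b) d := by simpa using r278b_slice_subset_box hX 0
      have hY0 : R278bSeg (r278b_box (Fin.init b) d) (r278b_slice (r278b_top (r278b_box b d) X.card) 0) := by
        simpa using r278b_seg_slice b d 0 hY
      have hL := r278b_top_seg (r278b_box (Fin.init b) d) (r278b_slice X 0).card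
      have hLc := r278b_card_top (r278b_box (Fin.init b) d) (r278b_slice X 0).card (card_le_card hX0)
      have hsub := r278b_seg_subset hY0 hL (by rw [hLc]; exact h0)
      exact (card_le_card (r278b_shadow_mono _ hsub)).trans (IH _ _ _ hX0 (r278b_stable_slice b 0 hst))
    omega

/-! ## the statements -/

/-- (ii a) **shadow inequality** -/
theorem r278b_shadow_le {r : ℕ} (b : Fin r → ℕ) (d : ℕ) {X : Finset (Fin r → ℕ)} (hX : X ⊆ r278b_box b d)
    (hst : R278bStable b X) :
    (r278b_shadow b (r278b_top (r278b_box b d) X.card)).card ≤ (r278b_shadow b X).card :=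
  r278b_sh_all r b d X hX hst

/-- (ii b) **zero slice** -/
theorem r278b_slice_zero_le {r : ℕ} (b : Fin (r + 1) → ℕ) (d : ℕ) {X : Finset (Fin (r + 1) → ℕ)}
    (hX : X ⊆ r278b_box b d) (hst : R278bStable b X) :
    (r278b_slice (r278b_top (r278b_box b d) X.card) 0).card ≤ (r278b_slice X 0).card :=
  r278b_zero_core (r278b_sh_all r) b d hX hst (r278b_top_seg _ _) (r278b_card_top _ _ (card_le_card hX))

/-- (ii c) **top slice** -/
theorem r278b_slice_top_le {r : ℕ} (b : Fin (r + 1) → ℕ) (d : ℕ) {X : Finset (Fin (r + 1) → ℕ)}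
    (hX : X ⊆ r278b_box b d) (hst : R278bStable b X) :
    (r278b_slice X (b (Fin.last r))).card ≤
      (r278b_slice (r278b_top (r278b_box b d) X.card) (b (Fin.last r))).card :=
  r278b_top_core (r278b_sh_all r) b d hX hst (r278b_top_seg _ _) (r278b_card_top _ _ (card_le_card hX))

/-- (iii) **[Prop. `box:ideal`]**: the degreewise lex replacement of a stable family closed under shadows is closed under shadows. -/
theorem r278b_lex_family {r : ℕ} (b : Fin r → ℕ) (X : ℕ → Finset (Fin r → ℕ)) (hX : ∀ d, X d ⊆ r278b_box b d)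
    (hst : ∀ d, R278bStable b (X d)) (hsh : ∀ d, r278b_shadow b (X d) ⊆ X (d + 1)) (d : ℕ) :
    r278b_shadow b (r278b_top (r278b_box b d) (X d).card) ⊆ r278b_top (r278b_box b (d + 1)) (X (d + 1)).card := by
  refine r278b_seg_subset (r278b_seg_shadow b d (r278b_top_seg _ _)) (r278b_top_seg _ _) ?_
  rw [r278b_card_top _ _ (card_le_card (hX (d + 1)))]
  exact (r278b_shadow_le b d (hX d) (hst d)).trans (card_le_card (hsh d))

end Claimed.Agent.R278
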