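-- KEEP (row 278, cell C4, post P3 = Clements-Lindstroem; pen 186).  Definitions + leaf statements.
import Mathlib

/-!
# Row 278, P3: the Clements-Lindstroem theorem (definitions)

Exponent vectors are `Fin r → ℕ`; lex order = `toLex` (first coordinate decides; segments start with the LARGEST vectors);
`b : Fin r → ℕ` are the bounds of the box (`u i ≤ b i`).
Route: Betti paper Sec. 5 (Lemma 5.1 for STABLE sets, induction on `r`, slices in the last coordinate) +
pair compression (arbitrary set -> stable set, same cardinality, smaller shadow; needs `b` monotone).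
-/

namespace Claimed.Agent.R278

open Finset

/-- the degree-`d` part of the exponent box with bounds `b`. -/
def r278cl_box {r : ℕ} (b : Fin r → ℕ) (d : ℕ) : Finset (Fin r → ℕ) :=
  (Finset.Nat.antidiagonalTuple r d).filter fun u => ∀ i, u i ≤ b i

/-- `Y` is an initial lex segment of `B` (lex-largest vectors first). -/
def r278cl_IsSeg {r : ℕ} (B Y : Finset (Fin r → ℕ)) : Prop :=
  Y ⊆ B ∧ ∀ u ∈ Y, ∀ v ∈ B, toLex u < toLex v → v ∈ Y

open scoped Classical in
/-- number of elements of `B` that are lex-larger than `u`. -/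
noncomputable def r278cl_rk {r : ℕ} (B : Finset (Fin r → ℕ)) (u : Fin r → ℕ) : ℕ :=
  (B.filter fun v => toLex u < toLex v).card

/-- the initial lex segment of `B` with `q` elements (all of `B` if `q ≥ B.card`). -/
noncomputable def r278cl_seg {r : ℕ} (B : Finset (Fin r → ℕ)) (q : ℕ) : Finset (Fin r → ℕ) :=
  B.filter fun u => r278cl_rk B u < q

/-- bounded upper shadow. -/
noncomputable def r278cl_shadow {r : ℕ} (b : Fin r → ℕ) (X : Finset (Fin r → ℕ)) : Finset (Fin r → ℕ) :=
  (X.biUnion fun u => Finset.univ.image fun h => u + Pi.single h 1).filter fun v => ∀ i, v i ≤ b i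

/-- stable in the box: a unit may be moved from a later coordinate `l` to an earlier one `h` that has room. -/
def r278cl_Stable {r : ℕ} (b : Fin r → ℕ) (X : Finset (Fin r → ℕ)) : Prop :=
  ∀ (w : Fin r → ℕ) (h l : Fin r), h < l → w + Pi.single l 1 ∈ X → w h < b h → w + Pi.single h 1 ∈ X

/-- forget the last coordinate. -/
def r278cl_init {r : ℕ} (u : Fin (r + 1) → ℕ) : Fin r → ℕ := fun i => u i.castSucc

/-- slice: last coordinate `= s`, the last coordinate forgotten. -/
noncomputable def r278cl_slice {r : ℕ} (X : Finset (Fin (r + 1) → ℕ)) (s : ℕ) : Finset (Fin r → ℕ) :=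
  (X.filter fun u => u (Fin.last r) = s).image r278cl_init

/-- label of the `(h,l)`-line through `u` (all of `u l` moved to `h`). -/
def r278cl_lab {r : ℕ} (h l : Fin r) (u : Fin r → ℕ) : Fin r → ℕ :=
  Function.update (Function.update u h (u h + u l)) l 0

/-- `(h,l)`-compression of `X` inside `B`: on every `(h,l)`-line of `B` take the initial lex segment with as many elements as `X` has there. -/
noncomputable def r278cl_comp {r : ℕ} (h l : Fin r) (B X : Finset (Fin r → ℕ)) : Finset (Fin r → ℕ) :=
  B.filter fun u => u ∈ r278cl_seg (B.filter fun v => r278cl_lab h l v = r278cl_lab h l u)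
    ((X.filter fun v => r278cl_lab h l v = r278cl_lab h l u).card)

/-- potential for the termination of compressions. -/
noncomputable def r278cl_pot {r : ℕ} (B X : Finset (Fin r → ℕ)) : ℕ := ∑ u ∈ X, r278cl_rk B u

theorem r278cl_mem_box {r : ℕ} {b : Fin r → ℕ} {d : ℕ} {u : Fin r → ℕ} :
    u ∈ r278cl_box b d ↔ ∑ i, u i = d ∧ ∀ i, u i ≤ b i := by
  simp [r278cl_box, Finset.Nat.mem_antidiagonalTuple]

theorem r278cl_mem_shadow {r : ℕ} {b : Fin r → ℕ} {X : Finset (Fin r → ℕ)} {v : Fin r → ℕ} :
    v ∈ r278cl_shadow b X ↔ (∃ u ∈ X, ∃ h, u + Pi.single h 1 = v) ∧ ∀ i, v i ≤ b i := by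
  simp [r278cl_shadow]

theorem r278cl_lt_iff {r : ℕ} {u v : Fin r → ℕ} :
    toLex u < toLex v ↔ ∃ i, (∀ j, j < i → u j = v j) ∧ u i < v i := Iff.rfl

theorem r278cl_mem_slice {r : ℕ} {X : Finset (Fin (r + 1) → ℕ)} {s : ℕ} {w : Fin r → ℕ} :
    w ∈ r278cl_slice X s ↔ (Fin.snoc w s : Fin (r + 1) → ℕ) ∈ X := by
  constructor
  · intro hw
    obtain ⟨u, hu, rfl⟩ := Finset.mem_image.1 hw
    obtain ⟨huX, rfl⟩ := Finset.mem_filter.1 hu
    have : (Fin.snoc (r278cl_init u) (u (Fin.last r)) : Fin (r + 1) → ℕ) = u := by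
      funext i
      refine Fin.lastCases ?_ (fun j => ?_) i
      · simp
      · simp [r278cl_init]
    rwa [this]
  · intro hw
    refine Finset.mem_image.2 ⟨_, Finset.mem_filter.2 ⟨hw, by simp⟩, ?_⟩
    funext i
    simp [r278cl_init]

end Claimed.Agent.R278
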