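-- KEEP (row 278, P3 Clements-Lindstroem; pen 186).  L1: initial lex segments of a finite set.
import Claimed.Agent.R278.CLDefs

namespace Claimed.Agent.R278

open Finset

variable {r : ℕ}

theorem r278cl_mem_seg {B : Finset (Fin r → ℕ)} {q : ℕ} {u : Fin r → ℕ} :
    u ∈ r278cl_seg B q ↔ u ∈ B ∧ r278cl_rk B u < q := by
  simp [r278cl_seg]

theorem r278cl_rk_lt_rk {B : Finset (Fin r → ℕ)} {u v : Fin r → ℕ} (hv : v ∈ B) (h : toLex u < toLex v) :
    r278cl_rk B v < r278cl_rk B u := by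
  classical
  unfold r278cl_rk
  apply Finset.card_lt_card
  have hsub : (B.filter fun w => toLex v < toLex w) ⊆ B.filter fun w => toLex u < toLex w := by
    intro w hw
    rw [Finset.mem_filter] at hw ⊢
    exact ⟨hw.1, h.trans hw.2⟩
  refine (Finset.ssubset_iff_of_subset hsub).2 ⟨v, Finset.mem_filter.2 ⟨hv, h⟩, fun hmem => ?_⟩
  exact lt_irrefl _ (Finset.mem_filter.1 hmem).2

theorem r278cl_rk_lt_card {B : Finset (Fin r → ℕ)} {u : Fin r → ℕ} (hu : u ∈ B) : r278cl_rk B u < B.card := by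
  classical
  unfold r278cl_rk
  apply Finset.card_lt_card
  refine (Finset.ssubset_iff_of_subset (Finset.filter_subset _ _)).2 ⟨u, hu, fun hmem => ?_⟩
  exact lt_irrefl _ (Finset.mem_filter.1 hmem).2

theorem r278cl_rk_injOn (B : Finset (Fin r → ℕ)) : Set.InjOn (r278cl_rk B) (B : Set (Fin r → ℕ)) := by
  intro u hu v hv huv
  rcases lt_trichotomy (toLex u) (toLex v) with h | h | h
  · exact absurd huv (r278cl_rk_lt_rk hv h).ne'
  · exact toLex.injective h
  · exact absurd huv (r278cl_rk_lt_rk hu h).ne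

theorem r278cl_seg_isSeg (B : Finset (Fin r → ℕ)) (q : ℕ) : r278cl_IsSeg B (r278cl_seg B q) := by
  refine ⟨Finset.filter_subset _ _, fun u hu v hv h => ?_⟩
  rw [r278cl_mem_seg] at hu ⊢
  exact ⟨hv, (r278cl_rk_lt_rk hv h).trans hu.2⟩

theorem r278cl_image_rk (B : Finset (Fin r → ℕ)) : B.image (r278cl_rk B) = Finset.range B.card := by
  apply Finset.eq_of_subset_of_card_le
  · intro k hk
    obtain ⟨u, hu, rfl⟩ := Finset.mem_image.1 hk
    exact Finset.mem_range.2 (r278cl_rk_lt_card hu)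
  · rw [Finset.card_range, Finset.card_image_of_injOn (r278cl_rk_injOn B)]

theorem r278cl_seg_card (B : Finset (Fin r → ℕ)) (q : ℕ) : (r278cl_seg B q).card = min q B.card := by
  have h1 : ((B.image (r278cl_rk B)).filter fun k => k < q) = (r278cl_seg B q).image (r278cl_rk B) := by
    rw [Finset.filter_image]
    rfl
  have h2 : ((r278cl_seg B q).image (r278cl_rk B)).card = (r278cl_seg B q).card :=
    Finset.card_image_of_injOn ((r278cl_rk_injOn B).mono (by
      intro u hu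
      exact (r278cl_mem_seg.1 hu).1))
  rw [← h2, ← h1, r278cl_image_rk]
  have h3 : ((Finset.range B.card).filter fun k => k < q) = Finset.range (min q B.card) := by
    ext k
    simp [and_comm]
  rw [h3, Finset.card_range]

theorem r278cl_IsSeg.subset_of_card_le {B Y₁ Y₂ : Finset (Fin r → ℕ)} (h₁ : r278cl_IsSeg B Y₁)
    (h₂ : r278cl_IsSeg B Y₂) (h : Y₁.card ≤ Y₂.card) : Y₁ ⊆ Y₂ := by
  by_contra hnot
  obtain ⟨u, hu1, hu2⟩ := Finset.not_subset.1 hnot
  have hsub : Y₂ ⊆ Y₁ := by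
    intro v hv
    rcases lt_trichotomy (toLex u) (toLex v) with hlt | heq | hgt
    · exact h₁.2 u hu1 v (h₂.1 hv) hlt
    · exact absurd (toLex.injective heq ▸ hv) hu2
    · exact absurd (h₂.2 v hv u (h₁.1 hu1) hgt) hu2
  have : Y₂.card < Y₁.card :=
    Finset.card_lt_card ((Finset.ssubset_iff_of_subset hsub).2 ⟨u, hu1, hu2⟩)
  omega

theorem r278cl_IsSeg.eq_of_card_eq {B Y₁ Y₂ : Finset (Fin r → ℕ)} (h₁ : r278cl_IsSeg B Y₁)
    (h₂ : r278cl_IsSeg B Y₂) (h : Y₁.card = Y₂.card) : Y₁ = Y₂ :=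
  Finset.Subset.antisymm (h₁.subset_of_card_le h₂ h.le) (h₂.subset_of_card_le h₁ h.ge)

theorem r278cl_IsSeg.eq_seg {B Y : Finset (Fin r → ℕ)} (h : r278cl_IsSeg B Y) : Y = r278cl_seg B Y.card := by
  refine h.eq_of_card_eq (r278cl_seg_isSeg B _) ?_
  rw [r278cl_seg_card, min_eq_left (Finset.card_le_card h.1)]

/-- an element of a segment has rank `<` the cardinality of the segment. -/
theorem r278cl_IsSeg.rk_lt {B Y : Finset (Fin r → ℕ)} (h : r278cl_IsSeg B Y) {u : Fin r → ℕ} (hu : u ∈ Y) :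
    r278cl_rk B u < Y.card := by
  have h1 := h.eq_seg
  rw [h1] at hu
  exact (r278cl_mem_seg.1 hu).2

/-- the elements of `B` above a given vector form a segment. -/
theorem r278cl_isSeg_filter_gt (B : Finset (Fin r → ℕ)) (v : Fin r → ℕ) [DecidablePred fun w : Fin r → ℕ => toLex v < toLex w] :
    r278cl_IsSeg B (B.filter fun w => toLex v < toLex w) := by
  refine ⟨Finset.filter_subset _ _, fun u hu w hw h => ?_⟩
  rw [Finset.mem_filter] at hu ⊢
  exact ⟨hw, hu.2.trans h⟩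

theorem r278cl_isSeg_self (B : Finset (Fin r → ℕ)) : r278cl_IsSeg B B :=
  ⟨Finset.Subset.refl _, fun _ _ _ hv _ => hv⟩

theorem r278cl_isSeg_empty (B : Finset (Fin r → ℕ)) : r278cl_IsSeg B ∅ :=
  ⟨Finset.empty_subset _, fun u hu => absurd hu (Finset.notMem_empty u)⟩

end Claimed.Agent.R278
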