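-- KEEP (row 278, P3 Clements-Lindstroem; pen of this file: 96).  L7d: compression does not increase the shadow.
import Claimed.Agent.R278.CLSeg
namespace Claimed.Agent.R278
open Finset

/-- the two-variable case in positions `t = u l` on a line `u h + u l = s` (bounds `βh ≤ βl`):
`T` = positions of the set on the line of degree `s`, `x` a position of the initial segment with `|T|` elements,
`y ∈ {x, x+1}` a position of its shadow on the line of degree `s+1`. -/
theorem r278cl_interval (s βh βl : ℕ) (hβ : βh ≤ βl) (T : Finset ℕ) (hT : ∀ t ∈ T, s - βh ≤ t ∧ t ≤ s ∧ t ≤ βl)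
    (x y : ℕ) (hx : x < (s - βh) + T.card) (hy : y = x ∨ y = x + 1) (hy1 : s + 1 - βh ≤ y) (hy2 : y ≤ s + 1) (hy3 : y ≤ βl) :
    y < (s + 1 - βh) + ((T ∪ T.image (· + 1)).filter fun t => s + 1 - βh ≤ t ∧ t ≤ βl).card := by
  classical
  set T2 := (T ∪ T.image (· + 1)).filter fun t => s + 1 - βh ≤ t ∧ t ≤ βl with hT2
  have memT2 : ∀ z, z ∈ T2 ↔ (z ∈ T ∨ ∃ t ∈ T, t + 1 = z) ∧ s + 1 - βh ≤ z ∧ z ≤ βl := by
    intro z
    simp [hT2]
  rcases Nat.lt_or_ge s βh with hs | hs
  · -- `s < βh`: no truncation at all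
    have hk : 0 < T.card := by omega
    have hne : T.Nonempty := Finset.card_pos.1 hk
    set m := T.min' hne with hm
    have hmT : m ∈ T := Finset.min'_mem T hne
    have hsub : insert m (T.image (· + 1)) ⊆ T2 := by
      intro z hz
      rcases Finset.mem_insert.1 hz with rfl | hz
      · exact (memT2 _).2 ⟨Or.inl hmT, by omega, (hT _ hmT).2.2⟩
      · obtain ⟨t, ht, rfl⟩ := Finset.mem_image.1 hz
        have := hT t ht
        exact (memT2 _).2 ⟨Or.inr ⟨t, ht, rfl⟩, by omega, by omega⟩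
    have hnot : m ∉ T.image (· + 1) := by
      intro hz
      obtain ⟨t, ht, hte⟩ := Finset.mem_image.1 hz
      have := Finset.min'_le T t ht
      omega
    have hc : (insert m (T.image (· + 1))).card = T.card + 1 := by
      rw [Finset.card_insert_of_notMem hnot, Finset.card_image_of_injective _ (add_left_injective 1)]
    have := Finset.card_le_card hsub
    omega
  · -- `βh ≤ s`
    by_cases hfull : ∀ z, s + 1 - βh ≤ z → z ≤ y → z ∈ T2
    · have hsub : Finset.Icc (s + 1 - βh) y ⊆ T2 := by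
        intro z hz
        obtain ⟨h1, h2⟩ := Finset.mem_Icc.1 hz
        exact hfull z h1 h2
      have := Finset.card_le_card hsub
      rw [Nat.card_Icc] at this
      omega
    · push Not at hfull
      obtain ⟨z, hz1, hz2, hz3⟩ := hfull
      have hzT : z ∉ T := fun h => hz3 ((memT2 z).2 ⟨Or.inl h, hz1, by omega⟩)
      have hzT' : ∀ t ∈ T, t + 1 ≠ z := fun t ht h => hz3 ((memT2 z).2 ⟨Or.inr ⟨t, ht, h⟩, hz1, by omega⟩)
      have hle : T.card ≤ T2.card := by
        refine Finset.card_le_card_of_injOn (fun t => if t < z then t + 1 else t) ?_ ?_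
        · intro t ht
          have h1 := hT t ht
          have h2 := hzT' t ht
          have h3 : t ≠ z := fun h => hzT (h ▸ ht)
          simp only [Finset.mem_coe]
          split_ifs with hlt
          · exact (memT2 _).2 ⟨Or.inr ⟨t, ht, rfl⟩, by omega, by omega⟩
          · exact (memT2 _).2 ⟨Or.inl ht, by omega, h1.2.2⟩
        · intro t ht t' ht' he
          have h2 := hzT' t ht
          have h2' := hzT' t' ht'
          have h3 : t ≠ z := fun h => hzT (h ▸ ht)
          have h3' : t' ≠ z := fun h => hzT (h ▸ ht')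
          simp only at he
          split_ifs at he <;> omega
      omega

variable {r : ℕ}

theorem r278cl96_lab_eq_iff {h l : Fin r} (hl : h ≠ l) {u v : Fin r → ℕ} :
    r278cl_lab h l v = r278cl_lab h l u ↔ (∀ i, i ≠ h → i ≠ l → v i = u i) ∧ v h + v l = u h + u l := by
  constructor
  · intro he
    refine ⟨fun i hih hil => ?_, ?_⟩
    · have := congrFun he i
      simpa [r278cl_lab, Function.update_of_ne hil, Function.update_of_ne hih] using this
    · have := congrFun he h
      simpa [r278cl_lab, Function.update_of_ne hl] using this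
  · rintro ⟨h1, h2⟩
    funext i
    by_cases hil : i = l
    · subst hil; simp [r278cl_lab]
    · by_cases hih : i = h
      · subst hih; simp [r278cl_lab, Function.update_of_ne hil, h2]
      · simp [r278cl_lab, Function.update_of_ne hil, Function.update_of_ne hih, h1 i hih hil]

theorem r278cl96_sum_split {h l : Fin r} (hl : h ≠ l) (u : Fin r → ℕ) :
    ∑ i, u i = u h + u l + ∑ i ∈ (Finset.univ.erase h).erase l, u i := by
  rw [← Finset.add_sum_erase Finset.univ u (Finset.mem_univ h),
    ← Finset.add_sum_erase (Finset.univ.erase h) u (Finset.mem_erase.2 ⟨hl.symm, Finset.mem_univ l⟩), add_assoc]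

theorem r278cl96_sum_eq {h l : Fin r} (hl : h ≠ l) {u v : Fin r → ℕ}
    (he : r278cl_lab h l v = r278cl_lab h l u) : ∑ i, v i = ∑ i, u i := by
  obtain ⟨h1, h2⟩ := (r278cl96_lab_eq_iff hl).1 he
  rw [r278cl96_sum_split hl u, r278cl96_sum_split hl v, h2]
  congr 1
  refine Finset.sum_congr rfl fun i hi => ?_
  obtain ⟨hil, hi'⟩ := Finset.mem_erase.1 hi
  exact h1 i (Finset.mem_erase.1 hi').1 hil

theorem r278cl96_lt_iff {h l : Fin r} (hl : h < l) {u v : Fin r → ℕ}
    (he : r278cl_lab h l v = r278cl_lab h l u) : toLex u < toLex v ↔ v l < u l := by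
  obtain ⟨h1, h2⟩ := (r278cl96_lab_eq_iff hl.ne).1 he
  rw [r278cl_lt_iff]
  constructor
  · rintro ⟨i, hi1, hi2⟩
    by_cases hih : i = h
    · subst hih; omega
    · by_cases hil : i = l
      · subst hil
        have := hi1 h hl
        omega
      · have := h1 i hih hil
        omega
  · intro hlt
    refine ⟨h, fun j hj => ?_, by omega⟩
    exact (h1 j hj.ne (hj.trans hl).ne).symm

/-- a point of a line is determined by its `l`-coordinate. -/
theorem r278cl96_line_inj {h l : Fin r} (hl : h ≠ l) {u v w : Fin r → ℕ}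
    (hv : r278cl_lab h l v = r278cl_lab h l u) (hw : r278cl_lab h l w = r278cl_lab h l u) (he : v l = w l) : v = w := by
  obtain ⟨h1, h2⟩ := (r278cl96_lab_eq_iff hl).1 hv
  obtain ⟨h3, h4⟩ := (r278cl96_lab_eq_iff hl).1 hw
  funext i
  by_cases hil : i = l
  · subst hil; exact he
  · by_cases hih : i = h
    · subst hih; omega
    · rw [h1 i hih hil, h3 i hih hil]

/-- the point of the line through `u` with `l`-coordinate `t`. -/
def r278cl96_pt (h l : Fin r) (u : Fin r → ℕ) (t : ℕ) : Fin r → ℕ :=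
  Function.update (Function.update u h (u h + u l - t)) l t

theorem r278cl96_pt_l (h l : Fin r) (u : Fin r → ℕ) (t : ℕ) : r278cl96_pt h l u t l = t := by
  simp [r278cl96_pt]

theorem r278cl96_pt_h {h l : Fin r} (hl : h ≠ l) (u : Fin r → ℕ) (t : ℕ) : r278cl96_pt h l u t h = u h + u l - t := by
  simp [r278cl96_pt, Function.update_of_ne hl]

theorem r278cl96_pt_of_ne {h l : Fin r} (u : Fin r → ℕ) (t : ℕ) {i : Fin r} (hih : i ≠ h) (hil : i ≠ l) :
    r278cl96_pt h l u t i = u i := by
  simp [r278cl96_pt, Function.update_of_ne hil, Function.update_of_ne hih]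

theorem r278cl96_pt_lab {h l : Fin r} (hl : h ≠ l) (u : Fin r → ℕ) {t : ℕ} (ht : t ≤ u h + u l) :
    r278cl_lab h l (r278cl96_pt h l u t) = r278cl_lab h l u := by
  rw [r278cl96_lab_eq_iff hl]
  refine ⟨fun i hih hil => r278cl96_pt_of_ne u t hih hil, ?_⟩
  rw [r278cl96_pt_l, r278cl96_pt_h hl]
  omega

theorem r278cl96_pt_mem_box {b : Fin r → ℕ} {d : ℕ} {h l : Fin r} (hl : h ≠ l) {u : Fin r → ℕ}
    (hu : u ∈ r278cl_box b d) {t : ℕ} (ht : t ≤ u h + u l) (ht1 : u h + u l - b h ≤ t) (ht2 : t ≤ b l) :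
    r278cl96_pt h l u t ∈ r278cl_box b d := by
  obtain ⟨hs, hbd⟩ := r278cl_mem_box.1 hu
  refine r278cl_mem_box.2 ⟨by rw [r278cl96_sum_eq hl (r278cl96_pt_lab hl u ht), hs], fun i => ?_⟩
  by_cases hil : i = l
  · subst hil; rw [r278cl96_pt_l]; exact ht2
  · by_cases hih : i = h
    · subst hih; rw [r278cl96_pt_h hl]; omega
    · rw [r278cl96_pt_of_ne u t hih hil]; exact hbd i

/-- rank of a point on its line = its position. -/
theorem r278cl96_rk_line (b : Fin r → ℕ) (d : ℕ) {h l : Fin r} (hl : h < l) {u : Fin r → ℕ}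
    (hu : u ∈ r278cl_box b d) :
    r278cl_rk ((r278cl_box b d).filter fun v => r278cl_lab h l v = r278cl_lab h l u) u
      = u l - (u h + u l - b h) := by
  classical
  unfold r278cl_rk
  rw [← Nat.card_Ico]
  obtain ⟨hs, hbd⟩ := r278cl_mem_box.1 hu
  refine Finset.card_bij (fun v _ => v l) ?_ ?_ ?_
  · intro v hv
    obtain ⟨hv1, hv2⟩ := Finset.mem_filter.1 hv
    obtain ⟨hvB, hvl⟩ := Finset.mem_filter.1 hv1
    have h3 := (r278cl96_lt_iff hl hvl).1 hv2
    obtain ⟨-, h4⟩ := (r278cl96_lab_eq_iff hl.ne).1 hvl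
    have h5 := (r278cl_mem_box.1 hvB).2 h
    exact Finset.mem_Ico.2 ⟨by omega, h3⟩
  · intro v hv w hw he
    obtain ⟨hv1, -⟩ := Finset.mem_filter.1 hv
    obtain ⟨hw1, -⟩ := Finset.mem_filter.1 hw
    exact r278cl96_line_inj hl.ne (Finset.mem_filter.1 hv1).2 (Finset.mem_filter.1 hw1).2 he
  · intro t ht
    obtain ⟨ht1, ht2⟩ := Finset.mem_Ico.1 ht
    have hlab := r278cl96_pt_lab hl.ne u (t := t) (by omega)
    refine ⟨r278cl96_pt h l u t, Finset.mem_filter.2 ⟨Finset.mem_filter.2
      ⟨r278cl96_pt_mem_box hl.ne hu (by omega) ht1 (by have := hbd l; omega), hlab⟩, ?_⟩, r278cl96_pt_l h l u t⟩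
    rw [r278cl96_lt_iff hl hlab, r278cl96_pt_l]
    exact ht2

theorem r278cl96_add_self (u : Fin r → ℕ) (j : Fin r) : (u + Pi.single j 1 : Fin r → ℕ) j = u j + 1 := by
  simp

theorem r278cl96_add_ne (u : Fin r → ℕ) {i j : Fin r} (hij : i ≠ j) : (u + Pi.single j 1 : Fin r → ℕ) i = u i := by
  simp [hij]

theorem r278cl96_lab_add_same {h l : Fin r} (hne : h ≠ l) {u w : Fin r → ℕ}
    (hwl : r278cl_lab h l w = r278cl_lab h l u) (j : Fin r) :
    r278cl_lab h l (w + Pi.single j 1) = r278cl_lab h l (u + Pi.single j 1) := by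
  obtain ⟨h1, h2⟩ := (r278cl96_lab_eq_iff hne).1 hwl
  rw [r278cl96_lab_eq_iff hne]
  refine ⟨fun i hih hil => ?_, ?_⟩
  · by_cases hij : i = j
    · subst hij; rw [r278cl96_add_self, r278cl96_add_self, h1 i hih hil]
    · rw [r278cl96_add_ne w hij, r278cl96_add_ne u hij, h1 i hih hil]
  · by_cases hjh : h = j
    · subst hjh
      rw [r278cl96_add_self, r278cl96_add_self, r278cl96_add_ne w hne.symm, r278cl96_add_ne u hne.symm]
      omega
    · by_cases hjl : l = j
      · subst hjl
        rw [r278cl96_add_self, r278cl96_add_self, r278cl96_add_ne w hne, r278cl96_add_ne u hne]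
        omega
      · rw [r278cl96_add_ne w hjh, r278cl96_add_ne w hjl, r278cl96_add_ne u hjh, r278cl96_add_ne u hjl, h2]

theorem r278cl96_lab_add_pair {h l : Fin r} (hne : h ≠ l) (u : Fin r → ℕ) :
    r278cl_lab h l (u + Pi.single h 1) = r278cl_lab h l (u + Pi.single l 1) := by
  rw [r278cl96_lab_eq_iff hne]
  refine ⟨fun i hih hil => ?_, ?_⟩
  · rw [r278cl96_add_ne u hih, r278cl96_add_ne u hil]
  · rw [r278cl96_add_self, r278cl96_add_self, r278cl96_add_ne u hne.symm, r278cl96_add_ne u hne]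
    omega


theorem r278cl96_sum_add (u : Fin r → ℕ) (j : Fin r) : ∑ i, (u + Pi.single j 1 : Fin r → ℕ) i = ∑ i, u i + 1 := by
  simp [Finset.sum_add_distrib, Pi.single_apply]

theorem r278cl96_mem_shadow {b : Fin r → ℕ} {X : Finset (Fin r → ℕ)} {w : Fin r → ℕ} (hw : w ∈ X)
    (hwb : ∀ i, w i ≤ b i) {j : Fin r} (hj : w j + 1 ≤ b j) : w + Pi.single j 1 ∈ r278cl_shadow b X := by
  refine r278cl_mem_shadow.2 ⟨⟨w, hw, j, rfl⟩, fun i => ?_⟩
  by_cases hij : i = j
  · subst hij; rw [r278cl96_add_self]; exact hj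
  · rw [r278cl96_add_ne w hij]; exact hwb i

/-- the unit is added inside the pair: the two-variable case. -/
theorem r278cl96_pair (b : Fin r → ℕ) (d : ℕ) {h l : Fin r} (hl : h < l) (hb : b h ≤ b l)
    {X : Finset (Fin r → ℕ)} (hX : X ⊆ r278cl_box b d) {u v : Fin r → ℕ}
    (hrk : u l - (u h + u l - b h) < (X.filter fun w => r278cl_lab h l w = r278cl_lab h l u).card)
    (hvlab : r278cl_lab h l v = r278cl_lab h l (u + Pi.single h 1))
    (hvl : v l = u l ∨ v l = u l + 1) (hvh : v h ≤ b h) (hvl' : v l ≤ b l) :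
    v l - (v h + v l - b h) < ((r278cl_shadow b X).filter fun w => r278cl_lab h l w = r278cl_lab h l v).card := by
  classical
  have hne : h ≠ l := hl.ne
  obtain ⟨-, hv2⟩ := (r278cl96_lab_eq_iff hne).1 hvlab
  rw [r278cl96_add_self, r278cl96_add_ne u hne.symm] at hv2
  set L := X.filter fun w => r278cl_lab h l w = r278cl_lab h l u with hL
  set S := (r278cl_shadow b X).filter fun w => r278cl_lab h l w = r278cl_lab h l v with hS
  set T := L.image (fun w => w l) with hT
  have hTc : T.card = L.card := by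
    refine Finset.card_image_of_injOn ?_
    intro w hw w' hw' he
    exact r278cl96_line_inj hne (Finset.mem_filter.1 (Finset.mem_coe.1 hw)).2
      (Finset.mem_filter.1 (Finset.mem_coe.1 hw')).2 he
  have hTb : ∀ t ∈ T, (u h + u l) - b h ≤ t ∧ t ≤ u h + u l ∧ t ≤ b l := by
    intro t ht
    obtain ⟨w, hw, rfl⟩ := Finset.mem_image.1 ht
    obtain ⟨hwX, hwl⟩ := Finset.mem_filter.1 hw
    obtain ⟨-, h2⟩ := (r278cl96_lab_eq_iff hne).1 hwl
    have hwb := (r278cl_mem_box.1 (hX hwX)).2
    have := hwb h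
    have := hwb l
    refine ⟨by omega, by omega, by omega⟩
  have key := r278cl_interval (u h + u l) (b h) (b l) hb T hTb (u l) (v l) (by rw [hTc]; omega) hvl
    (by omega) (by omega) hvl'
  have hsub : ((T ∪ T.image (· + 1)).filter fun t => u h + u l + 1 - b h ≤ t ∧ t ≤ b l) ⊆ S.image (fun w => w l) := by
    intro z hz
    obtain ⟨hz1, hz2, hz3⟩ := Finset.mem_filter.1 hz
    rcases Finset.mem_union.1 hz1 with hzT | hzT
    · obtain ⟨w, hw, rfl⟩ := Finset.mem_image.1 hzT
      obtain ⟨hwX, hwl⟩ := Finset.mem_filter.1 hw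
      obtain ⟨-, h2⟩ := (r278cl96_lab_eq_iff hne).1 hwl
      have hwb := (r278cl_mem_box.1 (hX hwX)).2
      refine Finset.mem_image.2 ⟨w + Pi.single h 1, Finset.mem_filter.2
        ⟨r278cl96_mem_shadow hwX hwb (by omega), ?_⟩, r278cl96_add_ne w hne.symm⟩
      rw [hvlab]
      exact r278cl96_lab_add_same hne hwl h
    · obtain ⟨t, ht, rfl⟩ := Finset.mem_image.1 hzT
      obtain ⟨w, hw, rfl⟩ := Finset.mem_image.1 ht
      obtain ⟨hwX, hwl⟩ := Finset.mem_filter.1 hw
      have hwb := (r278cl_mem_box.1 (hX hwX)).2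
      refine Finset.mem_image.2 ⟨w + Pi.single l 1, Finset.mem_filter.2
        ⟨r278cl96_mem_shadow hwX hwb hz3, ?_⟩, r278cl96_add_self w l⟩
      rw [hvlab, r278cl96_lab_add_pair hne u]
      exact r278cl96_lab_add_same hne hwl l
  have h1 := Finset.card_le_card hsub
  have h2 : (S.image (fun w => w l)).card ≤ S.card := Finset.card_image_le
  omega

/-- the core: a point of the shadow of the compression lies in the initial segment of its line that has as many elements
as the shadow of `X` has on that line. -/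
theorem r278cl96_core (b : Fin r → ℕ) (d : ℕ) {h l : Fin r} (hl : h < l) (hb : b h ≤ b l)
    {X : Finset (Fin r → ℕ)} (hX : X ⊆ r278cl_box b d) {v : Fin r → ℕ}
    (hv : v ∈ r278cl_shadow b (r278cl_comp h l (r278cl_box b d) X)) :
    v ∈ r278cl_seg ((r278cl_box b (d + 1)).filter fun w => r278cl_lab h l w = r278cl_lab h l v)
      (((r278cl_shadow b X).filter fun w => r278cl_lab h l w = r278cl_lab h l v).card) := by
  classical
  obtain ⟨⟨u, hu, j, rfl⟩, hvb⟩ := r278cl_mem_shadow.1 hv
  obtain ⟨huB, hu2⟩ := Finset.mem_filter.1 hu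
  have hrk := (Finset.mem_filter.1 hu2).2
  rw [r278cl96_rk_line b d hl huB] at hrk
  obtain ⟨hus, hub⟩ := r278cl_mem_box.1 huB
  have hvB : u + Pi.single j 1 ∈ r278cl_box b (d + 1) :=
    r278cl_mem_box.2 ⟨by rw [r278cl96_sum_add, hus], hvb⟩
  refine Finset.mem_filter.2 ⟨Finset.mem_filter.2 ⟨hvB, rfl⟩, ?_⟩
  rw [r278cl96_rk_line b (d + 1) hl hvB]
  have hne : h ≠ l := hl.ne
  by_cases hjh : j = h
  · subst hjh
    exact r278cl96_pair b d hl hb hX hrk rfl (Or.inl (r278cl96_add_ne u hne.symm)) (hvb j) (hvb l)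
  · by_cases hjl : j = l
    · subst hjl
      exact r278cl96_pair b d hl hb hX hrk (r278cl96_lab_add_pair hne u).symm (Or.inr (r278cl96_add_self u j))
        (hvb h) (hvb j)
    · -- the unit is added outside the pair
      rw [r278cl96_add_ne u (Ne.symm hjh), r278cl96_add_ne u (Ne.symm hjl)]
      refine lt_of_lt_of_le hrk ?_
      refine Finset.card_le_card_of_injOn (fun w => w + Pi.single j 1) ?_ ?_
      · intro w hw
        obtain ⟨hwX, hwl⟩ := Finset.mem_filter.1 (Finset.mem_coe.1 hw)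
        obtain ⟨h1, h2⟩ := (r278cl96_lab_eq_iff hne).1 hwl
        have hwb := (r278cl_mem_box.1 (hX hwX)).2
        refine Finset.mem_coe.2 (Finset.mem_filter.2 ⟨r278cl96_mem_shadow hwX hwb ?_, r278cl96_lab_add_same hne hwl j⟩)
        have := hvb j
        rw [r278cl96_add_self] at this
        rw [h1 j hjh hjl]; exact this
      · intro w _ w' _ he
        exact add_right_cancel he

/-- L7d: `|∂(C X)| ≤ |∂X|` for the `(h,l)`-compression, `h < l`, `b h ≤ b l`. -/
theorem r278cl_shadow_comp_le {r : ℕ} (b : Fin r → ℕ) (d : ℕ) {h l : Fin r} (hl : h < l) (hb : b h ≤ b l)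
    {X : Finset (Fin r → ℕ)} (hX : X ⊆ r278cl_box b d) :
    (r278cl_shadow b (r278cl_comp h l (r278cl_box b d) X)).card ≤ (r278cl_shadow b X).card := by
  classical
  set P := r278cl_shadow b (r278cl_comp h l (r278cl_box b d) X) with hP
  set Q := r278cl_shadow b X with hQ
  set Λ := (P ∪ Q).image (r278cl_lab h l) with hΛ
  rw [Finset.card_eq_sum_card_fiberwise (f := r278cl_lab h l) (t := Λ)
      (fun x hx => Finset.mem_coe.2 (Finset.mem_image_of_mem _ (Finset.mem_union_left _ (Finset.mem_coe.1 hx)))),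
    Finset.card_eq_sum_card_fiberwise (s := Q) (f := r278cl_lab h l) (t := Λ)
      (fun x hx => Finset.mem_coe.2 (Finset.mem_image_of_mem _ (Finset.mem_union_right _ (Finset.mem_coe.1 hx))))]
  refine Finset.sum_le_sum fun lam _ => ?_
  have hsub : (P.filter fun w => r278cl_lab h l w = lam) ⊆
      r278cl_seg ((r278cl_box b (d + 1)).filter fun w => r278cl_lab h l w = lam)
        ((Q.filter fun w => r278cl_lab h l w = lam).card) := by
    intro v hv
    obtain ⟨hvP, rfl⟩ := Finset.mem_filter.1 hv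
    exact r278cl96_core b d hl hb hX hvP
  refine (Finset.card_le_card hsub).trans ?_
  rw [r278cl_seg_card]
  exact min_le_left _ _

end Claimed.Agent.R278
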