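-- KEEP (row 278, P3 Clements-Lindstroem; pen of this file: 106).  L7a-c,e: compression: cardinality, potential, fixed sets are stable, existence.
import Claimed.Agent.R278.CLCompSh

namespace Claimed.Agent.R278

open Finset

variable {r : ℕ}

theorem r278cl_comp_subset (h l : Fin r) (B X : Finset (Fin r → ℕ)) : r278cl_comp h l B X ⊆ B :=
  Finset.filter_subset _ _

/-- the part of the compression on the line with label `lam` is the segment of that line. -/
theorem r278cl106_comp_fiber (h l : Fin r) (B X : Finset (Fin r → ℕ)) (lam : Fin r → ℕ) :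
    (r278cl_comp h l B X).filter (fun u => r278cl_lab h l u = lam) =
      r278cl_seg (B.filter fun v => r278cl_lab h l v = lam) ((X.filter fun v => r278cl_lab h l v = lam).card) := by
  ext u
  constructor
  · intro hu
    obtain ⟨hu1, rfl⟩ := Finset.mem_filter.1 hu
    exact (Finset.mem_filter.1 hu1).2
  · intro hu
    have h1 : u ∈ B.filter fun v => r278cl_lab h l v = lam := (Finset.mem_filter.1 hu).1
    obtain ⟨h2, rfl⟩ := Finset.mem_filter.1 h1
    exact Finset.mem_filter.2 ⟨Finset.mem_filter.2 ⟨h2, hu⟩, rfl⟩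

theorem r278cl106_fiber_card_le (h l : Fin r) {B X : Finset (Fin r → ℕ)} (hX : X ⊆ B) (lam : Fin r → ℕ) :
    (X.filter fun v => r278cl_lab h l v = lam).card ≤ (B.filter fun v => r278cl_lab h l v = lam).card :=
  Finset.card_le_card (Finset.filter_subset_filter _ hX)

theorem r278cl106_comp_fiber_card (h l : Fin r) {B X : Finset (Fin r → ℕ)} (hX : X ⊆ B) (lam : Fin r → ℕ) :
    ((r278cl_comp h l B X).filter (fun u => r278cl_lab h l u = lam)).card =
      (X.filter fun v => r278cl_lab h l v = lam).card := by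
  rw [r278cl106_comp_fiber, r278cl_seg_card, min_eq_left (r278cl106_fiber_card_le h l hX lam)]

/-- L7a -/
theorem r278cl_comp_card (h l : Fin r) {B X : Finset (Fin r → ℕ)} (hX : X ⊆ B) :
    (r278cl_comp h l B X).card = X.card := by
  rw [Finset.card_eq_sum_card_fiberwise (f := r278cl_lab h l) (t := B.image (r278cl_lab h l))
      (fun u hu => Finset.mem_image_of_mem _ (r278cl_comp_subset h l B X hu)),
    Finset.card_eq_sum_card_fiberwise (s := X) (f := r278cl_lab h l) (t := B.image (r278cl_lab h l))
      (fun u hu => Finset.mem_image_of_mem _ (hX hu))]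
  exact Finset.sum_congr rfl fun lam _ => r278cl106_comp_fiber_card h l hX lam

/-- On one line: a segment `Y` of `S` has the smallest sum of a function `g` that decreases strictly along the lex order, among the subsets
`T` of `S` with the same number of elements; strictly, unless `T = Y`. -/
theorem r278cl106_sum_seg_le {S Y T : Finset (Fin r → ℕ)} (g : (Fin r → ℕ) → ℕ)
    (hg : ∀ u ∈ S, ∀ v ∈ S, toLex u < toLex v → g v < g u)
    (hY : r278cl_IsSeg S Y) (hT : T ⊆ S) (hc : Y.card = T.card) :
    ∑ u ∈ Y, g u + (T \ Y).card ≤ ∑ u ∈ T, g u := by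
  classical
  have hcard : (Y \ T).card = (T \ Y).card := by
    have h1 := Finset.card_sdiff_add_card_inter Y T
    have h2 := Finset.card_sdiff_add_card_inter T Y
    rw [Finset.inter_comm] at h2
    omega
  have hY' : ∑ u ∈ Y, g u = ∑ u ∈ Y \ T, g u + ∑ u ∈ Y ∩ T, g u := by
    rw [← Finset.sum_union (Finset.disjoint_sdiff_inter Y T), Finset.sdiff_union_inter]
  have hT' : ∑ u ∈ T, g u = ∑ u ∈ T \ Y, g u + ∑ u ∈ Y ∩ T, g u := by
    rw [Finset.inter_comm, ← Finset.sum_union (Finset.disjoint_sdiff_inter T Y), Finset.sdiff_union_inter]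
  rw [hY', hT']
  have key : ∑ u ∈ Y \ T, g u + (T \ Y).card ≤ ∑ u ∈ T \ Y, g u := by
    rcases (T \ Y).eq_empty_or_nonempty with he | hne
    · have : Y \ T = ∅ := by
        rw [← Finset.card_eq_zero, hcard, he, Finset.card_empty]
      rw [he, this]
      simp
    · obtain ⟨t0, ht0, hmin⟩ := Finset.exists_min_image (T \ Y) g hne
      have hlt : ∀ y ∈ Y \ T, g y + 1 ≤ g t0 := by
        intro y hy
        obtain ⟨hy1, hy2⟩ := Finset.mem_sdiff.1 hy
        obtain ⟨ht1, ht2⟩ := Finset.mem_sdiff.1 ht0
        have hne' : toLex y ≠ toLex t0 := by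
          intro h
          exact ht2 (by rw [← toLex.injective h]; exact hy1)
        rcases lt_or_gt_of_ne hne' with h | h
        · exact absurd (hY.2 y hy1 t0 (hT ht1) h) ht2
        · exact hg t0 (hT ht1) y (hY.1 hy1) h
      calc ∑ u ∈ Y \ T, g u + (T \ Y).card = ∑ u ∈ Y \ T, (g u + 1) := by
            rw [Finset.sum_add_distrib, Finset.sum_const, smul_eq_mul, mul_one, hcard]
        _ ≤ (Y \ T).card • g t0 := Finset.sum_le_card_nsmul _ _ _ hlt
        _ = (T \ Y).card • g t0 := by rw [hcard]
        _ ≤ ∑ u ∈ T \ Y, g u := Finset.card_nsmul_le_sum _ _ _ hmin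
  omega

/-- L7b: the potential drops strictly unless `X` is fixed. -/
theorem r278cl_comp_pot_lt (h l : Fin r) {B X : Finset (Fin r → ℕ)} (hX : X ⊆ B) (hne : r278cl_comp h l B X ≠ X) :
    r278cl_pot B (r278cl_comp h l B X) < r278cl_pot B X := by
  classical
  set C := r278cl_comp h l B X with hC
  have hCB : C ⊆ B := r278cl_comp_subset h l B X
  have hline : ∀ lam, ∑ u ∈ C.filter (fun u => r278cl_lab h l u = lam), r278cl_rk B u +
        ((X.filter fun u => r278cl_lab h l u = lam) \ (C.filter fun u => r278cl_lab h l u = lam)).card ≤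
      ∑ u ∈ X.filter (fun u => r278cl_lab h l u = lam), r278cl_rk B u := by
    intro lam
    refine r278cl106_sum_seg_le (S := B.filter fun v => r278cl_lab h l v = lam) (r278cl_rk B) ?_ ?_
      (Finset.filter_subset_filter _ hX) (r278cl106_comp_fiber_card h l hX lam)
    · intro u _ v hv huv
      exact r278cl_rk_lt_rk (Finset.mem_filter.1 hv).1 huv
    · rw [hC, r278cl106_comp_fiber]
      exact r278cl_seg_isSeg _ _
  -- some element of `X` is not in `C`
  have hex : ∃ x ∈ X, x ∉ C := by
    by_contra hcon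
    push Not at hcon
    exact hne (Finset.eq_of_subset_of_card_le hcon (r278cl_comp_card h l hX).le).symm
  obtain ⟨x, hxX, hxC⟩ := hex
  unfold r278cl_pot
  rw [← Finset.sum_fiberwise_of_maps_to (s := C) (t := B.image (r278cl_lab h l)) (g := r278cl_lab h l)
      (fun u hu => Finset.mem_image_of_mem _ (hCB hu)),
    ← Finset.sum_fiberwise_of_maps_to (s := X) (t := B.image (r278cl_lab h l)) (g := r278cl_lab h l)
      (fun u hu => Finset.mem_image_of_mem _ (hX hu))]
  refine Finset.sum_lt_sum (fun lam _ => le_trans (Nat.le_add_right _ _) (hline lam))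
    ⟨r278cl_lab h l x, Finset.mem_image_of_mem _ (hX hxX), ?_⟩
  have hpos : 0 < ((X.filter fun u => r278cl_lab h l u = r278cl_lab h l x) \
      (C.filter fun u => r278cl_lab h l u = r278cl_lab h l x)).card := by
    apply Finset.card_pos.2
    exact ⟨x, Finset.mem_sdiff.2 ⟨Finset.mem_filter.2 ⟨hxX, rfl⟩, fun hx => hxC (Finset.mem_filter.1 hx).1⟩⟩
  have := hline (r278cl_lab h l x)
  omega

/-- L7c: a set fixed by all compressions is stable. -/
theorem r278cl_stable_of_fixed (b : Fin r → ℕ) (d : ℕ) {X : Finset (Fin r → ℕ)} (hX : X ⊆ r278cl_box b d)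
    (hfix : ∀ h l : Fin r, h < l → r278cl_comp h l (r278cl_box b d) X = X) : r278cl_Stable b X := by
  intro w h l hl hu hwh
  have hne : h ≠ l := ne_of_lt hl
  set u := w + Pi.single l 1 with hudef
  set v := w + Pi.single h 1 with hvdef
  have huB := r278cl_mem_box.1 (hX hu)
  have hvB : v ∈ r278cl_box b d := by
    rw [r278cl_mem_box]
    constructor
    · rw [← huB.1]
      simp [hudef, hvdef, Finset.sum_add_distrib]
    · intro i
      by_cases hi : i = h
      · subst hi
        simp [hvdef]
        omega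
      · have := huB.2 i
        simp only [hudef, hvdef, Pi.add_apply, Pi.single_apply, if_neg hi] at this ⊢
        omega
  have hlab : r278cl_lab h l v = r278cl_lab h l u := by
    funext i
    unfold r278cl_lab
    by_cases hil : i = l
    · subst hil
      simp
    · by_cases hih : i = h
      · subst hih
        simp [hudef, hvdef, hne, hne.symm]
        omega
      · simp [hudef, hvdef, Pi.single_apply, hil, hih]
  have hlt : toLex u < toLex v := by
    rw [r278cl_lt_iff]
    refine ⟨h, fun j hj => ?_, ?_⟩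
    · have h1 : j ≠ h := ne_of_lt hj
      have h2 : j ≠ l := ne_of_lt (hj.trans hl)
      simp [hudef, hvdef, h1, h2]
    · simp [hudef, hvdef, hne]
  have hu' : u ∈ r278cl_comp h l (r278cl_box b d) X := by rw [hfix h l hl]; exact hu
  have hu2 := (Finset.mem_filter.1 hu').2
  have hseg := r278cl_seg_isSeg ((r278cl_box b d).filter fun v => r278cl_lab h l v = r278cl_lab h l u)
    ((X.filter fun v => r278cl_lab h l v = r278cl_lab h l u).card)
  have hv2 := hseg.2 u hu2 v (Finset.mem_filter.2 ⟨hvB, hlab⟩) hlt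
  rw [← hfix h l hl]
  refine Finset.mem_filter.2 ⟨hvB, ?_⟩
  rw [hlab]
  exact hv2

/-- L7e: every subset of the box can be replaced by a stable one (take a minimiser of the potential among the sets of the same cardinality
whose shadow is not larger). -/
theorem r278cl_exists_stable (b : Fin r → ℕ) (hb : Monotone b) (d : ℕ) {X : Finset (Fin r → ℕ)} (hX : X ⊆ r278cl_box b d) :
    ∃ X' : Finset (Fin r → ℕ), X' ⊆ r278cl_box b d ∧ r278cl_Stable b X' ∧ X'.card = X.card ∧
      (r278cl_shadow b X').card ≤ (r278cl_shadow b X).card := by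
  classical
  set 𝓕 := (r278cl_box b d).powerset.filter fun X' =>
    X'.card = X.card ∧ (r278cl_shadow b X').card ≤ (r278cl_shadow b X).card with h𝓕
  have hne : 𝓕.Nonempty := ⟨X, Finset.mem_filter.2 ⟨Finset.mem_powerset.2 hX, rfl, le_rfl⟩⟩
  obtain ⟨X', hX', hmin⟩ := Finset.exists_min_image 𝓕 (r278cl_pot (r278cl_box b d)) hne
  obtain ⟨h1, h2, h3⟩ := Finset.mem_filter.1 hX'
  have h1' : X' ⊆ r278cl_box b d := Finset.mem_powerset.1 h1
  refine ⟨X', h1', r278cl_stable_of_fixed b d h1' fun h l hl => ?_, h2, h3⟩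
  by_contra hcon
  have hlt := r278cl_comp_pot_lt h l h1' hcon
  have hmem : r278cl_comp h l (r278cl_box b d) X' ∈ 𝓕 :=
    Finset.mem_filter.2 ⟨Finset.mem_powerset.2 (r278cl_comp_subset _ _ _ _),
      (r278cl_comp_card h l h1').trans h2,
      (r278cl_shadow_comp_le b d hl (hb hl.le) h1').trans h3⟩
  exact absurd (hmin _ hmem) (not_le.2 hlt)

end Claimed.Agent.R278
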