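-- KEEP
/-
Row 278, P3 + P7.  Bridges from `Box242.lean` (Betti paper Lemma 5.1, fully proved, prefix `bx_`)
to the vocabulary `r278cl_` of `CLDefs.lean` (pen 186).  Pen: helper242.  Prefix `bxcl_`.
-/
import Claimed.Agent.R278.CLDefs
import Claimed.Agent.R278.Box242

set_option autoImplicit false

namespace Claimed.Agent.R278

open Finset

theorem bxcl_box {r : ℕ} (b : Fin r → ℕ) (d : ℕ) : r278cl_box b d = bx_box b d := rfl

theorem bxcl_isSeg {r : ℕ} {B Y : Finset (Fin r → ℕ)} : r278cl_IsSeg B Y ↔ bx_IsSeg B Y := Iff.rfl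

theorem bxcl_shadow {r : ℕ} (b : Fin r → ℕ) (X : Finset (Fin r → ℕ)) :
    r278cl_shadow b X = bx_shadow b X := rfl

theorem bxcl_init {r : ℕ} (b : Fin (r + 1) → ℕ) : r278cl_init b = Fin.init b := rfl

theorem bxcl_slice {r : ℕ} (X : Finset (Fin (r + 1) → ℕ)) (s : ℕ) :
    r278cl_slice X s = bx_slice X s := rfl

theorem bxcl_stable {r : ℕ} {b : Fin r → ℕ} {X : Finset (Fin r → ℕ)} (h : r278cl_Stable b X) :
    bx_Stable b X := by
  intro u hu v h' l hhl heq hvb
  have hl : 0 < u l := by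
    have := congrFun heq l
    simp only [Pi.add_apply, bx_e_self, bx_e_ne hhl.ne'] at this
    omega
  have hw := bx_sub_e_add hl
  have hvh : (fun j => u j - bx_e l j) h' < b h' := by
    have h1 := congrFun heq h'
    have h2 := hvb h'
    simp only [Pi.add_apply, bx_e_self, bx_e_ne hhl.ne] at h1
    simp only [bx_e_ne hhl.ne]
    omega
  have := h (fun j => u j - bx_e l j) h' l hhl (by
    have h3 : (fun j => u j - bx_e l j) + Pi.single l 1 = u := hw
    rw [h3]; exact hu) hvh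
  have hv : v = (fun j => u j - bx_e l j) + Pi.single h' 1 := by
    have h4 : v + bx_e l = ((fun j => u j - bx_e l j) + bx_e h') + bx_e l := by
      rw [heq, add_right_comm, hw]
    exact add_right_cancel h4
  rw [hv]
  exact this

theorem bxcl_stable' {r : ℕ} {b : Fin r → ℕ} {d : ℕ} {X : Finset (Fin r → ℕ)}
    (hX : X ⊆ bx_box b d) (h : bx_Stable b X) : r278cl_Stable b X := by
  intro w h' l hhl hw hwh
  refine h _ hw _ h' l hhl (add_right_comm _ _ _) ?_
  intro i
  have hb := (bx_mem_box.1 (hX hw)).2 i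
  by_cases hi : i = h'
  · subst hi
    simp only [Pi.add_apply, Pi.single_eq_same]
    omega
  · simp only [Pi.add_apply, Pi.single_eq_of_ne hi] at hb ⊢
    omega

/-- L2 verbatim. -/
theorem bxcl_shadow_isSeg {r : ℕ} (b : Fin r → ℕ) (d : ℕ) {Y : Finset (Fin r → ℕ)}
    (hY : r278cl_IsSeg (r278cl_box b d) Y) : r278cl_IsSeg (r278cl_box b (d + 1)) (r278cl_shadow b Y) :=
  bx_shadow_isSeg hY

/-- L5 verbatim. -/
theorem bxcl_shadow_count {r : ℕ} (b : Fin (r + 1) → ℕ) (d : ℕ) {X : Finset (Fin (r + 1) → ℕ)}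
    (hX : X ⊆ r278cl_box b d) (hst : r278cl_Stable b X) :
    (r278cl_shadow b X).card + (r278cl_slice X (b (Fin.last r))).card =
      (r278cl_shadow (r278cl_init b) (r278cl_slice X 0)).card + X.card :=
  bx_shadow_count hX (bxcl_stable hst)

/-- L3 verbatim (no induction hypothesis needed any more). -/
theorem bxcl_zero_slice {r : ℕ} (b : Fin (r + 1) → ℕ) (d : ℕ)
    {X Y : Finset (Fin (r + 1) → ℕ)} (hX : X ⊆ r278cl_box b d) (hst : r278cl_Stable b X)
    (hY : r278cl_IsSeg (r278cl_box b d) Y) (hc : Y.card = X.card) :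
    (r278cl_slice Y 0).card ≤ (r278cl_slice X 0).card :=
  bx_slice_zero_le (bx_shadowLe r) hX (bxcl_stable hst) hY hc

/-- L4 verbatim (no hypothesis `Z` needed any more). -/
theorem bxcl_top_slice {r : ℕ} (b : Fin (r + 1) → ℕ)
    (d : ℕ) {X Y : Finset (Fin (r + 1) → ℕ)} (hX : X ⊆ r278cl_box b d) (hst : r278cl_Stable b X)
    (hY : r278cl_IsSeg (r278cl_box b d) Y) (hc : Y.card = X.card) :
    (r278cl_slice X (b (Fin.last r))).card ≤ (r278cl_slice Y (b (Fin.last r))).card :=
  bx_slice_top_le (bx_shadowLe r) hX (bxcl_stable hst) hY hc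

/-- L6 verbatim (the body of `r278cl_ShadowLe r`). -/
theorem bxcl_shadowLe (r : ℕ) (b : Fin r → ℕ) (d : ℕ) (X Y : Finset (Fin r → ℕ))
    (hX : X ⊆ r278cl_box b d) (hst : r278cl_Stable b X)
    (hY : r278cl_IsSeg (r278cl_box b d) Y) (hc : Y.card = X.card) :
    (r278cl_shadow b Y).card ≤ (r278cl_shadow b X).card :=
  bx_shadowLe r b d X Y hX (bxcl_stable hst) hY hc

end Claimed.Agent.R278
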