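-- KEEP (row 278, P3 Clements-Lindstroem; pen of this file: 256).  L4: the top slice, by reflection.
import Claimed.Agent.R278.CLSeg
import Claimed.Agent.R278.CLBridge242

namespace Claimed.Agent.R278

open Finset

/-- L4 (Betti paper, Lemma 5.1, "The top slice"): `|X(b_r)| ≤ |Y(b_r)|`, from the zero-slice inequality (hypothesis `Z`, all degrees, same `b`)
applied to the reflected complements `ρ(box \ X)`, `ρ(box \ Y)`, `ρ u = b - u`. -/
theorem r278cl_top_slice {r : ℕ} (b : Fin (r + 1) → ℕ)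
    (Z : ∀ (d : ℕ) (X Y : Finset (Fin (r + 1) → ℕ)), X ⊆ r278cl_box b d → r278cl_Stable b X →
      r278cl_IsSeg (r278cl_box b d) Y → Y.card = X.card → (r278cl_slice Y 0).card ≤ (r278cl_slice X 0).card)
    (d : ℕ) {X Y : Finset (Fin (r + 1) → ℕ)} (hX : X ⊆ r278cl_box b d) (hst : r278cl_Stable b X)
    (hY : r278cl_IsSeg (r278cl_box b d) Y) (hc : Y.card = X.card) :
    (r278cl_slice X (b (Fin.last r))).card ≤ (r278cl_slice Y (b (Fin.last r))).card :=
  bxcl_top_slice b d hX hst hY hc

end Claimed.Agent.R278
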