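-- KEEP (row 278, P3 Clements-Lindstroem; pen of this file: 6).  L2 + L5.
import Claimed.Agent.R278.CLSeg
import Claimed.Agent.R278.CLBridge242

namespace Claimed.Agent.R278

open Finset

/-- L2 (Betti paper, Lemma 5.1, first paragraph of the proof): the shadow of a lex segment is a lex segment.  No hypothesis on `b`. -/
theorem r278cl_shadow_isSeg {r : ℕ} (b : Fin r → ℕ) (d : ℕ) {Y : Finset (Fin r → ℕ)}
    (hY : r278cl_IsSeg (r278cl_box b d) Y) : r278cl_IsSeg (r278cl_box b (d + 1)) (r278cl_shadow b Y) :=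
  bxcl_shadow_isSeg b d hY

/-- L5 (Betti paper (5.7) `box:shadow-count`): `|∂X| = |∂'X(0)| + |X| - |X(b_r)|` for stable `X`. -/
theorem r278cl_shadow_count {r : ℕ} (b : Fin (r + 1) → ℕ) (d : ℕ) {X : Finset (Fin (r + 1) → ℕ)}
    (hX : X ⊆ r278cl_box b d) (hst : r278cl_Stable b X) :
    (r278cl_shadow b X).card + (r278cl_slice X (b (Fin.last r))).card =
      (r278cl_shadow (r278cl_init b) (r278cl_slice X 0)).card + X.card :=
  bxcl_shadow_count b d hX hst

end Claimed.Agent.R278
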