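-- KEEP (row 278, P3 Clements-Lindstroem; pen of this file: 36).  L3: the zero slice.
import Claimed.Agent.R278.CLShadow

namespace Claimed.Agent.R278

open Finset

/-- the shadow inequality for stable sets in `r` coordinates (= the induction hypothesis). -/
def r278cl_ShadowLe (r : ℕ) : Prop :=
  ∀ (b : Fin r → ℕ) (d : ℕ) (X Y : Finset (Fin r → ℕ)), X ⊆ r278cl_box b d → r278cl_Stable b X →
    r278cl_IsSeg (r278cl_box b d) Y → Y.card = X.card → (r278cl_shadow b Y).card ≤ (r278cl_shadow b X).card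

/-- L3 (Betti paper, Lemma 5.1, "The zero slice"): `|Y(0)| ≤ |X(0)|`. -/
theorem r278cl_zero_slice {r : ℕ} (IH : r278cl_ShadowLe r) (b : Fin (r + 1) → ℕ) (d : ℕ)
    {X Y : Finset (Fin (r + 1) → ℕ)} (hX : X ⊆ r278cl_box b d) (hst : r278cl_Stable b X)
    (hY : r278cl_IsSeg (r278cl_box b d) Y) (hc : Y.card = X.card) :
    (r278cl_slice Y 0).card ≤ (r278cl_slice X 0).card :=
  bxcl_zero_slice b d hX hst hY hc

end Claimed.Agent.R278
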