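-- KEEP (row 278, P3 Clements-Lindstroem; pen 186).  L6 assembly + L8 contract B in the words of Def_0450 / Def_0451.
import Claimed.Agent.R278.CLZero
import Claimed.Agent.R278.CLTop
import Claimed.Agent.R278.CLComp
import Claimed.Prelude.Def_0450
import Claimed.Prelude.Def_0451

namespace Claimed.Agent.R278

open Finset

/-! ## Small API: `snoc`, slices, shadows -/

theorem r278cl_snoc_add_single {r : ℕ} (w : Fin r → ℕ) (s : ℕ) (h : Fin r) :
    (Fin.snoc (w + Pi.single h 1) s : Fin (r + 1) → ℕ) = Fin.snoc w s + Pi.single h.castSucc 1 := by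
  funext i
  refine Fin.lastCases ?_ (fun j => ?_) i
  · simp [(Fin.castSucc_lt_last h).ne']
  · simp [Pi.single_apply, Fin.castSucc_inj]

theorem r278cl_snoc_lt {r : ℕ} {u v : Fin r → ℕ} (h : toLex u < toLex v) (s t : ℕ) :
    toLex (Fin.snoc u s : Fin (r + 1) → ℕ) < toLex (Fin.snoc v t : Fin (r + 1) → ℕ) := by
  obtain ⟨i, hi1, hi2⟩ := h
  refine ⟨i.castSucc, fun j hj => ?_, ?_⟩
  · have hj' : (j : ℕ) < r := lt_of_lt_of_le hj (by simp [i.2.le])
    obtain ⟨j', rfl⟩ : ∃ j' : Fin r, j'.castSucc = j := ⟨⟨j, hj'⟩, rfl⟩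
    have := hi1 j' (by simpa using hj)
    simpa using this
  · simpa using hi2

theorem r278cl_sum_snoc {r : ℕ} (w : Fin r → ℕ) (s : ℕ) :
    ∑ i, (Fin.snoc w s : Fin (r + 1) → ℕ) i = ∑ i, w i + s := by
  rw [Fin.sum_univ_castSucc]
  simp

theorem r278cl_snoc_mem_box {r : ℕ} {b : Fin (r + 1) → ℕ} {d s : ℕ} {w : Fin r → ℕ} :
    (Fin.snoc w s : Fin (r + 1) → ℕ) ∈ r278cl_box b d ↔
      (∑ i, w i + s = d ∧ ∀ i, w i ≤ r278cl_init b i) ∧ s ≤ b (Fin.last r) := by
  rw [r278cl_mem_box, r278cl_sum_snoc]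
  constructor
  · rintro ⟨h1, h2⟩
    refine ⟨⟨h1, fun i => ?_⟩, ?_⟩
    · simpa [r278cl_init] using h2 i.castSucc
    · simpa using h2 (Fin.last r)
  · rintro ⟨⟨h1, h2⟩, h3⟩
    refine ⟨h1, fun i => ?_⟩
    refine Fin.lastCases ?_ (fun j => ?_) i
    · simpa using h3
    · simpa [r278cl_init] using h2 j

theorem r278cl_slice_subset {r : ℕ} {b : Fin (r + 1) → ℕ} {d : ℕ} {X : Finset (Fin (r + 1) → ℕ)}
    (hX : X ⊆ r278cl_box b d) (s : ℕ) : r278cl_slice X s ⊆ r278cl_box (r278cl_init b) (d - s) := by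
  intro w hw
  have h1 := r278cl_snoc_mem_box.1 (hX (r278cl_mem_slice.1 hw))
  exact r278cl_mem_box.2 ⟨by omega, h1.1.2⟩

theorem r278cl_slice_stable {r : ℕ} {b : Fin (r + 1) → ℕ} {X : Finset (Fin (r + 1) → ℕ)}
    (hst : r278cl_Stable b X) (s : ℕ) : r278cl_Stable (r278cl_init b) (r278cl_slice X s) := by
  intro w h l hl hw hb
  rw [r278cl_mem_slice, r278cl_snoc_add_single] at hw ⊢
  exact hst _ _ _ (by simpa using hl) hw (by simpa [r278cl_init] using hb)

theorem r278cl_slice_zero_isSeg {r : ℕ} {b : Fin (r + 1) → ℕ} {d : ℕ} {Y : Finset (Fin (r + 1) → ℕ)}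
    (hY : r278cl_IsSeg (r278cl_box b d) Y) : r278cl_IsSeg (r278cl_box (r278cl_init b) d) (r278cl_slice Y 0) := by
  refine ⟨by simpa using r278cl_slice_subset hY.1 0, fun u hu v hv h => ?_⟩
  rw [r278cl_mem_slice] at hu ⊢
  refine hY.2 _ hu _ ?_ (r278cl_snoc_lt h 0 0)
  rw [r278cl_mem_box] at hv
  exact r278cl_snoc_mem_box.2 ⟨⟨by simpa using hv.1, hv.2⟩, Nat.zero_le _⟩

theorem r278cl_sum_add_single {r : ℕ} (w : Fin r → ℕ) (h : Fin r) :
    ∑ i, (w + Pi.single h 1 : Fin r → ℕ) i = ∑ i, w i + 1 := by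
  simp [Finset.sum_add_distrib]

theorem r278cl_IsSeg.stable {r : ℕ} {b : Fin r → ℕ} {d : ℕ} {Y : Finset (Fin r → ℕ)}
    (hY : r278cl_IsSeg (r278cl_box b d) Y) : r278cl_Stable b Y := by
  intro w h l hl hw hb
  have hbox := r278cl_mem_box.1 (hY.1 hw)
  refine hY.2 _ hw _ (r278cl_mem_box.2 ⟨?_, fun i => ?_⟩) ⟨h, fun j hj => ?_, ?_⟩
  · rw [r278cl_sum_add_single]
    rw [r278cl_sum_add_single] at hbox
    exact hbox.1
  · by_cases hi : i = h
    · subst hi
      simpa using hb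
    · have := hbox.2 i
      simp only [Pi.add_apply, Pi.single_apply, hi, if_false] at this ⊢
      omega
  · simp [hj.ne, (hj.trans hl).ne]
  · simp [hl.ne]

theorem r278cl_shadow_mono {r : ℕ} (b : Fin r → ℕ) {X X' : Finset (Fin r → ℕ)} (h : X ⊆ X') :
    r278cl_shadow b X ⊆ r278cl_shadow b X' := by
  intro v hv
  rw [r278cl_mem_shadow] at hv ⊢
  obtain ⟨⟨u, hu, k, hk⟩, hb⟩ := hv
  exact ⟨⟨u, h hu, k, hk⟩, hb⟩

theorem r278cl_shadow_subset_box {r : ℕ} {b : Fin r → ℕ} {d : ℕ} {X : Finset (Fin r → ℕ)}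
    (hX : X ⊆ r278cl_box b d) : r278cl_shadow b X ⊆ r278cl_box b (d + 1) := by
  intro v hv
  obtain ⟨⟨u, hu, k, rfl⟩, hb⟩ := r278cl_mem_shadow.1 hv
  refine r278cl_mem_box.2 ⟨?_, hb⟩
  rw [r278cl_sum_add_single, (r278cl_mem_box.1 (hX hu)).1]

/-! ## L6: the induction -/

/-- L6 (Betti paper Lemma 5.1): the shadow inequality for stable sets, any bounds. -/
theorem r278cl_shadowLe : ∀ r : ℕ, r278cl_ShadowLe r
  | 0 => by
    intro b d X Y _ _ _ hc
    have hXY : Y = X := by
      ext w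
      constructor
      · intro hw
        have : 0 < X.card := hc ▸ Finset.card_pos.2 ⟨w, hw⟩
        obtain ⟨x, hx⟩ := Finset.card_pos.1 this
        rwa [Subsingleton.elim w x]
      · intro hw
        have : 0 < Y.card := hc ▸ Finset.card_pos.2 ⟨w, hw⟩
        obtain ⟨x, hx⟩ := Finset.card_pos.1 this
        rwa [Subsingleton.elim w x]
    rw [hXY]
  | r + 1 => by
    intro b d X Y hX hst hY hc
    have IH := r278cl_shadowLe r
    have h0 := r278cl_zero_slice IH b d hX hst hY hc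
    have hT := r278cl_top_slice b (fun d X Y hX hst hY hc => r278cl_zero_slice IH b d hX hst hY hc) d hX hst hY hc
    have cX := r278cl_shadow_count b d hX hst
    have cY := r278cl_shadow_count b d hY.1 hY.stable
    have hX0 : r278cl_slice X 0 ⊆ r278cl_box (r278cl_init b) d := by simpa using r278cl_slice_subset hX 0
    have key : (r278cl_shadow (r278cl_init b) (r278cl_slice Y 0)).card ≤
        (r278cl_shadow (r278cl_init b) (r278cl_slice X 0)).card := by
      have hL := r278cl_seg_isSeg (r278cl_box (r278cl_init b) d) (r278cl_slice X 0).card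
      have hLc : (r278cl_seg (r278cl_box (r278cl_init b) d) (r278cl_slice X 0).card).card = (r278cl_slice X 0).card := by
        rw [r278cl_seg_card, min_eq_left (Finset.card_le_card hX0)]
      have h1 := (r278cl_slice_zero_isSeg hY).subset_of_card_le hL (by rw [hLc]; exact h0)
      exact (Finset.card_le_card (r278cl_shadow_mono _ h1)).trans
        (IH (r278cl_init b) d _ _ hX0 (r278cl_slice_stable hst 0) hL hLc)
    omega

/-- **Clements-Lindstroem**: bounds nondecreasing, `X` ANY subset of the degree-`d` box, `Y` the lex segment of the same cardinality. -/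
theorem r278cl_CL {r : ℕ} (b : Fin r → ℕ) (hb : Monotone b) (d : ℕ) {X Y : Finset (Fin r → ℕ)} (hX : X ⊆ r278cl_box b d)
    (hY : r278cl_IsSeg (r278cl_box b d) Y) (hc : Y.card = X.card) :
    (r278cl_shadow b Y).card ≤ (r278cl_shadow b X).card := by
  obtain ⟨X', hX', hst, hc', hsh⟩ := r278cl_exists_stable b hb d hX
  exact (r278cl_shadowLe r b d X' Y hX' hst hY (hc.trans hc'.symm)).trans hsh

/-! ## L8: the words of the Prelude -/

/-- **Clements-Lindstroem for up-closed sets**, own words: `M` closed under `+ e_j`; rank of `m` in the degree-`d` box smaller than the number of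
elements of `M` there ==> the same for `m + e_j` in degree `d+1`. -/
theorem r278cl_up {r : ℕ} (b : Fin r → ℕ) (hb : Monotone b) (M : Set (Fin r → ℕ)) [DecidablePred (· ∈ M)]
    (hup : ∀ m ∈ M, ∀ j : Fin r, m + Pi.single j 1 ∈ M) (d : ℕ) (m : Fin r → ℕ) (hm : m ∈ r278cl_box b d)
    (hlt : r278cl_rk (r278cl_box b d) m < ((r278cl_box b d).filter fun m' => m' ∈ M).card)
    (j : Fin r) (hj : m + Pi.single j 1 ∈ r278cl_box b (d + 1)) :
    r278cl_rk (r278cl_box b (d + 1)) (m + Pi.single j 1) < ((r278cl_box b (d + 1)).filter fun m' => m' ∈ M).card := by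
  set X := (r278cl_box b d).filter fun m' => m' ∈ M with hXdef
  have hX : X ⊆ r278cl_box b d := Finset.filter_subset _ _
  have hY := r278cl_seg_isSeg (r278cl_box b d) X.card
  have hYc : (r278cl_seg (r278cl_box b d) X.card).card = X.card := by
    rw [r278cl_seg_card, min_eq_left (Finset.card_le_card hX)]
  have hmY : m ∈ r278cl_seg (r278cl_box b d) X.card := r278cl_mem_seg.2 ⟨hm, hlt⟩
  have hv : m + Pi.single j 1 ∈ r278cl_shadow b (r278cl_seg (r278cl_box b d) X.card) :=
    r278cl_mem_shadow.2 ⟨⟨m, hmY, j, rfl⟩, (r278cl_mem_box.1 hj).2⟩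
  have h1 := (r278cl_shadow_isSeg b d hY).rk_lt hv
  have h2 := r278cl_CL b hb d hX hY hYc
  have h3 : r278cl_shadow b X ⊆ (r278cl_box b (d + 1)).filter fun m' => m' ∈ M := by
    intro v hv
    refine Finset.mem_filter.2 ⟨r278cl_shadow_subset_box hX hv, ?_⟩
    obtain ⟨⟨u, hu, k, rfl⟩, -⟩ := r278cl_mem_shadow.1 hv
    exact hup u (Finset.mem_filter.1 hu).2 k
  exact h1.trans_le (h2.trans (Finset.card_le_card h3))

/-- the bounds that describe the non-power monomials of degrees `≤ D`. -/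
def r278cl_bd {n c : ℕ} (a : Fin c → ℕ) (D : ℕ) : Fin n → ℕ :=
  fun i => if h : (i : ℕ) < c then min (a ⟨i, h⟩ - 1) D else D

theorem r278cl_bd_mono {n c : ℕ} (a : Fin c → ℕ) (hmono : Monotone a) (D : ℕ) :
    Monotone (r278cl_bd (n := n) a D) := by
  intro i j hij
  unfold r278cl_bd
  have hij' : (i : ℕ) ≤ j := hij
  by_cases hi : (i : ℕ) < c
  · by_cases hj : (j : ℕ) < c
    · rw [dif_pos hi, dif_pos hj]
      have : a ⟨i, hi⟩ ≤ a ⟨j, hj⟩ := hmono hij'
      omega
    · rw [dif_pos hi, dif_neg hj]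
      exact min_le_right _ _
  · have hj : ¬ (j : ℕ) < c := by omega
    rw [dif_neg hi, dif_neg hj]

/-- membership in the box with bounds `r278cl_bd a D`, degree `e ≤ D`, in plain words. -/
theorem r278cl_mem_box_bd {n c : ℕ} (hc : c ≤ n) (a : Fin c → ℕ) {D e : ℕ} (he : e ≤ D) {m : Fin n → ℕ} :
    (∑ i, m i = e ∧ ¬ ∃ i : Fin c, a i ≤ m (Fin.castLE hc i)) ↔ m ∈ r278cl_box (r278cl_bd a D) e ∧ ∀ i, 1 ≤ a i := by
  rw [r278cl_mem_box]
  constructor
  · rintro ⟨h1, h2⟩
    push Not at h2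
    have hle : ∀ i, m i ≤ D := fun i =>
      (Finset.single_le_sum (f := m) (fun _ _ => Nat.zero_le _) (Finset.mem_univ i)).trans (h1.le.trans he)
    refine ⟨⟨h1, fun i => ?_⟩, fun i => by have := h2 i; omega⟩
    unfold r278cl_bd
    by_cases hi : (i : ℕ) < c
    · rw [dif_pos hi]
      have h3 := h2 ⟨i, hi⟩
      have h4 : Fin.castLE hc ⟨i, hi⟩ = i := rfl
      rw [h4] at h3
      have := hle i
      omega
    · rw [dif_neg hi]
      exact hle i
  · rintro ⟨⟨h1, h2⟩, h3⟩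
    refine ⟨h1, ?_⟩
    rintro ⟨i, hi⟩
    have h4 := h2 (Fin.castLE hc i)
    unfold r278cl_bd at h4
    have h5 : ((Fin.castLE hc i : Fin n) : ℕ) < c := i.2
    rw [dif_pos h5] at h4
    have h6 : (⟨((Fin.castLE hc i : Fin n) : ℕ), h5⟩ : Fin c) = i := rfl
    rw [h6] at h4
    have := h3 i
    omega

theorem r278cl_nonPower_eq {n c : ℕ} (hc : c ≤ n) (a : Fin c → ℕ) (ha : ∀ i, 1 ≤ a i) {D e : ℕ} (he : e ≤ D) :
    Claims.C0450.nonPowerMonomials hc a e = r278cl_box (r278cl_bd a D) e := by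
  ext m
  have h := r278cl_mem_box_bd hc a he (m := m)
  simp only [Claims.C0450.nonPowerMonomials, Claims.C0450.inPowers, Finset.mem_filter, Finset.Nat.mem_antidiagonalTuple,
    decide_eq_false_iff_not]
  rw [h]
  exact ⟨fun h => h.1, fun h => ⟨h, ha⟩⟩

theorem r278cl_card_lexGt {n : ℕ} (B : Finset (Fin n → ℕ)) (m : Fin n → ℕ) :
    (B.filter fun m' => Claims.C0450.lexGt m' m = true).card = r278cl_rk B m := by
  classical
  unfold r278cl_rk
  congr 1
  ext m'
  simp only [Finset.mem_filter, Claims.C0450.lexGt, decide_eq_true_eq, r278cl_lt_iff]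
  constructor
  · rintro ⟨h1, i, h2, h3⟩
    exact ⟨h1, i, fun j hj => (h2 j hj).symm, h3⟩
  · rintro ⟨h1, i, h2, h3⟩
    exact ⟨h1, i, fun j hj => (h2 j hj).symm, h3⟩

/-- **CONTRACT B** (words of Def_0450): `M` = any set of exponent vectors closed under multiplication by variables. If `m` (degree `d`, no
power) has fewer lex-predecessors than `M` has non-power monomials in degree `d`, the same holds for `m x_j` in degree `d+1`
(when `m x_j` is not in the powers). -/
theorem r278cl_contractB {n c : ℕ} (hc : c ≤ n) (a : Fin c → ℕ) (hmono : Monotone a)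
    (M : Set (Fin n → ℕ)) [DecidablePred (· ∈ M)] (hup : ∀ m ∈ M, ∀ j : Fin n, m + Pi.single j 1 ∈ M)
    (d : ℕ) (m : Fin n → ℕ) (hm : m ∈ Claims.C0450.nonPowerMonomials hc a d)
    (hlt : ((Claims.C0450.nonPowerMonomials hc a d).filter fun m' => Claims.C0450.lexGt m' m = true).card <
      ((Claims.C0450.nonPowerMonomials hc a d).filter fun m' => m' ∈ M).card)
    (j : Fin n) (hj : m + Pi.single j 1 ∈ Claims.C0450.nonPowerMonomials hc a (d + 1)) :
    ((Claims.C0450.nonPowerMonomials hc a (d + 1)).filter fun m' => Claims.C0450.lexGt m' (m + Pi.single j 1) = true).card <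
      ((Claims.C0450.nonPowerMonomials hc a (d + 1)).filter fun m' => m' ∈ M).card := by
  have ha : ∀ i, 1 ≤ a i := by
    simp only [Claims.C0450.nonPowerMonomials, Claims.C0450.inPowers, Finset.mem_filter, Finset.Nat.mem_antidiagonalTuple,
      decide_eq_false_iff_not] at hm
    exact ((r278cl_mem_box_bd hc a (Nat.le_succ d)).1 hm).2
  rw [r278cl_card_lexGt] at hlt ⊢
  rw [r278cl_nonPower_eq hc a ha (Nat.le_succ d)] at hm hlt
  rw [r278cl_nonPower_eq hc a ha (le_refl (d + 1))] at hj ⊢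
  exact r278cl_up _ (r278cl_bd_mono a hmono (d + 1)) M hup d m hm hlt j hj

end Claimed.Agent.R278
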