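-- KEEP (row 278, P3 Clements-Lindstroem; pen of this file: 227).  L6: assembly of the shadow inequality for stable sets (induction on `r`).
import Claimed.Agent.R278.CLZero
import Claimed.Agent.R278.CLTop

/-!
# Row 278, P3, leaf L6: the shadow inequality for stable sets (Betti paper, Lemma 5.1, last part "The shadow")

Induction on the number `r` of coordinates, from L2 (shadow of a segment is a segment), L3 (zero slice), L4 (top slice),
L5 (shadow count).  Own small lemmas: segments are stable; the zero slice of a box set / stable set / segment is again one;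
shadows are monotone.
-/

namespace Claimed.Agent.R278

open Finset

/-- sum of `w + e_h`. -/
theorem r278as_sum_add_single {r : ℕ} (w : Fin r → ℕ) (h : Fin r) :
    ∑ i, (w + Pi.single h 1 : Fin r → ℕ) i = ∑ i, w i + 1 := by
  simp only [Pi.add_apply, Finset.sum_add_distrib]
  simp [Finset.sum_pi_single']

/-- every lex segment of a box is stable. -/
theorem r278as_stable_of_isSeg {r : ℕ} (b : Fin r → ℕ) (d : ℕ) {Y : Finset (Fin r → ℕ)}
    (hY : r278cl_IsSeg (r278cl_box b d) Y) : r278cl_Stable b Y := by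
  intro w h l hhl hw hwh
  have hbox := r278cl_mem_box.1 (hY.1 hw)
  refine hY.2 _ hw _ (r278cl_mem_box.2 ⟨?_, ?_⟩) ?_
  · rw [r278as_sum_add_single, ← hbox.1, r278as_sum_add_single]
  · intro i
    by_cases hi : i = h
    · subst hi
      simp only [Pi.add_apply, Pi.single_eq_same]
      omega
    · have h1 := hbox.2 i
      simp only [Pi.add_apply, Pi.single_eq_of_ne hi, add_zero] at h1 ⊢
      exact le_trans (Nat.le_add_right _ _) h1
  · rw [r278cl_lt_iff]
    refine ⟨h, fun j hj => ?_, ?_⟩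
    · have h1 : j ≠ h := ne_of_lt hj
      have h2 : j ≠ l := ne_of_lt (hj.trans hhl)
      simp [Pi.single_eq_of_ne h1, Pi.single_eq_of_ne h2]
    · have h2 : h ≠ l := ne_of_lt hhl
      simp [Pi.single_eq_of_ne h2]

/-- shadows are monotone. -/
theorem r278as_shadow_mono {r : ℕ} (b : Fin r → ℕ) {X X' : Finset (Fin r → ℕ)} (h : X ⊆ X') :
    r278cl_shadow b X ⊆ r278cl_shadow b X' := by
  intro v hv
  obtain ⟨⟨u, hu, k, rfl⟩, hvb⟩ := r278cl_mem_shadow.1 hv
  exact r278cl_mem_shadow.2 ⟨⟨u, h hu, k, rfl⟩, hvb⟩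

theorem r278as_sum_snoc {r : ℕ} (w : Fin r → ℕ) (s : ℕ) :
    ∑ i, (Fin.snoc w s : Fin (r + 1) → ℕ) i = ∑ i, w i + s := by
  rw [Fin.sum_univ_castSucc]
  simp

/-- `(w, s)` lies in the box iff `w` lies in the box of the first coordinates and `s` is within the last bound. -/
theorem r278as_snoc_mem_box {r : ℕ} (b : Fin (r + 1) → ℕ) (d s : ℕ) (w : Fin r → ℕ) :
    (Fin.snoc w s : Fin (r + 1) → ℕ) ∈ r278cl_box b (d + s) ↔ w ∈ r278cl_box (r278cl_init b) d ∧ s ≤ b (Fin.last r) := by
  rw [r278cl_mem_box, r278cl_mem_box, r278as_sum_snoc]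
  constructor
  · rintro ⟨h1, h2⟩
    refine ⟨⟨by omega, fun i => ?_⟩, ?_⟩
    · have := h2 i.castSucc
      simpa [r278cl_init] using this
    · have := h2 (Fin.last r)
      simpa using this
  · rintro ⟨⟨h1, h2⟩, h3⟩
    refine ⟨by omega, fun i => ?_⟩
    refine Fin.lastCases ?_ (fun j => ?_) i
    · simpa using h3
    · have := h2 j
      simpa [r278cl_init] using this

theorem r278as_slice_zero_subset {r : ℕ} (b : Fin (r + 1) → ℕ) (d : ℕ) {X : Finset (Fin (r + 1) → ℕ)}
    (hX : X ⊆ r278cl_box b d) : r278cl_slice X 0 ⊆ r278cl_box (r278cl_init b) d := by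
  intro w hw
  exact ((r278as_snoc_mem_box b d 0 w).1 (hX (r278cl_mem_slice.1 hw))).1

theorem r278as_snoc_add_single {r : ℕ} (w : Fin r → ℕ) (s : ℕ) (h : Fin r) :
    (Fin.snoc (w + Pi.single h 1) s : Fin (r + 1) → ℕ) = Fin.snoc w s + Pi.single h.castSucc 1 := by
  funext i
  refine Fin.lastCases ?_ (fun j => ?_) i
  · simp
  · by_cases hj : j = h
    · subst hj; simp
    · have : j.castSucc ≠ h.castSucc := fun e => hj (Fin.castSucc_injective _ e)
      simp [Pi.single_eq_of_ne hj, Pi.single_eq_of_ne this]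

/-- slices of stable sets are stable. -/
theorem r278as_slice_stable {r : ℕ} (b : Fin (r + 1) → ℕ) {X : Finset (Fin (r + 1) → ℕ)} (hst : r278cl_Stable b X) (s : ℕ) :
    r278cl_Stable (r278cl_init b) (r278cl_slice X s) := by
  intro w h l hhl hw hwh
  rw [r278cl_mem_slice, r278as_snoc_add_single] at hw ⊢
  refine hst _ h.castSucc l.castSucc (Fin.castSucc_lt_castSucc_iff.2 hhl) hw ?_
  simpa [r278cl_init] using hwh

theorem r278as_snoc_lt_snoc {r : ℕ} {u v : Fin r → ℕ} (s : ℕ) (h : toLex u < toLex v) :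
    toLex (Fin.snoc u s : Fin (r + 1) → ℕ) < toLex (Fin.snoc v s : Fin (r + 1) → ℕ) := by
  rw [r278cl_lt_iff] at h ⊢
  obtain ⟨i, h1, h2⟩ := h
  refine ⟨i.castSucc, fun j hj => ?_, by simpa using h2⟩
  have hjl : (j : ℕ) < r := lt_of_lt_of_le (Fin.lt_def.1 hj) (by simpa using i.2.le)
  obtain ⟨j', rfl⟩ : ∃ j' : Fin r, j = j'.castSucc := ⟨⟨j, hjl⟩, rfl⟩
  simpa using h1 j' (Fin.castSucc_lt_castSucc_iff.1 hj)

/-- the zero slice of a lex segment is a lex segment. -/
theorem r278as_slice_zero_isSeg {r : ℕ} (b : Fin (r + 1) → ℕ) (d : ℕ) {Y : Finset (Fin (r + 1) → ℕ)}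
    (hY : r278cl_IsSeg (r278cl_box b d) Y) : r278cl_IsSeg (r278cl_box (r278cl_init b) d) (r278cl_slice Y 0) := by
  refine ⟨r278as_slice_zero_subset b d hY.1, fun u hu v hv huv => ?_⟩
  rw [r278cl_mem_slice] at hu ⊢
  exact hY.2 _ hu _ ((r278as_snoc_mem_box b d 0 v).2 ⟨hv, Nat.zero_le _⟩) (r278as_snoc_lt_snoc 0 huv)

/-- **L6** (Betti paper Lemma 5.1): the shadow inequality for stable sets, any bounds. -/
theorem r278as_shadowLe (r : ℕ) : r278cl_ShadowLe r := by
  induction r with
  | zero =>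
    intro b d X Y _ _ _ _
    have : r278cl_shadow b Y = ∅ := by
      apply Finset.eq_empty_of_forall_notMem
      intro v hv
      obtain ⟨⟨_, _, h, _⟩, _⟩ := r278cl_mem_shadow.1 hv
      exact h.elim0
    rw [this]
    exact Nat.zero_le _
  | succ r IH =>
    intro b d X Y hX hst hY hc
    have hZ : ∀ (d : ℕ) (X Y : Finset (Fin (r + 1) → ℕ)), X ⊆ r278cl_box b d → r278cl_Stable b X →
        r278cl_IsSeg (r278cl_box b d) Y → Y.card = X.card → (r278cl_slice Y 0).card ≤ (r278cl_slice X 0).card :=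
      fun d X Y hX hst hY hc => r278cl_zero_slice IH b d hX hst hY hc
    have h0 : (r278cl_slice Y 0).card ≤ (r278cl_slice X 0).card := hZ d X Y hX hst hY hc
    have htop : (r278cl_slice X (b (Fin.last r))).card ≤ (r278cl_slice Y (b (Fin.last r))).card :=
      r278cl_top_slice b hZ d hX hst hY hc
    have hcX := r278cl_shadow_count b d hX hst
    have hcY := r278cl_shadow_count b d hY.1 (r278as_stable_of_isSeg b d hY)
    -- the shadows of the zero slices
    set B' := r278cl_box (r278cl_init b) d with hB'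
    have hX0 : r278cl_slice X 0 ⊆ B' := r278as_slice_zero_subset b d hX
    set Y' := r278cl_seg B' (r278cl_slice X 0).card with hY'
    have hY'seg : r278cl_IsSeg B' Y' := r278cl_seg_isSeg _ _
    have hY'card : Y'.card = (r278cl_slice X 0).card := by
      rw [hY', r278cl_seg_card, min_eq_left (Finset.card_le_card hX0)]
    have h1 : (r278cl_shadow (r278cl_init b) Y').card ≤ (r278cl_shadow (r278cl_init b) (r278cl_slice X 0)).card :=
      IH (r278cl_init b) d _ _ hX0 (r278as_slice_stable b hst 0) hY'seg hY'card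
    have h2 : r278cl_slice Y 0 ⊆ Y' :=
      (r278as_slice_zero_isSeg b d hY).subset_of_card_le hY'seg (by rw [hY'card]; exact h0)
    have h3 : (r278cl_shadow (r278cl_init b) (r278cl_slice Y 0)).card ≤ (r278cl_shadow (r278cl_init b) Y').card :=
      Finset.card_le_card (r278as_shadow_mono _ h2)
    omega

end Claimed.Agent.R278
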