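-- KEEP (row 278, P3 Clements-Lindstroem; pen of this file: 106).  The bridge: `r278cl_CL` + L1 + L2  ==>  contract B of the roof (`EgCL` of EgRoof.lean).
import Claimed.Agent.R278.CL
import Claimed.Agent.R278.EgRoof

/-!
# Row 278: Clements-Lindstroem in the words of the roof

`EgCL hc a` speaks of `nonPowerMonomials hc a d` (exponents `< a i` for `i < c`, free variables last).  At the levels `d`, `d + 1` this is
the box `r278cl_box b` with the bounds `b i = min (a i - 1) (d + 1)` (`i < c`), `b i = d + 1` (`i ≥ c`), which are nondecreasing.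
-/

set_option autoImplicit false

open Claims Claims.C0450

namespace Claimed.Agent.R278

open Finset

variable {n c : ℕ}

/-- the bounds of the box at the levels `≤ D`. -/
def r278cl106_bd (a : Fin c → ℕ) (D : ℕ) (i : Fin n) : ℕ :=
  if h : i.val < c then min (a ⟨i.val, h⟩ - 1) D else D

theorem r278cl106_bd_mono (a : Fin c → ℕ) (ha : Monotone a) (D : ℕ) :
    Monotone (r278cl106_bd (n := n) a D) := by
  intro i j hij
  have hij' : i.val ≤ j.val := hij
  unfold r278cl106_bd
  split_ifs with h1 h2 h2
  · have : a ⟨i.val, h1⟩ ≤ a ⟨j.val, h2⟩ := ha (by simpa using hij')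
    omega
  · exact min_le_right _ _
  · omega
  · exact le_rfl

theorem r278cl106_inPowers_false (hc : c ≤ n) (a : Fin c → ℕ) (m : Fin n → ℕ) :
    inPowers hc a m = false ↔ ∀ i : Fin c, m (Fin.castLE hc i) < a i := by
  unfold inPowers
  rw [decide_eq_false_iff_not]
  push Not
  rfl

/-- the non-power monomials of degree `d' ≤ D` are the box. -/
theorem r278cl106_box_eq (hc : c ≤ n) (a : Fin c → ℕ) (hpos : ∀ i, 0 < a i) (D d' : ℕ) (hd : d' ≤ D) :
    nonPowerMonomials hc a d' = r278cl_box (r278cl106_bd (n := n) a D) d' := by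
  ext m
  unfold nonPowerMonomials
  rw [Finset.mem_filter, Finset.Nat.mem_antidiagonalTuple, r278cl_mem_box, r278cl106_inPowers_false]
  refine and_congr_right fun hsum => ?_
  have hle : ∀ i, m i ≤ D := fun i =>
    (Finset.single_le_sum (f := m) (fun _ _ => Nat.zero_le _) (Finset.mem_univ i)).trans (hsum.le.trans hd)
  constructor
  · intro h i
    unfold r278cl106_bd
    split_ifs with h1
    · have h2 := h ⟨i.val, h1⟩
      have h3 : Fin.castLE hc ⟨i.val, h1⟩ = i := rfl
      rw [h3] at h2
      have := hle i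
      omega
    · exact hle i
  · intro h i
    have h1 := h (Fin.castLE hc i)
    unfold r278cl106_bd at h1
    have h2 : (Fin.castLE hc i).val < c := i.isLt
    rw [dif_pos h2] at h1
    have h3 : (⟨(Fin.castLE hc i).val, h2⟩ : Fin c) = i := rfl
    rw [h3] at h1
    have := hpos i
    omega

theorem r278cl106_update_eq (m : Fin n → ℕ) (i : Fin n) :
    Function.update m i (m i + 1) = m + Pi.single i 1 := by
  funext j
  by_cases hj : j = i
  · subst hj
    simp
  · simp [hj]

/-- the lex segment of the roof is the segment of `CLDefs`. -/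
theorem r278cl106_egLex_eq (hc : c ≤ n) (a : Fin c → ℕ) (d q : ℕ) :
    egLex hc a d q = r278cl_seg (nonPowerMonomials hc a d) q := by
  classical
  unfold egLex r278cl_seg r278cl_rk
  apply Finset.filter_congr
  intro m _
  have : ((nonPowerMonomials hc a d).filter fun m' => lexGt m' m = true) =
      (nonPowerMonomials hc a d).filter fun v => toLex m < toLex v := by
    apply Finset.filter_congr
    intro m' _
    exact eg_lexGt_iff m' m
  rw [this]

/-- the shadow of the roof is the shadow of `CLDefs`. -/
theorem r278cl106_egShadow_eq (hc : c ≤ n) (a : Fin c → ℕ) (hpos : ∀ i, 0 < a i) (d : ℕ)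
    {A : Finset (Fin n → ℕ)} (hA : A ⊆ nonPowerMonomials hc a d) :
    egShadow hc a d A = r278cl_shadow (r278cl106_bd (n := n) a (d + 1)) A := by
  ext m'
  unfold egShadow
  rw [Finset.mem_filter, r278cl_mem_shadow, r278cl106_box_eq hc a hpos (d + 1) (d + 1) le_rfl, r278cl_mem_box]
  constructor
  · rintro ⟨⟨_, h2⟩, m, hm, i, rfl⟩
    exact ⟨⟨m, hm, i, (r278cl106_update_eq m i).symm⟩, h2⟩
  · rintro ⟨⟨m, hm, i, rfl⟩, h2⟩
    refine ⟨⟨?_, h2⟩, m, hm, i, (r278cl106_update_eq m i).symm⟩
    have h3 := hA hm
    rw [r278cl106_box_eq hc a hpos (d + 1) d (Nat.le_succ d), r278cl_mem_box] at h3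
    simp [Finset.sum_add_distrib, h3.1]

/-- **Contract B of the roof.** -/
theorem r278cl_EgCL (n c : ℕ) (hc : c ≤ n) (a : Fin c → ℕ) (ha : Monotone a) : EgCL hc a := by
  intro d A hA
  by_cases hpos : ∀ i, 0 < a i
  · set b := r278cl106_bd (n := n) a (d + 1) with hb
    have hB0 : nonPowerMonomials hc a d = r278cl_box b d :=
      r278cl106_box_eq hc a hpos (d + 1) d (Nat.le_succ d)
    have hB1 : nonPowerMonomials hc a (d + 1) = r278cl_box b (d + 1) :=
      r278cl106_box_eq hc a hpos (d + 1) (d + 1) le_rfl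
    have hY : r278cl_IsSeg (r278cl_box b d) (r278cl_seg (r278cl_box b d) A.card) := r278cl_seg_isSeg _ _
    have hYc : (r278cl_seg (r278cl_box b d) A.card).card = A.card := by
      rw [r278cl_seg_card, min_eq_left]
      exact Finset.card_le_card (hB0 ▸ hA)
    have hAsub : r278cl_shadow b A ⊆ r278cl_box b (d + 1) := by
      rw [← r278cl106_egShadow_eq hc a hpos d hA, ← hB1]
      exact Finset.filter_subset _ _
    rw [r278cl106_egLex_eq, r278cl106_egLex_eq, r278cl106_egShadow_eq hc a hpos d hA,
      r278cl106_egShadow_eq hc a hpos d (A := r278cl_seg (nonPowerMonomials hc a d) A.card)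
        (Finset.filter_subset _ _), hB0, hB1]
    refine (r278cl_shadow_isSeg b d hY).subset_of_card_le (r278cl_seg_isSeg _ _) ?_
    rw [r278cl_seg_card, min_eq_left (Finset.card_le_card hAsub)]
    exact r278cl_CL b (r278cl106_bd_mono a ha (d + 1)) d (hB0 ▸ hA) hY hYc
  · -- some `a i = 0`: there is no non-power monomial at all
    push Not at hpos
    obtain ⟨i, hi⟩ := hpos
    intro m' hm'
    have h1 : m' ∈ nonPowerMonomials hc a (d + 1) := (Finset.mem_filter.1 hm').1
    have h2 := (r278cl106_inPowers_false hc a m').1 (Finset.mem_filter.1 h1).2 i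
    omega

end Claimed.Agent.R278
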