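-- KEEP (row 278, P3 Clements-Lindstroem; pen of this file: 227).  L8: contract B in the words of Def_0450, from the CL inequality.
import Claimed.Agent.R278.CLShadow
import Claimed.Prelude.Def_0450

/-!
# Row 278, P3, leaf L8: from Clements-Lindstroem (boxes) to the words of `Def_0450`

`nonPowerMonomials hc a d` is the degree-`d` box with bounds `a i - 1` on the first `c` coordinates and a bound that is never
active (`d + 1 + ∑ a`) on the free coordinates; these bounds are monotone when `a` is.  `lexGt m' m = true` is `toLex m < toLex m'`.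
The CL inequality itself enters as the hypothesis `hCL` (it is `r278cl_CL` of `CL.lean`), so that `CL.lean` can cite this file.
-/

namespace Claimed.Agent.R278

open Finset Claims.C0450

/-- the bounds of the box of `Def_0450`: `a i - 1` on the first `c` coordinates, `L` on the others. -/
def r278cb_bd {n c : ℕ} (a : Fin c → ℕ) (L : ℕ) (k : Fin n) : ℕ :=
  if h : (k : ℕ) < c then a ⟨k, h⟩ - 1 else L

theorem r278cb_bd_castLE {n c : ℕ} (hc : c ≤ n) (a : Fin c → ℕ) (L : ℕ) (i : Fin c) :
    r278cb_bd (n := n) a L (Fin.castLE hc i) = a i - 1 := by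
  simp [r278cb_bd]

theorem r278cb_bd_monotone {n c : ℕ} (a : Fin c → ℕ) (hmono : Monotone a) (L : ℕ) (hL : ∀ i, a i ≤ L) :
    Monotone (r278cb_bd (n := n) a L) := by
  intro k l hkl
  unfold r278cb_bd
  by_cases hl : (l : ℕ) < c
  · have hk : (k : ℕ) < c := lt_of_le_of_lt hkl hl
    rw [dif_pos hk, dif_pos hl]
    exact Nat.sub_le_sub_right (hmono (show (⟨k, hk⟩ : Fin c) ≤ ⟨l, hl⟩ from hkl)) 1
  · rw [dif_neg hl]
    by_cases hk : (k : ℕ) < c
    · rw [dif_pos hk]
      exact (Nat.sub_le _ _).trans (hL _)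
    · rw [dif_neg hk]

theorem r278cb_lexGt_iff {n : ℕ} (m' m : Fin n → ℕ) : lexGt m' m = true ↔ toLex m < toLex m' := by
  unfold lexGt
  rw [decide_eq_true_iff, r278cl_lt_iff]
  constructor
  · rintro ⟨i, h1, h2⟩
    exact ⟨i, fun j hj => (h1 j hj).symm, h2⟩
  · rintro ⟨i, h1, h2⟩
    exact ⟨i, fun j hj => (h1 j hj).symm, h2⟩

theorem r278cb_inPowers_false_iff {n c : ℕ} (hc : c ≤ n) (a : Fin c → ℕ) (m : Fin n → ℕ) :
    inPowers hc a m = false ↔ ∀ i : Fin c, m (Fin.castLE hc i) < a i := by
  unfold inPowers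
  rw [decide_eq_false_iff_not, not_exists]
  exact forall_congr' fun i => not_le

/-- the non-power monomials of degree `e` are a box, as soon as the bound `L` of the free coordinates is `≥ e` and all `a i` are positive. -/
theorem r278cb_nonPower_eq_box {n c : ℕ} (hc : c ≤ n) (a : Fin c → ℕ) (ha : ∀ i, 0 < a i) (L e : ℕ) (hL : e ≤ L) :
    nonPowerMonomials hc a e = r278cl_box (r278cb_bd (n := n) a L) e := by
  ext u
  unfold nonPowerMonomials
  rw [Finset.mem_filter, Finset.Nat.mem_antidiagonalTuple, r278cl_mem_box, r278cb_inPowers_false_iff]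
  refine and_congr_right fun hu => ?_
  constructor
  · intro h k
    unfold r278cb_bd
    by_cases hk : (k : ℕ) < c
    · rw [dif_pos hk]
      have := h ⟨k, hk⟩
      have h2 : Fin.castLE hc ⟨k, hk⟩ = k := by ext; rfl
      rw [h2] at this
      omega
    · rw [dif_neg hk]
      have : u k ≤ ∑ i, u i := Finset.single_le_sum (f := u) (fun _ _ => Nat.zero_le _) (Finset.mem_univ k)
      omega
  · intro h i
    have := h (Fin.castLE hc i)
    rw [r278cb_bd_castLE] at this
    have := ha i
    omega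

/-- **L8 = CONTRACT B** (words of Def_0450), from the Clements-Lindstroem inequality `hCL` (= `r278cl_CL`). -/
theorem r278cb_contractB
    (hCL : ∀ {r : ℕ} (b : Fin r → ℕ), Monotone b → ∀ (d : ℕ) {X Y : Finset (Fin r → ℕ)}, X ⊆ r278cl_box b d →
      r278cl_IsSeg (r278cl_box b d) Y → Y.card = X.card → (r278cl_shadow b Y).card ≤ (r278cl_shadow b X).card)
    {n c : ℕ} (hc : c ≤ n) (a : Fin c → ℕ) (hmono : Monotone a)
    (M : Set (Fin n → ℕ)) [DecidablePred (· ∈ M)] (hup : ∀ m ∈ M, ∀ j : Fin n, m + Pi.single j 1 ∈ M)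
    (d : ℕ) (m : Fin n → ℕ) (hm : m ∈ nonPowerMonomials hc a d)
    (hlt : ((nonPowerMonomials hc a d).filter fun m' => lexGt m' m = true).card <
      ((nonPowerMonomials hc a d).filter fun m' => m' ∈ M).card)
    (j : Fin n) (hj : m + Pi.single j 1 ∈ nonPowerMonomials hc a (d + 1)) :
    ((nonPowerMonomials hc a (d + 1)).filter fun m' => lexGt m' (m + Pi.single j 1) = true).card <
      ((nonPowerMonomials hc a (d + 1)).filter fun m' => m' ∈ M).card := by
  classical
  -- all `a i` are positive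
  have ha : ∀ i, 0 < a i := by
    intro i
    have h1 := (Finset.mem_filter.1 hm).2
    rw [r278cb_inPowers_false_iff] at h1
    exact lt_of_le_of_lt (Nat.zero_le _) (h1 i)
  set L : ℕ := d + 1 + ∑ i, a i with hLdef
  have hLa : ∀ i, a i ≤ L := by
    intro i
    have : a i ≤ ∑ i, a i := Finset.single_le_sum (f := a) (fun _ _ => Nat.zero_le _) (Finset.mem_univ i)
    omega
  set b : Fin n → ℕ := r278cb_bd (n := n) a L with hb
  have hbm : Monotone b := r278cb_bd_monotone a hmono L hLa
  have hB0 : nonPowerMonomials hc a d = r278cl_box b d := r278cb_nonPower_eq_box hc a ha L d (by omega)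
  have hB1 : nonPowerMonomials hc a (d + 1) = r278cl_box b (d + 1) :=
    r278cb_nonPower_eq_box hc a ha L (d + 1) (by omega)
  rw [hB0] at hm hlt
  rw [hB1] at hj ⊢
  set X : Finset (Fin n → ℕ) := (r278cl_box b d).filter fun m' => m' ∈ M with hX
  have hXsub : X ⊆ r278cl_box b d := Finset.filter_subset _ _
  set Y : Finset (Fin n → ℕ) := r278cl_seg (r278cl_box b d) X.card with hY
  have hYseg : r278cl_IsSeg (r278cl_box b d) Y := r278cl_seg_isSeg _ _
  have hYcard : Y.card = X.card := by
    rw [hY, r278cl_seg_card, min_eq_left (Finset.card_le_card hXsub)]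
  -- ranks in the words of `lexGt`
  have hrk : ∀ (B : Finset (Fin n → ℕ)) (u : Fin n → ℕ),
      (B.filter fun m' => lexGt m' u = true).card = r278cl_rk B u := by
    intro B u
    unfold r278cl_rk
    congr 1
    ext v
    simp only [Finset.mem_filter, r278cb_lexGt_iff]
  rw [hrk] at hlt ⊢
  have hmY : m ∈ Y := Finset.mem_filter.2 ⟨hm, hlt⟩
  have hjb : ∀ i, (m + Pi.single j 1 : Fin n → ℕ) i ≤ b i := (r278cl_mem_box.1 hj).2
  have hsh : m + Pi.single j 1 ∈ r278cl_shadow b Y := r278cl_mem_shadow.2 ⟨⟨m, hmY, j, rfl⟩, hjb⟩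
  have hseg1 : r278cl_IsSeg (r278cl_box b (d + 1)) (r278cl_shadow b Y) := r278cl_shadow_isSeg b d hYseg
  have h1 : r278cl_rk (r278cl_box b (d + 1)) (m + Pi.single j 1) < (r278cl_shadow b Y).card := hseg1.rk_lt hsh
  have h2 : (r278cl_shadow b Y).card ≤ (r278cl_shadow b X).card := hCL b hbm d hXsub hYseg hYcard
  have h3 : r278cl_shadow b X ⊆ (r278cl_box b (d + 1)).filter fun m' => m' ∈ M := by
    intro v hv
    obtain ⟨⟨u, hu, h, rfl⟩, hvb⟩ := r278cl_mem_shadow.1 hv
    obtain ⟨huB, huM⟩ := Finset.mem_filter.1 hu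
    refine Finset.mem_filter.2 ⟨r278cl_mem_box.2 ⟨?_, hvb⟩, hup u huM h⟩
    have hsum : ∑ i, u i = d := (r278cl_mem_box.1 huB).1
    simp only [Pi.add_apply, Finset.sum_add_distrib, hsum]
    simp [Finset.sum_pi_single']
  exact lt_of_lt_of_le h1 (h2.trans (Finset.card_le_card h3))

end Claimed.Agent.R278
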