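-- KEEP
import Claimed.Agent.R278.EgRoof

/-!
# Row 278, P3 (Clements--Lindstrom): compression to a stable set   (owner: helper6, prefix `egc6_`)

For a box with nondecreasing bounds, every set `A` of exponent vectors of degree `d` in the box can
be replaced by a *stable* set `A'` of the same size whose upper shadow (inside the box) is not
larger.  The tool is the compression in two variables `h < l`, fibre by fibre; instead of
iterating we take a set of greatest weight among all competitors.
-/

set_option autoImplicit false
open Claims Claims.C0450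

namespace Claimed.Agent.R278

section nat

/-- the two-variable case, in terms of the exponent of the first variable -/
theorem egc6_two_var (P Q s : ℕ) (hPQ : P ≤ Q) (T : Finset ℕ)
    (hT : ∀ t ∈ T, t < P ∧ t ≤ s ∧ s - t < Q) (x x' : ℕ)
    (hx : min s (P - 1) - x < T.card) (hxx : x' = x ∨ x' = x + 1)
    (hx'P : x' < P) (hx'Q : s + 1 - x' < Q) :
    min (s + 1) (P - 1) - x' <
      ((T.filter fun t => s + 1 - t < Q) ∪ ((T.filter fun t => t + 1 < P).image (· + 1))).card := by
  set U := ((T.filter fun t => s + 1 - t < Q) ∪ ((T.filter fun t => t + 1 < P).image (· + 1)))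
    with hU
  have hTne : T.Nonempty := Finset.card_pos.mp (by omega)
  by_cases hcase : s + 1 < P
  · -- no cut at all
    have h1 : insert (T.min' hTne) (T.image (· + 1)) ⊆ U := by
      intro y hy
      rw [Finset.mem_insert] at hy
      rw [hU, Finset.mem_union]
      rcases hy with rfl | hy
      · left
        rw [Finset.mem_filter]
        refine ⟨T.min'_mem hTne, ?_⟩
        omega
      · right
        rw [Finset.mem_image] at hy ⊢
        obtain ⟨t, ht, rfl⟩ := hy
        refine ⟨t, ?_, rfl⟩
        rw [Finset.mem_filter]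
        have := hT t ht
        exact ⟨ht, by omega⟩
    have h2 : T.min' hTne ∉ T.image (· + 1) := by
      intro hy
      rw [Finset.mem_image] at hy
      obtain ⟨t, ht, hte⟩ := hy
      have := T.min'_le t ht
      omega
    have h3 := Finset.card_le_card h1
    rw [Finset.card_insert_of_notMem h2,
      Finset.card_image_of_injective _ (add_left_injective 1)] at h3
    have h4 : min s (P - 1) = s := by omega
    have h5 : min (s + 1) (P - 1) = s + 1 := by omega
    rw [h4] at hx
    rw [h5]
    omega
  · have h4 : min s (P - 1) = P - 1 := by omega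
    have h5 : min (s + 1) (P - 1) = P - 1 := by omega
    rw [h4] at hx
    rw [h5]
    by_cases hv : ∃ v, x' ≤ v ∧ v < P ∧ v ∉ U
    · obtain ⟨v, hv1, hv2, hv3⟩ := hv
      have hvT : v ∉ T := by
        intro hvT
        apply hv3
        rw [hU, Finset.mem_union]
        left
        rw [Finset.mem_filter]
        exact ⟨hvT, by omega⟩
      have hvT' : ∀ t ∈ T, t + 1 ≠ v := by
        intro t ht hte
        apply hv3
        rw [hU, Finset.mem_union]
        right
        rw [Finset.mem_image]
        exact ⟨t, by rw [Finset.mem_filter]; exact ⟨ht, by omega⟩, hte⟩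
      have h6 : T.card ≤ U.card := by
        apply Finset.card_le_card_of_injOn (fun t => if t < v then t + 1 else t)
        · intro t ht
          have ht' : t ∈ T := ht
          have h7 := hvT' t ht'
          have h8 : t ≠ v := fun h => hvT (h ▸ ht')
          show (if t < v then t + 1 else t) ∈ U
          split_ifs with htv
          · rw [hU, Finset.mem_union]
            right
            rw [Finset.mem_image]
            exact ⟨t, by rw [Finset.mem_filter]; exact ⟨ht', by omega⟩, rfl⟩
          · rw [hU, Finset.mem_union]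
            left
            rw [Finset.mem_filter]
            exact ⟨ht', by omega⟩
        · intro t1 ht1 t2 ht2 h12
          have h71 := hvT' t1 ht1
          have h72 := hvT' t2 ht2
          have h81 : t1 ≠ v := fun h => hvT (h ▸ ht1)
          have h82 : t2 ≠ v := fun h => hvT (h ▸ ht2)
          simp only at h12
          split_ifs at h12 <;> omega
      omega
    · simp only [not_exists, not_and, not_not] at hv
      have h6 : Finset.Ico x' P ⊆ U := by
        intro y hy
        rw [Finset.mem_Ico] at hy
        exact hv y hy.1 hy.2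
      have h7 := Finset.card_le_card h6
      rw [Nat.card_Ico] at h7
      omega

/-- ranks with respect to a function that is injective on the set -/
theorem egc6_rank_card {β : Type*} (S : Finset β) (g : β → ℕ) (hg : Set.InjOn g S) (q : ℕ) :
    (S.filter fun x => (S.filter fun y => g x < g y).card < q).card = min q S.card := by
  classical
  have h := eg_rank_card (S.image g) q
  rw [Finset.card_image_of_injOn hg] at h
  rw [← h, Finset.filter_image, Finset.card_image_of_injOn (hg.mono (by
    intro x hx
    exact (Finset.mem_filter.mp hx).1))]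
  congr 1
  apply Finset.filter_congr
  intro x _
  rw [Finset.filter_image, Finset.card_image_of_injOn (hg.mono (by
    intro y hy
    exact (Finset.mem_filter.mp hy).1))]

/-- among the subsets of a given size, the top segment has the greatest weight, strictly -/
theorem egc6_top_sum {β : Type*} [DecidableEq β] (S A : Finset β) (hA : A ⊆ S) (g w : β → ℕ)
    (hg : Set.InjOn g S) (hw : ∀ x ∈ S, ∀ y ∈ S, g x < g y → w x < w y) :
    (S.filter fun x => (S.filter fun y => g x < g y).card < A.card) = A ∨
      ∑ x ∈ A, w x < ∑ x ∈ (S.filter fun x => (S.filter fun y => g x < g y).card < A.card), w x := by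
  set Top := S.filter fun x => (S.filter fun y => g x < g y).card < A.card with hTop
  have hcard : Top.card = A.card := by
    rw [hTop, egc6_rank_card S g hg]
    exact min_eq_left (Finset.card_le_card hA)
  by_cases hX : Top \ A = ∅
  · left
    exact Finset.eq_of_subset_of_card_le (Finset.sdiff_eq_empty_iff_subset.mp hX) hcard.ge
  · right
    have hXne : (Top \ A).Nonempty := Finset.nonempty_iff_ne_empty.mpr hX
    have hc1 := Finset.card_sdiff_add_card_inter Top A
    have hc2 := Finset.card_sdiff_add_card_inter A Top
    rw [Finset.inter_comm] at hc2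
    have hXY : (A \ Top).card = (Top \ A).card := by omega
    have hYne : (A \ Top).Nonempty := by
      rw [← Finset.card_pos, hXY, Finset.card_pos]; exact hXne
    have key : ∀ y ∈ A \ Top, ∀ x ∈ Top \ A, w y < w x := by
      intro y hy x hx
      rw [Finset.mem_sdiff] at hy hx
      have hyS : y ∈ S := hA hy.1
      have hxS : x ∈ S := (Finset.mem_filter.mp hx.1).1
      apply hw y hyS x hxS
      by_contra hlt
      have hle : g x ≤ g y := not_lt.mp hlt
      have hrx : (S.filter fun z => g x < g z).card < A.card := (Finset.mem_filter.mp hx.1).2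
      have hry : ¬ (S.filter fun z => g y < g z).card < A.card := by
        intro h
        exact hy.2 (Finset.mem_filter.mpr ⟨hyS, h⟩)
      have hsub : (S.filter fun z => g y < g z) ⊆ (S.filter fun z => g x < g z) := by
        intro z hz
        rw [Finset.mem_filter] at hz ⊢
        exact ⟨hz.1, lt_of_le_of_lt hle hz.2⟩
      have := Finset.card_le_card hsub
      omega
    obtain ⟨x0, hx0, hmin⟩ := Finset.exists_min_image (Top \ A) w hXne
    have h1 : ∑ y ∈ A \ Top, w y < ∑ _y ∈ A \ Top, w x0 :=
      Finset.sum_lt_sum_of_nonempty hYne (fun y hy => key y hy x0 hx0)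
    have h2 : (Top \ A).card • w x0 ≤ ∑ x ∈ Top \ A, w x :=
      Finset.card_nsmul_le_sum _ _ _ hmin
    rw [Finset.sum_const, hXY] at h1
    have h3 := Finset.sum_inter_add_sum_sdiff A Top w
    have h4 := Finset.sum_inter_add_sum_sdiff Top A w
    rw [Finset.inter_comm] at h4
    omega

end nat

section box

variable {n : ℕ}

/-- `u` and `m` agree outside the two places `h`, `l` -/
def egc6Agree (h l : Fin n) (u m : Fin n → ℕ) : Prop := ∀ j, j ≠ h → j ≠ l → u j = m j

instance egc6Agree_dec (h l : Fin n) (u m : Fin n → ℕ) : Decidable (egc6Agree h l u m) := by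
  unfold egc6Agree; infer_instance

/-- the box of strict bounds `B`, in degree `d` -/
def egc6Box (B : Fin n → ℕ) (d : ℕ) : Finset (Fin n → ℕ) :=
  (Finset.Nat.antidiagonalTuple n d).filter fun m => ∀ j, m j < B j

/-- the upper shadow inside the box -/
def egc6Sh (B : Fin n → ℕ) (d : ℕ) (A : Finset (Fin n → ℕ)) : Finset (Fin n → ℕ) :=
  (egc6Box B (d + 1)).filter fun m' => ∃ m ∈ A, ∃ i, m' = Function.update m i (m i + 1)

/-- the compression in the two variables `h`, `l`: in every fibre the elements of `A` are replaced
by the same number of elements of the box with the greatest exponent at `h` -/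
def egc6C (B : Fin n → ℕ) (h l : Fin n) (d : ℕ) (A : Finset (Fin n → ℕ)) :
    Finset (Fin n → ℕ) :=
  (egc6Box B d).filter fun m =>
    ((egc6Box B d).filter fun u => egc6Agree h l u m ∧ m h < u h).card
      < (A.filter fun u => egc6Agree h l u m).card

/-- the key of a fibre -/
def egc6Key (h l : Fin n) (m : Fin n → ℕ) : Fin n → ℕ :=
  Function.update (Function.update m h 0) l 0

/-- the weight of an exponent vector -/
def egc6W (m : Fin n → ℕ) : ℕ := ∑ j : Fin n, (n - (j : ℕ)) * m j

theorem egc6_mem_box {B : Fin n → ℕ} {d : ℕ} {m : Fin n → ℕ} :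
    m ∈ egc6Box B d ↔ (∑ j, m j = d) ∧ ∀ j, m j < B j := by
  unfold egc6Box
  rw [Finset.mem_filter, Finset.Nat.mem_antidiagonalTuple]

theorem egc6_agree_iff (h l : Fin n) (u m : Fin n → ℕ) :
    egc6Agree h l u m ↔ egc6Key h l u = egc6Key h l m := by
  unfold egc6Agree egc6Key
  constructor
  · intro hu
    funext j
    by_cases hjl : j = l
    · subst hjl; simp
    · by_cases hjh : j = h
      · subst hjh; simp [Function.update_of_ne hjl]
      · simp [Function.update_of_ne hjl, Function.update_of_ne hjh, hu j hjh hjl]
  · intro hk j hjh hjl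
    have := congrFun hk j
    simpa [Function.update_of_ne hjl, Function.update_of_ne hjh] using this

theorem egc6_agree_refl (h l : Fin n) (m : Fin n → ℕ) : egc6Agree h l m m := fun _ _ _ => rfl

theorem egc6_agree_symm {h l : Fin n} {u m : Fin n → ℕ} (hu : egc6Agree h l u m) :
    egc6Agree h l m u := fun j h1 h2 => (hu j h1 h2).symm

theorem egc6_agree_trans {h l : Fin n} {u v m : Fin n → ℕ} (hu : egc6Agree h l u v)
    (hv : egc6Agree h l v m) : egc6Agree h l u m := fun j h1 h2 => (hu j h1 h2).trans (hv j h1 h2)

theorem egc6_split {h l : Fin n} (hhl : h ≠ l) (v : Fin n → ℕ) :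
    ∑ j, v j = v h + (v l + ∑ j ∈ (Finset.univ.erase h).erase l, v j) := by
  rw [Finset.add_sum_erase _ v (by simp [hhl.symm] : l ∈ Finset.univ.erase h),
    Finset.add_sum_erase _ v (Finset.mem_univ h)]

theorem egc6_agree_sum {h l : Fin n} (hhl : h ≠ l) {u m : Fin n → ℕ} (hu : egc6Agree h l u m) :
    ∑ j, u j + (m h + m l) = ∑ j, m j + (u h + u l) := by
  have rest : ∑ j ∈ (Finset.univ.erase h).erase l, u j
      = ∑ j ∈ (Finset.univ.erase h).erase l, m j := by
    apply Finset.sum_congr rfl
    intro j hj
    rw [Finset.mem_erase, Finset.mem_erase] at hj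
    exact hu j hj.2.1 hj.1
  rw [egc6_split hhl u, egc6_split hhl m, rest]
  omega

theorem egc6_agree_inj {h l : Fin n} (hhl : h ≠ l) {u v : Fin n → ℕ} (hu : egc6Agree h l u v)
    (hs : ∑ j, u j = ∑ j, v j) (hh : u h = v h) : u = v := by
  have h1 := egc6_agree_sum hhl hu
  funext j
  by_cases hjh : j = h
  · subst hjh; exact hh
  · by_cases hjl : j = l
    · subst hjl; omega
    · exact hu j hjh hjl

theorem egc6_W_lt {h l : Fin n} (hhl : h < l) {u m : Fin n → ℕ} (hu : egc6Agree h l u m)
    (hs : ∑ j, u j = ∑ j, m j) (hh : m h < u h) : egc6W m < egc6W u := by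
  have hne : h ≠ l := ne_of_lt hhl
  have h1 := egc6_agree_sum hne hu
  have rest : ∑ j ∈ (Finset.univ.erase h).erase l, (n - (j : ℕ)) * u j
      = ∑ j ∈ (Finset.univ.erase h).erase l, (n - (j : ℕ)) * m j := by
    apply Finset.sum_congr rfl
    intro j hj
    rw [Finset.mem_erase, Finset.mem_erase] at hj
    rw [hu j hj.2.1 hj.1]
  unfold egc6W
  rw [egc6_split hne (fun j => (n - (j : ℕ)) * u j), egc6_split hne (fun j => (n - (j : ℕ)) * m j),
    rest]
  have hα : n - (l : ℕ) < n - (h : ℕ) := by
    have := l.isLt
    have : (h : ℕ) < (l : ℕ) := hhl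
    omega
  obtain ⟨δ, hδ⟩ := Nat.exists_eq_add_of_lt hh
  have hml : m l = u l + (δ + 1) := by omega
  have huh : u h = m h + (δ + 1) := by omega
  rw [hml, huh]
  have := Nat.mul_lt_mul_of_pos_right hα (Nat.succ_pos δ)
  nlinarith [this]

theorem egc6_C_subset (B : Fin n → ℕ) (h l : Fin n) (d : ℕ) (A : Finset (Fin n → ℕ)) :
    egc6C B h l d A ⊆ egc6Box B d := Finset.filter_subset _ _

theorem egc6_Sh_subset (B : Fin n → ℕ) (d : ℕ) (A : Finset (Fin n → ℕ)) :
    egc6Sh B d A ⊆ egc6Box B (d + 1) := Finset.filter_subset _ _

/-- the compression, fibre by fibre -/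
theorem egc6_fibre (B : Fin n → ℕ) (h l : Fin n) (d : ℕ) (A : Finset (Fin n → ℕ))
    (w : Fin n → ℕ) :
    (egc6C B h l d A).filter (fun m => egc6Key h l m = w)
      = ((egc6Box B d).filter fun m => egc6Key h l m = w).filter fun x =>
          ((((egc6Box B d).filter fun m => egc6Key h l m = w).filter fun y => x h < y h).card
            < (A.filter fun m => egc6Key h l m = w).card) := by
  ext m
  simp only [egc6C, Finset.mem_filter]
  constructor
  · rintro ⟨⟨hmB, hr⟩, hmw⟩
    refine ⟨⟨hmB, hmw⟩, ?_⟩
    have e1 : (((egc6Box B d).filter fun m => egc6Key h l m = w).filter fun y => m h < y h)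
        = (egc6Box B d).filter fun u => egc6Agree h l u m ∧ m h < u h := by
      ext u
      simp only [Finset.mem_filter, egc6_agree_iff, hmw]
      tauto
    have e2 : (A.filter fun m => egc6Key h l m = w) = A.filter fun u => egc6Agree h l u m := by
      ext u
      simp only [Finset.mem_filter, egc6_agree_iff, hmw]
    rw [e1, e2]
    exact hr
  · rintro ⟨⟨hmB, hmw⟩, hr⟩
    refine ⟨⟨hmB, ?_⟩, hmw⟩
    have e1 : (((egc6Box B d).filter fun m => egc6Key h l m = w).filter fun y => m h < y h)
        = (egc6Box B d).filter fun u => egc6Agree h l u m ∧ m h < u h := by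
      ext u
      simp only [Finset.mem_filter, egc6_agree_iff, hmw]
      tauto
    have e2 : (A.filter fun m => egc6Key h l m = w) = A.filter fun u => egc6Agree h l u m := by
      ext u
      simp only [Finset.mem_filter, egc6_agree_iff, hmw]
    rw [e1, e2] at hr
    exact hr

theorem egc6_fibre_injOn (B : Fin n → ℕ) {h l : Fin n} (hhl : h ≠ l) (d : ℕ) (w : Fin n → ℕ) :
    Set.InjOn (fun m : Fin n → ℕ => m h)
      ((egc6Box B d).filter fun m => egc6Key h l m = w : Finset (Fin n → ℕ)) := by
  intro u hu v hv huv
  have hu' := Finset.mem_filter.mp hu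
  have hv' := Finset.mem_filter.mp hv
  apply egc6_agree_inj hhl
  · rw [egc6_agree_iff, hu'.2, hv'.2]
  · rw [(egc6_mem_box.mp hu'.1).1, (egc6_mem_box.mp hv'.1).1]
  · exact huv

theorem egc6_card_C (B : Fin n → ℕ) {h l : Fin n} (hhl : h ≠ l) (d : ℕ)
    (A : Finset (Fin n → ℕ)) (hA : A ⊆ egc6Box B d) : (egc6C B h l d A).card = A.card := by
  have h1 : ∀ x ∈ egc6C B h l d A, egc6Key h l x ∈ (egc6Box B d).image (egc6Key h l) :=
    fun x hx => Finset.mem_image_of_mem _ (egc6_C_subset B h l d A hx)
  have h2 : ∀ x ∈ A, egc6Key h l x ∈ (egc6Box B d).image (egc6Key h l) :=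
    fun x hx => Finset.mem_image_of_mem _ (hA hx)
  rw [Finset.card_eq_sum_card_fiberwise h1, Finset.card_eq_sum_card_fiberwise h2]
  apply Finset.sum_congr rfl
  intro w _
  rw [egc6_fibre, egc6_rank_card _ (fun m : Fin n → ℕ => m h) (egc6_fibre_injOn B hhl d w)]
  apply min_eq_left
  apply Finset.card_le_card
  intro m hm
  rw [Finset.mem_filter] at hm ⊢
  exact ⟨hA hm.1, hm.2⟩

/-- the compression fixes the set or raises its weight -/
theorem egc6_weight (B : Fin n → ℕ) {h l : Fin n} (hhl : h < l) (d : ℕ)
    (A : Finset (Fin n → ℕ)) (hA : A ⊆ egc6Box B d) :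
    egc6C B h l d A = A ∨ ∑ m ∈ A, egc6W m < ∑ m ∈ egc6C B h l d A, egc6W m := by
  have hne : h ≠ l := ne_of_lt hhl
  by_cases heq : egc6C B h l d A = A
  · exact Or.inl heq
  right
  have h1 : ∀ x ∈ egc6C B h l d A, egc6Key h l x ∈ (egc6Box B d).image (egc6Key h l) :=
    fun x hx => Finset.mem_image_of_mem _ (egc6_C_subset B h l d A hx)
  have h2 : ∀ x ∈ A, egc6Key h l x ∈ (egc6Box B d).image (egc6Key h l) :=
    fun x hx => Finset.mem_image_of_mem _ (hA hx)
  rw [← Finset.sum_fiberwise_of_maps_to h1, ← Finset.sum_fiberwise_of_maps_to h2]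
  have key : ∀ w, (egc6C B h l d A).filter (fun m => egc6Key h l m = w)
        = A.filter (fun m => egc6Key h l m = w) ∨
      ∑ m ∈ A.filter (fun m => egc6Key h l m = w), egc6W m
        < ∑ m ∈ (egc6C B h l d A).filter (fun m => egc6Key h l m = w), egc6W m := by
    intro w
    rw [egc6_fibre]
    apply egc6_top_sum _ _ _ (fun m : Fin n → ℕ => m h) egc6W (egc6_fibre_injOn B hne d w)
    · intro x hx y hy hxy
      have hx' := Finset.mem_filter.mp hx
      have hy' := Finset.mem_filter.mp hy
      apply egc6_W_lt hhl
      · rw [egc6_agree_iff, hx'.2, hy'.2]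
      · rw [(egc6_mem_box.mp hx'.1).1, (egc6_mem_box.mp hy'.1).1]
      · exact hxy
    · intro m hm
      rw [Finset.mem_filter] at hm ⊢
      exact ⟨hA hm.1, hm.2⟩
  apply Finset.sum_lt_sum
  · intro w _
    rcases key w with hk | hk
    · rw [hk]
    · exact hk.le
  · by_contra hno
    apply heq
    have hall : ∀ w ∈ (egc6Box B d).image (egc6Key h l),
        (egc6C B h l d A).filter (fun m => egc6Key h l m = w)
          = A.filter (fun m => egc6Key h l m = w) := by
      intro w hw
      rcases key w with hk | hk
      · exact hk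
      · exact absurd ⟨w, hw, hk⟩ hno
    ext m
    constructor
    · intro hm
      have h3 : m ∈ (egc6C B h l d A).filter (fun m' => egc6Key h l m' = egc6Key h l m) :=
        Finset.mem_filter.mpr ⟨hm, rfl⟩
      rw [hall _ (h1 m hm)] at h3
      exact (Finset.mem_filter.mp h3).1
    · intro hm
      have h3 : m ∈ A.filter (fun m' => egc6Key h l m' = egc6Key h l m) :=
        Finset.mem_filter.mpr ⟨hm, rfl⟩
      rw [← hall _ (h2 m hm)] at h3
      exact (Finset.mem_filter.mp h3).1

/-- a fixed point of the compression is closed upwards in every fibre -/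
theorem egc6_stable_of_fix (B : Fin n → ℕ) (h l : Fin n) (d : ℕ) (A : Finset (Fin n → ℕ))
    (hfix : egc6C B h l d A = A) (m : Fin n → ℕ) (hm : m ∈ A) (u : Fin n → ℕ)
    (hu : u ∈ egc6Box B d) (hum : egc6Agree h l u m) (hlt : m h < u h) : u ∈ A := by
  rw [← hfix] at hm ⊢
  unfold egc6C at hm ⊢
  rw [Finset.mem_filter] at hm ⊢
  refine ⟨hu, lt_of_le_of_lt (Finset.card_le_card ?_) (lt_of_lt_of_le hm.2 (le_of_eq ?_))⟩
  · intro v hv
    rw [Finset.mem_filter] at hv ⊢
    exact ⟨hv.1, egc6_agree_trans hv.2.1 hum, lt_trans hlt hv.2.2⟩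
  · congr 1
    apply Finset.filter_congr
    intro v _
    exact ⟨fun hv => egc6_agree_trans hv (egc6_agree_symm hum), fun hv => egc6_agree_trans hv hum⟩

theorem egc6_update_inj (i : Fin n) {u v : Fin n → ℕ}
    (h : Function.update u i (u i + 1) = Function.update v i (v i + 1)) : u = v := by
  funext j
  have := congrFun h j
  by_cases hj : j = i
  · subst hj; simpa using this
  · simpa [Function.update_of_ne hj] using this

theorem egc6_box_up {B : Fin n → ℕ} {d : ℕ} {u : Fin n → ℕ} {i : Fin n} (hu : u ∈ egc6Box B d)
    (hk : u i + 1 < B i) : Function.update u i (u i + 1) ∈ egc6Box B (d + 1) := by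
  rw [egc6_mem_box] at hu ⊢
  refine ⟨by rw [eg_sum_update, hu.1], fun j => ?_⟩
  by_cases hj : j = i
  · subst hj; simpa using hk
  · rw [Function.update_of_ne hj]; exact hu.2 j

theorem egc6_box_down {B : Fin n → ℕ} {d : ℕ} {u : Fin n → ℕ} {i : Fin n}
    (hu : u ∈ egc6Box B (d + 1)) (k : ℕ) (hk : u i = k + 1) :
    Function.update u i k ∈ egc6Box B d := by
  rw [egc6_mem_box] at hu ⊢
  have h1 := eg_sum_update (Function.update u i k) i
  have h2 : Function.update (Function.update u i k) i (Function.update u i k i + 1) = u := by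
    rw [Function.update_self, Function.update_idem, ← hk, Function.update_eq_self]
  rw [h2, hu.1] at h1
  refine ⟨by omega, fun j => ?_⟩
  by_cases hj : j = i
  · subst hj
    rw [Function.update_self]
    have := hu.2 j
    omega
  · rw [Function.update_of_ne hj]; exact hu.2 j

/-- the shadow of the compressed set lies in the compression of the shadow -/
theorem egc6_shadow_C (B : Fin n → ℕ) {h l : Fin n} (hhl : h < l) (hB : B h ≤ B l) (d : ℕ)
    (A : Finset (Fin n → ℕ)) (hA : A ⊆ egc6Box B d) :
    egc6Sh B d (egc6C B h l d A) ⊆ egc6C B h l (d + 1) (egc6Sh B d A) := by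
  have hne : h ≠ l := ne_of_lt hhl
  intro m' hm'
  unfold egc6Sh at hm'
  rw [Finset.mem_filter] at hm'
  obtain ⟨hm'B, m, hmC, i, hm'e⟩ := hm'
  unfold egc6C at hmC
  rw [Finset.mem_filter] at hmC
  obtain ⟨hmB, hr⟩ := hmC
  have hm'i : m' i = m i + 1 := by rw [hm'e, Function.update_self]
  have hm'j : ∀ j, j ≠ i → m' j = m j := fun j hj => by rw [hm'e, Function.update_of_ne hj]
  unfold egc6C
  rw [Finset.mem_filter]
  refine ⟨hm'B, ?_⟩
  by_cases hi : i ≠ h ∧ i ≠ l
  · -- a third variable is raised
    obtain ⟨hih, hil⟩ := hi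
    have hL : ((egc6Box B (d + 1)).filter fun u => egc6Agree h l u m' ∧ m' h < u h).card
        ≤ ((egc6Box B d).filter fun u => egc6Agree h l u m ∧ m h < u h).card := by
      apply Finset.card_le_card_of_injOn (fun u => Function.update u i (m i))
      · intro u hu
        obtain ⟨huB, huA, huh⟩ := Finset.mem_filter.mp hu
        have hui : u i = m i + 1 := by rw [huA i hih hil, hm'i]
        show Function.update u i (m i) ∈ _
        rw [Finset.mem_coe, Finset.mem_filter]
        refine ⟨egc6_box_down huB _ hui, ?_, ?_⟩
        · intro j hjh hjl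
          by_cases hj : j = i
          · subst hj; rw [Function.update_self]
          · rw [Function.update_of_ne hj, huA j hjh hjl, hm'j j hj]
        · rw [Function.update_of_ne (Ne.symm hih), ← hm'j h (Ne.symm hih)]
          exact huh
      · intro u hu v hv huv
        obtain ⟨_, huA, _⟩ := Finset.mem_filter.mp hu
        obtain ⟨_, hvA, _⟩ := Finset.mem_filter.mp hv
        funext j
        by_cases hj : j = i
        · subst hj; rw [huA j hih hil, hvA j hih hil]
        · have := congrFun huv j
          simpa [Function.update_of_ne hj] using this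
    have hR : (A.filter fun u => egc6Agree h l u m).card
        ≤ ((egc6Sh B d A).filter fun u => egc6Agree h l u m').card := by
      apply Finset.card_le_card_of_injOn (fun u => Function.update u i (u i + 1))
      · intro u hu
        obtain ⟨huA, huAg⟩ := Finset.mem_filter.mp hu
        have hui : u i = m i := huAg i hih hil
        show Function.update u i (u i + 1) ∈ _
        rw [Finset.mem_coe, Finset.mem_filter]
        constructor
        · unfold egc6Sh
          rw [Finset.mem_filter]
          refine ⟨egc6_box_up (hA huA) ?_, u, huA, i, rfl⟩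
          rw [hui, ← hm'i]
          exact (egc6_mem_box.mp hm'B).2 i
        · intro j hjh hjl
          by_cases hj : j = i
          · subst hj; rw [Function.update_self, hui, hm'i]
          · rw [Function.update_of_ne hj, huAg j hjh hjl, hm'j j hj]
      · intro u _ v _ huv
        exact egc6_update_inj i huv
    omega
  · -- one of the two variables is raised
    have hi' : i = h ∨ i = l := by
      by_contra hcon
      exact hi ⟨fun h1 => hcon (Or.inl h1), fun h1 => hcon (Or.inr h1)⟩
    have hAg : egc6Agree h l m' m := by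
      intro j hjh hjl
      apply hm'j
      rcases hi' with rfl | rfl
      · exact hjh
      · exact hjl
    have hAgiff : ∀ u, egc6Agree h l u m' ↔ egc6Agree h l u m := fun u =>
      ⟨fun hu => egc6_agree_trans hu hAg, fun hu => egc6_agree_trans hu (egc6_agree_symm hAg)⟩
    obtain ⟨hmS, hmb⟩ := egc6_mem_box.mp hmB
    obtain ⟨hm'S, hm'b⟩ := egc6_mem_box.mp hm'B
    set s := m h + m l with hs
    have hs' : m' h + m' l = s + 1 := by
      have := egc6_agree_sum hne hAg
      omega
    -- the exponents at `h` of the fibre of `A`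
    set T := (A.filter fun u => egc6Agree h l u m).image (fun u => u h) with hTdef
    have hTcard : T.card = (A.filter fun u => egc6Agree h l u m).card := by
      apply Finset.card_image_of_injOn
      intro u hu v hv huv
      obtain ⟨huA, huAg⟩ := Finset.mem_filter.mp hu
      obtain ⟨hvA, hvAg⟩ := Finset.mem_filter.mp hv
      apply egc6_agree_inj hne (egc6_agree_trans huAg (egc6_agree_symm hvAg))
      · rw [(egc6_mem_box.mp (hA huA)).1, (egc6_mem_box.mp (hA hvA)).1]
      · exact huv
    have hTfacts : ∀ u ∈ A, egc6Agree h l u m → u h + u l = s := by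
      intro u huA huAg
      have h1 := egc6_agree_sum hne huAg
      have h2 := (egc6_mem_box.mp (hA huA)).1
      omega
    have hT : ∀ t ∈ T, t < B h ∧ t ≤ s ∧ s - t < B l := by
      intro t ht
      rw [hTdef, Finset.mem_image] at ht
      obtain ⟨u, hu, rfl⟩ := ht
      obtain ⟨huA, huAg⟩ := Finset.mem_filter.mp hu
      have h1 := hTfacts u huA huAg
      have h2 := (egc6_mem_box.mp (hA huA)).2
      have h3 := h2 h
      have h4 := h2 l
      omega
    -- the rank of `m`
    have hx : min s (B h - 1) - m h < T.card := by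
      rw [hTcard]
      refine lt_of_le_of_lt ?_ hr
      have hsub : Finset.Ioc (m h) (min s (B h - 1))
          ⊆ ((egc6Box B d).filter fun u => egc6Agree h l u m ∧ m h < u h).image (fun u => u h) := by
        intro x hx
        rw [Finset.mem_Ioc] at hx
        rw [Finset.mem_image]
        have hv1 : Function.update (Function.update m h x) l (s - x) h = x := by
          rw [Function.update_of_ne hne, Function.update_self]
        have hv2 : Function.update (Function.update m h x) l (s - x) l = s - x := by
          rw [Function.update_self]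
        have hvAg : egc6Agree h l (Function.update (Function.update m h x) l (s - x)) m := by
          intro j hjh hjl
          rw [Function.update_of_ne hjl, Function.update_of_ne hjh]
        refine ⟨Function.update (Function.update m h x) l (s - x), ?_, hv1⟩
        rw [Finset.mem_filter]
        refine ⟨?_, hvAg, by rw [hv1]; exact hx.1⟩
        rw [egc6_mem_box]
        constructor
        · have h1 := egc6_agree_sum hne hvAg
          rw [hv1, hv2] at h1
          omega
        · intro j
          by_cases hjl : j = l
          · subst hjl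
            rw [hv2]
            have := hmb j
            omega
          · by_cases hjh : j = h
            · subst hjh
              rw [hv1]
              have := hmb j
              omega
            · rw [hvAg j hjh hjl]; exact hmb j
      have h1 := Finset.card_le_card hsub
      rw [Nat.card_Ioc] at h1
      exact h1.trans Finset.card_image_le
    -- the rank of `m'`
    have hL : ((egc6Box B (d + 1)).filter fun u => egc6Agree h l u m' ∧ m' h < u h).card
        ≤ min (s + 1) (B h - 1) - m' h := by
      rw [← Nat.card_Ioc, ← Finset.card_image_of_injOn (f := fun u : Fin n → ℕ => u h)]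
      · apply Finset.card_le_card
        intro x hx
        rw [Finset.mem_image] at hx
        obtain ⟨u, hu, rfl⟩ := hx
        obtain ⟨huB, huAg, huh⟩ := Finset.mem_filter.mp hu
        obtain ⟨huS, hub⟩ := egc6_mem_box.mp huB
        have h1 := egc6_agree_sum hne huAg
        have h2 := hub h
        rw [Finset.mem_Ioc]
        omega
      · intro u hu v hv huv
        obtain ⟨huB, huAg, _⟩ := Finset.mem_filter.mp hu
        obtain ⟨hvB, hvAg, _⟩ := Finset.mem_filter.mp hv
        apply egc6_agree_inj hne (egc6_agree_trans huAg (egc6_agree_symm hvAg))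
        · rw [(egc6_mem_box.mp huB).1, (egc6_mem_box.mp hvB).1]
        · exact huv
    -- the fibre of the shadow
    have hR : ((T.filter fun t => s + 1 - t < B l) ∪
          ((T.filter fun t => t + 1 < B h).image (· + 1))).card
        ≤ ((egc6Sh B d A).filter fun u => egc6Agree h l u m').card := by
      refine le_trans (Finset.card_le_card ?_)
        (Finset.card_image_le (s := (egc6Sh B d A).filter fun u => egc6Agree h l u m')
          (f := fun u : Fin n → ℕ => u h))
      intro y hy
      rw [Finset.mem_union] at hy
      rw [Finset.mem_image]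
      rcases hy with hy | hy
      · obtain ⟨hyT, hyQ⟩ := Finset.mem_filter.mp hy
        rw [hTdef, Finset.mem_image] at hyT
        obtain ⟨u, hu, rfl⟩ := hyT
        obtain ⟨huA, huAg⟩ := Finset.mem_filter.mp hu
        have h1 := hTfacts u huA huAg
        refine ⟨Function.update u l (u l + 1), ?_, by rw [Function.update_of_ne hne]⟩
        rw [Finset.mem_filter]
        constructor
        · unfold egc6Sh
          rw [Finset.mem_filter]
          exact ⟨egc6_box_up (hA huA) (by omega), u, huA, l, rfl⟩
        · rw [hAgiff]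
          intro j hjh hjl
          rw [Function.update_of_ne hjl]
          exact huAg j hjh hjl
      · rw [Finset.mem_image] at hy
        obtain ⟨t, ht, rfl⟩ := hy
        obtain ⟨htT, htP⟩ := Finset.mem_filter.mp ht
        rw [hTdef, Finset.mem_image] at htT
        obtain ⟨u, hu, rfl⟩ := htT
        obtain ⟨huA, huAg⟩ := Finset.mem_filter.mp hu
        refine ⟨Function.update u h (u h + 1), ?_, by rw [Function.update_self]⟩
        rw [Finset.mem_filter]
        constructor
        · unfold egc6Sh
          rw [Finset.mem_filter]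
          exact ⟨egc6_box_up (hA huA) htP, u, huA, h, rfl⟩
        · rw [hAgiff]
          intro j hjh hjl
          rw [Function.update_of_ne hjh]
          exact huAg j hjh hjl
    have hxx : m' h = m h ∨ m' h = m h + 1 := by
      rcases hi' with rfl | rfl
      · right; exact hm'i
      · left; exact hm'j h hne
    have h2v := egc6_two_var (B h) (B l) s hB T hT (m h) (m' h) hx hxx (hm'b h)
      (by have := hm'b l; omega)
    omega

/-- **Compression to a stable set**, in a box of nondecreasing strict bounds. -/
theorem egc6_exists_stable_box (B : Fin n → ℕ) (hB : Monotone B) (d : ℕ)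
    (A : Finset (Fin n → ℕ)) (hA : A ⊆ egc6Box B d) :
    ∃ A' : Finset (Fin n → ℕ), A' ⊆ egc6Box B d ∧ A'.card = A.card ∧
      (egc6Sh B d A').card ≤ (egc6Sh B d A).card ∧
      ∀ h l : Fin n, h < l → ∀ m ∈ A', ∀ u ∈ egc6Box B d, egc6Agree h l u m → m h < u h →
        u ∈ A' := by
  classical
  set cand := (egc6Box B d).powerset.filter fun A' =>
    A'.card = A.card ∧ (egc6Sh B d A').card ≤ (egc6Sh B d A).card with hcand
  have hAc : A ∈ cand := by
    rw [hcand, Finset.mem_filter, Finset.mem_powerset]
    exact ⟨hA, rfl, le_refl _⟩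
  obtain ⟨A', hA', hmax⟩ := Finset.exists_max_image cand (fun X => ∑ m ∈ X, egc6W m) ⟨A, hAc⟩
  rw [hcand, Finset.mem_filter, Finset.mem_powerset] at hA'
  obtain ⟨hA'B, hA'c, hA's⟩ := hA'
  refine ⟨A', hA'B, hA'c, hA's, ?_⟩
  intro h l hhl
  have hne : h ≠ l := ne_of_lt hhl
  have hCc : egc6C B h l d A' ∈ cand := by
    rw [hcand, Finset.mem_filter, Finset.mem_powerset]
    refine ⟨egc6_C_subset B h l d A', by rw [egc6_card_C B hne d A' hA'B, hA'c], ?_⟩
    refine le_trans (Finset.card_le_card (egc6_shadow_C B hhl (hB hhl.le) d A' hA'B)) ?_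
    rw [egc6_card_C B hne (d + 1) _ (egc6_Sh_subset B d A')]
    exact hA's
  have hfix : egc6C B h l d A' = A' := by
    rcases egc6_weight B hhl d A' hA'B with hk | hk
    · exact hk
    · exact absurd (hmax _ hCc) (not_le.mpr hk)
  exact egc6_stable_of_fix B h l d A' hfix

end box

section transfer

variable {n c : ℕ}

/-- finite strict bounds that describe the box of `Def_0450` in the degrees `≤ d + 1` -/
def egc6Bd (c : ℕ) (a : Fin c → ℕ) (d : ℕ) (j : Fin n) : ℕ :=
  if hj : (j : ℕ) < c then min (a ⟨j, hj⟩) (d + 2) else d + 2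

theorem egc6_Bd_mono (a : Fin c → ℕ) (hmono : Monotone a) (d : ℕ) :
    Monotone (egc6Bd (n := n) c a d) := by
  intro j k hjk
  have hjk' : (j : ℕ) ≤ (k : ℕ) := hjk
  unfold egc6Bd
  by_cases hk : (k : ℕ) < c
  · have hj : (j : ℕ) < c := lt_of_le_of_lt hjk' hk
    rw [dif_pos hj, dif_pos hk]
    exact min_le_min (hmono (by exact hjk')) (le_refl _)
  · rw [dif_neg hk]
    by_cases hj : (j : ℕ) < c
    · rw [dif_pos hj]; exact min_le_right _ _
    · rw [dif_neg hj]

theorem egc6_nonPower_eq (hc : c ≤ n) (a : Fin c → ℕ) (d e : ℕ) (he : e ≤ d + 1) :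
    nonPowerMonomials hc a e = egc6Box (egc6Bd (n := n) c a d) e := by
  ext m
  unfold nonPowerMonomials
  rw [Finset.mem_filter, Finset.Nat.mem_antidiagonalTuple, egc6_mem_box]
  refine and_congr_right fun hs => ?_
  unfold inPowers
  rw [decide_eq_false_iff_not]
  constructor
  · intro hno j
    have hmj : m j ≤ e := by
      rw [← hs]
      exact Finset.single_le_sum (f := m) (fun _ _ => Nat.zero_le _) (Finset.mem_univ j)
    unfold egc6Bd
    by_cases hj : (j : ℕ) < c
    · rw [dif_pos hj, lt_min_iff]
      refine ⟨?_, by omega⟩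
      by_contra hcon
      apply hno
      refine ⟨⟨j, hj⟩, ?_⟩
      have : Fin.castLE hc ⟨j, hj⟩ = j := by ext; simp
      rw [this]
      exact not_lt.mp hcon
    · rw [dif_neg hj]; omega
  · rintro hall ⟨i, hi⟩
    have h1 := hall (Fin.castLE hc i)
    unfold egc6Bd at h1
    have hlt : ((Fin.castLE hc i : Fin n) : ℕ) < c := by simp
    rw [dif_pos hlt, lt_min_iff] at h1
    have h2 : (⟨((Fin.castLE hc i : Fin n) : ℕ), hlt⟩ : Fin c) = i := by ext; simp
    rw [h2] at h1
    omega

theorem egc6_shadow_eq (hc : c ≤ n) (a : Fin c → ℕ) (d : ℕ) (A : Finset (Fin n → ℕ)) :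
    egShadow hc a d A = egc6Sh (egc6Bd (n := n) c a d) d A := by
  unfold egShadow egc6Sh
  rw [egc6_nonPower_eq hc a d (d + 1) (le_refl _)]

/-- **Compression to a stable set**, in the words of `EgRoof`: every `A` in the box of degree `d`
has a competitor of the same size, with a shadow that is not larger, closed under moving
exponent from a later variable `l` to an earlier variable `h` inside the box. -/
theorem egc6_exists_stable (hc : c ≤ n) (a : Fin c → ℕ) (hmono : Monotone a) (d : ℕ)
    (A : Finset (Fin n → ℕ)) (hA : A ⊆ nonPowerMonomials hc a d) :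
    ∃ A' : Finset (Fin n → ℕ), A' ⊆ nonPowerMonomials hc a d ∧ A'.card = A.card ∧
      (egShadow hc a d A').card ≤ (egShadow hc a d A).card ∧
      ∀ h l : Fin n, h < l → ∀ m ∈ A', ∀ u ∈ nonPowerMonomials hc a d,
        (∀ j, j ≠ h → j ≠ l → u j = m j) → m h < u h → u ∈ A' := by
  rw [egc6_nonPower_eq hc a d d (Nat.le_succ d)] at hA ⊢
  simp only [egc6_shadow_eq]
  exact egc6_exists_stable_box _ (egc6_Bd_mono a hmono d) d A hA

/-- the same with the one-step form of stability -/
theorem egc6_exists_stable_step (hc : c ≤ n) (a : Fin c → ℕ) (hmono : Monotone a) (d : ℕ)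
    (A : Finset (Fin n → ℕ)) (hA : A ⊆ nonPowerMonomials hc a d) :
    ∃ A' : Finset (Fin n → ℕ), A' ⊆ nonPowerMonomials hc a d ∧ A'.card = A.card ∧
      (egShadow hc a d A').card ≤ (egShadow hc a d A).card ∧
      ∀ h l : Fin n, h < l → ∀ m ∈ A', 0 < m l →
        Function.update (Function.update m h (m h + 1)) l (m l - 1) ∈ nonPowerMonomials hc a d →
        Function.update (Function.update m h (m h + 1)) l (m l - 1) ∈ A' := by
  obtain ⟨A', h1, h2, h3, h4⟩ := egc6_exists_stable hc a hmono d A hA
  refine ⟨A', h1, h2, h3, ?_⟩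
  intro h l hhl m hm _ hu
  have hne : h ≠ l := ne_of_lt hhl
  apply h4 h l hhl m hm _ hu
  · intro j hjh hjl
    rw [Function.update_of_ne hjl, Function.update_of_ne hjh]
  · rw [Function.update_of_ne hne, Function.update_self]
    exact Nat.lt_succ_self _

end transfer

end Claimed.Agent.R278
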