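-- KEEP
import Claimed.Agent.R278.EgRoof
import Claimed.Agent.R278.CLSeg

/-!
# Row 278, Clements--Lindstrom, leaf L7d: compression in a pair of variables

For `h ≠ l` with `β h ≤ β l` the compression of a subset `A` of a degree piece of the box in the
pair `(h, l)` has the same cardinality (`r278s_comp_card`) and its upper shadow is not larger
(`r278s_sh_comp_card_le`).  The last section is the bridge to the words of `CLDefs.lean`:
`r278s_shadow_comp_le` is the leaf L7d (`r278cl_shadow_comp_le`) verbatim.
-/

set_option autoImplicit false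
open Claims Claims.C0450

namespace Claimed.Agent.R278

section numeric

/-- Clements--Lindstrom in two variables, in the form used on each chain `u h + u l = s`. -/
theorem r278s_numeric (s bh bl : ℕ) (hb : bh ≤ bl) (X Y : Finset ℕ)
    (hX : ∀ x ∈ X, x ≤ s ∧ x < bh ∧ s < bl + x)
    (hY1 : ∀ x ∈ X, s + 1 < bl + x → x ∈ Y)
    (hY2 : ∀ x ∈ X, x + 1 < bh → x + 1 ∈ Y)
    (hpos : 0 < X.card) (t : ℕ) (_ht1 : t ≤ s + 1) (ht2 : t < bh) (ht3 : s + 1 < bl + t)
    (hq : min s (bh - 1) < X.card + t) : min (s + 1) (bh - 1) < Y.card + t := by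
  rcases lt_or_ge (s + 1) bh with hA | hA
  · have hne : X.Nonempty := Finset.card_pos.mp hpos
    have hsub : insert (X.max' hne + 1) X ⊆ Y := by
      intro y hy
      rcases Finset.mem_insert.mp hy with rfl | hy
      · have := hX _ (X.max'_mem hne)
        exact hY2 _ (X.max'_mem hne) (by omega)
      · have := hX _ hy
        exact hY1 _ hy (by omega)
    have hnot : X.max' hne + 1 ∉ X := fun hm => by
      have := X.le_max' _ hm
      omega
    have := Finset.card_le_card hsub
    rw [Finset.card_insert_of_notMem hnot] at this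
    omega
  · rcases lt_or_ge (s + 1) bl with hB | hB
    · have hsub : X ⊆ Y := fun y hy => hY1 _ hy (by omega)
      have := Finset.card_le_card hsub
      omega
    · by_cases hloX : s + 1 - bl ∈ X
      · have hlo := hX _ hloX
        have hex : ∃ y, s + 1 - bl ≤ y ∧ y ∉ X :=
          ⟨bh, by omega, fun hm => by have := hX _ hm; omega⟩
        obtain ⟨hy1, hy2⟩ := Nat.find_spec hex
        have hmin := fun m => @Nat.find_min _ _ hex m
        set y := Nat.find hex with hy
        have hyne : y ≠ s + 1 - bl := fun e => hy2 (e ▸ hloX)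
        have hpred : y - 1 ∈ X := by
          by_contra hcon
          exact hmin (y - 1) (by omega) ⟨by omega, hcon⟩
        have hpred' := hX _ hpred
        rcases lt_or_ge y bh with hyb | hyb
        · have hyY : y ∈ Y := by
            have := hY2 _ hpred (by omega)
            rwa [Nat.sub_add_cancel (by omega)] at this
          have hsub : insert y (X.erase (s + 1 - bl)) ⊆ Y := by
            intro z hz
            rcases Finset.mem_insert.mp hz with rfl | hz
            · exact hyY
            · rw [Finset.mem_erase] at hz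
              have := hX _ hz.2
              exact hY1 _ hz.2 (by omega)
          have hnot : y ∉ X.erase (s + 1 - bl) := fun hm => hy2 (Finset.mem_of_mem_erase hm)
          have := Finset.card_le_card hsub
          rw [Finset.card_insert_of_notMem hnot, Finset.card_erase_of_mem hloX] at this
          omega
        · have hsub : Finset.Icc (s + 1 - bl + 1) (bh - 1) ⊆ Y := by
            intro z hz
            rw [Finset.mem_Icc] at hz
            have hzX : z ∈ X := by
              by_contra hcon
              exact hmin z (by omega) ⟨by omega, hcon⟩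
            exact hY1 _ hzX (by omega)
          have := Finset.card_le_card hsub
          rw [Nat.card_Icc] at this
          omega
      · have hsub : X ⊆ Y := fun y hy => hY1 _ hy (by
          have := hX _ hy
          have : y ≠ s + 1 - bl := fun e => hloX (e ▸ hy)
          omega)
        have := Finset.card_le_card hsub
        omega

end numeric

section box

variable {n : ℕ}

/-- the degree `d` part of the box `u i < β i` -/
def r278s_box (β : Fin n → ℕ) (d : ℕ) : Finset (Fin n → ℕ) :=
  (Finset.Nat.antidiagonalTuple n d).filter fun u => ∀ i, u i < β i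

theorem r278s_mem_box {β : Fin n → ℕ} {d : ℕ} {u : Fin n → ℕ} :
    u ∈ r278s_box β d ↔ ∑ i, u i = d ∧ ∀ i, u i < β i := by
  simp [r278s_box, Finset.Nat.mem_antidiagonalTuple]

/-- the upper shadow inside the box -/
def r278s_sh (β : Fin n → ℕ) (d : ℕ) (A : Finset (Fin n → ℕ)) : Finset (Fin n → ℕ) :=
  (r278s_box β (d + 1)).filter fun v => ∃ u ∈ A, ∃ i, v = Function.update u i (u i + 1)

theorem r278s_mem_sh {β : Fin n → ℕ} {d : ℕ} {A : Finset (Fin n → ℕ)} {v : Fin n → ℕ} :
    v ∈ r278s_sh β d A ↔
      v ∈ r278s_box β (d + 1) ∧ ∃ u ∈ A, ∃ i, v = Function.update u i (u i + 1) := by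
  simp [r278s_sh]

theorem r278s_update_mem_box {β : Fin n → ℕ} {d : ℕ} {w : Fin n → ℕ} (hw : w ∈ r278s_box β d)
    (i : Fin n) (hi : w i + 1 < β i) : Function.update w i (w i + 1) ∈ r278s_box β (d + 1) := by
  rw [r278s_mem_box] at hw ⊢
  refine ⟨by rw [eg_sum_update, hw.1], fun j => ?_⟩
  by_cases hj : j = i
  · subst hj; simpa using hi
  · rw [Function.update_of_ne hj]; exact hw.2 j

/-- the label of the chain of `u` in the pair `(h, l)` -/
def r278s_key (h l : Fin n) (u : Fin n → ℕ) : Fin n → ℕ :=
  Function.update (Function.update u h (u h + u l)) l 0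

theorem r278s_key_eq_iff {h l : Fin n} (hne : h ≠ l) (u w : Fin n → ℕ) :
    r278s_key h l u = r278s_key h l w ↔
      u h + u l = w h + w l ∧ ∀ i, i ≠ h → i ≠ l → u i = w i := by
  constructor
  · intro e
    refine ⟨?_, fun i hi hl => ?_⟩
    · have := congrFun e h
      simpa [r278s_key, Function.update_of_ne hne] using this
    · have := congrFun e i
      simpa [r278s_key, Function.update_of_ne hi, Function.update_of_ne hl] using this
  · rintro ⟨e1, e2⟩
    funext i
    by_cases hl : i = l
    · subst hl; simp [r278s_key]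
    · by_cases hi : i = h
      · subst hi; simp [r278s_key, Function.update_of_ne hl, e1]
      · simp [r278s_key, Function.update_of_ne hl, Function.update_of_ne hi, e2 i hi hl]

theorem r278s_key_inj {h l : Fin n} (hne : h ≠ l) {u w : Fin n → ℕ}
    (e : r278s_key h l u = r278s_key h l w) (eh : u h = w h) : u = w := by
  rw [r278s_key_eq_iff hne] at e
  funext i
  by_cases hi : i = h
  · subst hi; exact eh
  · by_cases hl : i = l
    · subst hl; omega
    · exact e.2 i hi hl

theorem r278s_sum_update2 {h l : Fin n} (hne : h ≠ l) (u : Fin n → ℕ) (x y : ℕ) :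
    ∑ j, Function.update (Function.update u h x) l y j + u h + u l = ∑ j, u j + x + y := by
  have e : Function.update (Function.update u h x) l y + Pi.single h (u h) + Pi.single l (u l)
      = u + Pi.single h x + Pi.single l y := by
    funext j
    by_cases hl : j = l
    · subst hl; simp [Pi.single_eq_of_ne hne.symm]; omega
    · by_cases hh : j = h
      · subst hh; simp [Function.update_of_ne hl, Pi.single_eq_of_ne hl]; omega
      · simp [Function.update_of_ne hl, Function.update_of_ne hh, Pi.single_eq_of_ne hl,
          Pi.single_eq_of_ne hh]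
  have e2 := congrArg (fun f : Fin n → ℕ => ∑ j, f j) e
  simpa [Finset.sum_add_distrib] using e2

/-- the top of the chain of `u` -/
def r278s_hi (β : Fin n → ℕ) (h l : Fin n) (u : Fin n → ℕ) : ℕ := min (u h + u l) (β h - 1)

theorem r278s_hi_congr (β : Fin n → ℕ) {h l : Fin n} (hne : h ≠ l) {u w : Fin n → ℕ}
    (e : r278s_key h l u = r278s_key h l w) : r278s_hi β h l u = r278s_hi β h l w := by
  rw [r278s_key_eq_iff hne] at e
  unfold r278s_hi
  rw [e.1]

/-- the point of the chain of `u` with `h`-coordinate `x` -/
theorem r278s_pt_mem {β : Fin n → ℕ} {h l : Fin n} (hne : h ≠ l) {d : ℕ} {u : Fin n → ℕ}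
    (hu : u ∈ r278s_box β d) (x : ℕ) (hx1 : x ≤ u h + u l) (hx2 : x < β h)
    (hx3 : u h + u l < β l + x) :
    Function.update (Function.update u h x) l (u h + u l - x) ∈ r278s_box β d ∧
      r278s_key h l (Function.update (Function.update u h x) l (u h + u l - x))
        = r278s_key h l u ∧
      Function.update (Function.update u h x) l (u h + u l - x) h = x := by
  rw [r278s_mem_box] at hu
  have hh : Function.update (Function.update u h x) l (u h + u l - x) h = x := by
    rw [Function.update_of_ne hne, Function.update_self]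
  have hl : Function.update (Function.update u h x) l (u h + u l - x) l = u h + u l - x := by
    rw [Function.update_self]
  have ho : ∀ j, j ≠ h → j ≠ l →
      Function.update (Function.update u h x) l (u h + u l - x) j = u j := by
    intro j h1 h2
    rw [Function.update_of_ne h2, Function.update_of_ne h1]
  refine ⟨?_, ?_, hh⟩
  · rw [r278s_mem_box]
    refine ⟨?_, fun j => ?_⟩
    · have := r278s_sum_update2 hne u x (u h + u l - x)
      omega
    · by_cases h1 : j = h
      · subst h1; rw [hh]; exact hx2
      · by_cases h2 : j = l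
        · subst h2; rw [hl]; omega
        · rw [ho j h1 h2]; exact hu.2 j
  · rw [r278s_key_eq_iff hne]
    refine ⟨?_, ho⟩
    rw [hh, hl]; omega

/-- compression in the pair `(h, l)`: on each chain take the top elements -/
def r278s_comp (β : Fin n → ℕ) (h l : Fin n) (d : ℕ) (A : Finset (Fin n → ℕ)) :
    Finset (Fin n → ℕ) :=
  (r278s_box β d).filter fun u =>
    r278s_hi β h l u - u h < (A.filter fun w => r278s_key h l w = r278s_key h l u).card

theorem r278s_comp_subset (β : Fin n → ℕ) (h l : Fin n) (d : ℕ) (A : Finset (Fin n → ℕ)) :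
    r278s_comp β h l d A ⊆ r278s_box β d := Finset.filter_subset _ _

theorem r278s_comp_fiber_card (β : Fin n → ℕ) {h l : Fin n} (hne : h ≠ l) (d : ℕ)
    (A : Finset (Fin n → ℕ)) (hA : A ⊆ r278s_box β d) (k : Fin n → ℕ) :
    ((r278s_comp β h l d A).filter fun u => r278s_key h l u = k).card
      = (A.filter fun u => r278s_key h l u = k).card := by
  set q := (A.filter fun u => r278s_key h l u = k).card with hq
  rcases Nat.eq_zero_or_pos q with h0 | hpos
  · rw [h0, Finset.card_eq_zero, Finset.filter_eq_empty_iff]
    intro u hu hk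
    rw [r278s_comp, Finset.mem_filter, hk, ← hq, h0] at hu
    exact Nat.not_lt_zero _ hu.2
  · obtain ⟨u0, hu0⟩ := Finset.card_pos.mp hpos
    rw [Finset.mem_filter] at hu0
    obtain ⟨hu0A, hu0k⟩ := hu0
    have hu0B := hA hu0A
    have hinj : ∀ S : Finset (Fin n → ℕ),
        Set.InjOn (fun u : Fin n → ℕ => u h) (S.filter fun u => r278s_key h l u = k) := by
      intro S u hu w hw e
      rw [Finset.coe_filter] at hu hw
      exact r278s_key_inj hne (hu.2.trans hw.2.symm) e
    have hrange : ∀ u ∈ r278s_box β d, r278s_key h l u = k →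
        u h ≤ u0 h + u0 l ∧ u h < β h ∧ u0 h + u0 l < β l + u h := by
      intro u hu hk
      have e := (r278s_key_eq_iff hne u u0).mp (hk.trans hu0k.symm)
      rw [r278s_mem_box] at hu
      have h1 := hu.2 h
      have h2 := hu.2 l
      omega
    have hq_le : q + (u0 h + u0 l + 1 - β l) ≤ min (u0 h + u0 l) (β h - 1) + 1 := by
      have hsub : ((A.filter fun u => r278s_key h l u = k).image fun u => u h) ⊆
          Finset.Icc (u0 h + u0 l + 1 - β l) (min (u0 h + u0 l) (β h - 1)) := by
        intro x hx
        rw [Finset.mem_image] at hx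
        obtain ⟨u, hu, rfl⟩ := hx
        rw [Finset.mem_filter] at hu
        have := hrange u (hA hu.1) hu.2
        rw [Finset.mem_Icc]
        omega
      have := Finset.card_le_card hsub
      rw [Finset.card_image_of_injOn (hinj A), Nat.card_Icc, ← hq] at this
      have h3 := hrange u0 hu0B hu0k
      omega
    have himg : (((r278s_comp β h l d A).filter fun u => r278s_key h l u = k).image
        fun u => u h) = Finset.Icc (min (u0 h + u0 l) (β h - 1) + 1 - q)
          (min (u0 h + u0 l) (β h - 1)) := by
      ext x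
      rw [Finset.mem_image, Finset.mem_Icc]
      constructor
      · rintro ⟨u, hu, rfl⟩
        rw [Finset.mem_filter, r278s_comp, Finset.mem_filter] at hu
        obtain ⟨⟨huB, hu2⟩, hk⟩ := hu
        rw [hk, ← hq, r278s_hi_congr β hne (hk.trans hu0k.symm)] at hu2
        unfold r278s_hi at hu2
        have := hrange u huB hk
        omega
      · rintro ⟨hx1, hx2⟩
        obtain ⟨p1, p2, p3⟩ := r278s_pt_mem hne hu0B x (by omega)
          (by have := hrange u0 hu0B hu0k; omega) (by omega)
        refine ⟨_, ?_, p3⟩
        rw [Finset.mem_filter, r278s_comp, Finset.mem_filter]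
        refine ⟨⟨p1, ?_⟩, p2.trans hu0k⟩
        rw [p2, hu0k, ← hq, p3, r278s_hi_congr β hne p2]
        unfold r278s_hi
        omega
    rw [← Finset.card_image_of_injOn (hinj _), himg, Nat.card_Icc]
    omega

theorem r278s_card_fiberwise (h l : Fin n) (S : Finset (Fin n → ℕ)) (K : Finset (Fin n → ℕ))
    (hK : ∀ u ∈ S, r278s_key h l u ∈ K) :
    S.card = ∑ k ∈ K, (S.filter fun u => r278s_key h l u = k).card :=
  Finset.card_eq_sum_card_fiberwise hK

theorem r278s_comp_card (β : Fin n → ℕ) {h l : Fin n} (hne : h ≠ l) (d : ℕ)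
    (A : Finset (Fin n → ℕ)) (hA : A ⊆ r278s_box β d) :
    (r278s_comp β h l d A).card = A.card := by
  rw [r278s_card_fiberwise h l _ ((r278s_box β d).image (r278s_key h l))
      (fun u hu => Finset.mem_image_of_mem _ (r278s_comp_subset β h l d A hu)),
    r278s_card_fiberwise h l A ((r278s_box β d).image (r278s_key h l))
      (fun u hu => Finset.mem_image_of_mem _ (hA hu))]
  exact Finset.sum_congr rfl fun k _ => r278s_comp_fiber_card β hne d A hA k

/-- the two-variable step of the shadow estimate -/
theorem r278s_shadow_pair (β : Fin n → ℕ) {h l : Fin n} (hne : h ≠ l) (hβ : β h ≤ β l) (d : ℕ)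
    (A : Finset (Fin n → ℕ)) (hA : A ⊆ r278s_box β d) (u v : Fin n → ℕ)
    (hu : u ∈ r278s_comp β h l d A) (hv : v ∈ r278s_box β (d + 1))
    (hs : v h + v l = u h + u l + 1) (hrest : ∀ j, j ≠ h → j ≠ l → v j = u j)
    (hle : u h ≤ v h) :
    r278s_hi β h l v - v h
      < ((r278s_sh β d A).filter fun v' => r278s_key h l v' = r278s_key h l v).card := by
  rw [r278s_comp, Finset.mem_filter] at hu
  obtain ⟨huB, hu2⟩ := hu
  set X := (A.filter fun w => r278s_key h l w = r278s_key h l u).image fun w => w h with hXdef
  set Y := ((r278s_sh β d A).filter fun v' => r278s_key h l v' = r278s_key h l v).image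
    fun w => w h with hYdef
  have hXcard : X.card = (A.filter fun w => r278s_key h l w = r278s_key h l u).card := by
    apply Finset.card_image_of_injOn
    intro w hw w' hw' e
    rw [Finset.coe_filter] at hw hw'
    exact r278s_key_inj hne (hw.2.trans hw'.2.symm) e
  have hYcard : Y.card
      ≤ ((r278s_sh β d A).filter fun v' => r278s_key h l v' = r278s_key h l v).card :=
    Finset.card_image_le
  have hvB := r278s_mem_box.mp hv
  have hv1 := hvB.2 h
  have hv2 := hvB.2 l
  have key := r278s_numeric (u h + u l) (β h) (β l) hβ X Y ?_ ?_ ?_ ?_ (v h) (by omega) hv1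
    (by omega) ?_
  · unfold r278s_hi
    rw [hs]
    omega
  · intro x hx
    rw [hXdef, Finset.mem_image] at hx
    obtain ⟨w, hw, rfl⟩ := hx
    rw [Finset.mem_filter] at hw
    have e := (r278s_key_eq_iff hne w u).mp hw.2
    have hwB := r278s_mem_box.mp (hA hw.1)
    have h1 := hwB.2 h
    have h2 := hwB.2 l
    omega
  · intro x hx hx2
    rw [hXdef, Finset.mem_image] at hx
    obtain ⟨w, hw, rfl⟩ := hx
    rw [Finset.mem_filter] at hw
    have e := (r278s_key_eq_iff hne w u).mp hw.2
    rw [hYdef, Finset.mem_image]
    refine ⟨Function.update w l (w l + 1), ?_, by rw [Function.update_of_ne hne]⟩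
    rw [Finset.mem_filter, r278s_mem_sh]
    refine ⟨⟨r278s_update_mem_box (hA hw.1) l (by omega), w, hw.1, l, rfl⟩, ?_⟩
    rw [r278s_key_eq_iff hne]
    refine ⟨?_, fun j h1 h2 => ?_⟩
    · rw [Function.update_of_ne hne, Function.update_self]; omega
    · rw [Function.update_of_ne h2, hrest j h1 h2, e.2 j h1 h2]
  · intro x hx hx2
    rw [hXdef, Finset.mem_image] at hx
    obtain ⟨w, hw, rfl⟩ := hx
    rw [Finset.mem_filter] at hw
    have e := (r278s_key_eq_iff hne w u).mp hw.2
    rw [hYdef, Finset.mem_image]
    refine ⟨Function.update w h (w h + 1), ?_, by rw [Function.update_self]⟩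
    rw [Finset.mem_filter, r278s_mem_sh]
    refine ⟨⟨r278s_update_mem_box (hA hw.1) h hx2, w, hw.1, h, rfl⟩, ?_⟩
    rw [r278s_key_eq_iff hne]
    refine ⟨?_, fun j h1 h2 => ?_⟩
    · rw [Function.update_of_ne hne.symm, Function.update_self]; omega
    · rw [Function.update_of_ne h1, hrest j h1 h2, e.2 j h1 h2]
  · rw [hXcard]; omega
  · rw [hXcard]
    unfold r278s_hi at hu2
    omega

/-- every element of the shadow of the compression is high in its chain -/
theorem r278s_shadow_rank (β : Fin n → ℕ) {h l : Fin n} (hne : h ≠ l) (hβ : β h ≤ β l) (d : ℕ)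
    (A : Finset (Fin n → ℕ)) (hA : A ⊆ r278s_box β d) (v : Fin n → ℕ)
    (hv : v ∈ r278s_sh β d (r278s_comp β h l d A)) :
    r278s_hi β h l v - v h
      < ((r278s_sh β d A).filter fun v' => r278s_key h l v' = r278s_key h l v).card := by
  rw [r278s_mem_sh] at hv
  obtain ⟨hvB, u, hu, i, rfl⟩ := hv
  by_cases hih : i = h
  · subst hih
    apply r278s_shadow_pair β hne hβ d A hA u _ hu hvB
    · rw [Function.update_self, Function.update_of_ne hne.symm]; omega
    · intro j h1 _; rw [Function.update_of_ne h1]
    · rw [Function.update_self]; omega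
  by_cases hil : i = l
  · subst hil
    apply r278s_shadow_pair β hne hβ d A hA u _ hu hvB
    · rw [Function.update_self, Function.update_of_ne hne]; omega
    · intro j _ h2; rw [Function.update_of_ne h2]
    · rw [Function.update_of_ne hne]
  · have hu' := hu
    rw [r278s_comp, Finset.mem_filter] at hu'
    obtain ⟨huB, hu2⟩ := hu'
    have e1 : r278s_hi β h l (Function.update u i (u i + 1)) = r278s_hi β h l u := by
      unfold r278s_hi
      rw [Function.update_of_ne (Ne.symm hih), Function.update_of_ne (Ne.symm hil)]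
    rw [e1, Function.update_of_ne (Ne.symm hih)]
    refine lt_of_lt_of_le hu2 ?_
    apply Finset.card_le_card_of_injOn (fun w => Function.update w i (w i + 1))
    · intro w hw
      rw [Finset.coe_filter] at hw
      obtain ⟨hwA, hwk⟩ := hw
      have e := (r278s_key_eq_iff hne w u).mp hwk
      have hwi : w i = u i := e.2 i hih hil
      have hb : w i + 1 < β i := by
        have := (r278s_mem_box.mp hvB).2 i
        rw [Function.update_self] at this
        omega
      rw [Finset.coe_filter]
      refine ⟨r278s_mem_sh.mpr ⟨r278s_update_mem_box (hA hwA) i hb, w, hwA, i, rfl⟩, ?_⟩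
      rw [r278s_key_eq_iff hne]
      refine ⟨?_, fun j h1 h2 => ?_⟩
      · simp only [Function.update_of_ne (Ne.symm hih), Function.update_of_ne (Ne.symm hil)]
        exact e.1
      · by_cases hj : j = i
        · subst hj; simp [hwi]
        · simp only [Function.update_of_ne hj]; exact e.2 j h1 h2
    · intro w _ w' _ e
      funext j
      have := congrFun e j
      by_cases hj : j = i
      · subst hj; simpa using this
      · simpa [Function.update_of_ne hj] using this

theorem r278s_sh_subset (β : Fin n → ℕ) (d : ℕ) (A : Finset (Fin n → ℕ)) :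
    r278s_sh β d A ⊆ r278s_box β (d + 1) := Finset.filter_subset _ _

/-- compression does not enlarge the shadow -/
theorem r278s_sh_comp_card_le (β : Fin n → ℕ) {h l : Fin n} (hne : h ≠ l) (hβ : β h ≤ β l)
    (d : ℕ) (A : Finset (Fin n → ℕ)) (hA : A ⊆ r278s_box β d) :
    (r278s_sh β d (r278s_comp β h l d A)).card ≤ (r278s_sh β d A).card := by
  rw [r278s_card_fiberwise h l _ ((r278s_box β (d + 1)).image (r278s_key h l))
      (fun u hu => Finset.mem_image_of_mem _ (r278s_sh_subset β d _ hu)),
    r278s_card_fiberwise h l (r278s_sh β d A) ((r278s_box β (d + 1)).image (r278s_key h l))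
      (fun u hu => Finset.mem_image_of_mem _ (r278s_sh_subset β d _ hu))]
  apply Finset.sum_le_sum
  intro k _
  set N := ((r278s_sh β d A).filter fun u => r278s_key h l u = k).card with hN
  have hinj : Set.InjOn (fun u : Fin n → ℕ => u h)
      ((r278s_sh β d (r278s_comp β h l d A)).filter fun u => r278s_key h l u = k) := by
    intro u hu w hw e
    rw [Finset.coe_filter] at hu hw
    exact r278s_key_inj hne (hu.2.trans hw.2.symm) e
  rw [← Finset.card_image_of_injOn hinj]
  have hsub : (((r278s_sh β d (r278s_comp β h l d A)).filter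
      fun u => r278s_key h l u = k).image fun u => u h) ⊆
        Finset.Icc (min (k h) (β h - 1) + 1 - N) (min (k h) (β h - 1)) := by
    intro x hx
    rw [Finset.mem_image] at hx
    obtain ⟨v, hv, rfl⟩ := hx
    rw [Finset.mem_filter] at hv
    have h1 := r278s_shadow_rank β hne hβ d A hA v hv.1
    rw [hv.2, ← hN] at h1
    have h2 : k h = v h + v l := by
      rw [← hv.2]; simp [r278s_key, Function.update_of_ne hne]
    have h3 := (r278s_mem_box.mp (r278s_sh_subset β d _ hv.1)).2 h
    unfold r278s_hi at h1
    rw [Finset.mem_Icc]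
    omega
  have := Finset.card_le_card hsub
  rw [Nat.card_Icc] at this
  omega

end box

section bridge

variable {r : ℕ}

theorem r278s_box_eq (b : Fin r → ℕ) (d : ℕ) :
    r278cl_box b d = r278s_box (fun i => b i + 1) d := by
  ext u
  rw [r278cl_mem_box, r278s_mem_box]
  simp only [Nat.lt_succ_iff]

theorem r278s_update_eq (u : Fin r → ℕ) (i : Fin r) :
    Function.update u i (u i + 1) = u + Pi.single i 1 := by
  funext j
  by_cases hj : j = i
  · subst hj; simp
  · simp [hj]

theorem r278s_shadow_eq (b : Fin r → ℕ) (d : ℕ) {X : Finset (Fin r → ℕ)}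
    (hX : X ⊆ r278cl_box b d) : r278cl_shadow b X = r278s_sh (fun i => b i + 1) d X := by
  ext v
  rw [r278cl_mem_shadow, r278s_mem_sh, r278s_mem_box]
  constructor
  · rintro ⟨⟨u, hu, i, rfl⟩, hb⟩
    refine ⟨⟨?_, fun j => Nat.lt_succ_of_le (hb j)⟩, u, hu, i, (r278s_update_eq u i).symm⟩
    rw [← r278s_update_eq, eg_sum_update, (r278cl_mem_box.mp (hX hu)).1]
  · rintro ⟨⟨_, hb⟩, u, hu, i, rfl⟩
    exact ⟨⟨u, hu, i, (r278s_update_eq u i).symm⟩, fun j => Nat.lt_succ_iff.mp (hb j)⟩

theorem r278s_lab_eq (h l : Fin r) : r278cl_lab h l = r278s_key h l := rfl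

theorem r278s_lex_iff {h l : Fin r} (hl : h < l) {u v : Fin r → ℕ}
    (e : r278s_key h l v = r278s_key h l u) : toLex u < toLex v ↔ u h < v h := by
  have hne := ne_of_lt hl
  have e' := (r278s_key_eq_iff hne v u).mp e
  have key : ∀ u v : Fin r → ℕ, (∀ i, i ≠ h → i ≠ l → v i = u i) → u h < v h →
      toLex u < toLex v := by
    intro u v e2 hlt
    exact ⟨h, fun j hj => (e2 j (ne_of_lt hj) (ne_of_lt (hj.trans hl))).symm, hlt⟩
  constructor
  · intro hlt
    by_contra hcon
    rcases lt_or_eq_of_le (not_lt.mp hcon) with h1 | h1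
    · exact lt_asymm hlt (key v u (fun i a b => (e'.2 i a b).symm) h1)
    · have : v = u := r278s_key_inj hne e h1
      subst this; exact lt_irrefl _ hlt
  · exact key u v e'.2

/-- the lex rank on a line is the explicit rank -/
theorem r278s_rk_line (β : Fin r → ℕ) {h l : Fin r} (hl : h < l) (d : ℕ) {u : Fin r → ℕ}
    (hu : u ∈ r278s_box β d) :
    r278cl_rk ((r278s_box β d).filter fun v => r278s_key h l v = r278s_key h l u) u
      = r278s_hi β h l u - u h := by
  have hne := ne_of_lt hl
  unfold r278cl_rk
  have hcongr : ∀ inst : DecidablePred fun v : Fin r → ℕ => toLex u < toLex v,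
      @Finset.filter _ (fun v : Fin r → ℕ => toLex u < toLex v) inst
        ((r278s_box β d).filter fun v => r278s_key h l v = r278s_key h l u)
      = ((r278s_box β d).filter fun v => r278s_key h l v = r278s_key h l u).filter
        fun v => u h < v h := fun inst =>
    Finset.filter_congr (fun v hv => r278s_lex_iff hl (Finset.mem_filter.mp hv).2)
  rw [hcongr]
  have hinj : Set.InjOn (fun v : Fin r → ℕ => v h)
      (((r278s_box β d).filter fun v => r278s_key h l v = r278s_key h l u).filter
        fun v => u h < v h) := by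
    intro v hv w hw e
    rw [Finset.coe_filter] at hv hw
    exact r278s_key_inj hne
      ((Finset.mem_filter.mp hv.1).2.trans (Finset.mem_filter.mp hw.1).2.symm) e
  rw [← Finset.card_image_of_injOn hinj]
  have huB := r278s_mem_box.mp hu
  have h1 := huB.2 h
  have h2 := huB.2 l
  have himg : ((((r278s_box β d).filter fun v => r278s_key h l v = r278s_key h l u).filter
      fun v => u h < v h).image fun v => v h) = Finset.Ioc (u h) (r278s_hi β h l u) := by
    ext x
    rw [Finset.mem_image, Finset.mem_Ioc]
    unfold r278s_hi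
    constructor
    · rintro ⟨v, hv, rfl⟩
      rw [Finset.mem_filter, Finset.mem_filter] at hv
      obtain ⟨⟨hvB, hvk⟩, hlt⟩ := hv
      have e := (r278s_key_eq_iff hne v u).mp hvk
      have := (r278s_mem_box.mp hvB).2 h
      omega
    · rintro ⟨hx1, hx2⟩
      obtain ⟨p1, p2, p3⟩ := r278s_pt_mem hne hu x (by omega) (by omega) (by omega)
      refine ⟨_, ?_, p3⟩
      rw [Finset.mem_filter, Finset.mem_filter]
      exact ⟨⟨p1, p2⟩, by rw [p3]; exact hx1⟩
  rw [himg, Nat.card_Ioc]

theorem r278s_comp_eq (b : Fin r → ℕ) {h l : Fin r} (hl : h < l) (d : ℕ)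
    (X : Finset (Fin r → ℕ)) :
    r278cl_comp h l (r278cl_box b d) X = r278s_comp (fun i => b i + 1) h l d X := by
  rw [r278s_box_eq]
  unfold r278cl_comp r278s_comp
  apply Finset.filter_congr
  intro u hu
  rw [r278cl_mem_seg]
  have e := r278s_rk_line (fun i => b i + 1) hl d hu
  exact ⟨fun h2 => lt_of_eq_of_lt e.symm h2.2,
    fun h2 => ⟨Finset.mem_filter.2 ⟨hu, rfl⟩, lt_of_eq_of_lt e h2⟩⟩

/-- **L7d verbatim**: `|∂(C X)| ≤ |∂X|` for the `(h,l)`-compression, `h < l`, `b h ≤ b l`. -/
theorem r278s_shadow_comp_le (b : Fin r → ℕ) (d : ℕ) {h l : Fin r} (hl : h < l) (hb : b h ≤ b l)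
    {X : Finset (Fin r → ℕ)} (hX : X ⊆ r278cl_box b d) :
    (r278cl_shadow b (r278cl_comp h l (r278cl_box b d) X)).card ≤ (r278cl_shadow b X).card := by
  have hC : r278cl_comp h l (r278cl_box b d) X ⊆ r278cl_box b d := Finset.filter_subset _ _
  rw [r278s_shadow_eq b d hC, r278s_shadow_eq b d hX, r278s_comp_eq b hl]
  exact r278s_sh_comp_card_le _ (ne_of_lt hl) (Nat.succ_le_succ hb) d X (by rwa [← r278s_box_eq])

end bridge


end Claimed.Agent.R278
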