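-- KEEP
/-
Row 278 (S0523), cell C4, pen helper216.  Prefix `egh216s_`.

SHEAR LEMMA for the Koszul numbers of `KosMod206.lean`.
`B` a module with operators `X i`, `Z` an operator that commutes with `X i` for all `i ≠ l`
(it need NOT commute with `X l`), `h ≠ l`.  Then the Koszul complex of the family
`X' = X` with `X l` replaced by `X l + X h ∘ Z` is isomorphic to the Koszul complex of `X`, by
`Ψ = 1 + N`, `(N c) T = [h ∈ T, l ∉ T] ± Z (c (insert l (T.erase h)))`.
Use: Lemma 4.1 of the Betti paper (a distraction `D(K)` has the Betti numbers of `K`) without any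
free resolution.
-/
import Claimed.Agent.R278.KosMod206
import Claimed.Agent.R278.Trunc216

set_option autoImplicit false

namespace Claimed.Agent.R278

variable {F : Type} [DivisionRing F] {n : ℕ}
variable {B : Type} [AddCommGroup B] [Module F B]

lemma egh216s_sgn_sq (U : Finset (Fin n)) (k : Fin n) : r278m_sgn U k * r278m_sgn U k = 1 := by
  unfold r278m_sgn
  rw [← mul_pow]; simp

/-- the nilpotent part of the shear. -/
noncomputable def egh216s_N (Z : Module.End F B) (h l : Fin n) :
    (Finset (Fin n) → B) →ₗ[F] (Finset (Fin n) → B) :=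
  LinearMap.pi fun T =>
    if h ∈ T ∧ l ∉ T then
      (r278m_sgn (T.erase h) h * r278m_sgn (T.erase h) l) •
        (Z ∘ₗ LinearMap.proj (insert l (T.erase h)))
    else 0

lemma egh216s_N_apply_pos (Z : Module.End F B) {h l : Fin n} (c : Finset (Fin n) → B)
    {T : Finset (Fin n)} (hT : h ∈ T) (lT : l ∉ T) :
    egh216s_N Z h l c T = (r278m_sgn (T.erase h) h * r278m_sgn (T.erase h) l) •
      Z (c (insert l (T.erase h))) := by
  simp [egh216s_N, hT, lT]

lemma egh216s_N_apply_of_mem (Z : Module.End F B) {h l : Fin n} (c : Finset (Fin n) → B)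
    {T : Finset (Fin n)} (lT : l ∈ T) : egh216s_N Z h l c T = 0 := by
  simp [egh216s_N, lT]

lemma egh216s_N_apply_of_notMem (Z : Module.End F B) {h l : Fin n} (c : Finset (Fin n) → B)
    {T : Finset (Fin n)} (hT : h ∉ T) : egh216s_N Z h l c T = 0 := by
  simp [egh216s_N, hT]

lemma egh216s_N_N (Z : Module.End F B) (h l : Fin n) (c : Finset (Fin n) → B) :
    egh216s_N Z h l (egh216s_N Z h l c) = 0 := by
  funext T
  by_cases hT : h ∈ T ∧ l ∉ T
  · rw [egh216s_N_apply_pos Z _ hT.1 hT.2,
      egh216s_N_apply_of_mem Z c (Finset.mem_insert_self l _), map_zero, smul_zero]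
    rfl
  · by_cases h1 : h ∈ T
    · have : l ∈ T := by
        by_contra h2; exact hT ⟨h1, h2⟩
      rw [egh216s_N_apply_of_mem Z _ this]; rfl
    · rw [egh216s_N_apply_of_notMem Z _ h1]; rfl

/-- the sheared family. -/
noncomputable def egh216s_X' (X : Fin n → Module.End F B) (Z : Module.End F B) (h l : Fin n) :
    Fin n → Module.End F B :=
  Function.update X l (X l + X h ∘ₗ Z)

lemma egh216s_diff' (X : Fin n → Module.End F B) (Z : Module.End F B) (h l : Fin n)
    (c : Finset (Fin n) → B) (U : Finset (Fin n)) :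
    r278m_diff (egh216s_X' X Z h l) c U = r278m_diff X c U +
      (if l ∉ U then r278m_sgn U l • X h (Z (c (insert l U))) else 0) := by
  rw [r278m_diff_apply, r278m_diff_apply]
  have : ∀ k : Fin n, r278m_sgn U k • egh216s_X' X Z h l k (c (insert k U)) =
      r278m_sgn U k • X k (c (insert k U)) +
        (if k = l then r278m_sgn U l • X h (Z (c (insert l U))) else 0) := by
    intro k
    by_cases hk : k = l
    · subst hk
      simp [egh216s_X', smul_add]
    · simp [egh216s_X', hk]
  simp only [this, Finset.sum_add_distrib]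
  congr 1
  rw [Finset.sum_ite_eq']
  simp

lemma egh216s_sign_a (V : Finset (Fin n)) {h l : Fin n} (hl : h ≠ l) (hV : h ∉ V) (lV : l ∉ V) :
    r278m_sgn (insert h V) l + r278m_sgn V h * r278m_sgn V l * r278m_sgn (insert l V) h = 0 := by
  have e := r278m_sgn_swap V hl hV lV
  have s := egh216s_sgn_sq V h
  linear_combination (r278m_sgn V h) * e - (r278m_sgn (insert h V) l) * s

lemma egh216s_sign_b (V : Finset (Fin n)) {h l k : Fin n} (hk : h ≠ k) (kl : k ≠ l)
    (hV : h ∉ V) (lV : l ∉ V) (kV : k ∉ V) :
    r278m_sgn (insert h V) k * (r278m_sgn (insert k V) h * r278m_sgn (insert k V) l) =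
      r278m_sgn V h * r278m_sgn V l * r278m_sgn (insert l V) k := by
  have e1 := r278m_sgn_swap V hk hV kV
  have e2 := r278m_sgn_swap V kl kV lV
  have sp := egh216s_sgn_sq V h
  have sB := egh216s_sgn_sq (insert k V) h
  linear_combination (r278m_sgn V h * r278m_sgn (insert k V) h * r278m_sgn (insert k V) l) * e1 -
    (r278m_sgn (insert h V) k * r278m_sgn (insert k V) h * r278m_sgn (insert k V) l) * sp -
    (r278m_sgn V h * r278m_sgn V k * r278m_sgn (insert k V) l) * sB - (r278m_sgn V h) * e2

/-- **The commutator identity** `d N = δ + N d`. -/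
lemma egh216s_comm (X : Fin n → Module.End F B) (Z : Module.End F B) {h l : Fin n} (hl : h ≠ l)
    (hZ : ∀ i, i ≠ l → ∀ b, Z (X i b) = X i (Z b)) (c : Finset (Fin n) → B)
    (U : Finset (Fin n)) :
    r278m_diff X (egh216s_N Z h l c) U =
      (if l ∉ U then r278m_sgn U l • X h (Z (c (insert l U))) else 0) +
        egh216s_N Z h l (r278m_diff X c) U := by
  by_cases lU : l ∈ U
  · -- everything vanishes
    rw [r278m_diff_apply, if_neg (not_not.mpr lU), egh216s_N_apply_of_mem Z _ lU, add_zero]
    refine Finset.sum_eq_zero fun k _ => ?_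
    rw [egh216s_N_apply_of_mem Z c (Finset.mem_insert_of_mem lU), map_zero, smul_zero]
  rw [if_pos lU]
  by_cases hU : h ∈ U
  · -- the main case
    set V := U.erase h with hV
    have hVh : h ∉ V := Finset.notMem_erase h U
    have hVl : l ∉ V := fun hh => lU (Finset.mem_of_mem_erase hh)
    have hUV : U = insert h V := (Finset.insert_erase hU).symm
    set W : Finset (Fin n) := Finset.univ.filter (fun k => k ∉ U ∧ k ≠ l) with hW
    have hlW : l ∉ W := by simp [hW]
    have hhW : h ∉ W := by simp [hW, hU]
    have f1 : Finset.univ.filter (fun k => k ∉ U) = insert l W := by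
      ext k
      simp only [hW, Finset.mem_filter, Finset.mem_univ, true_and, Finset.mem_insert]
      constructor
      · intro hk
        by_cases hkl : k = l
        · exact Or.inl hkl
        · exact Or.inr ⟨hk, hkl⟩
      · rintro (rfl | ⟨hk, _⟩)
        · exact lU
        · exact hk
    have f2 : Finset.univ.filter (fun k => k ∉ insert l V) = insert h W := by
      ext k
      simp only [hW, hV, Finset.mem_filter, Finset.mem_univ, true_and, Finset.mem_insert,
        Finset.mem_erase, not_or, not_and]
      constructor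
      · rintro ⟨hkl, hk⟩
        by_cases hkh : k = h
        · exact Or.inl hkh
        · exact Or.inr ⟨hk hkh, hkl⟩
      · rintro (rfl | ⟨hk, hkl⟩)
        · exact ⟨hl, fun hh => absurd rfl hh⟩
        · exact ⟨hkl, fun _ => hk⟩
    rw [r278m_diff_apply, f1, Finset.sum_insert hlW,
      egh216s_N_apply_of_mem Z c (Finset.mem_insert_self l U), map_zero, smul_zero, zero_add,
      egh216s_N_apply_pos Z _ hU lU, r278m_diff_apply, ← hV, f2, Finset.sum_insert hhW, map_add,
      smul_add, ← add_assoc]
    have e0 : insert h (insert l V) = insert l U := by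
      rw [Finset.insert_comm, ← hUV]
    have t0 : r278m_sgn U l • X h (Z (c (insert l U))) +
        (r278m_sgn V h * r278m_sgn V l) •
          Z (r278m_sgn (insert l V) h • X h (c (insert h (insert l V)))) = 0 := by
      rw [e0, map_zsmul, hZ h hl, smul_smul, ← add_smul, hUV, egh216s_sign_a V hl hVh hVl,
        zero_smul]
    rw [t0, zero_add, map_sum, Finset.smul_sum]
    refine Finset.sum_congr rfl fun k hk => ?_
    have hk' : k ∉ U ∧ k ≠ l := by simpa [hW] using hk
    have hkh : h ≠ k := fun hh => hk'.1 (hh ▸ hU)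
    have hkV : k ∉ V := fun hh => hk'.1 (Finset.mem_of_mem_erase hh)
    have hmem : h ∈ insert k U := Finset.mem_insert_of_mem hU
    have hnot : l ∉ insert k U := by
      simp only [Finset.mem_insert, not_or]
      exact ⟨fun hh => hk'.2 hh.symm, lU⟩
    have e1 : (insert k U).erase h = insert k V := by
      rw [hV, Finset.erase_insert_of_ne (Ne.symm hkh)]
    rw [egh216s_N_apply_pos Z c hmem hnot, e1, map_zsmul, map_zsmul, smul_smul, smul_smul,
      hZ k hk'.2, Finset.insert_comm k l V]
    congr 1
    rw [hUV]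
    exact egh216s_sign_b V hkh hk'.2 hVh hVl hkV
  · -- only `k = h` contributes
    rw [egh216s_N_apply_of_notMem Z _ hU, add_zero, r278m_diff_apply,
      Finset.sum_eq_single h]
    · have hnot : l ∉ insert h U := by
        simp only [Finset.mem_insert, not_or]
        exact ⟨fun hh => hl hh.symm, lU⟩
      rw [egh216s_N_apply_pos Z c (Finset.mem_insert_self h U) hnot, Finset.erase_insert hU,
        map_zsmul, smul_smul, ← mul_assoc, egh216s_sgn_sq, one_mul]
    · intro k _ hkh
      have : h ∉ insert k U := by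
        simp only [Finset.mem_insert, not_or]
        exact ⟨fun hh => hkh hh.symm, hU⟩
      rw [egh216s_N_apply_of_notMem Z c this, map_zero, smul_zero]
    · intro hh
      exact absurd (by simpa using hU) hh

/-- `N d' = N d`. -/
lemma egh216s_N_diff' (X : Fin n → Module.End F B) (Z : Module.End F B) (h l : Fin n)
    (c : Finset (Fin n) → B) :
    egh216s_N Z h l (r278m_diff (egh216s_X' X Z h l) c) = egh216s_N Z h l (r278m_diff X c) := by
  funext T
  by_cases hT : h ∈ T
  · by_cases lT : l ∈ T
    · rw [egh216s_N_apply_of_mem Z _ lT, egh216s_N_apply_of_mem Z _ lT]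
    · rw [egh216s_N_apply_pos Z _ hT lT, egh216s_N_apply_pos Z _ hT lT, egh216s_diff',
        if_neg (not_not.mpr (Finset.mem_insert_self l _)), add_zero]
  · rw [egh216s_N_apply_of_notMem Z _ hT, egh216s_N_apply_of_notMem Z _ hT]

/-- The shear `Ψ = 1 + N`, as a linear equivalence. -/
noncomputable def egh216s_Psi (Z : Module.End F B) (h l : Fin n) :
    (Finset (Fin n) → B) ≃ₗ[F] (Finset (Fin n) → B) :=
  LinearEquiv.ofLinear (LinearMap.id + egh216s_N Z h l) (LinearMap.id - egh216s_N Z h l)
    (by
      refine LinearMap.ext fun c => ?_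
      simp only [LinearMap.comp_apply, LinearMap.add_apply, LinearMap.sub_apply, LinearMap.id_apply,
        map_sub, egh216s_N_N]
      abel)
    (by
      refine LinearMap.ext fun c => ?_
      simp only [LinearMap.comp_apply, LinearMap.add_apply, LinearMap.sub_apply, LinearMap.id_apply,
        map_add, egh216s_N_N]
      abel)

lemma egh216s_Psi_apply (Z : Module.End F B) (h l : Fin n) (c : Finset (Fin n) → B) :
    egh216s_Psi Z h l c = c + egh216s_N Z h l c := rfl

lemma egh216s_Psi_symm_apply (Z : Module.End F B) (h l : Fin n) (c : Finset (Fin n) → B) :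
    (egh216s_Psi Z h l).symm c = c - egh216s_N Z h l c := rfl

/-- **`Ψ` is a chain map** from the Koszul complex of the sheared family to that of `X`. -/
theorem egh216s_diff_Psi (X : Fin n → Module.End F B) (Z : Module.End F B) {h l : Fin n}
    (hl : h ≠ l) (hZ : ∀ i, i ≠ l → ∀ b, Z (X i b) = X i (Z b)) (c : Finset (Fin n) → B) :
    r278m_diff X (egh216s_Psi Z h l c) =
      egh216s_Psi Z h l (r278m_diff (egh216s_X' X Z h l) c) := by
  rw [egh216s_Psi_apply, egh216s_Psi_apply, map_add, egh216s_N_diff']
  funext U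
  simp only [Pi.add_apply]
  rw [egh216s_comm X Z hl hZ c U, egh216s_diff', add_assoc]

lemma egh216s_N_mem_chains (Z : Module.End F B) (h l : Fin n) {P : ℕ → Submodule F B}
    (hZP : ∀ e, ∀ b ∈ P e, Z b ∈ P e) {p j : ℕ} {c : Finset (Fin n) → B}
    (hc : c ∈ r278m_chains (n := n) P p j) : egh216s_N Z h l c ∈ r278m_chains (n := n) P p j := by
  rw [r278m_mem_chains] at hc ⊢
  intro T
  by_cases hT : h ∈ T
  · by_cases lT : l ∈ T
    · rw [egh216s_N_apply_of_mem Z _ lT]; exact Submodule.zero_mem _
    · rw [egh216s_N_apply_pos Z _ hT lT]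
      refine zsmul_mem ?_ _
      have hcard : (insert l (T.erase h)).card = T.card := by
        rw [Finset.card_insert_of_notMem (fun hh => lT (Finset.mem_of_mem_erase hh)),
          Finset.card_erase_of_mem hT]
        have : 0 < T.card := Finset.card_pos.mpr ⟨h, hT⟩
        omega
      have := hc (insert l (T.erase h))
      rw [hcard] at this
      by_cases hh : T.card = p ∧ p ≤ j
      · rw [if_pos hh] at this ⊢; exact hZP _ _ this
      · rw [if_neg hh] at this ⊢
        rw [(Submodule.mem_bot F).mp this, map_zero]; exact Submodule.zero_mem _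
  · rw [egh216s_N_apply_of_notMem Z _ hT]; exact Submodule.zero_mem _

lemma egh216s_map_Psi_chains (Z : Module.End F B) (h l : Fin n) {P : ℕ → Submodule F B}
    (hZP : ∀ e, ∀ b ∈ P e, Z b ∈ P e) (p j : ℕ) :
    (r278m_chains (n := n) P p j).map (egh216s_Psi Z h l : _ →ₗ[F] _) =
      r278m_chains (n := n) P p j := by
  apply le_antisymm
  · rintro _ ⟨c, hc, rfl⟩
    exact Submodule.add_mem _ hc (egh216s_N_mem_chains Z h l hZP hc)
  · intro c hc
    refine ⟨(egh216s_Psi Z h l).symm c, ?_, (egh216s_Psi Z h l).apply_symm_apply c⟩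
    exact Submodule.sub_mem _ hc (egh216s_N_mem_chains Z h l hZP hc)

/-- **SHEAR LEMMA, ranks.** -/
theorem egh216s_rank (X : Fin n → Module.End F B) (Z : Module.End F B) {h l : Fin n}
    (hl : h ≠ l) (hZ : ∀ i, i ≠ l → ∀ b, Z (X i b) = X i (Z b)) {P : ℕ → Submodule F B}
    (hZP : ∀ e, ∀ b ∈ P e, Z b ∈ P e) (p j : ℕ) :
    r278m_rank (egh216s_X' X Z h l) P p j = r278m_rank X P p j := by
  unfold r278m_rank
  have : (r278m_chains (n := n) P p j).map (r278m_diff X) =
      ((r278m_chains (n := n) P p j).map (r278m_diff (egh216s_X' X Z h l))).map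
        (egh216s_Psi Z h l : _ →ₗ[F] _) := by
    conv_lhs => rw [← egh216s_map_Psi_chains Z h l hZP p j]
    rw [← Submodule.map_comp, ← Submodule.map_comp]
    congr 1
    exact LinearMap.ext fun c => egh216s_diff_Psi X Z hl hZ c
  rw [this]
  exact ((egh216s_Psi Z h l).submoduleMap _).finrank_eq

/-- **SHEAR LEMMA, Koszul numbers.** -/
theorem egh216s_betti (X : Fin n → Module.End F B) (Z : Module.End F B) {h l : Fin n}
    (hl : h ≠ l) (hZ : ∀ i, i ≠ l → ∀ b, Z (X i b) = X i (Z b)) {P : ℕ → Submodule F B}
    (hZP : ∀ e, ∀ b ∈ P e, Z b ∈ P e) (p j : ℕ) :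
    r278m_betti (egh216s_X' X Z h l) P p j = r278m_betti X P p j := by
  have hr := egh216s_rank X Z hl hZ hZP (p + 1) j
  unfold r278m_rank at hr
  unfold r278m_betti
  rw [hr]
  congr 1
  have : (r278m_chains (n := n) P p j ⊓ LinearMap.ker (r278m_diff X) :
      Submodule F (Finset (Fin n) → B)) =
      (r278m_chains (n := n) P p j ⊓ LinearMap.ker (r278m_diff (egh216s_X' X Z h l)) :
        Submodule F (Finset (Fin n) → B)).map (egh216s_Psi Z h l : _ →ₗ[F] _) := by
    apply le_antisymm
    · intro c hc
      obtain ⟨hc1, hc2⟩ := Submodule.mem_inf.mp hc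
      refine ⟨(egh216s_Psi Z h l).symm c, Submodule.mem_inf.mpr ⟨?_, ?_⟩,
        (egh216s_Psi Z h l).apply_symm_apply c⟩
      · exact Submodule.sub_mem _ hc1 (egh216s_N_mem_chains Z h l hZP hc1)
      · rw [LinearMap.mem_ker] at hc2 ⊢
        apply (egh216s_Psi Z h l).injective
        rw [← egh216s_diff_Psi X Z hl hZ, LinearEquiv.apply_symm_apply, hc2, map_zero]
    · rintro _ ⟨c, hc, rfl⟩
      obtain ⟨hc1, hc2⟩ := Submodule.mem_inf.mp hc
      refine Submodule.mem_inf.mpr ⟨?_, ?_⟩
      · exact Submodule.add_mem _ hc1 (egh216s_N_mem_chains Z h l hZP hc1)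
      · rw [LinearMap.mem_ker] at hc2 ⊢
        have := egh216s_diff_Psi X Z hl hZ c
        rw [hc2, map_zero] at this
        exact this
  rw [this]
  exact ((egh216s_Psi Z h l).submoduleMap _).finrank_eq

/-! ## Exit for Lemma 4.1 of the Betti paper, in the words of `Def_0451` -/

section Exit

open MvPolynomial Claims.C0451

variable {E : Type} [Field E] {n : ℕ}

/-- multiplication by the variables, upstairs. -/
noncomputable def egh216s_XS (E : Type) [Field E] (n : ℕ) :
    Fin n → Module.End E (MvPolynomial (Fin n) E) :=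
  fun k => LinearMap.mulLeft E (X k : MvPolynomial (Fin n) E)

lemma egh216s_liftDiff_eq : egh216_liftDiff E n = r278m_diff (egh216s_XS E n) := by
  refine LinearMap.ext fun c => funext fun U => ?_
  rw [r278m_diff_apply, egh216_liftDiff_apply]
  simp only [egh216s_XS, LinearMap.mulLeft_apply, r278m_sgn, r278m_neg_one_pow_smul]

lemma egh216s_liftChains_eq (p j : ℕ) :
    egh216_liftChains E n p j = r278m_chains (n := n) (homogeneousSubmodule (Fin n) E) p j := rfl

/-- **EXIT.**  `K' = D(K)` has the graded Betti numbers of `K`, for a graded linear bijection `D` of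
the polynomial ring that commutes with the variables `≠ l` and satisfies
`x_l D(g) = D(x_l g + x_h Z g)`, where `Z` is graded, keeps `K` and commutes with the variables
`≠ l`. -/
theorem egh216s_gradedBetti_shear (K K' : Ideal (MvPolynomial (Fin n) E))
    (D : MvPolynomial (Fin n) E ≃ₗ[E] MvPolynomial (Fin n) E)
    (Z : MvPolynomial (Fin n) E →ₗ[E] MvPolynomial (Fin n) E) {h l : Fin n} (hl : h ≠ l)
    (hDK : ∀ g, g ∈ K ↔ D g ∈ K')
    (hDdeg : ∀ e g, g ∈ homogeneousSubmodule (Fin n) E e ↔ D g ∈ homogeneousSubmodule (Fin n) E e)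
    (hDX : ∀ i, i ≠ l → ∀ g, D (X i * g) = X i * D g)
    (hDl : ∀ g, D (X l * g + X h * Z g) = X l * D g)
    (hZK : ∀ g ∈ K, Z g ∈ K)
    (hZdeg : ∀ e, ∀ g ∈ homogeneousSubmodule (Fin n) E e, Z g ∈ homogeneousSubmodule (Fin n) E e)
    (hZX : ∀ i, i ≠ l → ∀ g, Z (X i * g) = X i * Z g) (p j : ℕ) :
    gradedBetti K' p j = gradedBetti K p j := by
  set XS := egh216s_XS E n with hXS
  have hZ' : ∀ i, i ≠ l → ∀ b, Z (XS i b) = XS i (Z b) := fun i hi b => hZX i hi b
  set Ψ := egh216s_Psi (F := E) Z h l with hΨ
  let DD : (Finset (Fin n) → MvPolynomial (Fin n) E) ≃ₗ[E]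
      (Finset (Fin n) → MvPolynomial (Fin n) E) := LinearEquiv.piCongrRight fun _ => D
  have hDD : ∀ c T, DD c T = D (c T) := fun _ _ => rfl
  have hDDs : ∀ c T, DD.symm c T = D.symm (c T) := fun _ _ => rfl
  let Θ := Ψ.symm.trans DD
  have hΘ : ∀ c, Θ c = DD (Ψ.symm c) := fun _ => rfl
  -- `D` intertwines the sheared family with the variables
  have hint : ∀ k b, D (egh216s_X' XS Z h l k b) = XS k (D b) := by
    intro k b
    by_cases hk : k = l
    · subst hk
      simpa [egh216s_X', hXS, egh216s_XS] using hDl b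
    · simpa [egh216s_X', hk, hXS, egh216s_XS] using hDX k hk b
  have hcomm : ∀ c, r278m_diff XS (Θ c) = Θ (r278m_diff XS c) := by
    intro c
    have h1 := r278m_diff_compLeft (D : _ →ₗ[E] _) (egh216s_X' XS Z h l) XS hint (Ψ.symm c)
    have h2 : r278m_diff (egh216s_X' XS Z h l) (Ψ.symm c) = Ψ.symm (r278m_diff XS c) := by
      apply Ψ.injective
      rw [← egh216s_diff_Psi XS Z hl hZ', LinearEquiv.apply_symm_apply,
        LinearEquiv.apply_symm_apply]
    rw [h2] at h1
    exact h1
  -- chains
  have hchain : ∀ q c, c ∈ egh216_liftChains E n q j ↔ Θ c ∈ egh216_liftChains E n q j := by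
    intro q c
    have hD1 : ∀ c', c' ∈ egh216_liftChains E n q j ↔ DD c' ∈ egh216_liftChains E n q j := by
      intro c'
      rw [egh216s_liftChains_eq, r278m_mem_chains, r278m_mem_chains]
      refine forall_congr' fun T => ?_
      rw [hDD]
      by_cases hh : T.card = q ∧ q ≤ j
      · rw [if_pos hh]; exact hDdeg _ _
      · rw [if_neg hh, Submodule.mem_bot, Submodule.mem_bot]
        exact (map_eq_zero_iff D D.injective).symm
    rw [hΘ, ← hD1, egh216s_liftChains_eq]
    constructor
    · intro hc
      exact Submodule.sub_mem _ hc (egh216s_N_mem_chains Z h l hZdeg hc)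
    · intro hc
      have := Submodule.add_mem _ hc (egh216s_N_mem_chains Z h l hZdeg hc)
      rw [← egh216s_Psi_apply, ← hΨ, LinearEquiv.apply_symm_apply] at this
      exact this
  -- values in `K`
  have hNK : ∀ c, c ∈ egh216_valued (K.restrictScalars E) →
      egh216s_N Z h l c ∈ egh216_valued (K.restrictScalars E) := by
    intro c hc
    rw [egh216_mem_valued] at hc ⊢
    intro T
    by_cases hT : h ∈ T
    · by_cases lT : l ∈ T
      · rw [egh216s_N_apply_of_mem Z _ lT]; exact Submodule.zero_mem _
      · rw [egh216s_N_apply_pos Z _ hT lT]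
        exact zsmul_mem (hZK _ (hc _)) _
    · rw [egh216s_N_apply_of_notMem Z _ hT]; exact Submodule.zero_mem _
  have hval : ∀ c, c ∈ egh216_valued (K.restrictScalars E) ↔
      Θ c ∈ egh216_valued (K'.restrictScalars E) := by
    intro c
    have hD1 : ∀ c', c' ∈ egh216_valued (K.restrictScalars E) ↔
        DD c' ∈ egh216_valued (K'.restrictScalars E) := by
      intro c'
      rw [egh216_mem_valued, egh216_mem_valued]
      exact forall_congr' fun T => hDK _
    rw [hΘ, ← hD1]
    constructor
    · intro hc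
      exact Submodule.sub_mem _ hc (hNK c hc)
    · intro hc
      have := Submodule.add_mem _ hc (hNK _ hc)
      rw [← egh216s_Psi_apply, ← hΨ, LinearEquiv.apply_symm_apply] at this
      exact this
  -- the four subspaces
  have key : ∀ (A A' : Submodule E (Finset (Fin n) → MvPolynomial (Fin n) E)),
      (∀ c, c ∈ A ↔ Θ c ∈ A') → Module.finrank E A' = Module.finrank E A := by
    intro A A' hAA
    have : A' = A.map (Θ : _ →ₗ[E] _) := by
      ext c
      constructor
      · intro hc
        refine ⟨Θ.symm c, ?_, Θ.apply_symm_apply c⟩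
        rw [SetLike.mem_coe, hAA, LinearEquiv.apply_symm_apply]; exact hc
      · rintro ⟨b, hb, rfl⟩
        exact (hAA b).mp hb
    rw [this]
    exact (Θ.submoduleMap A).finrank_eq.symm
  have hE : ∀ c, c ∈ (egh216_liftChains E n (p + 1) j).map (egh216_liftDiff E n) ↔
      Θ c ∈ (egh216_liftChains E n (p + 1) j).map (egh216_liftDiff E n) := by
    intro c
    rw [egh216s_liftDiff_eq]
    constructor
    · rintro ⟨b, hb, rfl⟩
      exact ⟨Θ b, (hchain _ b).mp hb, hcomm b⟩
    · rintro ⟨b, hb, hbc⟩
      refine ⟨Θ.symm b, ?_, ?_⟩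
      · rw [SetLike.mem_coe, hchain, LinearEquiv.apply_symm_apply]; exact hb
      · apply Θ.injective
        rw [← hcomm, LinearEquiv.apply_symm_apply, hbc]
  have k1 := key (egh216_liftChains E n p j ⊓
        (egh216_valued (K.restrictScalars E)).comap (egh216_liftDiff E n))
      (egh216_liftChains E n p j ⊓
        (egh216_valued (K'.restrictScalars E)).comap (egh216_liftDiff E n)) (fun c => by
      rw [Submodule.mem_inf, Submodule.mem_inf, Submodule.mem_comap, Submodule.mem_comap,
        egh216s_liftDiff_eq, hcomm, ← hval, ← hchain])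
  have k2 := key (egh216_liftChains E n p j ⊓ egh216_valued (K.restrictScalars E))
      (egh216_liftChains E n p j ⊓ egh216_valued (K'.restrictScalars E)) (fun c => by
      rw [Submodule.mem_inf, Submodule.mem_inf, ← hval, ← hchain])
  have k3 := key ((egh216_liftChains E n (p + 1) j).map (egh216_liftDiff E n) ⊓
        egh216_valued (K.restrictScalars E))
      ((egh216_liftChains E n (p + 1) j).map (egh216_liftDiff E n) ⊓
        egh216_valued (K'.restrictScalars E)) (fun c => by
      rw [Submodule.mem_inf, Submodule.mem_inf, ← hval, ← hE])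
  rw [egh216_gradedBetti_formula, egh216_gradedBetti_formula, k1, k2, k3]

end Exit

end Claimed.Agent.R278
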