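-- KEEP
/-
Row 278 (S0523), cell C4, pen helper216.  Prefix `egh216d_`.

The root-of-unity distraction `egd_D` and the diagonal operator `egd_Z` of `DistrDef276.lean`:
(a) they commute with the variables `≠ l`; (b) `x_l D p = D (x_l p + x_h Z p)`; (c) they are graded;
(e) `D` is bijective and reflects degrees (any `ζ`, any `h ≠ l`; no triangularity needed: the range
of `D` is stable under the variables and contains `1`, then count dimensions degree by degree).
-/
import Claimed.Agent.R278.DistrDef276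
import Claimed.Agent.R278.Shear216

set_option autoImplicit false

namespace Claimed.Agent.R278

open Claims.C0451 MvPolynomial

variable {E : Type} [Field E] {n : ℕ}

lemma egh216d_X_mul_monomial (k : Fin n) (u : Fin n →₀ ℕ) (c : E) :
    (X k : MvPolynomial (Fin n) E) * monomial u c = monomial (Finsupp.single k 1 + u) c := by
  rw [X, monomial_mul, one_mul]

lemma egh216d_Dmon_add_ne (ζ : E) (h l : Fin n) {k : Fin n} (hk : k ≠ l) (u : Fin n →₀ ℕ) :
    egd_Dmon ζ h l (Finsupp.single k 1 + u) = X k * egd_Dmon ζ h l u := by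
  unfold egd_Dmon
  have h1 : (Finsupp.single k 1 + u : Fin n →₀ ℕ) l = u l := by
    simp [hk]
  have h2 : (Finsupp.single k 1 + u : Fin n →₀ ℕ).erase l = Finsupp.single k 1 + u.erase l := by
    rw [Finsupp.erase_add, Finsupp.erase_single_ne (Ne.symm hk)]
  rw [h1, h2, ← egh216d_X_mul_monomial, mul_assoc]

lemma egh216d_Dmon_add_self (ζ : E) (h l : Fin n) (u : Fin n →₀ ℕ) :
    egd_Dmon ζ h l (Finsupp.single l 1 + u) =
      egd_Dmon ζ h l u * (X l - C (ζ ^ (u l)) * X h) := by
  unfold egd_Dmon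
  have h1 : (Finsupp.single l 1 + u : Fin n →₀ ℕ) l = u l + 1 := by
    simp [add_comm]
  have h2 : (Finsupp.single l 1 + u : Fin n →₀ ℕ).erase l = u.erase l := by
    rw [Finsupp.erase_add, Finsupp.erase_single, zero_add]
  rw [h1, h2, Finset.prod_range_succ, mul_assoc]

/-- (a) for `D`. -/
theorem egh216d_D_X_mul (ζ : E) (h l : Fin n) {k : Fin n} (hk : k ≠ l)
    (p : MvPolynomial (Fin n) E) : egd_D ζ h l (X k * p) = X k * egd_D ζ h l p := by
  induction p using MvPolynomial.induction_on' with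
  | monomial u c =>
    rw [egh216d_X_mul_monomial, egd_D_monomial, egd_D_monomial, egh216d_Dmon_add_ne ζ h l hk,
      mul_smul_comm]
  | add p q hp hq => rw [mul_add, map_add, map_add, hp, hq, mul_add]

/-- (a) for `Z`. -/
theorem egh216d_Z_X_mul (ζ : E) (l : Fin n) {k : Fin n} (hk : k ≠ l)
    (p : MvPolynomial (Fin n) E) : egd_Z ζ l (X k * p) = X k * egd_Z ζ l p := by
  induction p using MvPolynomial.induction_on' with
  | monomial u c =>
    rw [egh216d_X_mul_monomial, egd_Z_monomial, egd_Z_monomial, egh216d_X_mul_monomial]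
    have h1 : (Finsupp.single k 1 + u : Fin n →₀ ℕ) l = u l := by
      simp [hk]
    rw [h1]
  | add p q hp hq => rw [mul_add, map_add, map_add, hp, hq, mul_add]

/-- (b). -/
theorem egh216d_X_mul_D (ζ : E) {h l : Fin n} (hl : h ≠ l) (p : MvPolynomial (Fin n) E) :
    X l * egd_D ζ h l p = egd_D ζ h l (X l * p + X h * egd_Z ζ l p) := by
  induction p using MvPolynomial.induction_on' with
  | monomial u c =>
    rw [map_add, egh216d_D_X_mul ζ h l hl, egd_Z_monomial, egh216d_X_mul_monomial,
      egd_D_monomial, egd_D_monomial, egd_D_monomial, egh216d_Dmon_add_self]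
    simp only [smul_eq_C_mul, map_mul]
    ring
  | add p q hp hq =>
    rw [map_add, mul_add, hp, hq, ← map_add, map_add (egd_Z ζ l), mul_add, mul_add]
    congr 1
    ring

lemma egh216d_degree_erase (l : Fin n) (u : Fin n →₀ ℕ) :
    (u.erase l).degree + u l = u.degree := by
  conv_rhs => rw [← Finsupp.erase_add_single l u]
  rw [map_add, Finsupp.degree_single]

lemma egh216d_Dmon_homog (ζ : E) (h l : Fin n) (u : Fin n →₀ ℕ) :
    (egd_Dmon ζ h l u).IsHomogeneous u.degree := by
  unfold egd_Dmon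
  rw [← egh216d_degree_erase l u]
  refine (isHomogeneous_monomial 1 rfl).mul ?_
  have := IsHomogeneous.prod (Finset.range (u l))
    (fun s => (X l - C (ζ ^ s) * X h : MvPolynomial (Fin n) E)) (fun _ => 1)
    (fun s _ => (isHomogeneous_X E l).sub (isHomogeneous_C_mul_X _ h))
  simpa using this

/-- (c) for `D`. -/
theorem egh216d_D_mem (ζ : E) (h l : Fin n) {d : ℕ} {p : MvPolynomial (Fin n) E}
    (hp : p ∈ homogeneousSubmodule (Fin n) E d) :
    egd_D ζ h l p ∈ homogeneousSubmodule (Fin n) E d := by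
  rw [← support_sum_monomial_coeff p, map_sum]
  refine Submodule.sum_mem _ fun u hu => ?_
  rw [egd_D_monomial]
  refine Submodule.smul_mem _ _ ?_
  have hdeg : u.degree = d := by
    by_contra hne
    exact (mem_support_iff.mp hu) (((mem_homogeneousSubmodule d p).mp hp).coeff_eq_zero hne)
  rw [mem_homogeneousSubmodule, ← hdeg]
  exact egh216d_Dmon_homog ζ h l u

/-- (c): the coefficients of `Z p`. -/
theorem egh216d_coeff_Z (ζ : E) (l : Fin n) (u : Fin n →₀ ℕ) (p : MvPolynomial (Fin n) E) :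
    coeff u (egd_Z ζ l p) = ζ ^ (u l) * coeff u p := by
  induction p using MvPolynomial.induction_on' with
  | monomial v c =>
    rw [egd_Z_monomial, coeff_monomial, coeff_monomial]
    by_cases hvu : v = u
    · subst hvu; simp
    · simp [hvu]
  | add p q hp hq => rw [map_add, coeff_add, coeff_add, hp, hq, mul_add]

/-- (c) for `Z`. -/
theorem egh216d_Z_mem (ζ : E) (l : Fin n) {d : ℕ} {p : MvPolynomial (Fin n) E}
    (hp : p ∈ homogeneousSubmodule (Fin n) E d) :
    egd_Z ζ l p ∈ homogeneousSubmodule (Fin n) E d := by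
  rw [mem_homogeneousSubmodule] at hp ⊢
  intro u hu
  rw [egh216d_coeff_Z] at hu
  exact hp (right_ne_zero_of_mul hu)

/-- `D` commutes with the homogeneous components. -/
theorem egh216d_component_D (ζ : E) (h l : Fin n) (e : ℕ) (p : MvPolynomial (Fin n) E) :
    homogeneousComponent e (egd_D ζ h l p) = egd_D ζ h l (homogeneousComponent e p) := by
  induction p using MvPolynomial.induction_on' with
  | monomial u c =>
    have h1 : monomial u c ∈ homogeneousSubmodule (Fin n) E u.degree :=
      (mem_homogeneousSubmodule _ _).mpr (isHomogeneous_monomial c rfl)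
    rw [homogeneousComponent_of_mem h1, homogeneousComponent_of_mem (egh216d_D_mem ζ h l h1)]
    split_ifs
    · rfl
    · rw [map_zero]
  | add p q hp hq => simp only [map_add, hp, hq]

/-- (e), surjectivity. -/
theorem egh216d_D_surjective (ζ : E) {h l : Fin n} (hl : h ≠ l) :
    Function.Surjective (egd_D ζ h l : MvPolynomial (Fin n) E → MvPolynomial (Fin n) E) := by
  intro q
  induction q using MvPolynomial.induction_on with
  | C a =>
    refine ⟨C a, ?_⟩
    rw [C_apply, egd_D_monomial]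
    simp [egd_Dmon, smul_eq_C_mul]
  | add p q hp hq =>
    obtain ⟨p', rfl⟩ := hp
    obtain ⟨q', rfl⟩ := hq
    exact ⟨p' + q', map_add _ _ _⟩
  | mul_X p i hp =>
    obtain ⟨p', rfl⟩ := hp
    by_cases hi : i = l
    · subst hi
      exact ⟨_, by rw [← egh216d_X_mul_D ζ hl, mul_comm]⟩
    · exact ⟨X i * p', by rw [egh216d_D_X_mul ζ h l hi, mul_comm]⟩

/-- `D` on the piece of degree `d`. -/
noncomputable def egh216d_Dd (ζ : E) (h l : Fin n) (d : ℕ) :
    homogeneousSubmodule (Fin n) E d →ₗ[E] homogeneousSubmodule (Fin n) E d :=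
  (egd_D ζ h l).restrict fun _ hp => egh216d_D_mem ζ h l hp

lemma egh216d_Dd_surjective (ζ : E) {h l : Fin n} (hl : h ≠ l) (d : ℕ) :
    Function.Surjective (egh216d_Dd ζ h l d) := by
  rintro ⟨q, hq⟩
  obtain ⟨p, rfl⟩ := egh216d_D_surjective ζ hl q
  refine ⟨⟨homogeneousComponent d p, homogeneousComponent_mem d p⟩, Subtype.ext ?_⟩
  show egd_D ζ h l (homogeneousComponent d p) = egd_D ζ h l p
  rw [← egh216d_component_D, homogeneousComponent_of_mem hq, if_pos rfl]

lemma egh216d_Dd_injective (ζ : E) {h l : Fin n} (hl : h ≠ l) (d : ℕ) :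
    Function.Injective (egh216d_Dd ζ h l d) := by
  have : Module.Finite E (homogeneousSubmodule (Fin n) E d) :=
    Module.Finite.iff_fg.mpr (homogeneousSubmodule_fg (Fin n) E d)
  exact LinearMap.injective_iff_surjective.mpr (egh216d_Dd_surjective ζ hl d)

/-- (e), injectivity. -/
theorem egh216d_D_injective (ζ : E) {h l : Fin n} (hl : h ≠ l) :
    Function.Injective (egd_D ζ h l : MvPolynomial (Fin n) E → MvPolynomial (Fin n) E) := by
  rw [injective_iff_map_eq_zero]
  intro p hp
  have hcomp : ∀ e, homogeneousComponent e p = 0 := by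
    intro e
    have h1 : egd_D ζ h l (homogeneousComponent e p) = 0 := by
      rw [← egh216d_component_D, hp, map_zero]
    have h2 : egh216d_Dd ζ h l e ⟨homogeneousComponent e p, homogeneousComponent_mem e p⟩ =
        egh216d_Dd ζ h l e 0 := by
      rw [map_zero]
      exact Subtype.ext h1
    exact congrArg Subtype.val (egh216d_Dd_injective ζ hl e h2)
  rw [← sum_homogeneousComponent p]
  exact Finset.sum_eq_zero fun e _ => hcomp e

/-- (e): `D` is bijective. -/
theorem egh216d_D_bijective (ζ : E) {h l : Fin n} (hl : h ≠ l) :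
    Function.Bijective (egd_D ζ h l : MvPolynomial (Fin n) E → MvPolynomial (Fin n) E) :=
  ⟨egh216d_D_injective ζ hl, egh216d_D_surjective ζ hl⟩

/-- (e): `D` as a linear equivalence. -/
noncomputable def egh216d_Dequiv (ζ : E) {h l : Fin n} (hl : h ≠ l) :
    MvPolynomial (Fin n) E ≃ₗ[E] MvPolynomial (Fin n) E :=
  LinearEquiv.ofBijective (egd_D ζ h l) (egh216d_D_bijective ζ hl)

lemma egh216d_Dequiv_apply (ζ : E) {h l : Fin n} (hl : h ≠ l) (p : MvPolynomial (Fin n) E) :
    egh216d_Dequiv ζ hl p = egd_D ζ h l p := rfl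

/-- (e): `D` reflects degrees. -/
theorem egh216d_D_mem_iff (ζ : E) {h l : Fin n} (hl : h ≠ l) (d : ℕ)
    (p : MvPolynomial (Fin n) E) :
    p ∈ homogeneousSubmodule (Fin n) E d ↔ egd_D ζ h l p ∈ homogeneousSubmodule (Fin n) E d := by
  refine ⟨egh216d_D_mem ζ h l, fun hq => ?_⟩
  obtain ⟨⟨p', hp'⟩, hpp⟩ := egh216d_Dd_surjective ζ hl d ⟨_, hq⟩
  have : egd_D ζ h l p' = egd_D ζ h l p := congrArg Subtype.val hpp
  rw [← egh216d_D_injective ζ hl this]
  exact hp'

/-- `Z` keeps every monomial ideal. -/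
theorem egh216d_Z_mem_ideal (ζ : E) (l : Fin n) (U : Set (Fin n → ℕ))
    {g : MvPolynomial (Fin n) E} (hg : g ∈ bt66_ideal E U) : egd_Z ζ l g ∈ bt66_ideal E U := by
  rw [egh216_mem_ideal] at hg ⊢
  intro u hu
  refine hg u ?_
  rw [mem_support_iff] at hu ⊢
  rw [egh216d_coeff_Z] at hu
  exact right_ne_zero_of_mul hu

/-- **Lemma 4.1 of the Betti paper, Betti part**: any ideal `K'` which is the image under `D` of the
monomial ideal of `U` has the graded Betti numbers of that monomial ideal. -/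
theorem egh216d_gradedBetti_D (ζ : E) {h l : Fin n} (hl : h ≠ l) (U : Set (Fin n → ℕ))
    (K' : Ideal (MvPolynomial (Fin n) E))
    (hK' : ∀ g, g ∈ bt66_ideal E U ↔ egd_D ζ h l g ∈ K') (p j : ℕ) :
    gradedBetti K' p j = gradedBetti (bt66_ideal E U) p j :=
  egh216s_gradedBetti_shear (bt66_ideal E U) K' (egh216d_Dequiv ζ hl) (egd_Z ζ l) hl hK'
    (fun e g => egh216d_D_mem_iff ζ hl e g)
    (fun _ hi g => egh216d_D_X_mul ζ h l hi g)
    (fun g => (egh216d_X_mul_D ζ hl g).symm)
    (fun _ hg => egh216d_Z_mem_ideal ζ l U hg)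
    (fun _ _ hg => egh216d_Z_mem ζ l hg)
    (fun _ hi g => egh216d_Z_X_mul ζ l hi g) p j

/-- The image `D(K)` of an ideal stable under `Z` is an ideal. -/
noncomputable def egh216d_image (ζ : E) {h l : Fin n} (hl : h ≠ l)
    (K : Ideal (MvPolynomial (Fin n) E)) (hZ : ∀ g ∈ K, egd_Z ζ l g ∈ K) :
    Ideal (MvPolynomial (Fin n) E) where
  carrier := {q | ∃ g ∈ K, egd_D ζ h l g = q}
  add_mem' := by
    rintro _ _ ⟨g, hg, rfl⟩ ⟨g', hg', rfl⟩
    exact ⟨g + g', K.add_mem hg hg', map_add _ _ _⟩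
  zero_mem' := ⟨0, K.zero_mem, map_zero _⟩
  smul_mem' := by
    intro r q hq
    induction r using MvPolynomial.induction_on generalizing q with
    | C a =>
      obtain ⟨g, hg, rfl⟩ := hq
      refine ⟨C a * g, K.mul_mem_left _ hg, ?_⟩
      rw [← smul_eq_C_mul, map_smul, smul_eq_mul, smul_eq_C_mul]
    | add r r' hr hr' =>
      obtain ⟨g, hg, h1⟩ := hr hq
      obtain ⟨g', hg', h2⟩ := hr' hq
      refine ⟨g + g', K.add_mem hg hg', ?_⟩
      rw [map_add, h1, h2, add_smul]
    | mul_X r i hr =>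
      have hX : ∃ g ∈ K, egd_D ζ h l g = X i * q := by
        obtain ⟨g, hg, rfl⟩ := hq
        by_cases hi : i = l
        · subst hi
          exact ⟨_, K.add_mem (K.mul_mem_left _ hg) (K.mul_mem_left _ (hZ g hg)),
            (egh216d_X_mul_D ζ hl g).symm⟩
        · exact ⟨X i * g, K.mul_mem_left _ hg, egh216d_D_X_mul ζ h l hi g⟩
      have := hr hX
      rwa [smul_eq_mul, ← mul_assoc] at this

lemma egh216d_mem_image (ζ : E) {h l : Fin n} (hl : h ≠ l)
    (K : Ideal (MvPolynomial (Fin n) E)) (hZ : ∀ g ∈ K, egd_Z ζ l g ∈ K)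
    (g : MvPolynomial (Fin n) E) : g ∈ K ↔ egd_D ζ h l g ∈ egh216d_image ζ hl K hZ := by
  constructor
  · intro hg
    exact ⟨g, hg, rfl⟩
  · rintro ⟨g', hg', hgg⟩
    rw [← egh216d_D_injective ζ hl hgg]
    exact hg'

end Claimed.Agent.R278
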