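-- KEEP
/-
Row 278 (S0523), Betti paper Section 4: the root-of-unity distraction `D` and the diagonal
operator `Z` on monomials (seat 76, prefix `r278z_`), items (a)-(g) of the list of 276.
-/
import Mathlib

set_option autoImplicit false

namespace Claimed.Agent.R278

open MvPolynomial

variable {E : Type} [Field E] {n : ℕ}

/-- `∏_{s < k} (x_l - ζ^s x_h)` -/
noncomputable def r278z_g (ζ : E) (h l : Fin n) (k : ℕ) : MvPolynomial (Fin n) E :=
  ∏ s ∈ Finset.range k, (X l - C (ζ ^ s) * X h)

theorem r278z_g_zero (ζ : E) (h l : Fin n) : r278z_g ζ h l 0 = 1 := by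
  simp [r278z_g]

theorem r278z_g_succ (ζ : E) (h l : Fin n) (k : ℕ) :
    r278z_g ζ h l (k + 1) = r278z_g ζ h l k * (X l - C (ζ ^ k) * X h) := by
  simp [r278z_g, Finset.prod_range_succ]

/-- The distraction `D`. -/
noncomputable def r278z_D (ζ : E) (h l : Fin n) :
    MvPolynomial (Fin n) E →ₗ[E] MvPolynomial (Fin n) E :=
  (basisMonomials (Fin n) E).constr E fun u => monomial (u.erase l) 1 * r278z_g ζ h l (u l)

/-- The diagonal operator `Z`. -/
noncomputable def r278z_Z (ζ : E) (l : Fin n) :
    MvPolynomial (Fin n) E →ₗ[E] MvPolynomial (Fin n) E :=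
  (basisMonomials (Fin n) E).constr E fun u => monomial u (ζ ^ (u l))

theorem r278z_D_monomial (ζ : E) (h l : Fin n) (u : Fin n →₀ ℕ) :
    r278z_D ζ h l (monomial u 1) = monomial (u.erase l) 1 * r278z_g ζ h l (u l) := by
  have := (basisMonomials (Fin n) E).constr_basis E
    (fun u => monomial (u.erase l) 1 * r278z_g ζ h l (u l)) u
  simpa [r278z_D, coe_basisMonomials] using this

theorem r278z_Z_monomial (ζ : E) (l : Fin n) (u : Fin n →₀ ℕ) :
    r278z_Z ζ l (monomial u 1) = monomial u (ζ ^ (u l)) := by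
  have := (basisMonomials (Fin n) E).constr_basis E (fun u => monomial u (ζ ^ (u l))) u
  simpa [r278z_Z, coe_basisMonomials] using this

/-- two linear maps which agree on the monomials are equal -/
theorem r278z_ext {M : Type} [AddCommGroup M] [Module E M]
    (f g : MvPolynomial (Fin n) E →ₗ[E] M)
    (hfg : ∀ u : Fin n →₀ ℕ, f (monomial u 1) = g (monomial u 1)) : f = g := by
  refine (basisMonomials (Fin n) E).ext fun u => ?_
  simpa [coe_basisMonomials] using hfg u

theorem r278z_X_mul_monomial (k : Fin n) (u : Fin n →₀ ℕ) :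
    (X k : MvPolynomial (Fin n) E) * monomial u 1 = monomial (u + Finsupp.single k 1) 1 := by
  rw [X, monomial_mul, add_comm, one_mul]

/-- (a) for `D` -/
theorem r278z_D_X_mul (ζ : E) (h l : Fin n) {k : Fin n} (hk : k ≠ l) (p : MvPolynomial (Fin n) E) :
    r278z_D ζ h l (X k * p) = X k * r278z_D ζ h l p := by
  have : r278z_D ζ h l ∘ₗ LinearMap.mulLeft E (X k) = LinearMap.mulLeft E (X k) ∘ₗ r278z_D ζ h l := by
    refine r278z_ext _ _ fun u => ?_
    simp only [LinearMap.comp_apply, LinearMap.mulLeft_apply, r278z_X_mul_monomial,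
      r278z_D_monomial]
    have h1 : (u + Finsupp.single k 1 : Fin n →₀ ℕ) l = u l := by
      simp [hk]
    have h2 : (u + Finsupp.single k 1 : Fin n →₀ ℕ).erase l = u.erase l + Finsupp.single k 1 := by
      rw [Finsupp.erase_add, Finsupp.erase_single_ne (Ne.symm hk)]
    rw [h1, h2, ← r278z_X_mul_monomial, mul_assoc]
  exact LinearMap.congr_fun this p

/-- (a) for `Z` -/
theorem r278z_Z_X_mul (ζ : E) (l : Fin n) {k : Fin n} (hk : k ≠ l) (p : MvPolynomial (Fin n) E) :
    r278z_Z ζ l (X k * p) = X k * r278z_Z ζ l p := by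
  have : r278z_Z ζ l ∘ₗ LinearMap.mulLeft E (X k) = LinearMap.mulLeft E (X k) ∘ₗ r278z_Z ζ l := by
    refine r278z_ext _ _ fun u => ?_
    simp only [LinearMap.comp_apply, LinearMap.mulLeft_apply, r278z_X_mul_monomial,
      r278z_Z_monomial]
    have h1 : (u + Finsupp.single k 1 : Fin n →₀ ℕ) l = u l := by
      simp [hk]
    rw [h1, X, monomial_mul, add_comm, one_mul]
  exact LinearMap.congr_fun this p

/-- (b) -/
theorem r278z_X_mul_D (ζ : E) {h l : Fin n} (hl : h ≠ l) (p : MvPolynomial (Fin n) E) :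
    X l * r278z_D ζ h l p = r278z_D ζ h l (X l * p + X h * r278z_Z ζ l p) := by
  have : LinearMap.mulLeft E (X l) ∘ₗ r278z_D ζ h l =
      r278z_D ζ h l ∘ₗ (LinearMap.mulLeft E (X l) + LinearMap.mulLeft E (X h) ∘ₗ r278z_Z ζ l) := by
    refine r278z_ext _ _ fun u => ?_
    simp only [LinearMap.comp_apply, LinearMap.mulLeft_apply, LinearMap.add_apply, map_add,
      r278z_D_X_mul ζ h l hl, r278z_Z_monomial]
    have hz : (monomial u (ζ ^ (u l)) : MvPolynomial (Fin n) E) = (ζ ^ (u l)) • monomial u 1 := by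
      rw [smul_monomial, smul_eq_mul, mul_one]
    rw [hz, map_smul, r278z_X_mul_monomial, r278z_D_monomial, r278z_D_monomial]
    have h1 : (u + Finsupp.single l 1 : Fin n →₀ ℕ) l = u l + 1 := by simp
    have h2 : (u + Finsupp.single l 1 : Fin n →₀ ℕ).erase l = u.erase l := by
      rw [Finsupp.erase_add, Finsupp.erase_single, add_zero]
    rw [h1, h2, r278z_g_succ, smul_eq_C_mul]
    ring
  exact LinearMap.congr_fun this p

/-! ## The shape of `D (x^u)` -/

theorem r278z_shape_aux (ζ : E) (h l : Fin n) (w : Fin n →₀ ℕ) (k : ℕ) (v : Fin n →₀ ℕ)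
    (hv : coeff v (monomial w 1 * r278z_g ζ h l k) ≠ 0) :
    ∃ i ≤ k, v + Finsupp.single l i = w + Finsupp.single l k + Finsupp.single h i := by
  induction k generalizing v with
  | zero =>
    rw [r278z_g_zero, mul_one, coeff_monomial] at hv
    have : w = v := by
      by_contra hne
      simp [hne] at hv
    exact ⟨0, le_rfl, by simp [this]⟩
  | succ k ih =>
    rw [r278z_g_succ, ← mul_assoc, mul_sub, coeff_sub] at hv
    by_cases h1 : coeff v (monomial w 1 * r278z_g ζ h l k * X l) = 0
    · have h3 : coeff v (monomial w 1 * r278z_g ζ h l k * X h) ≠ 0 := by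
        intro h3
        apply hv
        rw [h1, mul_left_comm, coeff_C_mul, h3, mul_zero, sub_zero]
      rw [← mem_support_iff, support_mul_X, Finset.mem_map] at h3
      obtain ⟨v', hv', rfl⟩ := h3
      obtain ⟨i, hi, he⟩ := ih v' (mem_support_iff.1 hv')
      refine ⟨i + 1, by omega, ?_⟩
      simp only [addRightEmbedding_apply, Finsupp.single_add]
      have : v' + Finsupp.single h 1 + (Finsupp.single l i + Finsupp.single l 1) =
          (v' + Finsupp.single l i) + (Finsupp.single h 1 + Finsupp.single l 1) := by abel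
      rw [this, he]
      abel
    · rw [← ne_eq, ← mem_support_iff, support_mul_X, Finset.mem_map] at h1
      obtain ⟨v', hv', rfl⟩ := h1
      obtain ⟨i, hi, he⟩ := ih v' (mem_support_iff.1 hv')
      refine ⟨i, by omega, ?_⟩
      simp only [addRightEmbedding_apply, Finsupp.single_add]
      have : v' + Finsupp.single l 1 + Finsupp.single l i =
          (v' + Finsupp.single l i) + Finsupp.single l 1 := by abel
      rw [this, he]
      abel

/-- the coefficient of the original monomial is `1` -/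
theorem r278z_coeff_self_aux (ζ : E) {h l : Fin n} (hl : h ≠ l) (w : Fin n →₀ ℕ) (k : ℕ) :
    coeff (w + Finsupp.single l k) (monomial w 1 * r278z_g ζ h l k) = 1 := by
  induction k with
  | zero => simp [r278z_g_zero]
  | succ k ih =>
    rw [r278z_g_succ, ← mul_assoc, mul_sub, coeff_sub, Finsupp.single_add, ← add_assoc,
      coeff_mul_X, ih]
    have h0 : coeff (w + Finsupp.single l k + Finsupp.single l 1)
        (monomial w 1 * r278z_g ζ h l k * X h) = 0 := by
      by_contra hne
      rw [← ne_eq, ← mem_support_iff, support_mul_X, Finset.mem_map] at hne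
      obtain ⟨v', hv', he'⟩ := hne
      obtain ⟨i, hi, he⟩ := r278z_shape_aux ζ h l w k v' (mem_support_iff.1 hv')
      have e1 := DFunLike.congr_fun he' l
      have e2 := DFunLike.congr_fun he l
      simp only [addRightEmbedding_apply, Finsupp.add_apply, Finsupp.single_eq_same,
        Finsupp.single_eq_of_ne (Ne.symm hl)] at e1 e2
      omega
    rw [mul_left_comm, coeff_C_mul, h0, mul_zero, sub_zero]

/-- the coefficient of the first transfer -/
theorem r278z_coeff_next_aux (ζ : E) {h l : Fin n} (hl : h ≠ l) (w : Fin n →₀ ℕ) (k : ℕ) :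
    coeff (w + Finsupp.single l k + Finsupp.single h 1) (monomial w 1 * r278z_g ζ h l (k + 1)) =
      - ∑ s ∈ Finset.range (k + 1), ζ ^ s := by
  induction k with
  | zero =>
    rw [r278z_g_succ, r278z_g_zero, one_mul, mul_sub, coeff_sub, mul_left_comm, coeff_C_mul]
    simp only [Finsupp.single_zero, add_zero, coeff_mul_X, coeff_monomial, if_true, pow_zero,
      mul_one]
    have : coeff (w + Finsupp.single h 1) ((monomial w) (1 : E) * X l) = 0 := by
      rw [X, monomial_mul, coeff_monomial, if_neg]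
      intro he
      have := DFunLike.congr_fun he l
      simp [Finsupp.single_eq_of_ne (Ne.symm hl)] at this
    rw [this, zero_sub]
    simp
  | succ k ih =>
    rw [r278z_g_succ, ← mul_assoc, mul_sub, coeff_sub, mul_left_comm, coeff_C_mul, coeff_mul_X,
      r278z_coeff_self_aux ζ hl, mul_one]
    have : w + Finsupp.single l (k + 1) + Finsupp.single h 1 =
        (w + Finsupp.single l k + Finsupp.single h 1) + Finsupp.single l 1 := by
      rw [Finsupp.single_add]; abel
    rw [this, coeff_mul_X, ih, Finset.sum_range_succ _ (k + 1)]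
    ring

/-- **Shape.** -/
theorem r278z_shape (ζ : E) (h l : Fin n) (u v : Fin n →₀ ℕ)
    (hv : coeff v (r278z_D ζ h l (monomial u 1)) ≠ 0) :
    ∃ i ≤ u l, v + Finsupp.single l i = u + Finsupp.single h i := by
  rw [r278z_D_monomial] at hv
  obtain ⟨i, hi, he⟩ := r278z_shape_aux ζ h l (u.erase l) (u l) v hv
  rw [Finsupp.erase_add_single] at he
  exact ⟨i, hi, he⟩

/-- (d), second half -/
theorem r278z_coeff_self (ζ : E) {h l : Fin n} (hl : h ≠ l) (u : Fin n →₀ ℕ) :
    coeff u (r278z_D ζ h l (monomial u 1)) = 1 := by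
  have := r278z_coeff_self_aux ζ hl (u.erase l) (u l)
  rwa [Finsupp.erase_add_single, ← r278z_D_monomial] at this

/-- (d), first half -/
theorem r278z_lex (ζ : E) {h l : Fin n} (hl : h < l) (u v : Fin n →₀ ℕ)
    (hv : coeff v (r278z_D ζ h l (monomial u 1)) ≠ 0) :
    v = u ∨ toLex (⇑u : Fin n → ℕ) < toLex (⇑v : Fin n → ℕ) := by
  obtain ⟨i, hi, he⟩ := r278z_shape ζ h l u v hv
  rcases Nat.eq_zero_or_pos i with rfl | hpos
  · left
    simpa using he
  · right
    refine ⟨h, fun j hj => ?_, ?_⟩
    · have := DFunLike.congr_fun he j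
      have h1 : j ≠ h := ne_of_lt hj
      have h2 : j ≠ l := ne_of_lt (hj.trans hl)
      simp only [Finsupp.add_apply, Finsupp.single_eq_of_ne h1, Finsupp.single_eq_of_ne h2,
        add_zero] at this
      exact this.symm
    · have := DFunLike.congr_fun he h
      simp only [Finsupp.add_apply, Finsupp.single_eq_same,
        Finsupp.single_eq_of_ne (ne_of_lt hl), add_zero] at this
      change u h < v h
      omega

/-- (f) -/
theorem r278z_coeff_next (ζ : E) {h l : Fin n} (hl : h ≠ l) (u : Fin n →₀ ℕ) (hu : 0 < u l) :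
    coeff (u - Finsupp.single l 1 + Finsupp.single h 1) (r278z_D ζ h l (monomial u 1)) =
      - ∑ s ∈ Finset.range (u l), ζ ^ s := by
  obtain ⟨k, hk⟩ : ∃ k, u l = k + 1 := ⟨u l - 1, by omega⟩
  have h1 := r278z_coeff_next_aux ζ hl (u.erase l) k
  have h2 : u - Finsupp.single l 1 = u.erase l + Finsupp.single l k := by
    ext j
    by_cases hj : j = l
    · subst hj
      simp [hk]
    · simp [Finsupp.single_eq_of_ne hj, Finsupp.erase_ne hj]
  rw [r278z_D_monomial, h2, hk, h1]

/-! ## Homogeneity -/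

theorem r278z_D_eq_sum (ζ : E) (h l : Fin n) (p : MvPolynomial (Fin n) E) :
    r278z_D ζ h l p = ∑ u ∈ p.support, coeff u p • r278z_D ζ h l (monomial u 1) := by
  conv_lhs => rw [p.as_sum]
  rw [map_sum]
  refine Finset.sum_congr rfl fun u _ => ?_
  rw [← map_smul, smul_monomial, smul_eq_mul, mul_one]

theorem r278z_Z_eq_sum (ζ : E) (l : Fin n) (p : MvPolynomial (Fin n) E) :
    r278z_Z ζ l p = ∑ u ∈ p.support, coeff u p • r278z_Z ζ l (monomial u 1) := by
  conv_lhs => rw [p.as_sum]
  rw [map_sum]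
  refine Finset.sum_congr rfl fun u _ => ?_
  rw [← map_smul, smul_monomial, smul_eq_mul, mul_one]

theorem r278z_g_homog (ζ : E) (h l : Fin n) (k : ℕ) : (r278z_g ζ h l k).IsHomogeneous k := by
  have := IsHomogeneous.prod (Finset.range k)
    (fun s => (X l - C (ζ ^ s) * X h : MvPolynomial (Fin n) E)) (fun _ => 1) (fun s _ => by
      refine IsHomogeneous.sub (isHomogeneous_X E l) ?_
      have := (isHomogeneous_C (Fin n) (ζ ^ s)).mul (isHomogeneous_X E h)
      simpa using this)
  simpa [r278z_g] using this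

theorem r278z_D_monomial_homog (ζ : E) (h l : Fin n) (u : Fin n →₀ ℕ) :
    (r278z_D ζ h l (monomial u 1)).IsHomogeneous u.degree := by
  rw [r278z_D_monomial]
  have h1 := (isHomogeneous_monomial (1 : E) (rfl : (u.erase l).degree = _)).mul
    (r278z_g_homog ζ h l (u l))
  have h2 : (u.erase l).degree + u l = u.degree := by
    conv_rhs => rw [← Finsupp.erase_add_single l u, map_add]
    simp
  rwa [h2] at h1

/-- (c) for `D` -/
theorem r278z_D_homog (ζ : E) (h l : Fin n) (d : ℕ) (p : MvPolynomial (Fin n) E)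
    (hp : p ∈ homogeneousSubmodule (Fin n) E d) :
    r278z_D ζ h l p ∈ homogeneousSubmodule (Fin n) E d := by
  rw [r278z_D_eq_sum]
  refine Submodule.sum_mem _ fun u hu => Submodule.smul_mem _ _ ?_
  have hd : u.degree = d := by
    by_contra hne
    exact (mem_support_iff.1 hu) (IsHomogeneous.coeff_eq_zero hp hne)
  rw [← hd]
  exact r278z_D_monomial_homog ζ h l u

/-- (c) for `Z` -/
theorem r278z_Z_homog (ζ : E) (l : Fin n) (d : ℕ) (p : MvPolynomial (Fin n) E)
    (hp : p ∈ homogeneousSubmodule (Fin n) E d) :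
    r278z_Z ζ l p ∈ homogeneousSubmodule (Fin n) E d := by
  rw [r278z_Z_eq_sum]
  refine Submodule.sum_mem _ fun u hu => Submodule.smul_mem _ _ ?_
  have hd : u.degree = d := by
    by_contra hne
    exact (mem_support_iff.1 hu) (IsHomogeneous.coeff_eq_zero hp hne)
  rw [r278z_Z_monomial]
  exact isHomogeneous_monomial _ hd

/-! ## (e) `D` is bijective -/

theorem r278z_D_injective (ζ : E) {h l : Fin n} (hl : h < l) :
    Function.Injective (r278z_D ζ h l) := by
  rw [injective_iff_map_eq_zero]
  intro p hp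
  by_contra hne
  have hsupp : p.support.Nonempty := by
    rw [Finset.nonempty_iff_ne_empty]
    intro he
    exact hne (support_eq_empty.1 he)
  obtain ⟨u0, hu0, hmin⟩ := Finset.exists_min_image p.support
    (fun u => toLex (⇑u : Fin n → ℕ)) hsupp
  have hc : coeff u0 (r278z_D ζ h l p) = coeff u0 p := by
    rw [r278z_D_eq_sum, coeff_sum, Finset.sum_eq_single u0]
    · rw [coeff_smul, r278z_coeff_self ζ (ne_of_lt hl), smul_eq_mul, mul_one]
    · intro u hu hune
      rw [coeff_smul]
      have : coeff u0 (r278z_D ζ h l (monomial u 1)) = 0 := by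
        by_contra hc0
        rcases r278z_lex ζ hl u u0 hc0 with h1 | h1
        · exact hune h1.symm
        · exact absurd (hmin u hu) (not_le.2 h1)
      rw [this, smul_zero]
    · intro hh
      exact absurd hu0 hh
  rw [hp, coeff_zero] at hc
  exact (mem_support_iff.1 hu0) hc.symm

theorem r278z_D_surj_homog (ζ : E) {h l : Fin n} (hl : h < l) (d : ℕ)
    (q : MvPolynomial (Fin n) E) (hq : q ∈ homogeneousSubmodule (Fin n) E d) :
    ∃ r ∈ homogeneousSubmodule (Fin n) E d, r278z_D ζ h l r = q := by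
  have : Module.Finite E (homogeneousSubmodule (Fin n) E d) :=
    Module.Finite.iff_fg.2 (homogeneousSubmodule_fg (σ := Fin n) (R := E) d)
  let Dd : homogeneousSubmodule (Fin n) E d →ₗ[E] homogeneousSubmodule (Fin n) E d :=
    (r278z_D ζ h l).restrict (fun p hp => r278z_D_homog ζ h l d p hp)
  have hinj : Function.Injective Dd := by
    intro x y hxy
    apply Subtype.ext
    apply r278z_D_injective ζ hl
    exact congrArg Subtype.val hxy
  obtain ⟨r, hr⟩ := (LinearMap.injective_iff_surjective.1 hinj) ⟨q, hq⟩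
  exact ⟨r.1, r.2, congrArg Subtype.val hr⟩

theorem r278z_D_surjective (ζ : E) {h l : Fin n} (hl : h < l) :
    Function.Surjective (r278z_D ζ h l) := by
  intro p
  have : ∀ i, ∃ r, r278z_D ζ h l r = homogeneousComponent i p := by
    intro i
    obtain ⟨r, _, hr⟩ := r278z_D_surj_homog ζ hl i (homogeneousComponent i p)
      (homogeneousComponent_isHomogeneous i p)
    exact ⟨r, hr⟩
  choose r hr using this
  refine ⟨∑ i ∈ Finset.range (p.totalDegree + 1), r i, ?_⟩
  rw [map_sum]
  simp only [hr]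
  exact sum_homogeneousComponent p

/-- (e) the distraction as a linear equivalence -/
noncomputable def r278z_De (ζ : E) {h l : Fin n} (hl : h < l) :
    MvPolynomial (Fin n) E ≃ₗ[E] MvPolynomial (Fin n) E :=
  LinearEquiv.ofBijective (r278z_D ζ h l) ⟨r278z_D_injective ζ hl, r278z_D_surjective ζ hl⟩

theorem r278z_De_apply (ζ : E) {h l : Fin n} (hl : h < l) (p : MvPolynomial (Fin n) E) :
    r278z_De ζ hl p = r278z_D ζ h l p := rfl

/-- (c)+(e): `D` detects the degree -/
theorem r278z_D_homog_iff (ζ : E) {h l : Fin n} (hl : h < l) (d : ℕ)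
    (p : MvPolynomial (Fin n) E) :
    r278z_D ζ h l p ∈ homogeneousSubmodule (Fin n) E d ↔ p ∈ homogeneousSubmodule (Fin n) E d := by
  refine ⟨fun hp => ?_, r278z_D_homog ζ h l d p⟩
  obtain ⟨r, hr, hrp⟩ := r278z_D_surj_homog ζ hl d _ hp
  rwa [← r278z_D_injective ζ hl hrp]

/-! ## (g) the powers -/

theorem r278z_g_add (ζ : E) (h l : Fin n) (a m : ℕ) :
    r278z_g ζ h l (a + m) =
      r278z_g ζ h l a * ∏ s ∈ Finset.range m, (X l - C (ζ ^ (a + s)) * X h) := by
  simp [r278z_g, Finset.prod_range_add]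

theorem r278z_g_primitive {ζ : E} {a : ℕ} (hζ : IsPrimitiveRoot ζ a) (ha : 0 < a) (h l : Fin n) :
    r278z_g ζ h l a = X l ^ a - X h ^ a := by
  classical
  have hζ' : IsPrimitiveRoot (C ζ : MvPolynomial (Fin n) E) a :=
    hζ.map_of_injective (C_injective (Fin n) E)
  rw [hζ'.pow_sub_pow_eq_prod_sub_mul (X l) (X h) ha]
  have himg : Polynomial.nthRootsFinset a (1 : MvPolynomial (Fin n) E) =
      (Finset.range a).image (fun s => (C ζ : MvPolynomial (Fin n) E) ^ s) := by
    ext μ
    rw [Polynomial.mem_nthRootsFinset ha, Finset.mem_image]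
    constructor
    · intro hμ
      have : NeZero a := ⟨ha.ne'⟩
      obtain ⟨i, hi, hi2⟩ := hζ'.eq_pow_of_pow_eq_one hμ
      exact ⟨i, Finset.mem_range.2 hi, hi2⟩
    · rintro ⟨i, _, rfl⟩
      rw [← pow_mul, mul_comm, pow_mul, hζ'.pow_eq_one, one_pow]
  rw [himg, Finset.prod_image]
  · simp [r278z_g, map_pow]
  · intro i hi j hj hij
    exact hζ'.pow_inj (Finset.mem_range.1 hi) (Finset.mem_range.1 hj) hij

/-- (g) -/
theorem r278z_powers (a : Fin n → ℕ) {ζ : E} {h l : Fin n} (hl : h ≠ l)
    (hζ : IsPrimitiveRoot ζ (a l)) (hpos : 0 < a l) (hah : a h ≤ a l)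
    (u v : Fin n →₀ ℕ) (hu : ∃ i, a i ≤ u i)
    (hv : coeff v (r278z_D ζ h l (monomial u 1)) ≠ 0) : ∃ i, a i ≤ v i := by
  obtain ⟨i, hi⟩ := hu
  by_cases hil : i = l
  · subst hil
    obtain ⟨m, hm⟩ := Nat.exists_eq_add_of_le hi
    rw [r278z_D_monomial, hm, r278z_g_add, r278z_g_primitive hζ hpos] at hv
    set q := ∏ s ∈ Finset.range m, (X i - C (ζ ^ (a i + s)) * X h : MvPolynomial (Fin n) E)
    have hsplit : (monomial (u.erase i) (1 : E)) * ((X i ^ a i - X h ^ a i) * q) =
        monomial (Finsupp.single i (a i)) 1 * (monomial (u.erase i) 1 * q) -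
          monomial (Finsupp.single h (a i)) 1 * (monomial (u.erase i) 1 * q) := by
      rw [X_pow_eq_monomial, X_pow_eq_monomial]
      ring
    rw [hsplit, coeff_sub, coeff_monomial_mul' v (Finsupp.single i (a i)),
      coeff_monomial_mul' v (Finsupp.single h (a i))] at hv
    by_cases h1 : Finsupp.single i (a i) ≤ v
    · exact ⟨i, by simpa using h1 i⟩
    · by_cases h2 : Finsupp.single h (a i) ≤ v
      · refine ⟨h, hah.trans ?_⟩
        simpa using h2 h
      · simp [h1, h2] at hv
  · obtain ⟨j, _, he⟩ := r278z_shape ζ h l u v hv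
    refine ⟨i, ?_⟩
    have := DFunLike.congr_fun he i
    simp only [Finsupp.add_apply, Finsupp.single_eq_of_ne hil, add_zero] at this
    omega

/-- (g) in the form of the field `pow` of 276 (no positivity hypothesis) -/
theorem r278z_pow (ζ : E) {h l : Fin n} (hl : h ≠ l) :
    ∀ a : Fin n → ℕ, IsPrimitiveRoot ζ (a l) → a h ≤ a l → ∀ u : Fin n →₀ ℕ, (∃ i, a i ≤ u i) →
      ∀ v ∈ (r278z_D ζ h l (monomial u 1)).support, ∃ i, a i ≤ v i := by
  intro a hζ hah u hu v hv
  rcases Nat.eq_zero_or_pos (a l) with h0 | hpos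
  · exact ⟨l, by omega⟩
  · exact r278z_powers a hl hζ hpos hah u v hu (mem_support_iff.1 hv)

end Claimed.Agent.R278
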