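-- KEEP
import Mathlib
import Claimed.Prelude.Def_0450

/-!
# Row 278 (EGH): the Hilbert function of a homogeneous regular sequence

`r278h_finrank_degPart_regular`: for a homogeneous regular sequence `f` of degrees `a`, the graded pieces of the
ideal `(f)` have the dimension of those of the pure-power ideal.  Corollary `r278h_qDim_bounds`: conjunct 1 of S0522.
-/

set_option autoImplicit false

open MvPolynomial Claims.C0450

namespace Claimed.Agent.R278

variable {F : Type} [Field F] {n : ℕ}

theorem r278h_finite_homog (d : ℕ) : Module.Finite F (homogeneousSubmodule (Fin n) F d) :=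
  Module.Finite.iff_fg.2 (homogeneousSubmodule_fg (Fin n) F d)

/-- exponent vectors of degree `d`, as finitely supported functions and as tuples -/
noncomputable def r278h_expEquiv (n d : ℕ) :
    ({x : Fin n →₀ ℕ | x.degree = d} : Set (Fin n →₀ ℕ)) ≃ ↥(Finset.Nat.antidiagonalTuple n d) where
  toFun x := ⟨fun i => x.1 i, by
    rw [Finset.Nat.mem_antidiagonalTuple, ← Finsupp.degree_eq_sum]; exact x.2⟩
  invFun m := ⟨Finsupp.equivFunOnFinite.symm m.1, by
    have h := Finset.Nat.mem_antidiagonalTuple.1 m.2
    show (Finsupp.equivFunOnFinite.symm m.1).degree = d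
    rw [Finsupp.degree_eq_sum]; simpa using h⟩
  left_inv x := by ext; simp
  right_inv m := by ext; simp

theorem r278h_finrank_homog (d : ℕ) :
    Module.finrank F (homogeneousSubmodule (Fin n) F d) = (Finset.Nat.antidiagonalTuple n d).card := by
  rw [homogeneousSubmodule_eq_finsupp_supported,
    (AddMonoidAlgebra.supportedEquivFinsupp (R := F) (S := F) {x : Fin n →₀ ℕ | x.degree = d}).finrank_eq,
    (Finsupp.domLCongr (M := F) (R := F) (r278h_expEquiv n d)).finrank_eq, Module.finrank_finsupp_self,
    Fintype.card_coe]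

theorem r278h_homogComp_mul {g : MvPolynomial (Fin n) F} {e : ℕ} (hg : g.IsHomogeneous e)
    (s : MvPolynomial (Fin n) F) (d : ℕ) :
    homogeneousComponent d (g * s) = if e ≤ d then g * homogeneousComponent (d - e) s else 0 := by
  have key : ∀ k, homogeneousComponent d (g * homogeneousComponent k s) =
      if d = e + k then g * homogeneousComponent k s else 0 :=
    fun k => homogeneousComponent_of_mem (hg.mul (homogeneousComponent_isHomogeneous k s))
  conv_lhs => rw [← sum_homogeneousComponent s, Finset.mul_sum, map_sum]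
  simp_rw [key]
  split_ifs with h
  · by_cases hk : d - e ∈ Finset.range (s.totalDegree + 1)
    · rw [Finset.sum_eq_single (d - e)]
      · rw [if_pos (by omega)]
      · intro b _ hb
        rw [if_neg (by omega)]
      · intro h'; exact absurd hk h'
    · rw [homogeneousComponent_eq_zero _ _ (by simp at hk; omega), mul_zero]
      refine Finset.sum_eq_zero fun b hb => ?_
      rw [if_neg]
      rintro rfl
      apply hk
      simpa using hb
  · refine Finset.sum_eq_zero fun b _ => ?_
    rw [if_neg (by omega)]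

/-! ### The recursion for ideals -/

theorem r278h_finite_degPart (J : Ideal (MvPolynomial (Fin n) F)) (d : ℕ) :
    Module.Finite F (degPart J d) := by
  have := r278h_finite_homog (F := F) (n := n) d
  exact Submodule.finiteDimensional_of_le (inf_le_right : degPart J d ≤ homogeneousSubmodule (Fin n) F d)

theorem r278h_mem_degPart {J : Ideal (MvPolynomial (Fin n) F)} {d : ℕ} {x : MvPolynomial (Fin n) F} :
    x ∈ degPart J d ↔ x ∈ J ∧ x.IsHomogeneous d := Iff.rfl

/-- `J + (g)` is a homogeneous ideal. -/
theorem r278h_isHomogeneousIdeal_sup {J : Ideal (MvPolynomial (Fin n) F)} (hJ : IsHomogeneousIdeal J)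
    {g : MvPolynomial (Fin n) F} {e : ℕ} (hg : g.IsHomogeneous e) :
    IsHomogeneousIdeal (J ⊔ Ideal.span {g}) := by
  intro x hx d
  obtain ⟨y, hy, z, hz, rfl⟩ := Submodule.mem_sup.1 hx
  obtain ⟨s, rfl⟩ := Ideal.mem_span_singleton'.1 hz
  rw [map_add, mul_comm s g, r278h_homogComp_mul hg]
  refine Ideal.add_mem _ (Ideal.mem_sup_left (hJ y hy d)) ?_
  split_ifs
  · exact Ideal.mem_sup_right (Ideal.mul_mem_right _ _ (Ideal.mem_span_singleton_self g))
  · exact Ideal.zero_mem _

theorem r278h_degPart_sup {J : Ideal (MvPolynomial (Fin n) F)} (hJ : IsHomogeneousIdeal J)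
    {g : MvPolynomial (Fin n) F} {e : ℕ} (hg : g.IsHomogeneous e) {d : ℕ} (hed : e ≤ d) :
    degPart (J ⊔ Ideal.span {g}) d =
      degPart J d ⊔ (homogeneousSubmodule (Fin n) F (d - e)).map (LinearMap.mulLeft F g) := by
  apply le_antisymm
  · intro x hx
    obtain ⟨hx1, hx2⟩ := r278h_mem_degPart.1 hx
    obtain ⟨y, hy, z, hz, hxyz⟩ := Submodule.mem_sup.1 hx1
    obtain ⟨s, rfl⟩ := Ideal.mem_span_singleton'.1 hz
    have h1 : x = homogeneousComponent d y + g * homogeneousComponent (d - e) s := by
      have h2 := congrArg (homogeneousComponent d) hxyz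
      rw [map_add, mul_comm s g, r278h_homogComp_mul hg, if_pos hed, homogeneousComponent_eq_self hx2] at h2
      exact h2.symm
    rw [h1]
    refine Submodule.add_mem_sup ⟨hJ y hy d, homogeneousComponent_isHomogeneous d y⟩ ?_
    exact ⟨_, homogeneousComponent_isHomogeneous (d - e) s, rfl⟩
  · refine sup_le ?_ ?_
    · intro x hx
      exact ⟨Ideal.mem_sup_left hx.1, hx.2⟩
    · rintro _ ⟨s, hs, rfl⟩
      refine ⟨Ideal.mem_sup_right (Ideal.mul_mem_right _ _ (Ideal.mem_span_singleton_self g)), ?_⟩
      have := hg.mul hs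
      rwa [Nat.add_sub_cancel' hed] at this

theorem r278h_degPart_sup_lt {J : Ideal (MvPolynomial (Fin n) F)} (hJ : IsHomogeneousIdeal J)
    {g : MvPolynomial (Fin n) F} {e : ℕ} (hg : g.IsHomogeneous e) {d : ℕ} (hed : d < e) :
    degPart (J ⊔ Ideal.span {g}) d = degPart J d := by
  apply le_antisymm
  · intro x hx
    obtain ⟨hx1, hx2⟩ := r278h_mem_degPart.1 hx
    obtain ⟨y, hy, z, hz, hxyz⟩ := Submodule.mem_sup.1 hx1
    obtain ⟨s, rfl⟩ := Ideal.mem_span_singleton'.1 hz
    have h2 := congrArg (homogeneousComponent d) hxyz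
    rw [map_add, mul_comm s g, r278h_homogComp_mul hg, if_neg (by omega), add_zero,
      homogeneousComponent_eq_self hx2] at h2
    rw [← h2]
    exact ⟨hJ y hy d, homogeneousComponent_isHomogeneous d y⟩
  · intro x hx
    exact ⟨Ideal.mem_sup_left hx.1, hx.2⟩

theorem r278h_degPart_inf {J : Ideal (MvPolynomial (Fin n) F)}
    {g : MvPolynomial (Fin n) F} {e : ℕ} (hg : g.IsHomogeneous e)
    (hreg : ∀ s, g * s ∈ J → s ∈ J) {d : ℕ} (hed : e ≤ d) :
    degPart J d ⊓ (homogeneousSubmodule (Fin n) F (d - e)).map (LinearMap.mulLeft F g) =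
      (degPart J (d - e)).map (LinearMap.mulLeft F g) := by
  apply le_antisymm
  · rintro x ⟨hx, s, hs, rfl⟩
    exact ⟨s, ⟨hreg s hx.1, hs⟩, rfl⟩
  · rintro _ ⟨s, hs, rfl⟩
    refine ⟨⟨Ideal.mul_mem_left _ _ hs.1, ?_⟩, s, hs.2, rfl⟩
    have := hg.mul hs.2
    rwa [Nat.add_sub_cancel' hed] at this

theorem r278h_finrank_map_mulLeft {g : MvPolynomial (Fin n) F} (hg0 : g ≠ 0)
    (p : Submodule F (MvPolynomial (Fin n) F)) :
    Module.finrank F (p.map (LinearMap.mulLeft F g)) = Module.finrank F p :=
  (Submodule.equivMapOfInjective (LinearMap.mulLeft F g) (mul_right_injective₀ hg0) p).finrank_eq.symm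

/-- **The recursion**: `h_{J+(g)}(d) + h_J(d-e) = h_J(d) + dim S_{d-e}`. -/
theorem r278h_recursion {J : Ideal (MvPolynomial (Fin n) F)} (hJ : IsHomogeneousIdeal J)
    {g : MvPolynomial (Fin n) F} {e : ℕ} (hg : g.IsHomogeneous e) (hg0 : g ≠ 0)
    (hreg : ∀ s, g * s ∈ J → s ∈ J) (d : ℕ) :
    Module.finrank F (degPart (J ⊔ Ideal.span {g}) d) +
        (if e ≤ d then Module.finrank F (degPart J (d - e)) else 0) =
      Module.finrank F (degPart J d) +
        (if e ≤ d then (Finset.Nat.antidiagonalTuple n (d - e)).card else 0) := by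
  split_ifs with hed
  · have := r278h_finite_degPart J d
    have := r278h_finite_homog (F := F) (n := n) (d - e)
    have : Module.Finite F ((homogeneousSubmodule (Fin n) F (d - e)).map (LinearMap.mulLeft F g)) :=
      Module.Finite.map _ _
    have h := Submodule.finrank_sup_add_finrank_inf_eq (degPart J d)
      ((homogeneousSubmodule (Fin n) F (d - e)).map (LinearMap.mulLeft F g))
    rw [← r278h_degPart_sup hJ hg hed, r278h_degPart_inf hg hreg hed, r278h_finrank_map_mulLeft hg0,
      r278h_finrank_map_mulLeft hg0, r278h_finrank_homog] at h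
    exact h
  · rw [r278h_degPart_sup_lt hJ hg (by omega)]

/-! ### The recursion for the pure powers -/

/-- exponent vectors of degree `d` divisible by one of the first `k` pure powers -/
def r278h_pow {n c : ℕ} (hc : c ≤ n) (a : Fin c → ℕ) (k d : ℕ) : Finset (Fin n → ℕ) :=
  (Finset.Nat.antidiagonalTuple n d).filter fun m => ∃ j : Fin c, j.val < k ∧ a j ≤ m (Fin.castLE hc j)

theorem r278h_pow_recursion {n c : ℕ} (hc : c ≤ n) (a : Fin c → ℕ) (i : Fin c) (d : ℕ) :
    (r278h_pow hc a (i.val + 1) d).card + (if a i ≤ d then (r278h_pow hc a i.val (d - a i)).card else 0) =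
      (r278h_pow hc a i.val d).card +
        (if a i ≤ d then (Finset.Nat.antidiagonalTuple n (d - a i)).card else 0) := by
  classical
  set i' : Fin n := Fin.castLE hc i with hi'
  have hne : ∀ j : Fin c, j.val < i.val → Fin.castLE hc j ≠ i' := by
    intro j hj h
    have := congrArg Fin.val h
    simp [hi'] at this
    omega
  set B : Finset (Fin n → ℕ) := (Finset.Nat.antidiagonalTuple n d).filter fun m =>
    a i ≤ m i' ∧ ¬ ∃ j : Fin c, j.val < i.val ∧ a j ≤ m (Fin.castLE hc j) with hB
  have h1 : r278h_pow hc a (i.val + 1) d = r278h_pow hc a i.val d ∪ B := by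
    ext m
    simp only [r278h_pow, hB, Finset.mem_union, Finset.mem_filter]
    constructor
    · rintro ⟨hm, j, hj, hja⟩
      by_cases hex : ∃ j : Fin c, j.val < i.val ∧ a j ≤ m (Fin.castLE hc j)
      · exact Or.inl ⟨hm, hex⟩
      · refine Or.inr ⟨hm, ?_, hex⟩
        have hji : j = i := by
          by_contra hne'
          exact hex ⟨j, by have := Fin.val_ne_of_ne hne'; omega, hja⟩
        rw [hji] at hja
        exact hja
    · rintro (⟨hm, j, hj, hja⟩ | ⟨hm, hia, -⟩)
      · exact ⟨hm, j, by omega, hja⟩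
      · exact ⟨hm, i, by omega, hia⟩
  have h2 : Disjoint (r278h_pow hc a i.val d) B := by
    rw [Finset.disjoint_left]
    intro m hm hmB
    exact (Finset.mem_filter.1 hmB).2.2 (Finset.mem_filter.1 hm).2
  rw [h1, Finset.card_union_of_disjoint h2]
  split_ifs with hd
  · -- `B` is in bijection with the complement of `pow` in degree `d - a i`
    have h3 : B.card = ((Finset.Nat.antidiagonalTuple n (d - a i)).filter fun m =>
        ¬ ∃ j : Fin c, j.val < i.val ∧ a j ≤ m (Fin.castLE hc j)).card := by
      refine Finset.card_nbij' (fun m => m - Pi.single i' (a i)) (fun m => m + Pi.single i' (a i)) ?_ ?_ ?_ ?_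
      · intro m hm
        obtain ⟨hm1, hm2, hm3⟩ := Finset.mem_filter.1 (Finset.mem_coe.1 hm)
        have hback : m - Pi.single i' (a i) + Pi.single i' (a i) = m := by
          funext x
          by_cases hx : x = i'
          · subst hx; simp [Nat.sub_add_cancel hm2]
          · simp [Pi.single_eq_of_ne hx]
        refine Finset.mem_coe.2 (Finset.mem_filter.2 ⟨?_, ?_⟩)
        · rw [Finset.Nat.mem_antidiagonalTuple] at hm1 ⊢
          have hs : ∑ x, (m - Pi.single i' (a i) : Fin n → ℕ) x + a i = d := by
            have hs' : ∑ x, (m - Pi.single i' (a i) + Pi.single i' (a i) : Fin n → ℕ) x = d := by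
              rw [hback]; exact hm1
            simpa only [Pi.add_apply, Finset.sum_add_distrib, Finset.sum_pi_single', Finset.mem_univ,
              if_true] using hs'
          show ∑ x, (m - Pi.single i' (a i) : Fin n → ℕ) x = d - a i
          omega
        · rintro ⟨j, hj, hja⟩
          refine hm3 ⟨j, hj, ?_⟩
          simpa [Pi.single_eq_of_ne (hne j hj)] using hja
      · intro m hm
        obtain ⟨hm1, hm3⟩ := Finset.mem_filter.1 (Finset.mem_coe.1 hm)
        refine Finset.mem_coe.2 (Finset.mem_filter.2 ⟨?_, ?_, ?_⟩)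
        · rw [Finset.Nat.mem_antidiagonalTuple] at hm1 ⊢
          show ∑ x, (m + Pi.single i' (a i) : Fin n → ℕ) x = d
          simp only [Pi.add_apply, Finset.sum_add_distrib, Finset.sum_pi_single', Finset.mem_univ, if_true]
          omega
        · simp
        · rintro ⟨j, hj, hja⟩
          refine hm3 ⟨j, hj, ?_⟩
          simpa [Pi.single_eq_of_ne (hne j hj)] using hja
      · intro m hm
        obtain ⟨hm1, hm2, hm3⟩ := Finset.mem_filter.1 (Finset.mem_coe.1 hm)
        funext x
        by_cases hx : x = i'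
        · subst hx; simp [Nat.sub_add_cancel hm2]
        · simp [Pi.single_eq_of_ne hx]
      · intro m _
        funext x
        simp
    have h4 := Finset.card_filter_add_card_filter_not (s := Finset.Nat.antidiagonalTuple n (d - a i))
      (fun m => ∃ j : Fin c, j.val < i.val ∧ a j ≤ m (Fin.castLE hc j))
    rw [h3]
    simp only [r278h_pow]
    omega
  · have h3 : B = ∅ := by
      rw [Finset.eq_empty_iff_forall_notMem]
      intro m hm
      obtain ⟨hm1, hm2, -⟩ := Finset.mem_filter.1 hm
      rw [Finset.Nat.mem_antidiagonalTuple] at hm1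
      have : m i' ≤ ∑ x, m x := Finset.single_le_sum (f := m) (fun _ _ => Nat.zero_le _) (Finset.mem_univ i')
      omega
    rw [h3]
    simp

/-! ### Regular sequences -/

theorem r278h_regular_extract {rs : List (MvPolynomial (Fin n) F)}
    (hreg : RingTheory.Sequence.IsRegular (MvPolynomial (Fin n) F) rs) (k : ℕ) (hk : k < rs.length) :
    (∀ s, rs[k] * s ∈ Ideal.ofList (rs.take k) → s ∈ Ideal.ofList (rs.take k)) ∧ rs[k] ≠ 0 := by
  have htop : ∀ I : Ideal (MvPolynomial (Fin n) F),
      (I • (⊤ : Submodule (MvPolynomial (Fin n) F) (MvPolynomial (Fin n) F))) = I := by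
    intro I
    rw [smul_eq_mul, Ideal.mul_top]
  have h := hreg.regular_mod_prev k hk
  rw [htop] at h
  have h1 : ∀ s, rs[k] * s ∈ Ideal.ofList (rs.take k) → s ∈ Ideal.ofList (rs.take k) := fun s hs =>
    mem_of_isSMulRegular_quotient_of_smul_mem h hs
  refine ⟨h1, fun h0 => ?_⟩
  have h2 : (1 : MvPolynomial (Fin n) F) ∈ Ideal.ofList (rs.take k) := h1 1 (by rw [h0, zero_mul]; exact Ideal.zero_mem _)
  have h3 : Ideal.ofList (rs.take k) ≤ Ideal.ofList rs :=
    Ideal.span_mono fun r hr => List.mem_of_mem_take hr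
  apply hreg.top_ne_smul
  rw [htop]
  exact ((Ideal.eq_top_iff_one _).2 (h3 h2)).symm

theorem r278h_induction {c : ℕ} (hc : c ≤ n) (a : Fin c → ℕ) (f : Fin c → MvPolynomial (Fin n) F)
    (hfdeg : ∀ i, f i ∈ homogeneousSubmodule (Fin n) F (a i))
    (hreg : RingTheory.Sequence.IsRegular (MvPolynomial (Fin n) F) (List.ofFn f)) :
    ∀ k, k ≤ c → IsHomogeneousIdeal (Ideal.ofList ((List.ofFn f).take k)) ∧
      ∀ d, Module.finrank F (degPart (Ideal.ofList ((List.ofFn f).take k)) d) = (r278h_pow hc a k d).card := by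
  intro k
  induction k with
  | zero =>
    intro _
    refine ⟨?_, fun d => ?_⟩
    · intro x hx d
      simp only [List.take_zero, Ideal.ofList_nil, Ideal.mem_bot] at hx ⊢
      rw [hx, map_zero]
    · have h1 : degPart (Ideal.ofList ((List.ofFn f).take 0)) d = ⊥ := by
        rw [eq_bot_iff]
        intro x hx
        have := hx.1
        simpa using this
      rw [h1, finrank_bot]
      simp [r278h_pow]
  | succ k ih =>
    intro hk
    obtain ⟨ih1, ih2⟩ := ih (by omega)
    have hlen : k < (List.ofFn f).length := by simp; omega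
    have hget : (List.ofFn f)[k] = f ⟨k, by omega⟩ := by simp
    obtain ⟨hr1, hr2⟩ := r278h_regular_extract hreg k hlen
    rw [hget] at hr1 hr2
    have htake : Ideal.ofList ((List.ofFn f).take (k + 1)) =
        Ideal.ofList ((List.ofFn f).take k) ⊔ Ideal.span {f ⟨k, by omega⟩} := by
      rw [List.take_succ_eq_append_getElem hlen, Ideal.ofList_append, Ideal.ofList_singleton, hget]
    rw [htake]
    refine ⟨r278h_isHomogeneousIdeal_sup ih1 (hfdeg ⟨k, by omega⟩), fun d => ?_⟩
    have R1 := r278h_recursion ih1 (hfdeg ⟨k, by omega⟩) hr2 hr1 d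
    have R2 := r278h_pow_recursion hc a ⟨k, by omega⟩ d
    rw [ih2 d] at R1
    simp only at R2
    split_ifs at R1 R2 with hd
    · rw [ih2] at R1
      omega
    · omega

/-- **Hilbert function of a homogeneous regular sequence.** -/
theorem r278h_finrank_degPart_regular {c : ℕ} (hc : c ≤ n) (a : Fin c → ℕ) (f : Fin c → MvPolynomial (Fin n) F)
    (hfdeg : ∀ i, f i ∈ homogeneousSubmodule (Fin n) F (a i))
    (hreg : RingTheory.Sequence.IsRegular (MvPolynomial (Fin n) F) (List.ofFn f)) (d : ℕ) :
    Module.finrank F (degPart (Ideal.span (Set.range f)) d) =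
      ((Finset.Nat.antidiagonalTuple n d).filter fun m => inPowers hc a m = true).card := by
  have h := (r278h_induction hc a f hfdeg hreg c le_rfl).2 d
  have h1 : (List.ofFn f).take c = List.ofFn f := List.take_of_length_le (by simp)
  have h2 : Ideal.ofList (List.ofFn f) = Ideal.span (Set.range f) := by
    unfold Ideal.ofList
    congr 1
    ext r
    simp [List.mem_ofFn]
  rw [h1, h2] at h
  rw [h]
  unfold r278h_pow
  congr 1
  ext m
  simp only [Finset.mem_filter, inPowers, decide_eq_true_eq]
  constructor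
  · rintro ⟨hm, j, -, hj⟩
    exact ⟨hm, j, hj⟩
  · rintro ⟨hm, j, hj⟩
    exact ⟨hm, j, j.isLt, hj⟩

/-- **Conjunct 1 of S0522.** -/
theorem r278h_qDim_bounds {c : ℕ} (hc : c ≤ n) (a : Fin c → ℕ)
    (I : Ideal (MvPolynomial (Fin n) F)) (f : Fin c → MvPolynomial (Fin n) F)
    (hfdeg : ∀ i, f i ∈ homogeneousSubmodule (Fin n) F (a i)) (hfI : ∀ i, f i ∈ I)
    (hreg : RingTheory.Sequence.IsRegular (MvPolynomial (Fin n) F) (List.ofFn f)) (d : ℕ) :
    0 ≤ qDim hc a I d ∧ qDim hc a I d ≤ (nonPowerMonomials hc a d).card := by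
  have h1 : Module.finrank F (degPart (Ideal.span (Set.range f)) d) ≤ Module.finrank F (degPart I d) := by
    have := r278h_finite_degPart I d
    refine Submodule.finrank_mono ?_
    intro x hx
    refine ⟨?_, hx.2⟩
    have hle : Ideal.span (Set.range f) ≤ I := Ideal.span_le.2 (by rintro _ ⟨i, rfl⟩; exact hfI i)
    exact hle hx.1
  rw [r278h_finrank_degPart_regular hc a f hfdeg hreg] at h1
  have h2 : Module.finrank F (degPart I d) ≤ (Finset.Nat.antidiagonalTuple n d).card := by
    rw [← r278h_finrank_homog (F := F)]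
    have := r278h_finite_homog (F := F) (n := n) d
    exact Submodule.finrank_mono inf_le_right
  have h3 := Finset.card_filter_add_card_filter_not (s := Finset.Nat.antidiagonalTuple n d)
    (fun m => inPowers hc a m = true)
  have h4 : (nonPowerMonomials hc a d).card =
      ((Finset.Nat.antidiagonalTuple n d).filter fun m => ¬ inPowers hc a m = true).card := by
    unfold nonPowerMonomials
    congr 1
    ext m
    simp
  unfold qDim
  constructor
  · omega
  · omega

end Claimed.Agent.R278
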