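-- KEEP
import Claimed.Agent.R278.Sec2Box

/-!
# Row 278: `R278/Wall` = THE ONE CONTRACT OF THE ROW THAT IS NOT ELEMENTARY      (pen helper269, prefix `hub278_`)

`Hub278Wall` is Theorem 1.1 of *Commuting division-coefficient forms and the Artinian Eisenbud-Green-Harris conjecture*, in the weak form which
Section 2 of that paper (`eg2_extract`) and Proposition 3.2 of the Betti paper (`bt66_box_bound`) consume: for every full homogeneous regular sequence
over an algebraically closed field of characteristic zero there are a division ring `D` over `E` and pairwise commuting linear forms `t_1, …, t_n` of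
`D[x]`, a left basis of `D[x]_1`, with `t_i ^ a_i ∈ D · (f) + ∑_{d > i} D[x] t_d`.

Everything else of the row is proved FROM THIS PROPOSITION AS A HYPOTHESIS, without any gap:
`hub278_S0522_of_wall`, `hub278_S0523_of_wall` (`R278/Hub`).

## What is known about the wall (state of the cell at the end of the run; TEXT ONLY, nothing below is used by any proof)

**(A) `a = (2, …, 2)`: a complete elementary proof of the box.  FORMALISED in the last hours of the run: `R278/Quad*.lean` (the 12 files up to `QuadHub`, about 6 thousand lines, no gap); the end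
theorems are in `R278/QuadHub` (`qc_box`, and for `c ≤ n` `qm_box`, `hub278_S0522_quadrics_le`, `hub278_S0523_quadrics_le`).  The text, as it was written before:**
Let `f_1, …, f_n` be a regular sequence of quadrics of `F[x_1..x_n]`, `char F ≠ 2`.  Put `N = n² + n`, `P = F[y^(i)_k, z_i]` (`N` variables `Y_c` of degree 2),
`S = F[ξ^(i)_j, ζ_i]` (`N` variables `X_a`), `q_c ∈ S` the `N` quadrics `f_k(ξ^(i))`, `ζ_i²` (a regular sequence, block by block), `R = S/(q)`, so `dim R_j = C(N, j)`.
Let `A` be the graded Clifford algebra of `∑_c Y_c q_c` over `P`: generators `e_a` of degree 1 with `(∑_a X_a e_a)² = ∑_c Y_c q_c`; it is free over `P` on the ordered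
products of the `e_a`, hence `h_A(d) = #{(β, T) : 2|β| + |T| = d} = C(d + N - 1, N - 1)`.
1. *Integrality.*  Let `M` be a graded left ideal of `A`, and `T = ∑_a X_a e_a` on `S ⊗ M`; `T² = ∑ Y_c q_c`, so `(R ⊗ M, T)` is a complex, a direct sum of the finite
   complexes `C_δ : … → R_j ⊗ M_(j+δ) → R_(j+1) ⊗ M_(j+1+δ) → …`.  If `T m = ∑ q_c m_c` then `∑_c q_c (Y_c m - T m_c) = 0`, and `q` is a regular sequence on the free
   `S`-module `S ⊗ M`, so `Y_c m - T m_c ∈ (q)(S ⊗ M)`: every `Y_c` kills the homology.  The homology is a finitely generated module over the noetherian ring `P`, so it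
   has finite dimension, `C_δ` is exact for `δ ≫ 0`, and its Euler characteristic gives `∑_j (-1)^j C(N, j) h_M(δ + j) = 0`, i.e. `Δ^N h_M = 0` eventually.
   So `e(M) := Δ^(N-1) h_M(d)` (`d ≫ 0`) is an INTEGER; it is additive on short exact sequences; `e(A) = 1`; and `e(M) ≥ 1` for `M ≠ 0`, as `M ⊇ P u ≅ P(-k)` grows like `d^(N-1)`.
2. *Domain.*  For `v ≠ 0` homogeneous, `0 → ann(v) → A → A v → 0` gives `1 = e(ann v) + e(A v)` with `e(A v) ≥ 1`, so `ann v = 0`; leading terms give the general case.
   `D := Frac(P) ⊗_P A` is a domain of finite dimension over a field, so it is a division ring.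
3. *The forms.*  With `s_i = ∑_j e^(i)_j x_j` and `c_i` the generator that belongs to `ζ_i`, put `t_i = c_i s_i`.  Generators of different blocks anticommute, so the `t_i` commute, and
   `t_i² = - z_i ∑_k y^(i)_k f_k ∈ D · (f)`.  They are left independent: else complete a basis of their span by some `x_j` (central) to a commuting left basis of `D[x]_1`; the left
   ideal `L = ∑ D[x] t_i` is spanned by the monomials that contain some `t_i`; `det (y^(i)_k) ≠ 0` gives `f_k ∈ L` for all `k`, so `x_j^m ∈ L` for `m ≫ 0`: contradiction.
With `eg2_extract`, Clements-Lindstrom and the Betti chain of this folder, (A) gives EGH and the LPP Betti bound for `n` quadrics in `n` variables.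
In the kernel the model of `A` is the Fock space `Finset (Fin N) → P` with left operators `L_a` and right operators `R_a` (`QuadFock76`), `D` = the centraliser of the `L_a` over `Frac P`
(`QuadDiv`), and the independence of the `t_i` is a left Cramer rule for row-commuting matrices with a determinant that is nonzero on the vacuum (`QuadCramer`, `QuadBox`).
(A') `c < n`: prolong `f_1..f_c` by squares `ℓ_d²` of linear forms to `n` regular quadrics, keep `t_i` for `i < c` and put `t_d = ℓ_d` for `d ≥ c`: a box for `(2, …, 2, N, …, N)` and
`I + (ℓ_d ^ N)`; truncation gives every `c ≤ n` (`QuadHub`, posts M, X, T).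

**(B) degree `b ≥ 3`: what survives, and why it is not enough.**  The same complex with a `b`-differential (`T^b = ∑ Y_c q_c`) shows: every graded module over the universal algebra
`U_b = F[y]⟨e⟩ / ((∑ e_j x_j)^b = ∑ y_k f_k)` which is finitely generated over `F[y]` has `H_M(z) (1 - z)^n ∈ ℤ[z, 1/z]`, so its rank is divisible by `b^n`.  But `U_b` has
exponential growth, and a quotient of rank exactly `b^n` (which would be a domain by the argument of (A)) is what Sections 3-8 of the paper construct, by Picard varieties, determinants of
cohomology, Grothendieck-Riemann-Roch, integral topological K-theory and a Lefschetz theorem: none of it is in Mathlib.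
**(C) no cheap skew field.**  If `D` carries a valuation, trivial on `E`, with commutative residue field `k`, then the leading form of `t_n` is `ℓ · π` with `ℓ ∈ k[x]_1`, and `t_n ^ b ∈ D · (f)`
forces a product of `b` conjugates of `ℓ` into `k · (f)_b`; for general `f` and `n ≥ 5` the space `(f)_b` holds no product of linear forms.  So Malcev-Neumann series, iterated skew Laurent
series and all twisted group rings of ordered groups are excluded.  Matrix coefficients `M_r(D_0)`, `r > 1` (these exist: linear matrix factorisations), give only the AVERAGE of `r` monomial ideals,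
and the Clements-Lindstrom bound does not pass to averages.
-/

set_option autoImplicit false

namespace Claimed.Agent.R278

open MvPolynomial Claims.C0450

/-- **THE WALL** (as a proposition). -/
def Hub278Wall : Prop :=
  ∀ (E : Type) [Field E] [CharZero E] [IsAlgClosed E] (n : ℕ) (_ : 1 ≤ n)
    (a : Fin n → ℕ) (_ : ∀ i, 2 ≤ a i) (_ : Monotone a)
    (f : Fin n → MvPolynomial (Fin n) E) (_ : ∀ i, f i ∈ homogeneousSubmodule (Fin n) E (a i))
    (_ : RingTheory.Sequence.IsRegular (MvPolynomial (Fin n) E) (List.ofFn f)),
    Eg2Box E n a (Ideal.span (Set.range f))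

/-- the box passes to every larger ideal -/
theorem hub278_box_mono {F : Type} [Field F] {n : ℕ} {a : Fin n → ℕ}
    {I J : Ideal (MvPolynomial (Fin n) F)} (hIJ : I ≤ J) (h : Eg2Box F n a I) : Eg2Box F n a J := by
  obtain ⟨D, iD, iA, τ, σ, h1, h2, h3⟩ := h
  refine ⟨D, iD, iA, τ, σ, h1, h2, fun i => ?_⟩
  obtain ⟨C, hC1, hC2, hC3⟩ := h3 i
  refine ⟨C, hC1, hC2, ?_⟩
  exact Submodule.span_mono (Set.image_mono (by intro x hx; exact hIJ hx)) hC3

/-- the wall gives the box of every ideal that contains the regular sequence -/
theorem hub278_box_of_wall (hW : Hub278Wall) (E : Type) [Field E] [CharZero E] [IsAlgClosed E]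
    (n : ℕ) (hn : 1 ≤ n) (a : Fin n → ℕ) (ha : ∀ i, 2 ≤ a i) (hmono : Monotone a)
    (I : Ideal (MvPolynomial (Fin n) E))
    (f : Fin n → MvPolynomial (Fin n) E) (hfdeg : ∀ i, f i ∈ homogeneousSubmodule (Fin n) E (a i))
    (hfI : ∀ i, f i ∈ I)
    (hreg : RingTheory.Sequence.IsRegular (MvPolynomial (Fin n) E) (List.ofFn f)) :
    Eg2Box E n a I :=
  hub278_box_mono (Ideal.span_le.2 (by rintro _ ⟨i, rfl⟩; exact hfI i))
    (hW E n hn a ha hmono f hfdeg hreg)

end Claimed.Agent.R278
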