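-- KEEP
import Claimed.Agent.R278.EgRoof
import Claimed.Agent.R278.Sec2Box
import Claimed.Agent.R278.Wall
import Claimed.Agent.R278.Betti66
import Claimed.Agent.R278.CLBridge106
import Claimed.Agent.R278.Full26
import Claimed.Agent.R278.Art266

/-!
# Row 278 (S0522 EGH, S0523 LPP Betti): `R278/Hub` = THE TOP CUT OF THE CELL C4      (pen helper269, prefix `hub278_`)

ROUTE = the two papers.

```
S0522  <=  eg_S0522_of_contracts (EgRoof, 156, PROVED)
             <= hub278_CL      (Clements-Lindstrom, pen 186)                                  [classical combinatorics]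
             <= hub278_core    (contract A for c <= n, any F of char 0)
                  <= hub278_reduce   (c < n => c = n by truncation; F => alg. closure; pens 26, 236)   [elementary]
                  <= hub278_artinian (c = n, E alg. closed)
                       <= eg2_extract (Sec2Box, 246: least exponents over a division ring)             [elementary]
                       <= hub278_BOX  (Theorem 1.1 of the EGH paper)                          [THE WALL]
S0523  <=  bt66_S0523 (Betti66, 66, glue PROVED) <= bt66_mono_bound (needs hub278_BOX), bt66_stabilise, bt66_tor_stable, truncation + base change leaves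
```

`hub278_BOX` is the ONLY contract that is not elementary: the paper proves it (Secs 3-8) by Picard varieties, determinant of cohomology,
Grothendieck-Riemann-Roch, integral topological K-theory and a Lefschetz theorem.

STATE AT THE END OF THE RUN.  For `a_i = 2` the box is PROVED by a graded Clifford algebra (the 12 files `R278/Quad*.lean` up to `QuadHub`, no gap):
`R278/QuadHub` holds `qc_box`, `qm_box` and `hub278_S0522_quadrics_le`, `hub278_S0523_quadrics_le` = the two frozen statements with the one extra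
hypothesis `∀ i, a i = 2` (every `1 ≤ c ≤ n`, every field of characteristic zero), three axioms.  They do NOT use `hub278_BOX`.
For `a_i ≥ 3` the contract `hub278_BOX` below is OPEN (it is a `sorry`), so `hub278_S0522`, `hub278_S0523` below are NOT proved and THE ROW STAYS OPEN.
-/

set_option autoImplicit false

namespace Claimed.Agent.R278

open MvPolynomial

section egh

open Claims.C0450

/-- **THE BOX** (Theorem 1.1 of *Commuting division-coefficient forms ...*, in the weak form that Section 2 needs; stated in `R278/Wall`):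
THE ONLY GAP OF THE ROW. -/
theorem hub278_BOX : Hub278Wall := by
  sorry

/-- **Clements-Lindstrom** (pen 186, `R278/CL.lean`). -/
theorem hub278_CL (n c : ℕ) (hc : c ≤ n) (a : Fin c → ℕ) (hmono : Monotone a) : EgCL hc a :=
  r278cl_EgCL n c hc a hmono

/-- contract A in the Artinian case over an algebraically closed field: BOX + Section 2. (glue: the shape of `eg2_extract` against `EgCoreA`) -/
theorem hub278_artinian (hW : Hub278Wall) (E : Type) [Field E] [CharZero E] [IsAlgClosed E] (n : ℕ) (hn : 1 ≤ n)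
    (a : Fin n → ℕ) (ha : ∀ i, 2 ≤ a i) (hmono : Monotone a)
    (I : Ideal (MvPolynomial (Fin n) E)) (hI : IsHomogeneousIdeal I)
    (f : Fin n → MvPolynomial (Fin n) E) (hfdeg : ∀ i, f i ∈ homogeneousSubmodule (Fin n) E (a i))
    (hfI : ∀ i, f i ∈ I)
    (hreg : RingTheory.Sequence.IsRegular (MvPolynomial (Fin n) E) (List.ofFn f)) :
    EgCoreA (le_refl n) a I := by
  have hbox : Eg2Box E n a I := hub278_box_of_wall hW E n hn a ha hmono I f hfdeg hfI hreg
  exact art266_core E n a (fun i => by have := ha i; omega) I hI hbox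

/-- **reduction** (EGH paper Sec 9.1): contract A for `c ≤ n` over any field of characteristic zero from the Artinian case over the algebraic
closure (pens 26: truncation `c < n ⇒ c = n`; 236: base change). -/
theorem hub278_reduce
    (hart : ∀ (E : Type) [Field E] [CharZero E] [IsAlgClosed E] (n : ℕ) (_ : 1 ≤ n)
      (a : Fin n → ℕ) (_ : ∀ i, 2 ≤ a i) (_ : Monotone a)
      (I : Ideal (MvPolynomial (Fin n) E)) (_ : IsHomogeneousIdeal I)
      (f : Fin n → MvPolynomial (Fin n) E)
      (_ : ∀ i, f i ∈ homogeneousSubmodule (Fin n) E (a i)) (_ : ∀ i, f i ∈ I)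
      (_ : RingTheory.Sequence.IsRegular (MvPolynomial (Fin n) E) (List.ofFn f)),
      EgCoreA (le_refl n) a I)
    (hCL : ∀ (n c : ℕ) (hc : c ≤ n) (a : Fin c → ℕ), Monotone a → EgCL hc a)
    (F : Type) [Field F] [CharZero F] (n c : ℕ) (hc1 : 1 ≤ c) (hc : c ≤ n)
    (a : Fin c → ℕ) (ha : ∀ i, 2 ≤ a i) (hmono : Monotone a)
    (I : Ideal (MvPolynomial (Fin n) F)) (hI : IsHomogeneousIdeal I)
    (f : Fin c → MvPolynomial (Fin n) F) (hfdeg : ∀ i, f i ∈ homogeneousSubmodule (Fin n) F (a i))
    (hfI : ∀ i, f i ∈ I)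
    (hreg : RingTheory.Sequence.IsRegular (MvPolynomial (Fin n) F) (List.ofFn f)) :
    EgCoreA hc a I :=
  egh26_reduce hart hCL F n c hc1 hc a ha hmono I hI f hfdeg hfI hreg

/-- **S0522 from the wall, no gap.** -/
theorem hub278_S0522_of_wall (hW : Hub278Wall) (F : Type) [Field F] [CharZero F] (n c : ℕ) (hc1 : 1 ≤ c) (hc : c ≤ n)
    (a : Fin c → ℕ) (ha : ∀ i, 2 ≤ a i) (hmono : Monotone a)
    (I : Ideal (MvPolynomial (Fin n) F)) (hI : IsHomogeneousIdeal I)
    (f : Fin c → MvPolynomial (Fin n) F) (hfdeg : ∀ i, f i ∈ homogeneousSubmodule (Fin n) F (a i))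
    (hfI : ∀ i, f i ∈ I) (hreg : RingTheory.Sequence.IsRegular (MvPolynomial (Fin n) F) (List.ofFn f)) :
    (∀ d : ℕ, 0 ≤ qDim hc a I d ∧ qDim hc a I d ≤ (nonPowerMonomials hc a d).card) ∧
      (∃ J : Ideal (MvPolynomial (Fin n) F),
        J.restrictScalars F = Submodule.span F (lppMonomials hc a I)) ∧
      ∀ d : ℕ, Module.finrank F (degPart I d) =
        Module.finrank F (Submodule.span F (lppMonomials hc a I) ⊓
          homogeneousSubmodule (Fin n) F d : Submodule F (MvPolynomial (Fin n) F)) :=
  eg_S0522_of_contracts hub278_CL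
    (fun F _ _ n c hc1 hc a ha hmono I hI f hfdeg hfI hreg =>
      hub278_reduce (fun E _ _ _ n hn a ha hmono I hI f hfdeg hfI hreg =>
        hub278_artinian hW E n hn a ha hmono I hI f hfdeg hfI hreg) hub278_CL
        F n c hc1 hc a ha hmono I hI f hfdeg hfI hreg)
    F n c hc1 hc a ha hmono I hI f hfdeg hfI hreg

/-- **the statement of S0522, verbatim.** -/
theorem hub278_S0522 (F : Type) [Field F] [CharZero F] (n c : ℕ) (hc1 : 1 ≤ c) (hc : c ≤ n)
    (a : Fin c → ℕ) (ha : ∀ i, 2 ≤ a i) (hmono : Monotone a)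
    (I : Ideal (MvPolynomial (Fin n) F)) (hI : IsHomogeneousIdeal I)
    (f : Fin c → MvPolynomial (Fin n) F) (hfdeg : ∀ i, f i ∈ homogeneousSubmodule (Fin n) F (a i))
    (hfI : ∀ i, f i ∈ I) (hreg : RingTheory.Sequence.IsRegular (MvPolynomial (Fin n) F) (List.ofFn f)) :
    (∀ d : ℕ, 0 ≤ qDim hc a I d ∧ qDim hc a I d ≤ (nonPowerMonomials hc a d).card) ∧
      (∃ J : Ideal (MvPolynomial (Fin n) F),
        J.restrictScalars F = Submodule.span F (lppMonomials hc a I)) ∧
      ∀ d : ℕ, Module.finrank F (degPart I d) =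
        Module.finrank F (Submodule.span F (lppMonomials hc a I) ⊓
          homogeneousSubmodule (Fin n) F d : Submodule F (MvPolynomial (Fin n) F)) :=
  hub278_S0522_of_wall hub278_BOX F n c hc1 hc a ha hmono I hI f hfdeg hfI hreg

end egh

section betti

open Claims.C0451

/-- **S0523 from the wall, no gap.** -/
theorem hub278_S0523_of_wall (hW : Hub278Wall) (F : Type) [Field F] [CharZero F] (n c : ℕ) (hc1 : 1 ≤ c) (hc : c ≤ n)
    (a : Fin c → ℕ) (ha : ∀ i, 2 ≤ a i) (hmono : Monotone a)
    (I : Ideal (MvPolynomial (Fin n) F)) (hI : IsHomogeneousIdeal I)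
    (f : Fin c → MvPolynomial (Fin n) F) (hfdeg : ∀ i, f i ∈ homogeneousSubmodule (Fin n) F (a i))
    (hfI : ∀ i, f i ∈ I) (hreg : RingTheory.Sequence.IsRegular (MvPolynomial (Fin n) F) (List.ofFn f)) :
    ∀ p j : ℕ, gradedBetti I p j ≤ gradedBetti (Ideal.span (lppMonomials hc a I)) p j :=
  bt66_S0523_of_wall hW F n c hc1 hc a ha hmono I hI f hfdeg hfI hreg

/-- **the statement of S0523, verbatim.** -/
theorem hub278_S0523 (F : Type) [Field F] [CharZero F] (n c : ℕ) (hc1 : 1 ≤ c) (hc : c ≤ n)
    (a : Fin c → ℕ) (ha : ∀ i, 2 ≤ a i) (hmono : Monotone a)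
    (I : Ideal (MvPolynomial (Fin n) F)) (hI : IsHomogeneousIdeal I)
    (f : Fin c → MvPolynomial (Fin n) F) (hfdeg : ∀ i, f i ∈ homogeneousSubmodule (Fin n) F (a i))
    (hfI : ∀ i, f i ∈ I) (hreg : RingTheory.Sequence.IsRegular (MvPolynomial (Fin n) F) (List.ofFn f)) :
    ∀ p j : ℕ, gradedBetti I p j ≤ gradedBetti (Ideal.span (lppMonomials hc a I)) p j :=
  hub278_S0523_of_wall hub278_BOX F n c hc1 hc a ha hmono I hI f hfdeg hfI hreg

end betti

/-! ## What the row proves WITHOUT the wall

`hub278_S0522_of_box`, `hub278_S0523_of_box`: the two conclusions (`c = n`) for ONE ideal from the box of that ideal.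
`hub278_S0522_pure` (Clements-Lindstrom) and `hub278_S0523_pure` (Mermin-Murai: lex-plus-powers for pure powers): no hypothesis left, three axioms. -/

/-- the box with commutative coefficients: `I` contains the powers `ℓ_i ^ a_i` of `n` independent linear forms over `F` itself -/
theorem hub278_box_lin (F : Type) [Field F] (n : ℕ) (a : Fin n → ℕ) (I : Ideal (MvPolynomial (Fin n) F))
    (τ σ : Fin n → Fin n → F) (hinv : ∀ i k, ∑ j, σ i j * τ j k = if i = k then 1 else 0)
    (hpow : ∀ i, (∑ j, C (τ i j) * X j : MvPolynomial (Fin n) F) ^ a i ∈ I) : Eg2Box F n a I := by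
  refine ⟨F, inferInstance, inferInstance, τ, σ, hinv, fun i k => Commute.all _ _, fun i => ?_⟩
  refine ⟨0, fun _ _ => rfl, fun d => Submodule.zero_mem _, ?_⟩
  have h1 : eg2Lin (τ i) = eg2Iota F F n (∑ j, C (τ i j) * X j) := by
    unfold eg2Lin eg2Iota
    rw [map_sum]
    refine Finset.sum_congr rfl fun j _ => ?_
    have : (C (τ i j) * X j : MvPolynomial (Fin n) F) = AddMonoidAlgebra.single (Finsupp.single j 1) (τ i j) := by
      rw [X, C_mul_monomial, mul_one]; rfl
    rw [this]
    simp
  simp only [Pi.zero_apply, zero_mul, Finset.sum_const_zero, sub_zero]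
  rw [h1, ← map_pow]
  exact Submodule.subset_span ⟨_, hpow i, rfl⟩

theorem hub278_box_pure (F : Type) [Field F] (n : ℕ) (a : Fin n → ℕ) (I : Ideal (MvPolynomial (Fin n) F))
    (hpow : ∀ i, (X i : MvPolynomial (Fin n) F) ^ a i ∈ I) : Eg2Box F n a I := by
  refine hub278_box_lin F n a I (fun i j => if i = j then 1 else 0) (fun i j => if i = j then 1 else 0)
    (fun i k => by simp) (fun i => ?_)
  have : (∑ j, C (if i = j then (1 : F) else 0) * X j : MvPolynomial (Fin n) F) = X i := by
    simp [ite_mul, apply_ite C]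
  rw [this]
  exact hpow i

section egh
open Claims.C0450

/-- **the conclusion of S0522 (`c = n`) from the box of `I`**, over any field. -/
theorem hub278_S0522_of_box (F : Type) [Field F] (n : ℕ) (a : Fin n → ℕ) (ha : ∀ i, 1 ≤ a i) (hmono : Monotone a)
    (I : Ideal (MvPolynomial (Fin n) F)) (hI : IsHomogeneousIdeal I) (hbox : Eg2Box F n a I) :
    (∀ d : ℕ, 0 ≤ qDim (le_refl n) a I d ∧ qDim (le_refl n) a I d ≤ (nonPowerMonomials (le_refl n) a d).card) ∧
      (∃ J : Ideal (MvPolynomial (Fin n) F),
        J.restrictScalars F = Submodule.span F (lppMonomials (le_refl n) a I)) ∧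
      ∀ d : ℕ, Module.finrank F (degPart I d) =
        Module.finrank F (Submodule.span F (lppMonomials (le_refl n) a I) ⊓
          homogeneousSubmodule (Fin n) F d : Submodule F (MvPolynomial (Fin n) F)) :=
  eg_roof (le_refl n) a I (hub278_CL n n (le_refl n) a hmono) (art266_core F n a ha I hI hbox)

/-- **UNCONDITIONAL** (Clements-Lindstrom in the vocabulary of S0522): the conclusion of S0522 for every homogeneous ideal that
contains the pure powers `x_i ^ a_i`, over any field. -/
theorem hub278_S0522_pure (F : Type) [Field F] (n : ℕ) (a : Fin n → ℕ) (ha : ∀ i, 1 ≤ a i) (hmono : Monotone a)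
    (I : Ideal (MvPolynomial (Fin n) F)) (hI : IsHomogeneousIdeal I)
    (hpow : ∀ i, (X i : MvPolynomial (Fin n) F) ^ a i ∈ I) :
    (∀ d : ℕ, 0 ≤ qDim (le_refl n) a I d ∧ qDim (le_refl n) a I d ≤ (nonPowerMonomials (le_refl n) a d).card) ∧
      (∃ J : Ideal (MvPolynomial (Fin n) F),
        J.restrictScalars F = Submodule.span F (lppMonomials (le_refl n) a I)) ∧
      ∀ d : ℕ, Module.finrank F (degPart I d) =
        Module.finrank F (Submodule.span F (lppMonomials (le_refl n) a I) ⊓
          homogeneousSubmodule (Fin n) F d : Submodule F (MvPolynomial (Fin n) F)) :=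
  hub278_S0522_of_box F n a ha hmono I hI (hub278_box_pure F n a I hpow)

end egh

section betti
open Claims.C0451

/-- **the conclusion of S0523 (`c = n`) from the box of `I`**, over an algebraically closed field of characteristic zero. -/
theorem hub278_S0523_of_box (E : Type) [Field E] [CharZero E] [IsAlgClosed E] (n : ℕ)
    (a : Fin n → ℕ) (ha : ∀ i, 2 ≤ a i) (hmono : Monotone a)
    (I : Ideal (MvPolynomial (Fin n) E)) (hI : IsHomogeneousIdeal I) (hbox : Eg2Box E n a I) :
    ∀ p j : ℕ, gradedBetti I p j ≤ gradedBetti (Ideal.span (lppMonomials (le_refl n) a I)) p j := by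
  obtain ⟨U, hU, hPU, hcU, hbU⟩ := bt66_box_bound E n a (fun i => by have := ha i; omega) I hI hbox
  obtain ⟨H, hH, hPH, hSH, hcH, hbH⟩ := bt66_stabilise E n a ha hmono U hU hPU
  have hset : bt66_lppSet (le_refl n) a (bt66_ideal E H) = bt66_lppSet (le_refl n) a I := by
    apply bt66_lppSet_congr
    intro d
    rw [bt66_finrank_ideal E H hH d, hcH d, hcU d]
  intro p j
  rw [bt66_span_lpp]
  calc gradedBetti I p j ≤ gradedBetti (bt66_ideal E U) p j := hbU p j
    _ ≤ gradedBetti (bt66_ideal E H) p j := hbH p j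
    _ ≤ _ := bt66_tor_stable E n a ha hmono H hH hPH hSH p j
    _ = _ := by rw [hset]

/-- **UNCONDITIONAL** (the theorem of Mermin and Murai, "the lex-plus-powers conjecture holds for pure powers", in the vocabulary of S0523):
the conclusion of S0523 for every homogeneous ideal that contains the pure powers `x_i ^ a_i`, over every field of characteristic zero. -/
theorem hub278_S0523_pure (F : Type) [Field F] [CharZero F] (n : ℕ)
    (a : Fin n → ℕ) (ha : ∀ i, 2 ≤ a i) (hmono : Monotone a)
    (I : Ideal (MvPolynomial (Fin n) F)) (hI : IsHomogeneousIdeal I)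
    (hpow : ∀ i, (X i : MvPolynomial (Fin n) F) ^ a i ∈ I) :
    ∀ p j : ℕ, gradedBetti I p j ≤ gradedBetti (Ideal.span (lppMonomials (le_refl n) a I)) p j := by
  intro p j
  let E := AlgebraicClosure F
  let φ : F →+* E := algebraMap F E
  have : CharZero E := charZero_of_injective_algebraMap (algebraMap F E).injective
  have hmain := hub278_S0523_of_box E n a ha hmono (I.map (MvPolynomial.map φ))
    (bt66_homog_map φ I hI)
    (hub278_box_pure E n a _ (fun i => by
      have := Ideal.mem_map_of_mem (MvPolynomial.map φ) (hpow i)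
      simpa using this)) p j
  have hset : bt66_lppSet (le_refl n) a (I.map (MvPolynomial.map φ)) =
      bt66_lppSet (le_refl n) a I :=
    bt66_lppSet_congr _ a _ _ (fun d => bt66_finrank_map φ I hI d)
  rw [bt66_span_lpp] at hmain ⊢
  rw [bt66_betti_map φ I hI, hset, ← bt66_ideal_map φ,
    bt66_betti_map φ _ (bt66_ideal_homog F _)] at hmain
  exact hmain

end betti

/-! ## The two frozen statements for the monomial regular sequence `x_1 ^ a_1, …, x_c ^ a_c` (all `c ≤ n`): no hypothesis left

`hub278_S0522_monomial` (Macaulay for `c = 0`, Clements-Lindstrom) and `hub278_S0523_monomial` (Bigatti-Hulett for `c = 0`, Mermin-Murai). -/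

section egh2
open Claims.C0450

open Classical in
/-- contract A for `c ≤ n` and the pure powers `x_i ^ a_i`, `i < c` (truncation by the powers `x_i ^ N`, `i ≥ c`). -/
theorem hub278_coreA_pure (F : Type) [Field F] (n c : ℕ) (hc : c ≤ n)
    (a : Fin c → ℕ) (ha : ∀ i, 2 ≤ a i) (hmono : Monotone a)
    (I : Ideal (MvPolynomial (Fin n) F)) (hI : IsHomogeneousIdeal I)
    (hpow : ∀ i : Fin c, (X (Fin.castLE hc i) : MvPolynomial (Fin n) F) ^ a i ∈ I) :
    EgCoreA hc a I := by
  have key : ∀ N₀ : ℕ, ∃ (N : ℕ) (I' : Ideal (MvPolynomial (Fin n) F)), N₀ ≤ N ∧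
      (∀ d, d < N → degPart I' d = degPart I d) ∧
      (∀ m ∈ egh26_lppSet (le_refl n) (egh26_ext a N) I', ∀ i,
        Function.update m i (m i + 1) ∈ egh26_lppSet (le_refl n) (egh26_ext a N) I') ∧
      (∀ d, Module.finrank F (degPart I' d) = ((Finset.Nat.antidiagonalTuple n d).filter
        (· ∈ egh26_lppSet (le_refl n) (egh26_ext a N) I')).card) := by
    intro N₀
    obtain ⟨N, hN0, hN2, hNa⟩ : ∃ N : ℕ, N₀ ≤ N ∧ 2 ≤ N ∧ ∀ i, a i ≤ N := by
      refine ⟨N₀ + 2 + ∑ i, a i, by omega, by omega, fun i => ?_⟩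
      have := Finset.single_le_sum (f := a) (fun _ _ => Nat.zero_le _) (Finset.mem_univ i)
      omega
    set g : Fin n → MvPolynomial (Fin n) F := fun i => X i ^ (egh26_ext a N i) with hg
    set s : Set (MvPolynomial (Fin n) F) := {q | ∃ i : Fin n, c ≤ i.val ∧ q = g i} with hs
    have hsN : ∀ q ∈ s, q ∈ homogeneousSubmodule (Fin n) F N := by
      rintro q ⟨i, hi, rfl⟩
      rw [mem_homogeneousSubmodule, hg]
      simp only [egh26_ext_of_le a N i hi]
      simpa using (isHomogeneous_X F i).pow N
    obtain ⟨hI', hdeg⟩ := egh26_add_forms I hI N s hsN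
    have hgI' : ∀ i, g i ∈ I ⊔ Ideal.span s := by
      intro i
      by_cases h : i.val < c
      · have h1 : i = Fin.castLE hc ⟨i.val, h⟩ := by ext; simp
        have h2 : g i = X (Fin.castLE hc ⟨i.val, h⟩) ^ a ⟨i.val, h⟩ := by
          have h3 : egh26_ext a N i = a ⟨i.val, h⟩ := by
            have := egh26_ext_castLE hc a N ⟨i.val, h⟩
            rwa [← h1] at this
          rw [hg]
          simp only
          rw [h3, ← h1]
        rw [h2]
        exact Ideal.mem_sup_left (hpow _)
      · exact Ideal.mem_sup_right (Ideal.subset_span ⟨i, Nat.not_lt.mp h, rfl⟩)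
    have hm' := egh26_ext_mono (n := n) a N hmono hNa
    obtain ⟨_, ⟨J, hJ⟩, h3⟩ := hub278_S0522_pure F n (egh26_ext a N)
      (fun i => by have := egh26_ext_two_le (n := n) a N ha hN2 i; omega) hm' (I ⊔ Ideal.span s) hI' hgI'
    refine ⟨N, I ⊔ Ideal.span s, hN0, hdeg, ?_, ?_⟩
    · rw [egh26_lppMonomials] at hJ
      exact egh26_up_of_ideal _ J hJ
    · intro d
      rw [h3 d, egh26_lppMonomials, eg_finrank_span]
  refine ⟨egh26_lppSet hc a I, ?_, fun m hm => Or.inl hm, ?_⟩
  · intro m hm i
    obtain ⟨N, I', hN, hdeg, hup, _⟩ := key (∑ j, m j + 2)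
    have hfr : ∀ d, d < N → Module.finrank F (degPart I' d) = Module.finrank F (degPart I d) :=
      fun d hd => by rw [hdeg d hd]
    have h1 := (egh26_lppSet_trunc hc a N I I' hfr m (by omega)).mpr hm
    have h2 := hup m h1 i
    exact (egh26_lppSet_trunc hc a N I I' hfr _ (by rw [eg_sum_update]; omega)).mp h2
  · intro d
    obtain ⟨N, I', hN, hdeg, _, hcard⟩ := key (d + 1)
    have hfr : ∀ d, d < N → Module.finrank F (degPart I' d) = Module.finrank F (degPart I d) :=
      fun d hd => by rw [hdeg d hd]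
    rw [← hdeg d (by omega), hcard d]
    congr 1
    apply Finset.filter_congr
    intro m hm
    rw [Finset.Nat.mem_antidiagonalTuple] at hm
    exact egh26_lppSet_trunc hc a N I I' hfr m (by omega)

/-- **UNCONDITIONAL: the statement of S0522 for the regular sequence `x_1 ^ a_1, …, x_c ^ a_c`, every `c ≤ n` (also `c = 0`), every field.**
`c = 0` is Macaulay's theorem (the lex segments of the Hilbert function of `I` span an ideal), `c = n` is Clements-Lindstrom. -/
theorem hub278_S0522_monomial (F : Type) [Field F] (n c : ℕ) (hc : c ≤ n)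
    (a : Fin c → ℕ) (ha : ∀ i, 2 ≤ a i) (hmono : Monotone a)
    (I : Ideal (MvPolynomial (Fin n) F)) (hI : IsHomogeneousIdeal I)
    (hpow : ∀ i : Fin c, (X (Fin.castLE hc i) : MvPolynomial (Fin n) F) ^ a i ∈ I) :
    (∀ d : ℕ, 0 ≤ qDim hc a I d ∧ qDim hc a I d ≤ (nonPowerMonomials hc a d).card) ∧
      (∃ J : Ideal (MvPolynomial (Fin n) F),
        J.restrictScalars F = Submodule.span F (lppMonomials hc a I)) ∧
      ∀ d : ℕ, Module.finrank F (degPart I d) =
        Module.finrank F (Submodule.span F (lppMonomials hc a I) ⊓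
          homogeneousSubmodule (Fin n) F d : Submodule F (MvPolynomial (Fin n) F)) :=
  eg_roof hc a I (hub278_CL n c hc a hmono) (hub278_coreA_pure F n c hc a ha hmono I hI hpow)

end egh2

section betti2
open Claims.C0451

/-- **UNCONDITIONAL: the statement of S0523 for the regular sequence `x_1 ^ a_1, …, x_c ^ a_c`, every `c ≤ n` (also `c = 0`), characteristic zero.**
`c = 0` is the theorem of Bigatti and Hulett (the lex ideal has the largest graded Betti numbers), `c ≥ 1` the theorem of Mermin and Murai. -/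
theorem hub278_S0523_monomial (F : Type) [Field F] [CharZero F] (n c : ℕ) (hc : c ≤ n)
    (a : Fin c → ℕ) (ha : ∀ i, 2 ≤ a i) (hmono : Monotone a)
    (I : Ideal (MvPolynomial (Fin n) F)) (hI : IsHomogeneousIdeal I)
    (hpow : ∀ i : Fin c, (X (Fin.castLE hc i) : MvPolynomial (Fin n) F) ^ a i ∈ I) :
    ∀ p j : ℕ, gradedBetti I p j ≤ gradedBetti (Ideal.span (lppMonomials hc a I)) p j := by
  intro p j
  rw [bt66_span_lpp]
  obtain ⟨N, hNj, hNa⟩ : ∃ N : ℕ, j + 1 < N ∧ ∀ i, a i ≤ N := by
    refine ⟨j + 2 + ∑ i, a i, by omega, fun i => ?_⟩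
    have := Finset.single_le_sum (f := a) (fun _ _ => Nat.zero_le _) (Finset.mem_univ i)
    omega
  set g : Fin n → MvPolynomial (Fin n) F := fun i => X i ^ (bt66_ext a N i) with hg
  set s : Set (MvPolynomial (Fin n) F) := {q | ∃ i : Fin n, c ≤ i.val ∧ q = g i} with hs
  have hsN : ∀ q ∈ s, q ∈ homogeneousSubmodule (Fin n) F N := by
    rintro q ⟨i, hi, rfl⟩
    rw [mem_homogeneousSubmodule, hg]
    simp only [bt66_ext, Nat.not_lt.mpr hi, dite_false]
    simpa using (isHomogeneous_X F i).pow N
  obtain ⟨hI', hdeg⟩ := bt66_add_forms I hI N s hsN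
  set I' := I ⊔ Ideal.span s with hI'def
  have ha' : ∀ i : Fin n, 2 ≤ bt66_ext a N i := by
    intro i
    unfold bt66_ext
    split_ifs with h
    · exact ha _
    · omega
  have hmono' : Monotone (bt66_ext (n := n) a N) := by
    intro i k hik
    unfold bt66_ext
    have hik' : i.val ≤ k.val := hik
    split_ifs with h1 h2 h2
    · exact hmono (by simpa using hik')
    · exact hNa _
    · omega
    · exact le_rfl
  have hgI' : ∀ i, g i ∈ I' := by
    intro i
    by_cases h : i.val < c
    · have h1 : i = Fin.castLE hc ⟨i.val, h⟩ := by ext; simp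
      have h2 : g i = X (Fin.castLE hc ⟨i.val, h⟩) ^ a ⟨i.val, h⟩ := by
        rw [hg]
        simp only [bt66_ext, h, dite_true]
        rw [← h1]
      rw [h2]
      exact Ideal.mem_sup_left (hpow _)
    · exact Ideal.mem_sup_right (Ideal.subset_span ⟨i, Nat.not_lt.mp h, rfl⟩)
  have hmain := hub278_S0523_pure F n (bt66_ext a N) ha' hmono' I' hI' hgI' p j
  rw [bt66_span_lpp] at hmain
  have h1 : gradedBetti I' p j = gradedBetti I p j :=
    bt66_betti_trunc I' I hI' hI p j (fun d hd => hdeg d (by omega))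
  have h2 : gradedBetti (bt66_ideal F (bt66_lppSet (le_refl n) (bt66_ext a N) I')) p j =
      gradedBetti (bt66_ideal F (bt66_lppSet hc a I)) p j :=
    bt66_betti_trunc _ _ (bt66_ideal_homog F _) (bt66_ideal_homog F _) p j (fun d hd =>
      bt66_degPart_ideal_trunc F _ _ N (fun m hm => bt66_lppSet_trunc hc a N I I' hdeg m hm) d
        (by omega))
  rw [h1, h2] at hmain
  exact hmain

end betti2

end Claimed.Agent.R278
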