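-- KEEP
/-
Row 278 (S0523).  The combinatorial leaves C1-C6 of `Tor66.lean` (Betti paper: Prop 5.2, formulas
(6.3), (6.10), Section 7), from Lemma 5.1 (`Box242.lean`).  Pen: helper242.  Prefix `lam242_`.
-/
import Claimed.Agent.R278.BettiVoc66
import Claimed.Agent.R278.Box242
import Claimed.Agent.R278.CLSeg
import Claimed.Agent.R278.Trunc216

set_option autoImplicit false

open MvPolynomial Claims.C0451

namespace Claimed.Agent.R278

open scoped Classical

/-! ### Counting -/

theorem lam242_finite_deg (n d : ℕ) : ({m : Fin n → ℕ | ∑ i, m i = d} : Set _).Finite := by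
  refine (Finset.finite_toSet (Finset.Nat.antidiagonalTuple n d)).subset ?_
  intro m hm
  simpa [Finset.Nat.mem_antidiagonalTuple] using hm

/-- LEAF C6, verbatim. -/
theorem lam242_eq_of_cnt {n : ℕ} (U U' : Set (Fin n → ℕ)) (h : U ⊆ U')
    (hc : ∀ d, bt66_cnt U d = bt66_cnt U' d) : U = U' := by
  apply Set.Subset.antisymm h
  intro m hm
  have hfin : (U' ∩ {m' | ∑ i, m' i = ∑ i, m i}).Finite :=
    (lam242_finite_deg n _).subset Set.inter_subset_right
  have hsub : U ∩ {m' | ∑ i, m' i = ∑ i, m i} ⊆ U' ∩ {m' | ∑ i, m' i = ∑ i, m i} :=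
    Set.inter_subset_inter_left _ h
  have heq := Set.eq_of_subset_of_ncard_le hsub (hc (∑ i, m i)).ge hfin
  have : m ∈ U' ∩ {m' | ∑ i, m' i = ∑ i, m i} := ⟨hm, rfl⟩
  rw [← heq] at this
  exact this.1

theorem lam242_cnt_split {n : ℕ} (U P : Set (Fin n → ℕ)) (hP : P ⊆ U) (d : ℕ) :
    bt66_cnt U d = bt66_cnt P d + bt66_cnt (U \ P) d := by
  unfold bt66_cnt
  rw [← Set.ncard_union_eq ?_ ((lam242_finite_deg n d).subset Set.inter_subset_right)
    ((lam242_finite_deg n d).subset Set.inter_subset_right)]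
  · congr 1
    ext m
    constructor
    · rintro ⟨h1, h2⟩
      by_cases hm : m ∈ P
      · exact Or.inl ⟨hm, h2⟩
      · exact Or.inr ⟨⟨h1, hm⟩, h2⟩
    · rintro (⟨h1, h2⟩ | ⟨⟨h1, _⟩, h2⟩)
      · exact ⟨hP h1, h2⟩
      · exact ⟨h1, h2⟩
  · rw [Set.disjoint_left]
    rintro m ⟨h1, _⟩ ⟨⟨_, h2⟩, _⟩
    exact h2 h1

/-! ### Snoc and update -/

theorem lam242_snoc_le {n : ℕ} {u v : Fin n → ℕ} {s t : ℕ} (h : u ≤ v) (hst : s ≤ t) :
    (Fin.snoc u s : Fin (n + 1) → ℕ) ≤ Fin.snoc v t := by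
  intro j
  refine Fin.lastCases ?_ (fun j => ?_) j
  · simpa using hst
  · simpa using h j

theorem lam242_snoc_mem_Pow {n : ℕ} {a : Fin (n + 1) → ℕ} {u : Fin n → ℕ} {s : ℕ} :
    (Fin.snoc u s : Fin (n + 1) → ℕ) ∈ bt66_Pow a ↔
      u ∈ bt66_Pow (Fin.init a) ∨ a (Fin.last n) ≤ s := by
  constructor
  · rintro ⟨i, hi⟩
    revert hi
    refine Fin.lastCases ?_ (fun i => ?_) i
    · intro hi; right; simpa using hi
    · intro hi; left; exact ⟨i, by simpa [Fin.init] using hi⟩
  · rintro (⟨i, hi⟩ | h)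
    · exact ⟨i.castSucc, by simpa [Fin.init] using hi⟩
    · exact ⟨Fin.last n, by simpa using h⟩

theorem lam242_update_snoc {n : ℕ} (u : Fin n → ℕ) (s : ℕ) (h l : Fin n) (x y : ℕ) :
    Function.update (Function.update (Fin.snoc u s : Fin (n + 1) → ℕ) l.castSucc x) h.castSucc y =
      Fin.snoc (Function.update (Function.update u l x) h y) s := by
  funext j
  refine Fin.lastCases ?_ (fun j => ?_) j
  · simp [Function.update_of_ne (Fin.castSucc_lt_last _).ne']
  · by_cases hjh : j = h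
    · subst hjh; simp
    · have h1 : j.castSucc ≠ h.castSucc := fun hh => hjh (Fin.castSucc_injective _ hh)
      by_cases hjl : j = l
      · subst hjl; simp [Function.update_of_ne hjh, Function.update_of_ne h1]
      · have h2 : j.castSucc ≠ l.castSucc := fun hh => hjl (Fin.castSucc_injective _ hh)
        simp [Function.update_of_ne hjh, Function.update_of_ne h1, Function.update_of_ne hjl,
          Function.update_of_ne h2]

theorem lam242_update_snoc_last {n : ℕ} (u : Fin n → ℕ) (s : ℕ) (i : Fin n) (x : ℕ) :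
    Function.update (Function.update (Fin.snoc u s : Fin (n + 1) → ℕ) (Fin.last n) x) i.castSucc
        (u i + 1) = Fin.snoc (u + Pi.single i 1) x := by
  funext j
  refine Fin.lastCases ?_ (fun j => ?_) j
  · simp [Function.update_of_ne (Fin.castSucc_lt_last _).ne']
  · by_cases hji : j = i
    · subst hji; simp
    · have h1 : j.castSucc ≠ i.castSucc := fun hh => hji (Fin.castSucc_injective _ hh)
      simp [Function.update_of_ne h1, Pi.single_eq_of_ne hji]

/-- LEAF C3, verbatim. -/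
theorem lam242_slice_props {n : ℕ} (a : Fin (n + 1) → ℕ) (H : Set (Fin (n + 1) → ℕ))
    (hH : bt66_Up H) (hP : bt66_Pow a ⊆ H) (hS : bt66_Stable a H) (s : ℕ)
    (hs : s < a (Fin.last n)) :
    bt66_Up (bt66_slice H s) ∧ bt66_Pow (Fin.init a) ⊆ bt66_slice H s ∧
      bt66_Stable (Fin.init a) (bt66_slice H s) := by
  refine ⟨?_, ?_, ?_⟩
  · intro m hm m' hmm'
    exact hH _ hm _ (lam242_snoc_le hmm' le_rfl)
  · intro u hu
    exact hP (lam242_snoc_mem_Pow.2 (Or.inl hu))
  · intro u hu hua h l hhl hl hh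
    have := hS _ hu (by
      intro j
      refine Fin.lastCases ?_ (fun j => ?_) j
      · simpa using hs
      · simpa [Fin.init] using hua j) h.castSucc l.castSucc (Fin.castSucc_lt_castSucc_iff.2 hhl)
      (by simpa using hl) (by simpa [Fin.init] using hh)
    simp only [Fin.snoc_castSucc] at this
    rw [lam242_update_snoc] at this
    exact this

/-- LEAF C4, verbatim. -/
theorem lam242_slice_ann {n : ℕ} (a : Fin (n + 1) → ℕ) (H : Set (Fin (n + 1) → ℕ))
    (_hH : bt66_Up H) (hP : bt66_Pow a ⊆ H) (hS : bt66_Stable a H) (s : ℕ) (hs1 : 1 ≤ s)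
    (hs : s < a (Fin.last n)) (u : Fin n → ℕ) (hu : u ∈ bt66_slice H s) (i : Fin n) :
    u + Pi.single i 1 ∈ bt66_slice H (s - 1) := by
  by_cases hpow : u + Pi.single i 1 ∈ bt66_Pow (Fin.init a)
  · exact hP (lam242_snoc_mem_Pow.2 (Or.inl hpow))
  · have hlt : ∀ j, (u + Pi.single i 1 : Fin n → ℕ) j < Fin.init a j := by
      intro j
      by_contra hcon
      exact hpow ⟨j, not_lt.1 hcon⟩
    have := hS _ hu (by
      intro j
      refine Fin.lastCases ?_ (fun j => ?_) j
      · simpa using hs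
      · have h1 := hlt j
        simp only [Pi.add_apply, Fin.init] at h1
        simp only [Fin.snoc_castSucc]
        omega) i.castSucc (Fin.last n) (Fin.castSucc_lt_last i) (by simp only [Fin.snoc_last]; omega) (by
        have h1 := hlt i
        simp only [Pi.add_apply, Pi.single_eq_same, Fin.init] at h1
        simpa using h1)
    simp only [Fin.snoc_castSucc, Fin.snoc_last] at this
    rw [lam242_update_snoc_last] at this
    exact this

/-! ### The dictionary between `bt66_Lam` and lex segments of the box -/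

/-- The bounds of the box. -/
def lam242_b {n : ℕ} (a : Fin n → ℕ) : Fin n → ℕ := fun i => a i - 1

/-- The box part of `H` in degree `d`. -/
noncomputable def lam242_X {n : ℕ} (a : Fin n → ℕ) (H : Set (Fin n → ℕ)) (d : ℕ) :
    Finset (Fin n → ℕ) :=
  (bx_box (lam242_b a) d).filter (· ∈ H)

/-- The lex segment of the box with as many elements. -/
noncomputable def lam242_Y {n : ℕ} (a : Fin n → ℕ) (H : Set (Fin n → ℕ)) (d : ℕ) :
    Finset (Fin n → ℕ) :=
  r278cl_seg (bx_box (lam242_b a) d) (lam242_X a H d).card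

theorem lam242_not_Pow {n : ℕ} {a : Fin n → ℕ} (ha : ∀ i, 1 ≤ a i) {m : Fin n → ℕ} :
    m ∉ bt66_Pow a ↔ ∀ i, m i ≤ lam242_b a i := by
  constructor
  · intro h i
    have : ¬ a i ≤ m i := fun hh => h ⟨i, hh⟩
    simp only [lam242_b]
    omega
  · rintro h ⟨i, hi⟩
    have h1 := h i
    have h2 := ha i
    simp only [lam242_b] at h1
    omega

theorem lam242_nonPower {n : ℕ} {a : Fin n → ℕ} (ha : ∀ i, 1 ≤ a i) (d : ℕ) :
    nonPowerMonomials (le_refl n) a d = bx_box (lam242_b a) d := by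
  ext m
  rw [bx_mem_box, ← lam242_not_Pow ha]
  simp [nonPowerMonomials, inPowers, bt66_Pow, Finset.Nat.mem_antidiagonalTuple]

theorem lam242_lexGt {n : ℕ} (m' m : Fin n → ℕ) : lexGt m' m = true ↔ toLex m < toLex m' := by
  rw [bx_lex_lt_iff]
  simp only [lexGt, decide_eq_true_eq]
  constructor
  · rintro ⟨i, h1, h2⟩
    exact ⟨i, fun j hj => (h1 j hj).symm, h2⟩
  · rintro ⟨i, h1, h2⟩
    exact ⟨i, fun j hj => (h1 j hj).symm, h2⟩

theorem lam242_rk {n : ℕ} (B : Finset (Fin n → ℕ)) (m : Fin n → ℕ) :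
    (B.filter fun m' => lexGt m' m = true).card = r278cl_rk B m := by
  unfold r278cl_rk
  congr 1
  ext m'
  simp only [Finset.mem_filter, lam242_lexGt]

theorem lam242_coe_X {n : ℕ} {a : Fin n → ℕ} (ha : ∀ i, 1 ≤ a i) (H : Set (Fin n → ℕ)) (d : ℕ) :
    (lam242_X a H d : Set (Fin n → ℕ)) = (H \ bt66_Pow a) ∩ {m | ∑ i, m i = d} := by
  ext m
  simp only [lam242_X, Finset.coe_filter, bx_mem_box, ← lam242_not_Pow ha]
  constructor
  · rintro ⟨⟨h1, h2⟩, h3⟩
    exact ⟨⟨h3, h2⟩, h1⟩
  · rintro ⟨⟨h3, h2⟩, h1⟩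
    exact ⟨⟨h1, h2⟩, h3⟩

theorem lam242_cnt_X {n : ℕ} {a : Fin n → ℕ} (ha : ∀ i, 1 ≤ a i) (H : Set (Fin n → ℕ)) (d : ℕ) :
    bt66_cnt (H \ bt66_Pow a) d = (lam242_X a H d).card := by
  unfold bt66_cnt
  rw [← lam242_coe_X ha, Set.ncard_coe_finset]

theorem lam242_X_subset {n : ℕ} (a : Fin n → ℕ) (H : Set (Fin n → ℕ)) (d : ℕ) :
    lam242_X a H d ⊆ bx_box (lam242_b a) d := Finset.filter_subset _ _

theorem lam242_Y_isSeg {n : ℕ} (a : Fin n → ℕ) (H : Set (Fin n → ℕ)) (d : ℕ) :
    bx_IsSeg (bx_box (lam242_b a) d) (lam242_Y a H d) :=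
  r278cl_seg_isSeg _ _

theorem lam242_Y_card {n : ℕ} (a : Fin n → ℕ) (H : Set (Fin n → ℕ)) (d : ℕ) :
    (lam242_Y a H d).card = (lam242_X a H d).card := by
  unfold lam242_Y
  rw [r278cl_seg_card, min_eq_left (Finset.card_le_card (lam242_X_subset a H d))]

theorem lam242_mem_Lam {n : ℕ} {a : Fin n → ℕ} (ha : ∀ i, 1 ≤ a i) (H : Set (Fin n → ℕ))
    (m : Fin n → ℕ) :
    m ∈ bt66_Lam a H ↔ m ∈ bt66_Pow a ∨ m ∈ lam242_Y a H (∑ i, m i) := by
  unfold bt66_Lam
  simp only [Set.mem_ofPred_eq]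
  rw [lam242_nonPower ha, lam242_rk, lam242_cnt_X ha]
  by_cases hm : m ∈ bt66_Pow a
  · simp [hm]
  · simp only [hm, false_or]
    unfold lam242_Y
    rw [r278cl_mem_seg]
    constructor
    · intro h
      exact ⟨bx_mem_box.2 ⟨rfl, (lam242_not_Pow ha).1 hm⟩, h⟩
    · intro h
      exact h.2

theorem lam242_coe_Y {n : ℕ} {a : Fin n → ℕ} (ha : ∀ i, 1 ≤ a i) (H : Set (Fin n → ℕ)) (d : ℕ) :
    (lam242_Y a H d : Set (Fin n → ℕ)) = (bt66_Lam a H \ bt66_Pow a) ∩ {m | ∑ i, m i = d} := by
  ext m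
  constructor
  · intro hm
    have hB := bx_mem_box.1 ((lam242_Y_isSeg a H d).1 hm)
    refine ⟨⟨(lam242_mem_Lam ha H m).2 (Or.inr ?_), (lam242_not_Pow ha).2 hB.2⟩, hB.1⟩
    rw [hB.1]; exact hm
  · rintro ⟨⟨h1, h2⟩, h3⟩
    rcases (lam242_mem_Lam ha H m).1 h1 with h | h
    · exact absurd h h2
    · have h3' : ∑ i, m i = d := h3
      rw [h3'] at h
      exact h

theorem lam242_X_stable {n : ℕ} {a : Fin n → ℕ} (ha : ∀ i, 1 ≤ a i) {H : Set (Fin n → ℕ)}
    (hS : bt66_Stable a H) (d : ℕ) : bx_Stable (lam242_b a) (lam242_X a H d) := by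
  intro u hu v h l hhl heq hvb
  obtain ⟨huB, huH⟩ := Finset.mem_filter.1 hu
  obtain ⟨hud, hub⟩ := bx_mem_box.1 huB
  have hvd : ∑ j, v j = d := by
    have h1 : ∑ j, (v + bx_e l) j = ∑ j, (u + bx_e h) j := by rw [heq]
    simp only [Pi.add_apply, Finset.sum_add_distrib, bx_sum_e] at h1
    omega
  have hl1 := congrFun heq l
  have hh1 := congrFun heq h
  simp only [Pi.add_apply, bx_e_self, bx_e_ne hhl.ne'] at hl1
  simp only [Pi.add_apply, bx_e_self, bx_e_ne hhl.ne] at hh1
  have hv : v = Function.update (Function.update u l (u l - 1)) h (u h + 1) := by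
    funext j
    by_cases hjh : j = h
    · subst hjh
      simp only [Function.update_self]
      omega
    · by_cases hjl : j = l
      · subst hjl
        simp only [Function.update_of_ne hjh, Function.update_self]
        omega
      · have := congrFun heq j
        simp only [Pi.add_apply, bx_e_ne hjh, bx_e_ne hjl] at this
        simp only [Function.update_of_ne hjh, Function.update_of_ne hjl]
        omega
  refine Finset.mem_filter.2 ⟨bx_mem_box.2 ⟨hvd, hvb⟩, ?_⟩
  rw [hv]
  refine hS u huH ?_ h l hhl (by omega) ?_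
  · intro i
    have h1 := hub i
    have h2 := ha i
    simp only [lam242_b] at h1
    omega
  · have h1 := hvb h
    have h2 := ha h
    simp only [lam242_b] at h1
    omega

theorem lam242_le_add_e {n : ℕ} (m : Fin n → ℕ) (j : Fin n) : m ≤ m + bx_e j :=
  fun _ => Nat.le_add_right _ _

theorem lam242_shadow_X {n : ℕ} {a : Fin n → ℕ} {H : Set (Fin n → ℕ)} (hH : bt66_Up H) (d : ℕ) :
    bx_shadow (lam242_b a) (lam242_X a H d) ⊆ lam242_X a H (d + 1) := by
  intro v hv
  have hvB := bx_shadow_subset_box (lam242_X_subset a H d) hv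
  obtain ⟨⟨u, hu, j, rfl⟩, -⟩ := bx_mem_shadow.1 hv
  exact Finset.mem_filter.2 ⟨hvB, hH u (Finset.mem_filter.1 hu).2 _ (lam242_le_add_e u j)⟩

theorem lam242_shadow_Y {n : ℕ} {a : Fin n → ℕ} (ha : ∀ i, 1 ≤ a i) {H : Set (Fin n → ℕ)}
    (hH : bt66_Up H) (hS : bt66_Stable a H) (d : ℕ) :
    bx_shadow (lam242_b a) (lam242_Y a H d) ⊆ lam242_Y a H (d + 1) := by
  refine bx_seg_subset_of_card_le (bx_shadow_isSeg (lam242_Y_isSeg a H d))
    (lam242_Y_isSeg a H (d + 1)) ?_
  calc (bx_shadow (lam242_b a) (lam242_Y a H d)).card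
      ≤ (bx_shadow (lam242_b a) (lam242_X a H d)).card :=
        bx_shadowLe n _ d _ _ (lam242_X_subset a H d) (lam242_X_stable ha hS d)
          (lam242_Y_isSeg a H d) (lam242_Y_card a H d)
    _ ≤ (lam242_X a H (d + 1)).card := Finset.card_le_card (lam242_shadow_X hH d)
    _ = (lam242_Y a H (d + 1)).card := (lam242_Y_card a H (d + 1)).symm

theorem lam242_up_of_step {n : ℕ} {U : Set (Fin n → ℕ)}
    (h : ∀ m ∈ U, ∀ j, m + bx_e j ∈ U) : bt66_Up U := by
  have key : ∀ k : ℕ, ∀ m m' : Fin n → ℕ, m ≤ m' → ∑ i, m' i = ∑ i, m i + k → m ∈ U → m' ∈ U := by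
    intro k
    induction k with
    | zero =>
      intro m m' hle hs hm
      have : m' = m := bx_eq_of_le_of_sum_eq hle (by omega)
      rw [this]; exact hm
    | succ k ih =>
      intro m m' hle hs hm
      have hex : ∃ j, m j < m' j := by
        by_contra hcon
        have hle' : ∀ j, m' j ≤ m j := fun j => not_lt.1 fun hj => hcon ⟨j, hj⟩
        have := Finset.sum_le_sum (s := Finset.univ) fun j _ => hle' j
        omega
      obtain ⟨j, hj⟩ := hex
      refine ih (m + bx_e j) m' ?_ ?_ (h m hm j)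
      · intro i
        by_cases hi : i = j
        · subst hi
          simp only [Pi.add_apply, bx_e_self]
          omega
        · simp only [Pi.add_apply, bx_e_ne hi]
          exact hle i
      · simp only [Pi.add_apply, Finset.sum_add_distrib, bx_sum_e]
        omega
  intro m hm m' hle
  have hs : ∑ i, m i ≤ ∑ i, m' i := Finset.sum_le_sum fun i _ => hle i
  exact key (∑ i, m' i - ∑ i, m i) m m' hle (by omega) hm

theorem lam242_Pow_up {n : ℕ} (a : Fin n → ℕ) : bt66_Up (bt66_Pow a) := by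
  rintro m ⟨i, hi⟩ m' hle
  exact ⟨i, hi.trans (hle i)⟩

/-- LEAF C1, verbatim. -/
theorem lam242_Lam_props {n : ℕ} (a : Fin n → ℕ) (ha : ∀ i, 2 ≤ a i) (H : Set (Fin n → ℕ))
    (hH : bt66_Up H) (hP : bt66_Pow a ⊆ H) (hS : bt66_Stable a H) :
    bt66_Up (bt66_Lam a H) ∧ bt66_Stable a (bt66_Lam a H) ∧
      ∀ d, bt66_cnt (bt66_Lam a H) d = bt66_cnt H d := by
  have ha1 : ∀ i, 1 ≤ a i := fun i => by have := ha i; omega
  refine ⟨?_, ?_, ?_⟩
  · apply lam242_up_of_step
    intro m hm j
    rw [lam242_mem_Lam ha1] at hm ⊢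
    rcases hm with hm | hm
    · exact Or.inl (lam242_Pow_up a m hm _ (lam242_le_add_e m j))
    · by_cases hpow : m + bx_e j ∈ bt66_Pow a
      · exact Or.inl hpow
      · right
        have hdeg : ∑ i, (m + bx_e j) i = ∑ i, m i + 1 := by
          simp only [Pi.add_apply, Finset.sum_add_distrib, bx_sum_e]
        rw [hdeg]
        apply lam242_shadow_Y ha1 hH hS
        exact bx_mem_shadow.2 ⟨⟨m, hm, j, rfl⟩, (lam242_not_Pow ha1).1 hpow⟩
  · intro u hu hua h l hhl hl hh
    have hupow : u ∉ bt66_Pow a := by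
      rintro ⟨i, hi⟩
      have := hua i
      omega
    rw [lam242_mem_Lam ha1] at hu
    rcases hu with hu | hu
    · exact absurd hu hupow
    · set v := Function.update (Function.update u l (u l - 1)) h (u h + 1) with hv
      have heq : v + bx_e l = u + bx_e h := by
        funext j
        by_cases hjh : j = h
        · subst hjh
          simp [hv, bx_e_ne hhl.ne]
        · by_cases hjl : j = l
          · subst hjl
            simp only [hv, Pi.add_apply, Function.update_of_ne hjh, Function.update_self,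
              bx_e_self, bx_e_ne hjh]
            omega
          · simp [hv, Function.update_of_ne hjh, Function.update_of_ne hjl, bx_e_ne hjh,
              bx_e_ne hjl]
      have hvb : ∀ i, v i ≤ lam242_b a i := by
        intro i
        have h1 := hua i
        by_cases hih : i = h
        · subst hih
          simp only [hv, Function.update_self, lam242_b]
          omega
        · by_cases hil : i = l
          · subst hil
            simp only [hv, Function.update_of_ne hih, Function.update_self, lam242_b]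
            omega
          · simp only [hv, Function.update_of_ne hih, Function.update_of_ne hil, lam242_b]
            omega
      have hvY := (lam242_Y_isSeg a H (∑ i, u i)).stable u hu v h l hhl heq hvb
      have hvd := (bx_mem_box.1 ((lam242_Y_isSeg a H _).1 hvY)).1
      rw [lam242_mem_Lam ha1]
      right
      rw [hvd]
      exact hvY
  · intro d
    have hPL : bt66_Pow a ⊆ bt66_Lam a H := fun m hm => Or.inl hm
    have h1 : bt66_cnt (bt66_Lam a H \ bt66_Pow a) d = (lam242_Y a H d).card := by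
      unfold bt66_cnt
      rw [← lam242_coe_Y ha1, Set.ncard_coe_finset]
    rw [lam242_cnt_split (bt66_Lam a H) _ hPL d, lam242_cnt_split H _ hP d, h1,
      lam242_cnt_X ha1 H d, lam242_Y_card]

/-! ### Slices of `ΛH` -/

theorem lam242_init_b {n : ℕ} (a : Fin (n + 1) → ℕ) :
    Fin.init (lam242_b a) = lam242_b (Fin.init a) := rfl

theorem lam242_sum_snoc {n : ℕ} (u : Fin n → ℕ) (s : ℕ) :
    ∑ i, (Fin.snoc u s : Fin (n + 1) → ℕ) i = ∑ i, u i + s := by
  rw [Fin.sum_univ_castSucc]
  simp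

theorem lam242_slice_X {n : ℕ} (a : Fin (n + 1) → ℕ) (H : Set (Fin (n + 1) → ℕ)) (e s : ℕ)
    (hs : s ≤ lam242_b a (Fin.last n)) :
    bx_slice (lam242_X a H (e + s)) s = lam242_X (Fin.init a) (bt66_slice H s) e := by
  ext u
  rw [bx_mem_slice]
  unfold lam242_X
  rw [Finset.mem_filter, Finset.mem_filter, bx_snoc_mem_box, bx_mem_box, lam242_init_b]
  constructor
  · rintro ⟨⟨⟨h1, h2⟩, _⟩, h3⟩
    exact ⟨⟨by omega, h2⟩, h3⟩
  · rintro ⟨⟨h1, h2⟩, h3⟩
    exact ⟨⟨⟨by omega, h2⟩, hs⟩, h3⟩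

/-- LEAF C2, verbatim. -/
theorem lam242_Lam_slices {n : ℕ} (a : Fin (n + 1) → ℕ) (ha : ∀ i, 2 ≤ a i)
    (H : Set (Fin (n + 1) → ℕ)) (_hH : bt66_Up H) (_hP : bt66_Pow a ⊆ H) (hS : bt66_Stable a H) :
    bt66_slice (bt66_Lam a H) 0 ⊆ bt66_Lam (Fin.init a) (bt66_slice H 0) ∧
      bt66_Lam (Fin.init a) (bt66_slice H (a (Fin.last n) - 1)) ⊆
        bt66_slice (bt66_Lam a H) (a (Fin.last n) - 1) := by
  have ha1 : ∀ i, 1 ≤ a i := fun i => by have := ha i; omega
  have ha1' : ∀ i, 1 ≤ Fin.init a i := fun i => ha1 _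
  constructor
  · intro u hu
    have hu' : (Fin.snoc u 0 : Fin (n + 1) → ℕ) ∈ bt66_Lam a H := hu
    rw [lam242_mem_Lam ha1, lam242_sum_snoc, add_zero] at hu'
    rw [lam242_mem_Lam ha1']
    rcases hu' with hu' | hu'
    · rcases lam242_snoc_mem_Pow.1 hu' with h | h
      · exact Or.inl h
      · have := ha (Fin.last n); omega
    · right
      have hsl := lam242_slice_X a H (∑ i, u i) 0 (Nat.zero_le _)
      rw [add_zero] at hsl
      refine bx_slice_zero_subset (bx_shadowLe n) (lam242_X_subset a H _)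
        (lam242_X_stable ha1 hS _) (lam242_Y_isSeg a H _) (lam242_Y_card a H _)
        (L := lam242_Y (Fin.init a) (bt66_slice H 0) (∑ i, u i))
        (lam242_Y_isSeg (Fin.init a) _ _) ?_ (bx_mem_slice.2 hu')
      rw [lam242_Y_card, hsl]
  · intro u hu
    rw [lam242_mem_Lam ha1'] at hu
    show (Fin.snoc u (a (Fin.last n) - 1) : Fin (n + 1) → ℕ) ∈ bt66_Lam a H
    rw [lam242_mem_Lam ha1, lam242_sum_snoc]
    rcases hu with hu | hu
    · exact Or.inl (lam242_snoc_mem_Pow.2 (Or.inl hu))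
    · right
      set β := a (Fin.last n) - 1 with hβ
      set e := ∑ i, u i with he
      have hsl := lam242_slice_X a H e β le_rfl
      have hseg : bx_IsSeg (bx_box (lam242_b (Fin.init a)) e) (bx_slice (lam242_Y a H (e + β)) β) := by
        have := (lam242_Y_isSeg a H (e + β)).slice β
        rwa [Nat.add_sub_cancel, lam242_init_b] at this
      have htop := bx_slice_top_le (bx_shadowLe n) (lam242_X_subset a H (e + β))
        (lam242_X_stable ha1 hS _) (lam242_Y_isSeg a H _) (lam242_Y_card a H _)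
      have hβ' : lam242_b a (Fin.last n) = β := rfl
      rw [hβ', hsl] at htop
      have hsub := bx_seg_subset_of_card_le (lam242_Y_isSeg (Fin.init a) (bt66_slice H β) e) hseg
        (by rw [lam242_Y_card]; exact htop)
      exact bx_mem_slice.1 (hsub hu)

/-! ### Section 7: the frozen lex-plus-powers set -/

theorem lam242_inPowers {n : ℕ} (a : Fin n → ℕ) (m : Fin n → ℕ) :
    inPowers (le_refl n) a m = true ↔ m ∈ bt66_Pow a := by
  simp [inPowers, bt66_Pow]

theorem lam242_cnt_Pow {n : ℕ} (a : Fin n → ℕ) (d : ℕ) :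
    ((Finset.Nat.antidiagonalTuple n d).filter fun m => inPowers (le_refl n) a m = true).card =
      bt66_cnt (bt66_Pow a) d := by
  unfold bt66_cnt
  rw [← Set.ncard_coe_finset]
  congr 1
  ext m
  simp only [Finset.coe_filter, Finset.Nat.mem_antidiagonalTuple, lam242_inPowers]
  constructor
  · rintro ⟨h1, h2⟩; exact ⟨h2, h1⟩
  · rintro ⟨h1, h2⟩; exact ⟨h2, h1⟩

/-- LEAF C5, verbatim. -/
theorem lam242_lppSet_eq_Lam (E : Type) [Field E] {n : ℕ} (a : Fin n → ℕ) (H : Set (Fin n → ℕ))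
    (hH : bt66_Up H) (hP : bt66_Pow a ⊆ H) :
    bt66_lppSet (le_refl n) a (bt66_ideal E H) = bt66_Lam a H := by
  have hq : ∀ d, qDim (le_refl n) a (bt66_ideal E H) d = (bt66_cnt (H \ bt66_Pow a) d : ℤ) := by
    intro d
    unfold qDim
    rw [egh216_finrank_ideal E H hH d, lam242_cnt_Pow, lam242_cnt_split H _ hP d]
    push_cast
    ring
  ext m
  simp only [bt66_lppSet, bt66_Lam, Set.mem_ofPred_eq, lexSegment, Finset.mem_filter, hq,
    Nat.cast_lt, lam242_inPowers]
  by_cases hm : m ∈ bt66_Pow a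
  · simp [hm]
  · simp only [hm, false_or]
    constructor
    · intro h; exact h.2
    · intro h
      refine ⟨?_, h⟩
      simp only [nonPowerMonomials, Finset.mem_filter, Finset.Nat.mem_antidiagonalTuple, true_and]
      rw [Bool.eq_false_iff, Ne, lam242_inPowers]
      exact hm

end Claimed.Agent.R278
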