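-- KEEP
/-
Row 278 (S0523), Betti paper Section 3 (seat 136, prefix `tr136_`): `Eg2Box ⇒ bt66_mono_bound`.

Part B: base change `E → D` (a division ring over the field `E`) of the Koszul ranks and numbers.
Part C: the module `D ⊗[E] (S ⧸ K)`, the right multiplications, the forms `T i`, and the glue with
the Manin transfer (`Transfer136`) and with Proposition 2.3 (`Kos126`).
-/
import Claimed.Agent.R278.Transfer136
import Claimed.Agent.R278.Kos126
import Claimed.Agent.R278.Sec2Box

set_option autoImplicit false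

open TensorProduct

namespace Claimed.Agent.R278

open Kos

/-! ## Part B: base change -/

section BC

variable {E D : Type} [Field E] [DivisionRing D] [Algebra E D]

/-- independent families stay independent after `D ⊗[E] _` -/
theorem tr136_indep_one_tmul {M ι : Type} [AddCommGroup M] [Module E M] (v : ι → M)
    (hv : LinearIndependent E v) : LinearIndependent D (fun a => (1 : D) ⊗ₜ[E] v a) := by
  classical
  obtain ⟨r, hr⟩ := LinearMap.exists_leftInverse_of_injective (Finsupp.linearCombination E v)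
    (LinearMap.ker_eq_bot.2 hv)
  apply LinearIndependent.of_comp (r.baseChange D)
  have : (r.baseChange D) ∘ (fun a => (1 : D) ⊗ₜ[E] v a) =
      Algebra.TensorProduct.basis D (Finsupp.basisSingleOne (R := E) (ι := ι)) := by
    funext a
    have h1 := LinearMap.congr_fun hr (Finsupp.single a 1)
    simp only [LinearMap.comp_apply, Finsupp.linearCombination_single, one_smul,
      LinearMap.id_apply] at h1
    simp [Algebra.TensorProduct.basis_apply, h1]
  rw [this]
  exact (Algebra.TensorProduct.basis D (Finsupp.basisSingleOne (R := E) (ι := ι))).linearIndependent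

/-- from a finite product of base changes to the base change of the product -/
noncomputable def tr136_Theta (D : Type) [DivisionRing D] [Algebra E D] (κ M : Type) [Fintype κ]
    [DecidableEq κ] [AddCommGroup M] [Module E M] : (κ → D ⊗[E] M) →ₗ[D] D ⊗[E] (κ → M) :=
  ∑ U, (LinearMap.single E (fun _ : κ => M) U).baseChange D ∘ₗ LinearMap.proj U

theorem tr136_Theta_one {κ M : Type} [Fintype κ] [DecidableEq κ] [AddCommGroup M] [Module E M]
    (z : κ → M) : tr136_Theta D κ M (fun U => (1 : D) ⊗ₜ[E] z U) = 1 ⊗ₜ[E] z := by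
  simp only [tr136_Theta, LinearMap.sum_apply, LinearMap.comp_apply, LinearMap.proj_apply,
    LinearMap.baseChange_tmul, ← TensorProduct.tmul_sum]
  congr 1
  exact Finset.univ_sum_single z

theorem tr136_indep_pi {κ M ι : Type} [Fintype κ] [DecidableEq κ] [AddCommGroup M] [Module E M]
    (v : ι → κ → M) (hv : LinearIndependent E v) :
    LinearIndependent D (fun a => fun U => (1 : D) ⊗ₜ[E] v a U) := by
  apply LinearIndependent.of_comp (tr136_Theta D κ M)
  have : (tr136_Theta D κ M) ∘ (fun a => fun U => (1 : D) ⊗ₜ[E] v a U) =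
      fun a => (1 : D) ⊗ₜ[E] v a := funext fun a => tr136_Theta_one (v a)
  rw [this]
  exact tr136_indep_one_tmul v hv

/-- abstract form: a semilinear map which keeps independence keeps the dimension of spans -/
theorem tr136_finrank_span_semilin {M M' ι : Type} [AddCommGroup M] [Module E M] [AddCommGroup M']
    [Module D M'] (g : M →ₛₗ[algebraMap E D] M')
    (hg : ∀ (b : Set ι) (v : ι → M), LinearIndepOn E v b → LinearIndepOn D (fun s => g (v s)) b)
    (v : ι → M) (J : Set ι) (hJ : J.Finite) :
    Module.finrank D (Submodule.span D ((fun s => g (v s)) '' J)) =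
      Module.finrank E (Submodule.span E (v '' J)) := by
  classical
  obtain ⟨b, hbJ, -, hspan, hind⟩ :=
    exists_linearIndepOn_extension (linearIndepOn_empty E v) (Set.empty_subset J)
  have hbfin : b.Finite := hJ.subset hbJ
  have e1 : Submodule.span E (v '' J) = Submodule.span E (v '' b) :=
    le_antisymm (Submodule.span_le.2 hspan) (Submodule.span_mono (Set.image_mono hbJ))
  have e2 : Submodule.span D ((fun s => g (v s)) '' J) =
      Submodule.span D ((fun s => g (v s)) '' b) := by
    apply le_antisymm _ (Submodule.span_mono (Set.image_mono hbJ))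
    rw [Submodule.span_le]
    rintro _ ⟨s, hs, rfl⟩
    have h1 : v s ∈ Submodule.span E (v '' b) := hspan ⟨s, hs, rfl⟩
    have h2 : ∀ x ∈ Submodule.span E (v '' b),
        g x ∈ Submodule.span D ((fun s => g (v s)) '' b) := by
      intro x hx
      induction hx using Submodule.span_induction with
      | mem x hx =>
        obtain ⟨t, ht, rfl⟩ := hx
        exact Submodule.subset_span ⟨t, ht, rfl⟩
      | zero => rw [map_zero]; exact Submodule.zero_mem _
      | add x y _ _ hx hy => rw [map_add]; exact Submodule.add_mem _ hx hy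
      | smul c x _ hx => rw [map_smulₛₗ]; exact Submodule.smul_mem _ _ hx
    exact h2 _ h1
  rw [e1, e2, r278k_finrank_span_image v b hbfin hind,
    r278k_finrank_span_image (fun s => g (v s)) b hbfin (hg b v hind)]

/-- `m ↦ 1 ⊗ m` as a semilinear map -/
noncomputable def tr136_mu (D : Type) [DivisionRing D] [Algebra E D] (M : Type) [AddCommGroup M]
    [Module E M] : M →ₛₗ[algebraMap E D] D ⊗[E] M where
  toFun m := 1 ⊗ₜ[E] m
  map_add' x y := TensorProduct.tmul_add _ _ _
  map_smul' c x := by
    rw [TensorProduct.tmul_smul, TensorProduct.smul_tmul', TensorProduct.smul_tmul',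
      Algebra.smul_def, smul_eq_mul]

theorem tr136_mu_apply {M : Type} [AddCommGroup M] [Module E M] (m : M) :
    tr136_mu D M m = (1 : D) ⊗ₜ[E] m := rfl

/-- the same on a product -/
noncomputable def tr136_muPi (D : Type) [DivisionRing D] [Algebra E D] (κ M : Type) [AddCommGroup M]
    [Module E M] : (κ → M) →ₛₗ[algebraMap E D] (κ → D ⊗[E] M) where
  toFun z U := 1 ⊗ₜ[E] z U
  map_add' _ _ := funext fun _ => TensorProduct.tmul_add _ _ _
  map_smul' c x := funext fun U => (tr136_mu D M).map_smul' c (x U)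

theorem tr136_muPi_apply {κ M : Type} [AddCommGroup M] [Module E M] (z : κ → M) (U : κ) :
    tr136_muPi D κ M z U = (1 : D) ⊗ₜ[E] z U := rfl

theorem tr136_finrank_span_mu {M ι : Type} [AddCommGroup M] [Module E M] (v : ι → M) (J : Set ι)
    (hJ : J.Finite) :
    Module.finrank D (Submodule.span D ((fun s => (1 : D) ⊗ₜ[E] v s) '' J)) =
      Module.finrank E (Submodule.span E (v '' J)) := by
  have hg : ∀ (b : Set ι) (v : ι → M), LinearIndepOn E v b →
      LinearIndepOn D (fun s => tr136_mu (E := E) D M (v s)) b := by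
    intro b v hv
    have := tr136_indep_one_tmul (D := D) (fun x : b => v x) hv
    exact this
  have h := tr136_finrank_span_semilin (tr136_mu D M) hg v J hJ
  exact h

theorem tr136_finrank_span_muPi {κ M ι : Type} [Fintype κ] [DecidableEq κ] [AddCommGroup M]
    [Module E M] (v : ι → κ → M) (J : Set ι) (hJ : J.Finite) :
    Module.finrank D (Submodule.span D ((fun s => fun U => (1 : D) ⊗ₜ[E] v s U) '' J)) =
      Module.finrank E (Submodule.span E (v '' J)) := by
  have hg : ∀ (b : Set ι) (v : ι → κ → M), LinearIndepOn E v b →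
      LinearIndepOn D (fun s => tr136_muPi (E := E) D κ M (v s)) b := by
    intro b v hv
    have := tr136_indep_pi (D := D) (fun x : b => v x) hv
    exact this
  have h := tr136_finrank_span_semilin (tr136_muPi D κ M) hg v J hJ
  exact h

end BC

/-! ### base change of a cyclic graded module -/

section BC2

variable {E D : Type} [Field E] [DivisionRing D] [Algebra E D] {n : ℕ}
variable {B0 : Type} [AddCommGroup B0] [Module E B0]

/-- the base-changed operators -/
noncomputable def tr136_XD (D : Type) [DivisionRing D] [Algebra E D] (X0 : Fin n → Module.End E B0)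
    (k : Fin n) : Module.End D (D ⊗[E] B0) := (X0 k).baseChange D

/-- the base-changed family -/
def tr136_eD (E D : Type) [Field E] [DivisionRing D] [Algebra E D] {n : ℕ} {B0 : Type}
    [AddCommGroup B0] [Module E B0] (e0 : (Fin n → ℕ) → B0) (α : Fin n → ℕ) :
    D ⊗[E] B0 := 1 ⊗ₜ[E] e0 α

theorem tr136_XD_tmul (X0 : Fin n → Module.End E B0) (k : Fin n) (d : D) (b : B0) :
    tr136_XD D X0 k (d ⊗ₜ[E] b) = d ⊗ₜ[E] X0 k b := LinearMap.baseChange_tmul _ _ _

theorem tr136_eD_apply (e0 : (Fin n → ℕ) → B0) (α : Fin n → ℕ) :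
    tr136_eD E D e0 α = (1 : D) ⊗ₜ[E] e0 α := rfl

theorem tr136_he (X0 : Fin n → Module.End E B0) (e0 : (Fin n → ℕ) → B0)
    (he0 : ∀ i α, X0 i (e0 α) = e0 (α + Pi.single i 1)) (i : Fin n) (α : Fin n → ℕ) :
    tr136_XD D X0 i (tr136_eD E D e0 α) = tr136_eD E D e0 (α + Pi.single i 1) := by
  rw [tr136_eD_apply, tr136_XD_tmul, he0, tr136_eD_apply]

theorem tr136_hX (X0 : Fin n → Module.End E B0) (hX0 : ∀ k l b, X0 k (X0 l b) = X0 l (X0 k b))
    (k l : Fin n) (b : D ⊗[E] B0) :
    tr136_XD D X0 k (tr136_XD D X0 l b) = tr136_XD D X0 l (tr136_XD D X0 k b) := by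
  induction b using TensorProduct.induction_on with
  | zero => simp
  | tmul d y => rw [tr136_XD_tmul, tr136_XD_tmul, tr136_XD_tmul, tr136_XD_tmul, hX0]
  | add x y hx hy => simp only [map_add, hx, hy]

theorem tr136_diff_mu (X0 : Fin n → Module.End E B0) (c : Finset (Fin n) → B0) :
    r278m_diff (tr136_XD D X0) (fun U => (1 : D) ⊗ₜ[E] c U) =
      fun U => (1 : D) ⊗ₜ[E] (r278m_diff X0 c U) := by
  funext U
  rw [r278m_diff_apply, r278m_diff_apply, TensorProduct.tmul_sum]
  refine Finset.sum_congr rfl fun k _ => ?_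
  rw [tr136_XD_tmul]
  exact (map_zsmul (tr136_mu D B0) _ _).symm

theorem tr136_rank_bc (X0 : Fin n → Module.End E B0) (e0 : (Fin n → ℕ) → B0) (p j : ℕ) :
    r278m_rank (tr136_XD D X0) (r278k_piece (F := D) (tr136_eD E D e0)) p j =
      r278m_rank X0 (r278k_piece (F := E) e0) p j := by
  classical
  by_cases hpj : p ≤ j
  · rw [r278k_rank_eq_span _ _ p j hpj, r278k_rank_eq_span _ _ p j hpj]
    have : (fun s : (Fin n → ℕ) × Finset (Fin n) => r278m_diff (tr136_XD D X0)
        (Pi.single s.2 (tr136_eD E D e0 s.1) : Finset (Fin n) → D ⊗[E] B0)) =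
        fun s => fun U => (1 : D) ⊗ₜ[E]
          (r278m_diff X0 (Pi.single s.2 (e0 s.1) : Finset (Fin n) → B0) U) := by
      funext s
      rw [← tr136_diff_mu]
      congr 1
      funext T
      by_cases h : T = s.2
      · subst h
        rw [Pi.single_eq_same, Pi.single_eq_same, tr136_eD_apply]
      · rw [Pi.single_eq_of_ne h, Pi.single_eq_of_ne h, TensorProduct.tmul_zero]
    rw [this]
    exact tr136_finrank_span_muPi _ _ (r278k_J_finite p j)
  · rw [r278k_rank_eq_zero_of_lt _ _ p j hpj, r278k_rank_eq_zero_of_lt _ _ p j hpj]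

theorem tr136_finrank_piece_bc (e0 : (Fin n → ℕ) → B0) (d : ℕ) :
    Module.finrank D (r278k_piece (F := D) (tr136_eD E D e0) d) =
      Module.finrank E (r278k_piece (F := E) e0 d) :=
  tr136_finrank_span_mu e0 _ (r278k_deg_finite d)

/-- **base change of the Koszul numbers** -/
theorem tr136_betti_bc (X0 : Fin n → Module.End E B0)
    (hX0 : ∀ k l b, X0 k (X0 l b) = X0 l (X0 k b)) (e0 : (Fin n → ℕ) → B0)
    (he0 : ∀ i α, X0 i (e0 α) = e0 (α + Pi.single i 1)) (p j : ℕ) :
    r278m_betti (tr136_XD D X0) (r278k_piece (F := D) (tr136_eD E D e0)) p j =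
      r278m_betti X0 (r278k_piece (F := E) e0) p j := by
  have h1 := r278m_betti_add_ranks (tr136_XD D X0) (tr136_hX X0 hX0)
    (P := r278k_piece (F := D) (tr136_eD E D e0))
    (fun k d => r278k_piece_succ _ _ (tr136_he X0 e0 he0) k d)
    (fun e => r278k_piece_finite _ e) p j
  have h2 := r278m_betti_add_ranks X0 hX0 (P := r278k_piece (F := E) e0)
    (fun k d => r278k_piece_succ _ _ he0 k d) (fun e => r278k_piece_finite _ e) p j
  rw [r278m_finrank_chains (fun e => r278k_piece_finite _ e)] at h1 h2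
  rw [tr136_rank_bc, tr136_rank_bc, tr136_finrank_piece_bc] at h1
  omega

theorem tr136_indepOn_bc (e0 : (Fin n → ℕ) → B0) (b : Set (Fin n → ℕ))
    (h : LinearIndepOn E e0 b) : LinearIndepOn D (tr136_eD E D e0) b := by
  have := tr136_indep_one_tmul (D := D) (fun x : b => e0 x) h
  exact this

end BC2

/-! ## Part C: right multiplications -/

section Rho

variable {E D : Type} [Field E] [DivisionRing D] [Algebra E D]

/-- right multiplication by `c` on the left factor of `D ⊗[E] M` -/
noncomputable def tr136_rho (E : Type) {D : Type} [Field E] [DivisionRing D] [Algebra E D] (M : Type)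
    [AddCommGroup M] [Module E M] : Dᵐᵒᵖ →+* Module.End D (D ⊗[E] M) where
  toFun c := TensorProduct.AlgebraTensorModule.map (LinearMap.toSpanSingleton D D c.unop)
    LinearMap.id
  map_one' := by
    apply TensorProduct.AlgebraTensorModule.ext
    intro x y
    simp
  map_mul' c c' := by
    apply TensorProduct.AlgebraTensorModule.ext
    intro x y
    simp [Module.End.mul_apply, mul_assoc]
  map_zero' := by
    apply TensorProduct.AlgebraTensorModule.ext
    intro x y
    simp
  map_add' c c' := by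
    apply TensorProduct.AlgebraTensorModule.ext
    intro x y
    simp [mul_add, TensorProduct.add_tmul]

variable {M : Type} [AddCommGroup M] [Module E M]

theorem tr136_rho_tmul (c : Dᵐᵒᵖ) (d : D) (m : M) :
    tr136_rho E M c (d ⊗ₜ[E] m) = (d * c.unop) ⊗ₜ[E] m := by
  simp [tr136_rho]

theorem tr136_rho_baseChange (c : Dᵐᵒᵖ) (f : Module.End E M) :
    tr136_rho E M c * f.baseChange D = f.baseChange D * tr136_rho E M c := by
  apply TensorProduct.AlgebraTensorModule.ext
  intro x y
  rw [Module.End.mul_apply, Module.End.mul_apply, LinearMap.baseChange_tmul, tr136_rho_tmul,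
    tr136_rho_tmul, LinearMap.baseChange_tmul]

theorem tr136_rho_piece {n : ℕ} (e0 : (Fin n → ℕ) → M) (c : Dᵐᵒᵖ) (d : ℕ) :
    ∀ b ∈ r278k_piece (F := D) (tr136_eD E D e0) d,
      tr136_rho E M c b ∈ r278k_piece (F := D) (tr136_eD E D e0) d := by
  intro b hb
  have h1 : tr136_rho E M c b ∈ (r278k_piece (F := D) (tr136_eD E D e0) d).map (tr136_rho E M c) :=
    ⟨b, hb, rfl⟩
  rw [r278k_piece, Submodule.map_span] at h1
  refine (Submodule.span_le.2 ?_) h1
  rintro _ ⟨_, ⟨α, hα, rfl⟩, rfl⟩
  have : tr136_rho E M c (tr136_eD E D e0 α) = c.unop • tr136_eD E D e0 α := by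
    rw [tr136_eD_apply, tr136_rho_tmul, TensorProduct.smul_tmul', smul_eq_mul, one_mul, mul_one]
  rw [this]
  exact Submodule.smul_mem _ _ (Submodule.subset_span ⟨α, hα, rfl⟩)

end Rho

/-! ### families `T ^ α b0` and their pieces -/

section Fam

theorem tr136_exists_family {D B : Type} [DivisionRing D] [AddCommGroup B] [Module D B] {n : ℕ}
    (T : Fin n → Module.End D B) (hT : ∀ i k, T i * T k = T k * T i) (b0 : B) :
    ∃ e : (Fin n → ℕ) → B, e 0 = b0 ∧ ∀ i α, T i (e α) = e (α + Pi.single i 1) := by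
  classical
  let 𝒜 := Algebra.adjoin ℤ (Set.range T)
  have hc : IsMulCommutative 𝒜 := Algebra.isMulCommutative_adjoin ℤ (by
    rintro _ ⟨i, rfl⟩ _ ⟨k, rfl⟩; exact hT i k)
  let _ : CommRing 𝒜 := { (inferInstance : Ring 𝒜) with mul_comm := hc.is_comm.comm }
  let Ti : Fin n → 𝒜 := fun i => ⟨T i, Algebra.subset_adjoin ⟨i, rfl⟩⟩
  refine ⟨fun α => ((∏ i, Ti i ^ α i : 𝒜) : Module.End D B) b0, ?_, ?_⟩
  · simp only [Pi.zero_apply, pow_zero, Finset.prod_const_one]
    rfl
  · intro i α
    have : (∏ k, Ti k ^ ((α + Pi.single i 1 : Fin n → ℕ) k)) = Ti i * ∏ k, Ti k ^ α k := by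
      simp only [Pi.add_apply, pow_add, Finset.prod_mul_distrib]
      rw [mul_comm]
      congr 1
      rw [Finset.prod_eq_single i]
      · simp
      · intro k _ hk
        simp [hk]
      · simp
    simp only [this]
    rfl

theorem tr136_exists_pred {n : ℕ} (α : Fin n → ℕ) (d : ℕ) (h : ∑ i, α i = d + 1) :
    ∃ (i : Fin n) (β : Fin n → ℕ), α = β + Pi.single i 1 ∧ ∑ k, β k = d := by
  have : ∃ i, α i ≠ 0 := by
    by_contra hcon
    push Not at hcon
    have : ∑ i, α i = 0 := Finset.sum_eq_zero fun i _ => hcon i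
    omega
  obtain ⟨i, hi⟩ := this
  have h1 : α = (α - Pi.single i 1) + Pi.single i 1 := by
    funext k
    by_cases hk : k = i
    · subst hk
      simp only [Pi.add_apply, Pi.sub_apply, Pi.single_eq_same]
      omega
    · simp [hk]
  refine ⟨i, α - Pi.single i 1, h1, ?_⟩
  have h2 : ∑ k, ((α - Pi.single i 1) + Pi.single i 1 : Fin n → ℕ) k = d + 1 := by
    rw [← h1]; exact h
  simp only [Pi.add_apply, Finset.sum_add_distrib, Finset.sum_pi_single', Finset.mem_univ,
    if_true] at h2
  omega

theorem tr136_piece_zero {D B : Type} [DivisionRing D] [AddCommGroup B] [Module D B] {n : ℕ}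
    (e : (Fin n → ℕ) → B) : r278k_piece (F := D) e 0 = Submodule.span D {e 0} := by
  have : {α : Fin n → ℕ | ∑ i, α i = 0} = {0} := by
    ext α
    simp [funext_iff]
  rw [r278k_piece, this, Set.image_singleton]

/-- two families generated from the same vector by two families of operators, each of which is a
combination of the other, have the same pieces -/
theorem tr136_piece_eq {D B : Type} [DivisionRing D] [AddCommGroup B] [Module D B] {n : ℕ}
    (X T : Fin n → Module.End D B) (eX eT : (Fin n → ℕ) → B)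
    (heX : ∀ i α, X i (eX α) = eX (α + Pi.single i 1))
    (heT : ∀ i α, T i (eT α) = eT (α + Pi.single i 1)) (h0 : eT 0 = eX 0)
    (hTX : ∀ i d, ∀ b ∈ r278k_piece (F := D) eX d, T i b ∈ r278k_piece (F := D) eX (d + 1))
    (hXT : ∀ j d, r278k_piece (F := D) eT d = r278k_piece (F := D) eX d →
      ∀ b ∈ r278k_piece (F := D) eX d, X j b ∈ r278k_piece (F := D) eT (d + 1)) (d : ℕ) :
    r278k_piece (F := D) eT d = r278k_piece (F := D) eX d := by
  induction d with
  | zero => rw [tr136_piece_zero, tr136_piece_zero, h0]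
  | succ d ih =>
    apply le_antisymm
    · rw [r278k_piece, Submodule.span_le]
      rintro _ ⟨α, hα, rfl⟩
      obtain ⟨i, β, rfl, hβ⟩ := tr136_exists_pred α d hα
      rw [← heT]
      apply hTX
      rw [← ih]
      exact Submodule.subset_span ⟨β, hβ, rfl⟩
    · rw [r278k_piece, Submodule.span_le]
      rintro _ ⟨α, hα, rfl⟩
      obtain ⟨i, β, rfl, hβ⟩ := tr136_exists_pred α d hα
      rw [← heX]
      apply hXT _ _ ih
      exact Submodule.subset_span ⟨β, hβ, rfl⟩

end Fam

/-! ### the Manin relations from the commutation of the forms -/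

section ManinRel

theorem tr136_single_add_eq {n : ℕ} (j l j0 l0 : Fin n) :
    (Finsupp.single j 1 + Finsupp.single l 1 : Fin n →₀ ℕ) = Finsupp.single j0 1 + Finsupp.single l0 1 ↔
      (j = j0 ∧ l = l0) ∨ (j = l0 ∧ l = j0) := by
  constructor
  · intro h
    have h1 := DFunLike.congr_fun h j
    simp only [Finsupp.add_apply, Finsupp.single_apply, if_true] at h1
    by_cases hj : j0 = j
    · subst hj
      left
      refine ⟨rfl, ?_⟩
      have := add_left_cancel h
      exact (Finsupp.single_left_inj one_ne_zero).1 this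
    · by_cases hl : l0 = j
      · subst hl
        right
        refine ⟨rfl, ?_⟩
        rw [add_comm (Finsupp.single j0 1)] at h
        have := add_left_cancel h
        exact (Finsupp.single_left_inj one_ne_zero).1 this
      · simp only [hj, hl, if_false] at h1
        omega
  · rintro (⟨rfl, rfl⟩ | ⟨rfl, rfl⟩)
    · rfl
    · exact add_comm _ _

theorem tr136_sum_pair {n : ℕ} {D : Type} [AddCommMonoid D] (c : Fin n → Fin n → D) (j0 l0 : Fin n) :
    ∑ j, ∑ l, (if (j = j0 ∧ l = l0) ∨ (j = l0 ∧ l = j0) then c j l else 0) =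
      if j0 = l0 then c j0 j0 else c j0 l0 + c l0 j0 := by
  by_cases h : j0 = l0
  · subst h
    simp only [or_self, if_true]
    rw [Finset.sum_eq_single j0, Finset.sum_eq_single j0]
    · simp
    · intro l _ hl; simp [hl]
    · simp
    · intro j _ hj; simp [hj]
    · simp
  · rw [if_neg h]
    have : ∀ j l, (if (j = j0 ∧ l = l0) ∨ (j = l0 ∧ l = j0) then c j l else 0) =
        (if j = j0 then (if l = l0 then c j l else 0) else 0) +
          (if j = l0 then (if l = j0 then c j l else 0) else 0) := by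
      intro j l
      by_cases h1 : j = j0
      · subst h1
        by_cases h2 : l = l0
        · subst h2; simp [h]
        · simp [h2, h]
      · by_cases h3 : j = l0
        · subst h3
          by_cases h4 : l = j0
          · subst h4; simp [h1]
          · simp [h4, h1]
        · simp [h1, h3]
    simp only [this, Finset.sum_add_distrib]
    simp

theorem tr136_lin_mul_coeff {n : ℕ} {D : Type} [Ring D] (t t' : Fin n → D) (j0 l0 : Fin n) :
    (eg2Lin t * eg2Lin t').coeff (Finsupp.single j0 1 + Finsupp.single l0 1) =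
      if j0 = l0 then t j0 * t' j0 else t j0 * t' l0 + t l0 * t' j0 := by
  classical
  rw [← tr136_sum_pair (fun j l => t j * t' l) j0 l0]
  unfold eg2Lin
  rw [Finset.sum_mul_sum]
  simp only [AddMonoidAlgebra.single_mul_single, AddMonoidAlgebra.coeff_sum,
    Finsupp.finsetSum_apply, AddMonoidAlgebra.coeff_single, Finsupp.single_apply,
    tr136_single_add_eq]

theorem tr136_manin {n : ℕ} {D : Type} [Ring D] (t t' : Fin n → D)
    (h : Commute (eg2Lin t) (eg2Lin t')) :
    (∀ j, t j * t' j = t' j * t j) ∧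
      ∀ j l, t j * t' l + t l * t' j = t' j * t l + t' l * t j := by
  have h1 : ∀ j, t j * t' j = t' j * t j := by
    intro j
    have := congrArg (fun x => x.coeff (Finsupp.single j 1 + Finsupp.single j 1)) h.eq
    simpa only [tr136_lin_mul_coeff, if_true] using this
  refine ⟨h1, fun j l => ?_⟩
  by_cases hjl : j = l
  · subst hjl
    rw [h1]
  · have := congrArg (fun x => x.coeff (Finsupp.single j 1 + Finsupp.single l 1)) h.eq
    simpa only [tr136_lin_mul_coeff, if_neg hjl] using this


end ManinRel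

/-! ### the projection from `D[x]` -/

open MvPolynomial

section Pi
variable {E D : Type} [Field E] [DivisionRing D] [Algebra E D] {n : ℕ}

/-- the projection `D[x] → D ⊗[E] (S ⧸ K)` -/
noncomputable def tr136_pi (D : Type) [DivisionRing D] [Algebra E D]
    (K : Ideal (MvPolynomial (Fin n) E)) : Eg2N D n →ₗ[D] D ⊗[E] (MvPolynomial (Fin n) E ⧸ K) :=
  (Finsupp.linearCombination D (fun m : Fin n →₀ ℕ =>
    (1 : D) ⊗ₜ[E] (Ideal.Quotient.mk K (monomial m (1 : E))))) ∘ₗ
      (AddMonoidAlgebra.coeffLinearEquiv D).toLinearMap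

theorem tr136_pi_single (K : Ideal (MvPolynomial (Fin n) E)) (m : Fin n →₀ ℕ) (d : D) :
    tr136_pi D K (AddMonoidAlgebra.single m d) = d ⊗ₜ[E] (Ideal.Quotient.mk K (monomial m (1 : E))) := by
  simp [tr136_pi, TensorProduct.smul_tmul']

theorem tr136_pi_mul_X (K : Ideal (MvPolynomial (Fin n) E)) (k : Fin n) (u : Eg2N D n) :
    tr136_pi D K (u * AddMonoidAlgebra.single (Finsupp.single k 1) 1) =
      tr136_XD D (r278k_XK K) k (tr136_pi D K u) := by
  induction u using AddMonoidAlgebra.induction_linear with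
  | zero => simp
  | add x y hx hy => rw [add_mul, map_add, map_add, map_add, hx, hy]
  | single m d =>
    rw [AddMonoidAlgebra.single_mul_single, tr136_pi_single, tr136_pi_single, tr136_XD_tmul, mul_one,
      r278k_XK_eqns_cite, LinearMap.mulLeft_apply, ← map_mul, X, monomial_mul, one_mul, add_comm]

theorem tr136_pi_mul_C (K : Ideal (MvPolynomial (Fin n) E)) (c : D) (u : Eg2N D n) :
    tr136_pi D K (u * AddMonoidAlgebra.single 0 c) =
      tr136_rho E _ (MulOpposite.op c) (tr136_pi D K u) := by
  induction u using AddMonoidAlgebra.induction_linear with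
  | zero => simp
  | add x y hx hy => rw [add_mul, map_add, map_add, map_add, hx, hy]
  | single m d =>
    rw [AddMonoidAlgebra.single_mul_single, tr136_pi_single, tr136_pi_single, tr136_rho_tmul, add_zero,
      MulOpposite.unop_op]

theorem tr136_pi_mul_lin (K : Ideal (MvPolynomial (Fin n) E)) (t : Fin n → D) (u : Eg2N D n) :
    tr136_pi D K (u * eg2Lin t) =
      (∑ j, tr136_XD D (r278k_XK K) j * tr136_rho E _ (MulOpposite.op (t j)) :
        Module.End D (D ⊗[E] (MvPolynomial (Fin n) E ⧸ K))) (tr136_pi D K u) := by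
  unfold eg2Lin
  rw [Finset.mul_sum, map_sum, LinearMap.sum_apply]
  refine Finset.sum_congr rfl fun j _ => ?_
  have : (AddMonoidAlgebra.single (Finsupp.single j 1) (t j) : Eg2N D n) =
      AddMonoidAlgebra.single 0 (t j) * AddMonoidAlgebra.single (Finsupp.single j 1) 1 := by
    rw [AddMonoidAlgebra.single_mul_single, zero_add, mul_one]
  rw [this, ← mul_assoc, tr136_pi_mul_X, tr136_pi_mul_C, Module.End.mul_apply]

theorem tr136_pi_iota (K : Ideal (MvPolynomial (Fin n) E)) (g : MvPolynomial (Fin n) E) :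
    tr136_pi D K (eg2Iota E D n g) = (1 : D) ⊗ₜ[E] (Ideal.Quotient.mk K g) := by
  induction g using MvPolynomial.induction_on' with
  | monomial m c =>
    have h1 : eg2Iota E D n (monomial m c) = AddMonoidAlgebra.single m (algebraMap E D c) := by
      unfold eg2Iota
      exact AddMonoidAlgebra.mapRingHom_single _ _ _
    have h2 : (monomial m c : MvPolynomial (Fin n) E) = c • monomial m 1 := by
      rw [smul_monomial, smul_eq_mul, mul_one]
    rw [h1, tr136_pi_single, h2]
    have h3 : Ideal.Quotient.mk K (c • monomial m (1 : E)) = c • Ideal.Quotient.mk K (monomial m (1 : E)) := rfl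
    rw [h3, TensorProduct.tmul_smul, TensorProduct.smul_tmul', Algebra.algebraMap_eq_smul_one]
  | add p q hp hq => rw [map_add, map_add, map_add, hp, hq, TensorProduct.tmul_add]

theorem tr136_pi_ext (K : Ideal (MvPolynomial (Fin n) E)) (u : Eg2N D n) (hu : u ∈ eg2Ext D K) :
    tr136_pi D K u = 0 := by
  have : eg2Ext D K ≤ LinearMap.ker (tr136_pi D K) := by
    unfold eg2Ext
    rw [Submodule.span_le]
    rintro _ ⟨g, hg, rfl⟩
    rw [SetLike.mem_coe, LinearMap.mem_ker, tr136_pi_iota, Ideal.Quotient.eq_zero_iff_mem.2 hg,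
      TensorProduct.tmul_zero]
  exact this hu

theorem tr136_pi_deg (K : Ideal (MvPolynomial (Fin n) E)) (e : ℕ) (u : Eg2N D n)
    (hu : u ∈ eg2Deg D n e) :
    tr136_pi D K u ∈ r278k_piece (F := D) (tr136_eD E D (r278k_eK K)) e := by
  have h1 : tr136_pi D K u = Finsupp.linearCombination D (fun m : Fin n →₀ ℕ =>
    (1 : D) ⊗ₜ[E] (Ideal.Quotient.mk K (monomial m (1 : E)))) u.coeff := rfl
  rw [h1, Finsupp.linearCombination_apply, Finsupp.sum]
  refine Submodule.sum_mem _ fun m hm => Submodule.smul_mem _ _ (Submodule.subset_span ?_)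
  refine ⟨⇑m, hu m (Finsupp.mem_support_iff.1 hm), ?_⟩
  rw [tr136_eD_apply, r278k_eK_eqns_cite]
  unfold bt66_mon
  have : Finsupp.equivFunOnFinite.symm (⇑m) = m := by ext k; rfl
  rw [this]

theorem tr136_pi_one (K : Ideal (MvPolynomial (Fin n) E)) :
    tr136_pi D K 1 = tr136_eD E D (r278k_eK K) 0 := by
  rw [AddMonoidAlgebra.one_def, tr136_pi_single, tr136_eD_apply, r278k_eK_eqns_cite]
  unfold bt66_mon
  have : Finsupp.equivFunOnFinite.symm (0 : Fin n → ℕ) = 0 := by ext k; rfl
  rw [this]

end Pi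

/-! ### the glue -/

open Claims

section Core

variable {E D : Type} [Field E] [DivisionRing D] [Algebra E D] {n : ℕ}

/-- right multiplication by the entries of a matrix -/
noncomputable def tr136_R (I : Ideal (MvPolynomial (Fin n) E)) (τ : Fin n → Fin n → D) (i j : Fin n) :
    Module.End D (D ⊗[E] (MvPolynomial (Fin n) E ⧸ I)) := tr136_rho E _ (MulOpposite.op (τ i j))

/-- right multiplication by the form `t_i` -/
noncomputable def tr136_T (I : Ideal (MvPolynomial (Fin n) E)) (τ : Fin n → Fin n → D) (i : Fin n) :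
    Module.End D (D ⊗[E] (MvPolynomial (Fin n) E ⧸ I)) :=
  ∑ j, tr136_XD D (r278k_XK I) j * tr136_R I τ i j

theorem tr136_pi_T (I : Ideal (MvPolynomial (Fin n) E)) (τ : Fin n → Fin n → D) (i : Fin n)
    (u : Eg2N D n) :
    tr136_pi D I (u * eg2Lin (τ i)) = tr136_T I τ i (tr136_pi D I u) :=
  tr136_pi_mul_lin I (τ i) u

theorem tr136_pi_surj (I : Ideal (MvPolynomial (Fin n) E)) : Function.Surjective (tr136_pi D I) := by
  intro b
  induction b using TensorProduct.induction_on with
  | zero => exact ⟨0, map_zero _⟩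
  | tmul d y =>
    obtain ⟨g, rfl⟩ := Ideal.Quotient.mk_surjective y
    exact ⟨d • eg2Iota E D n g, by
      rw [map_smul, tr136_pi_iota, TensorProduct.smul_tmul', smul_eq_mul, mul_one]⟩
  | add x y hx hy =>
    obtain ⟨u, rfl⟩ := hx
    obtain ⟨v, rfl⟩ := hy
    exact ⟨u + v, map_add _ _ _⟩

theorem tr136_T_comm (I : Ideal (MvPolynomial (Fin n) E)) (τ : Fin n → Fin n → D)
    (h2 : ∀ i k, Commute (eg2Lin (τ i)) (eg2Lin (τ k))) (i k : Fin n) :
    tr136_T I τ i * tr136_T I τ k = tr136_T I τ k * tr136_T I τ i := by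
  refine LinearMap.ext fun b => ?_
  obtain ⟨u, rfl⟩ := tr136_pi_surj (D := D) I b
  rw [Module.End.mul_apply, Module.End.mul_apply, ← tr136_pi_T, ← tr136_pi_T, ← tr136_pi_T,
    ← tr136_pi_T, mul_assoc, mul_assoc, (h2 k i).eq]

theorem tr136_R_X (I : Ideal (MvPolynomial (Fin n) E)) (τ : Fin n → Fin n → D) (i j k : Fin n) :
    tr136_R I τ i j * tr136_XD D (r278k_XK I) k = tr136_XD D (r278k_XK I) k * tr136_R I τ i j :=
  tr136_rho_baseChange _ _

theorem tr136_R_mul (I : Ideal (MvPolynomial (Fin n) E)) (τ σ : Fin n → Fin n → D) (i j k l : Fin n) :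
    tr136_R I τ i j * tr136_R I σ k l = tr136_rho E _ (MulOpposite.op (σ k l * τ i j)) := by
  unfold tr136_R
  rw [← map_mul, ← MulOpposite.op_mul]

theorem tr136_rho_op_sum {M ι : Type} [AddCommGroup M] [Module E M] (s : Finset ι) (f : ι → D) :
    ∑ x ∈ s, tr136_rho E M (MulOpposite.op (f x)) = tr136_rho E M (MulOpposite.op (∑ x ∈ s, f x)) :=
  (map_sum ((tr136_rho E M).toAddMonoidHom.comp
    (MulOpposite.opAddEquiv (α := D)).toAddMonoidHom) f s).symm

theorem tr136_R_manin (I : Ideal (MvPolynomial (Fin n) E)) (τ : Fin n → Fin n → D)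
    (h2 : ∀ i k, Commute (eg2Lin (τ i)) (eg2Lin (τ k))) (i k j l : Fin n) :
    tr136_R I τ i j * tr136_R I τ k l + tr136_R I τ i l * tr136_R I τ k j =
      tr136_R I τ k j * tr136_R I τ i l + tr136_R I τ k l * tr136_R I τ i j := by
  have hman := (tr136_manin (τ i) (τ k) (h2 i k)).2 j l
  simp only [tr136_R_mul, ← map_add, ← MulOpposite.op_add]
  rw [add_comm (τ k l * τ i j), ← hman, add_comm]

theorem tr136_R_manin' (I : Ideal (MvPolynomial (Fin n) E)) (τ : Fin n → Fin n → D)
    (h2 : ∀ i k, Commute (eg2Lin (τ i)) (eg2Lin (τ k))) (i k j : Fin n) :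
    tr136_R I τ i j * tr136_R I τ k j = tr136_R I τ k j * tr136_R I τ i j := by
  have hman := (tr136_manin (τ i) (τ k) (h2 i k)).1 j
  simp only [tr136_R_mul]
  rw [hman]

theorem tr136_inv_comm (τ σ : Fin n → Fin n → D)
    (h1 : ∀ i k, ∑ j, σ i j * τ j k = if i = k then 1 else 0) (i m : Fin n) :
    ∑ l, τ i l * σ l m = if i = m then 1 else 0 := by
  have hmat : (Matrix.of σ : Matrix (Fin n) (Fin n) D) * Matrix.of τ = 1 := by
    ext i k
    simp [Matrix.mul_apply, h1, Matrix.one_apply]
  have h := mul_eq_one_comm.1 hmat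
  have := congrFun (congrFun h i) m
  simpa [Matrix.mul_apply, Matrix.one_apply] using this

theorem tr136_R_inv (I : Ideal (MvPolynomial (Fin n) E)) (τ σ : Fin n → Fin n → D)
    (h : ∀ i m, ∑ l, τ i l * σ l m = if i = m then 1 else 0) (i m : Fin n) :
    ∑ l, tr136_R I σ l m * tr136_R I τ i l = if i = m then 1 else 0 := by
  simp only [tr136_R_mul, tr136_rho_op_sum, h]
  split_ifs <;> simp

theorem tr136_X_eq (I : Ideal (MvPolynomial (Fin n) E)) (τ σ : Fin n → Fin n → D)
    (h1 : ∀ i k, ∑ j, σ i j * τ j k = if i = k then 1 else 0) (j : Fin n) :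
    tr136_XD D (r278k_XK I) j = ∑ i, tr136_T I τ i * tr136_R I σ j i := by
  unfold tr136_T
  simp only [Finset.sum_mul, mul_assoc, tr136_R_mul]
  rw [Finset.sum_comm]
  simp only [← Finset.mul_sum, tr136_rho_op_sum, h1]
  rw [Finset.sum_eq_single j]
  · simp
  · intro l _ hl
    simp [Ne.symm hl]
  · simp

theorem tr136_rhoRev_single_lt (i d : Fin n) (hid : i < d) (A : ℕ) (α : Fin n → ℕ) :
    r278k_rhoRev n (Pi.single i A) < r278k_rhoRev n (α + Pi.single d 1) := by
  classical
  rw [r278k_rhoRev_lt]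
  set γ : Fin n → ℕ := α + Pi.single d 1 with hγ
  have hd : γ d ≠ 0 := by simp [hγ]
  have hne : (Finset.univ.filter fun k => γ k ≠ 0).Nonempty := ⟨d, by simp [hd]⟩
  set i' := (Finset.univ.filter fun k => γ k ≠ 0).max' hne with hi'
  have hi'mem : γ i' ≠ 0 := (Finset.mem_filter.1 (Finset.max'_mem _ hne)).2
  have hdi' : d ≤ i' := Finset.le_max' _ d (by simp [hd])
  refine ⟨i', fun j hj => ?_, ?_⟩
  · have hj0 : γ j = 0 := by
      by_contra h
      exact absurd (Finset.le_max' _ j (by simp [h])) (not_le.2 hj)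
    rw [hj0, Pi.single_eq_of_ne]
    exact ((hid.trans_le hdi').trans hj).ne'
  · rw [Pi.single_eq_of_ne (hid.trans_le hdi').ne']
    exact Nat.pos_of_ne_zero hi'mem

theorem tr136_cnt_add (U : Set (Fin n → ℕ)) (d : ℕ) :
    (r278k_std U d).ncard + bt66_cnt U d = {α : Fin n → ℕ | ∑ i, α i = d}.ncard := by
  have h2 : {α : Fin n → ℕ | ∑ i, α i = d} = r278k_std U d ∪ (U ∩ {m | ∑ i, m i = d}) := by
    ext α
    simp only [Set.mem_ofPred_eq, Set.mem_union, Set.mem_inter_iff, r278k_std_eqns_cite]
    tauto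
  have h3 : Disjoint (r278k_std U d) (U ∩ {m | ∑ i, m i = d}) := by
    rw [Set.disjoint_left]
    intro α h h'
    exact h.1 h'.1
  have h4 := Set.ncard_union_eq h3 (r278k_std_finite _ d)
    ((r278k_deg_finite d).subset fun _ h => h.2)
  rw [← h2] at h4
  unfold bt66_cnt
  omega

theorem tr136_gradedBetti_eq (K : Ideal (MvPolynomial (Fin n) E)) (p j : ℕ) :
    C0451.gradedBetti K p j =
      r278m_betti (r278k_XK K) (r278k_piece (F := E) (r278k_eK K)) p j := by
  rw [r278m_gradedBetti_eq]
  have : C0451.quotPiece K = r278k_piece (F := E) (r278k_eK K) :=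
    funext fun d => (r278k_piece_eq_quotPiece K d).symm
  rw [this]
  rfl

/-- **Section 3 of the Betti paper** for given data of the box. -/
theorem tr136_core (a : Fin n → ℕ) (ha : ∀ i, 1 ≤ a i) (I : Ideal (MvPolynomial (Fin n) E))
    (τ σ : Fin n → Fin n → D)
    (h1 : ∀ i k, ∑ j, σ i j * τ j k = if i = k then 1 else 0)
    (h2 : ∀ i k, Commute (eg2Lin (τ i)) (eg2Lin (τ k)))
    (h3 : ∀ i, ∃ C : Fin n → Eg2N D n, (∀ d, d ≤ i → C d = 0) ∧
      (∀ d, C d ∈ eg2Deg D n (a i - 1)) ∧
      eg2Lin (τ i) ^ a i - ∑ d, C d * eg2Lin (τ d) ∈ eg2Ext D I) :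
    ∃ U : Set (Fin n → ℕ), bt66_Up U ∧ (∀ m, C0451.inPowers (le_refl n) a m = true → m ∈ U) ∧
      (∀ d, Module.finrank E (C0451.degPart I d) = bt66_cnt U d) ∧
      ∀ p j, C0451.gradedBetti I p j ≤ C0451.gradedBetti (bt66_ideal E U) p j := by
  classical
  set X := tr136_XD D (r278k_XK I) with hXdef
  set eX := tr136_eD E D (r278k_eK I) with heXdef
  set T := tr136_T I τ with hTdef
  have heX : ∀ i α, X i (eX α) = eX (α + Pi.single i 1) := tr136_he _ _ (r278k_he I)
  have hXc : ∀ k l b, X k (X l b) = X l (X k b) := tr136_hX _ (r278k_hX I)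
  have hTc : ∀ i k, T i * T k = T k * T i := tr136_T_comm I τ h2
  have hTc' : ∀ k l b, T k (T l b) = T l (T k b) := fun k l b => LinearMap.congr_fun (hTc k l) b
  obtain ⟨eT, heT0, heT⟩ := tr136_exists_family T hTc (eX 0)
  have hRP : ∀ (ρ : Fin n → Fin n → D) i j d, ∀ b ∈ r278k_piece (F := D) eX d,
      tr136_R I ρ i j b ∈ r278k_piece (F := D) eX d :=
    fun ρ i j d b hb => tr136_rho_piece _ _ d b hb
  have hTX : ∀ i d, ∀ b ∈ r278k_piece (F := D) eX d, T i b ∈ r278k_piece (F := D) eX (d + 1) := by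
    intro i d b hb
    rw [hTdef]
    unfold tr136_T
    rw [LinearMap.sum_apply]
    refine Submodule.sum_mem _ fun j _ => ?_
    rw [Module.End.mul_apply]
    exact r278k_piece_succ X eX heX j d _ (hRP τ i j d b hb)
  have hXT : ∀ j d, r278k_piece (F := D) eT d = r278k_piece (F := D) eX d →
      ∀ b ∈ r278k_piece (F := D) eX d, X j b ∈ r278k_piece (F := D) eT (d + 1) := by
    intro j d hd b hb
    rw [hXdef, tr136_X_eq I τ σ h1 j, LinearMap.sum_apply]
    refine Submodule.sum_mem _ fun i _ => ?_
    rw [Module.End.mul_apply]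
    apply r278k_piece_succ T eT heT i d
    rw [hd]
    exact hRP σ j i d b hb
  have hpc : ∀ d, r278k_piece (F := D) eT d = r278k_piece (F := D) eX d :=
    tr136_piece_eq X T eX eT heX heT heT0 hTX hXT
  have hU : bt66_Up (r278k_leadSet D eT (r278k_rhoRev n)) :=
    r278k_leadSet_up T eT heT _ r278k_rhoRev_add
  have hpow : ∀ i A, tr136_pi D I (eg2Lin (τ i) ^ A) = eT (Pi.single i A) := by
    intro i A
    induction A with
    | zero => rw [pow_zero, tr136_pi_one, Pi.single_zero, heT0]
    | succ A ih => rw [pow_succ, tr136_pi_T, ih, heT, ← Pi.single_add]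
  have hsingle : ∀ i, Pi.single i (a i) ∈ r278k_leadSet D eT (r278k_rhoRev n) := by
    intro i
    obtain ⟨C, hC1, hC2, hC3⟩ := h3 i
    have h4 := tr136_pi_ext I _ hC3
    rw [map_sub, map_sum, sub_eq_zero, hpow] at h4
    rw [r278k_leadSet_eqns_cite, h4]
    refine Submodule.sum_mem _ fun d _ => ?_
    by_cases hd : d ≤ i
    · rw [hC1 d hd, zero_mul, map_zero]
      exact Submodule.zero_mem _
    · rw [tr136_pi_T]
      have h5 : tr136_pi D I (C d) ∈ r278k_piece (F := D) eT (a i - 1) := by
        rw [hpc]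
        exact tr136_pi_deg I _ _ (hC2 d)
      have h6 : T d (tr136_pi D I (C d)) ∈ (r278k_piece (F := D) eT (a i - 1)).map (T d) :=
        ⟨_, h5, rfl⟩
      rw [r278k_piece, Submodule.map_span] at h6
      refine Submodule.span_mono ?_ h6
      rintro _ ⟨_, ⟨α, hα, rfl⟩, rfl⟩
      refine ⟨α + Pi.single d 1, ⟨?_, tr136_rhoRev_single_lt i d (not_le.1 hd) _ α⟩,
        (heT d α).symm⟩
      have hα' : ∑ k, α k = a i - 1 := hα
      have := ha i
      simp only [Pi.add_apply, Finset.sum_add_distrib, Finset.sum_pi_single', Finset.mem_univ,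
        if_true, hα']
      omega
  refine ⟨r278k_leadSet D eT (r278k_rhoRev n), hU, ?_, ?_, ?_⟩
  · intro m hm
    unfold C0451.inPowers at hm
    rw [decide_eq_true_iff] at hm
    obtain ⟨i, hi⟩ := hm
    refine hU _ (hsingle i) m ?_
    intro k
    by_cases hk : k = i
    · subst hk
      simpa using hi
    · simp [hk]
  · intro d
    have g1 := r278k_finrank_quotPiece_add I d
    rw [← r278k_piece_eq_quotPiece, ← tr136_finrank_piece_bc (D := D), ← heXdef, ← hpc,
      r278k_finrank_piece eT _ r278k_rhoRev_inj d, r278k_finrank_homog] at g1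
    have g2 := tr136_cnt_add (r278k_leadSet D eT (r278k_rhoRev n)) d
    omega
  · intro p j
    set MU := bt66_ideal E (r278k_leadSet D eT (r278k_rhoRev n)) with hMU
    rw [tr136_gradedBetti_eq, tr136_gradedBetti_eq,
      ← tr136_betti_bc (D := D) _ (r278k_hX I) _ (r278k_he I),
      ← tr136_betti_bc (D := D) _ (r278k_hX MU) _ (r278k_he MU), ← hXdef, ← heXdef]
    have hbt : r278m_betti X (r278k_piece (F := D) eX) p j =
        r278m_betti T (r278k_piece (F := D) eT) p j := by
      have hP : r278k_piece (F := D) eT = r278k_piece (F := D) eX := funext hpc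
      rw [hP]
      have a1 := r278m_betti_add_ranks X hXc (P := r278k_piece (F := D) eX)
        (r278k_piece_succ X eX heX) (r278k_piece_finite eX) p j
      have a2 := r278m_betti_add_ranks T hTc' (P := r278k_piece (F := D) eX) hTX
        (r278k_piece_finite eX) p j
      have r1 := tr136_rank_transfer X (tr136_R I τ) (tr136_R I σ) (tr136_R_X I τ)
        (tr136_R_manin I τ h2) (tr136_R_manin' I τ h2)
        (tr136_R_inv I τ σ (tr136_inv_comm τ σ h1)) (r278k_piece (F := D) eX)
        (r278k_piece_finite eX) (hRP τ) p j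
      have r2 := tr136_rank_transfer X (tr136_R I τ) (tr136_R I σ) (tr136_R_X I τ)
        (tr136_R_manin I τ h2) (tr136_R_manin' I τ h2)
        (tr136_R_inv I τ σ (tr136_inv_comm τ σ h1)) (r278k_piece (F := D) eX)
        (r278k_piece_finite eX) (hRP τ) (p + 1) j
      have hT' : (fun i => ∑ j, X j * tr136_R I τ i j) = T := rfl
      rw [hT'] at r1 r2
      omega
    rw [hbt]
    exact r278k_lead_betti_le T (tr136_XD D (r278k_XK MU)) hTc' (tr136_hX _ (r278k_hX MU))
      eT (tr136_eD E D (r278k_eK MU)) heT (tr136_he _ _ (r278k_he MU)) (r278k_rhoRev n)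
      r278k_rhoRev_inj r278k_rhoRev_add
      (fun α hα => by
        rw [tr136_eD_apply, r278k_eK_ideal_zero _ hα, TensorProduct.tmul_zero])
      (fun d => tr136_indepOn_bc _ _ (r278k_eK_ideal_indep _ hU d)) p j

/-- **B1 = Proposition 3.2 of the Betti paper from THE BOX** (`bt66_mono_bound` follows by
`hub278_BOX` and `hub278_box_mono`). -/
theorem tr136_mono_bound (E : Type) [Field E] (n : ℕ) (a : Fin n → ℕ) (ha : ∀ i, 1 ≤ a i)
    (I : Ideal (MvPolynomial (Fin n) E)) (hbox : Eg2Box E n a I) :
    ∃ U : Set (Fin n → ℕ), bt66_Up U ∧ (∀ m, C0451.inPowers (le_refl n) a m = true → m ∈ U) ∧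
      (∀ d, Module.finrank E (C0451.degPart I d) = bt66_cnt U d) ∧
      ∀ p j, C0451.gradedBetti I p j ≤ C0451.gradedBetti (bt66_ideal E U) p j := by
  obtain ⟨D, _, _, τ, σ, h1, h2, h3⟩ := hbox
  exact tr136_core a ha I τ σ h1 h2 h3

end Core

end Claimed.Agent.R278
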