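-- KEEP
import Claimed.Agent.R278.Sec2Box

/-!
# Row 278, C4-Q (a try: the box for `n` quadrics in `n` variables, `a = (2, …, 2)`, `c = n` ONLY; THE ROW STAYS OPEN)
`R278/QuadCramer`, cluster D      (pen helper273, prefix `qd273_`)

* `qd273_cramer` : LEFT CRAMER for a square matrix over a division ring whose entries in DIFFERENT rows commute:
  if the row determinant `qd273_det τ` is not zero, `τ` has a left inverse.   PROVED, no gap.
-/

set_option autoImplicit false

open MvPolynomial

noncomputable section

namespace Claimed.Agent.R278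

section cramer

variable {D : Type} [Ring D] {n : ℕ}

/-- entries of different rows commute -/
def Qd273RowComm (τ : Fin n → Fin n → D) : Prop :=
  ∀ i i' j j', i ≠ i' → Commute (τ i j) (τ i' j')

theorem qd273_pw {τ : Fin n → Fin n → D} (h : Qd273RowComm τ) (s : Finset (Fin n)) (κ : Fin n → Fin n) :
    (s : Set (Fin n)).Pairwise (Function.onFun Commute fun i => τ i (κ i)) :=
  fun i _ i' _ hne => h i i' _ _ hne

/-- the product `∏_{i ∈ s} τ i (κ i)` -/
def qd273_M (τ : Fin n → Fin n → D) (h : Qd273RowComm τ) (s : Finset (Fin n)) (κ : Fin n → Fin n) : D :=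
  s.noncommProd (fun i => τ i (κ i)) (qd273_pw h s κ)

/-- the row determinant with the columns substituted by `φ` -/
def qd273_detS (τ : Fin n → Fin n → D) (h : Qd273RowComm τ) (φ : Fin n → Fin n) : D :=
  ∑ π : Equiv.Perm (Fin n), ((Equiv.Perm.sign π : ℤˣ) : ℤ) • qd273_M τ h Finset.univ (fun i => φ (π i))

/-- the row determinant -/
def qd273_det (τ : Fin n → Fin n → D) (h : Qd273RowComm τ) : D := qd273_detS τ h id

/-- two equal columns: the determinant vanishes (no commutativity needed) -/
theorem qd273_detS_eq_zero (τ : Fin n → Fin n → D) (h : Qd273RowComm τ) (φ : Fin n → Fin n)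
    {a b : Fin n} (hab : a ≠ b) (hφ : φ a = φ b) : qd273_detS τ h φ = 0 := by
  classical
  unfold qd273_detS
  refine Finset.sum_involution (fun π _ => Equiv.swap a b * π) ?_ ?_ (fun _ _ => Finset.mem_univ _) ?_
  · intro π _
    have h1 : (fun i => φ ((Equiv.swap a b * π) i)) = fun i => φ (π i) := by
      funext i
      simp only [Equiv.Perm.mul_apply]
      by_cases h1 : π i = a
      · rw [h1, Equiv.swap_apply_left, hφ]
      · by_cases h2 : π i = b
        · rw [h2, Equiv.swap_apply_right, hφ]
        · rw [Equiv.swap_apply_of_ne_of_ne h1 h2]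
    rw [h1, Equiv.Perm.sign_mul, Equiv.Perm.sign_swap hab]
    simp
  · intro π _ _ heq
    have : Equiv.swap a b = 1 := by
      have := congrArg (· * π⁻¹) heq
      simpa using this
    exact hab (Equiv.swap_eq_one_iff.1 this)
  · intro π _
    simp [← mul_assoc]

/-- the cofactor -/
def qd273_adj (τ : Fin n → Fin n → D) (h : Qd273RowComm τ) (k i : Fin n) : D :=
  ∑ π : Equiv.Perm (Fin n), if π i = k then
    ((Equiv.Perm.sign π : ℤˣ) : ℤ) • qd273_M τ h (Finset.univ.erase i) (fun i' => π i') else 0

theorem qd273_adj_mul (τ : Fin n → Fin n → D) (h : Qd273RowComm τ) (k j : Fin n) :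
    ∑ i, qd273_adj τ h k i * τ i j = qd273_detS τ h (Function.update id k j) := by
  classical
  unfold qd273_adj qd273_detS
  simp only [Finset.sum_mul]
  rw [Finset.sum_comm]
  refine Finset.sum_congr rfl fun π _ => ?_
  rw [Finset.sum_eq_single (π.symm k)]
  · rw [if_pos (by simp), smul_mul_assoc]
    congr 1
    unfold qd273_M
    rw [← Finset.noncommProd_erase_mul Finset.univ (Finset.mem_univ (π.symm k))
      (fun i => τ i (Function.update id k j (π i))) (qd273_pw h _ _)]
    have h2 : τ (π.symm k) (Function.update id k j (π (π.symm k))) = τ (π.symm k) j := by simp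
    rw [h2]
    congr 1
    refine Finset.noncommProd_congr rfl ?_ _
    intro i hi
    have hne : π i ≠ k := by
      intro hk
      exact (Finset.mem_erase.1 hi).1 (by rw [← hk]; simp)
    simp [Function.update_of_ne hne]
  · intro i _ hi
    rw [if_neg, zero_mul]
    intro hk
    exact hi (by rw [← hk]; simp)
  · intro hh; exact absurd (Finset.mem_univ _) hh

end cramer

/-- **LEFT CRAMER.** -/
theorem qd273_cramer {D : Type} [DivisionRing D] {n : ℕ} (τ : Fin n → Fin n → D) (h : Qd273RowComm τ)
    (hΔ : qd273_det τ h ≠ 0) :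
    ∃ σ : Fin n → Fin n → D, ∀ i k, ∑ j, σ i j * τ j k = if i = k then 1 else 0 := by
  classical
  refine ⟨fun i j => (qd273_det τ h)⁻¹ * qd273_adj τ h i j, fun i k => ?_⟩
  simp only [mul_assoc]
  rw [← Finset.mul_sum, qd273_adj_mul]
  by_cases hik : i = k
  · subst hik
    have hu : Function.update (id : Fin n → Fin n) i i = id := Function.update_eq_self i id
    rw [if_pos rfl, hu]
    exact inv_mul_cancel₀ hΔ
  · rw [if_neg hik, qd273_detS_eq_zero τ h _ hik (by simp [Function.update_of_ne (Ne.symm hik)]), mul_zero]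

end Claimed.Agent.R278
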