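-- KEEP
import Mathlib

/-!
# Row 278, C4-Q (a try, by the lead's word of 22:19Z): the box for `n` quadrics in `n` variables.
`R278/QuadDefs` = the interfaces between the clusters      (pen helper269, prefix `qc`)

Text of the proof: header of `R278/Wall.lean`, part (A).  MODEL-FREE interfaces:
* `QcPack B`  (cluster P): the commutative package of the complete intersection `R = F[X]/(q)`, `q_c = ∑ B_c(a,b) X_a X_b`;
* `QcMod B 𝓛` (cluster G): a graded module `𝓛` over `P = F[Y]` with Clifford operators `L_a` (Fock model: `𝓛 = Finset ι → P`);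
* `qn_injective` (cluster N, `R278/QuadN`): a nonzero homogeneous endomorphism of `𝓛` that commutes with the `L_a` is injective;
* cluster D: `D` = centraliser of the `L_a` in `End_K (K ⊗ 𝓛)`, the forms `t_i`, left Cramer, `Eg2Box`.
THE ROW STAYS OPEN: this is the case `a = (2, …, 2)`, `c = n` only.
-/

set_option autoImplicit false

open MvPolynomial

noncomputable section

namespace Claimed.Agent.R278

variable {F : Type} [Field F] {ι : Type} [Fintype ι] [DecidableEq ι]

/-- the quadric `q_c = ∑ B_c(a,b) X_a X_b` -/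
def qcq (B : ι → Matrix ι ι F) (c : ι) : MvPolynomial ι F := ∑ a, ∑ b, C (B c a b) * X a * X b

/-- the matrix `∑_c Y_c B_c` over `P = F[Y]` -/
def qcM (B : ι → Matrix ι ι F) : Matrix ι ι (MvPolynomial ι F) := fun a b => ∑ c, X c * C (B c a b)

/-- **(P) the commutative package**: `I` = a homogeneous basis of `R = F[X]/(q)`, `U a` = multiplication by `X_a` on `R`,
`V a c` = the coefficient of `q_c` in `X_a ·` on `F[X]/(q)²` (a free module over `F[q]/(q)²` on `I`). -/
structure QcPack (B : ι → Matrix ι ι F) where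
  I : Type
  fI : Fintype I
  dI : DecidableEq I
  deg : I → ℕ
  U : ι → Matrix I I F
  V : ι → ι → Matrix I I F
  hU : ∀ a i' i, U a i' i ≠ 0 → deg i' = deg i + 1
  hV : ∀ a c i' i, V a c i' i ≠ 0 → deg i' + 1 = deg i
  p1 : ∀ a b, U a * U b = U b * U a
  p2 : ∀ c, ∑ a, ∑ b, B c a b • (U a * U b) = 0
  p3 : ∀ a b c, U a * V b c + V a c * U b = U b * V a c + V b c * U a
  p4 : ∀ c c', ∑ a, ∑ b, B c' a b • (U a * V b c + V a c * U b) = if c = c' then 1 else 0
  p5 : ∀ j, (Finset.univ.filter fun i => deg i = j).card = (Fintype.card ι).choose j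

attribute [instance] QcPack.fI QcPack.dI

/-- **(G) a graded Clifford module** over `P = F[Y]` (`deg L_a = 1`, `deg Y_c = 2`) with the Hilbert function of `F[x_1..x_N]`. -/
structure QcMod (B : ι → Matrix ι ι F) (𝓛 : Type) [AddCommGroup 𝓛] [Module (MvPolynomial ι F) 𝓛] [Module F 𝓛] where
  L : ι → 𝓛 →ₗ[MvPolynomial ι F] 𝓛
  rel : ∀ a b x, L a (L b x) + L b (L a x) = (qcM B a b + qcM B b a) • x
  gr : ℕ → Submodule F 𝓛
  pr : ℕ → 𝓛 →ₗ[F] 𝓛
  pr_mem : ∀ d x, pr d x ∈ gr d
  pr_self : ∀ d x, x ∈ gr d → pr d x = x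
  pr_ne : ∀ d d' x, x ∈ gr d → d ≠ d' → pr d' x = 0
  sum_pr : ∀ x, ∃ D, x = ∑ d ∈ Finset.range D, pr d x
  L_mem : ∀ a d x, x ∈ gr d → L a x ∈ gr (d + 1)
  smul_mem : ∀ r (p : MvPolynomial ι F), p.IsHomogeneous r → ∀ d x, x ∈ gr d → p • x ∈ gr (d + 2 * r)
  fin : ∀ d, Module.Finite F (gr d)
  dim : ∀ d, Module.finrank F (gr d) = (d + Fintype.card ι - 1).choose (Fintype.card ι - 1)

/-- one more variable `none` with the quadric `X_none ²` -/
def qcOpt {κ : Type} (B : κ → Matrix κ κ F) : Option κ → Matrix (Option κ) (Option κ) F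
  | some k => fun a b => match a, b with
    | some a, some b => B k a b
    | _, _ => 0
  | none => fun a b => match a, b with
    | none, none => 1
    | _, _ => 0

/-- `σ` independent copies of a system -/
def qcPow (σ : Type) [DecidableEq σ] {κ : Type} (B : κ → Matrix κ κ F) :
    σ × κ → Matrix (σ × κ) (σ × κ) F :=
  fun c a b => if a.1 = c.1 ∧ b.1 = c.1 then B c.2 a.2 b.2 else 0

/-- change of the index type -/
def qcRe {ι' : Type} (e : ι ≃ ι') (B : ι → Matrix ι ι F) : ι' → Matrix ι' ι' F :=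
  fun c a b => B (e.symm c) (e.symm a) (e.symm b)

/-- the symmetric matrix of a quadric -/
def qcB {n : ℕ} (f : Fin n → MvPolynomial (Fin n) F) : Fin n → Matrix (Fin n) (Fin n) F :=
  fun k a b => if a = b then coeff (Finsupp.single a 2) (f k)
    else coeff (Finsupp.single a 1 + Finsupp.single b 1) (f k) / 2

/-- the big system: `n` sites, each with the variables `ξ_1..ξ_n, ζ` and the quadrics `f_1(ξ)..f_n(ξ), ζ²` -/
def qcBig {n : ℕ} (f : Fin n → MvPolynomial (Fin n) F) :
    Fin n × Option (Fin n) → Matrix (Fin n × Option (Fin n)) (Fin n × Option (Fin n)) F :=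
  qcPow (Fin n) (qcOpt (qcB f))

end Claimed.Agent.R278
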