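-- KEEP
/-
Row 278, C4-Q (the quadric box), `R278/QuadFock76` : THE FOCK MODEL OF A CLIFFORD ALGEBRA      (pen helper76, prefix `qf76_`)

`K` a commutative ring, `b : Fin N → Fin N → K` ANY matrix, `Λ = (Finset (Fin N) → K)`.
* `qf76_eps a`, `qf76_iota a` : creation and annihilation, with the canonical anticommutation relations
  `qf76_eps_eps`, `qf76_iota_iota`, `qf76_iota_eps`;
* `qf76_L b a = ε_a + ∑ b a a' ι_a'` : `L_a L_c + L_c L_a = b a c + b c a`                        (`qf76_L_L`);
* `qf76_Rt b c = ε_c - ∑ b a c ι_a` anticommutes with every `L_a`                                 (`qf76_L_Rt`);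
* `qf76_par` = the parity; `qf76_R b c = Rt_c ∘ parity` COMMUTES with every `L_a`                  (`qf76_R_L`),
  and `R_c R_c' + R_c' R_c = b c c' + b c' c` (the SAME relations, sign `+`)                       (`qf76_R_R`);
* `qf76_cyclic` : an endomorphism which commutes with all `L_a` and kills the vacuum is zero; `qf76_top_of_L`, `qf76_top_of_R`
  (the vacuum is cyclic for both actions), `qf76_exists_right` (every vector is `ρ vac` with `ρ` in the centraliser)   (text of helper66);
* over `K = F[Y]` : the grading `deg (Y^m e_T) = 2 |m| + |T|` : `qf76_gr`, `qf76_pr` with `qf76_pr_mem`, `qf76_pr_self`, `qf76_pr_ne`,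
  `qf76_sum_pr`; `qf76_smul_mem` (a form of degree `r` raises the degree by `2 r`), `qf76_L_mem'` (`L_a` has degree 1).
USED BY: `QuadFock` (the Fock space is a `QcMod`), `QuadDiv` (the centraliser of the `L_a` over `Frac F[Y]` is a division ring),
`QuadBox`, `QuadHub` (`qc_box`, `hub278_S0522_quadrics_le`, `hub278_S0523_quadrics_le`: the row for `a = (2, …, 2)`; the row itself stays unproved).
-/
import Claimed.Agent.R278.Twist76
import Claimed.Agent.R278.QuadDefs

set_option autoImplicit false
set_option linter.unusedSimpArgs false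

namespace Claimed.Agent.R278

section fock

variable {K : Type} [CommRing K] {N : ℕ}

/-- the Fock space -/
abbrev Qf76Lam (K : Type) (N : ℕ) : Type := Finset (Fin N) → K

/-- annihilation -/
def qf76_iota (K : Type) [CommRing K] {N : ℕ} (k : Fin N) : Module.End K (Qf76Lam K N) where
  toFun c U := if k ∉ U then r278m_sgn U k • c (insert k U) else 0
  map_add' c c' := by
    funext U
    by_cases h : k ∈ U <;> simp [h, smul_add]
  map_smul' a c := by
    funext U
    by_cases h : k ∈ U
    · simp [h]
    · simp only [h, not_false_eq_true, if_true, Pi.smul_apply, RingHom.id_apply]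
      rw [smul_comm]

/-- creation -/
def qf76_eps (K : Type) [CommRing K] {N : ℕ} (h : Fin N) : Module.End K (Qf76Lam K N) where
  toFun c U := if h ∈ U then r278m_sgn (U.erase h) h • c (U.erase h) else 0
  map_add' c c' := by
    funext U
    by_cases hh : h ∈ U <;> simp [hh, smul_add]
  map_smul' a c := by
    funext U
    by_cases hh : h ∈ U
    · simp only [hh, if_true, Pi.smul_apply, RingHom.id_apply]
      rw [smul_comm]
    · simp [hh]

/-- parity -/
def qf76_par (K : Type) [CommRing K] (N : ℕ) : Module.End K (Qf76Lam K N) where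
  toFun c U := ((-1 : ℤ) ^ U.card) • c U
  map_add' c c' := by funext U; simp [smul_add]
  map_smul' a c := by
    funext U
    simp only [Pi.smul_apply, RingHom.id_apply]
    rw [smul_comm]

theorem qf76_iota_apply (k : Fin N) (c : Qf76Lam K N) (U : Finset (Fin N)) :
    qf76_iota K k c U = if k ∉ U then r278m_sgn U k • c (insert k U) else 0 := rfl

theorem qf76_eps_apply (h : Fin N) (c : Qf76Lam K N) (U : Finset (Fin N)) :
    qf76_eps K h c U = if h ∈ U then r278m_sgn (U.erase h) h • c (U.erase h) else 0 := rfl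

theorem qf76_par_apply (c : Qf76Lam K N) (U : Finset (Fin N)) :
    qf76_par K N c U = ((-1 : ℤ) ^ U.card) • c U := rfl

theorem qf76_iota_iota_self (l : Fin N) : qf76_iota K l * qf76_iota K l = 0 := by
  refine LinearMap.ext fun c => ?_
  funext U
  simp [qf76_iota_apply]

theorem qf76_iota_iota (k l : Fin N) :
    qf76_iota K k * qf76_iota K l + qf76_iota K l * qf76_iota K k = 0 := by
  by_cases hkl : k = l
  · subst hkl
    rw [qf76_iota_iota_self, add_zero]
  refine LinearMap.ext fun c => ?_
  funext U
  simp only [LinearMap.add_apply, Module.End.mul_apply, Pi.add_apply, qf76_iota_apply,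
    Finset.mem_insert, not_or, LinearMap.zero_apply, Pi.zero_apply]
  by_cases hk : k ∈ U
  · simp [hk]
  by_cases hl : l ∈ U
  · simp [hl]
  have h1 : l ≠ k := fun h => hkl h.symm
  simp only [hk, hl, hkl, h1, not_false_eq_true, and_self, if_true, smul_smul]
  rw [Finset.insert_comm l k U, ← add_smul, r278m_sgn_swap U hkl hk hl, zero_smul]

theorem qf76_eps_eps_self (l : Fin N) : qf76_eps K l * qf76_eps K l = 0 := by
  refine LinearMap.ext fun c => ?_
  funext U
  simp [qf76_eps_apply]

theorem qf76_eps_eps (k l : Fin N) :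
    qf76_eps K k * qf76_eps K l + qf76_eps K l * qf76_eps K k = 0 := by
  by_cases hkl : k = l
  · subst hkl
    rw [qf76_eps_eps_self, add_zero]
  refine LinearMap.ext fun c => ?_
  funext U
  simp only [LinearMap.add_apply, Module.End.mul_apply, Pi.add_apply, qf76_eps_apply,
    Finset.mem_erase, LinearMap.zero_apply, Pi.zero_apply]
  by_cases hk : k ∈ U
  swap
  · simp [hk]
  by_cases hl : l ∈ U
  swap
  · simp [hl]
  have h1 : l ≠ k := fun h => hkl h.symm
  simp only [hk, hl, hkl, h1, ne_eq, not_false_eq_true, and_self, if_true, smul_smul]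
  set V := (U.erase k).erase l with hV
  have hVk : k ∉ V := by simp [hV]
  have hVl : l ∉ V := by simp [hV]
  have e1 : (U.erase l).erase k = V := by rw [hV, Finset.erase_right_comm]
  have e2 : U.erase k = insert l V := by
    rw [hV, Finset.insert_erase (Finset.mem_erase.2 ⟨h1, hl⟩)]
  have e3 : U.erase l = insert k V := by
    rw [← e1, Finset.insert_erase (Finset.mem_erase.2 ⟨hkl, hk⟩)]
  rw [e1, e2, e3, ← add_smul]
  have := r278m_sgn_swap V hkl hVk hVl
  have h2 : r278m_sgn (insert l V) k * r278m_sgn V l + r278m_sgn (insert k V) l * r278m_sgn V k = 0 := by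
    linear_combination this
  rw [h2, zero_smul]

theorem qf76_iota_eps (k h : Fin N) :
    qf76_iota K k * qf76_eps K h + qf76_eps K h * qf76_iota K k = if k = h then 1 else 0 := by
  refine LinearMap.ext fun c => ?_
  funext U
  by_cases hkh : k = h
  · subst hkh
    simp only [if_true, LinearMap.add_apply, Module.End.mul_apply, Pi.add_apply, qf76_iota_apply,
      qf76_eps_apply, Module.End.one_apply]
    by_cases hk : k ∈ U
    · simp only [hk, not_true_eq_false, if_false, if_true, Finset.mem_erase, ne_eq, false_and,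
        not_false_eq_true, zero_add, smul_smul, r278y_sgn_sq, one_smul, Finset.insert_erase hk]
    · simp only [hk, not_false_eq_true, if_true, if_false, Finset.mem_insert_self, add_zero,
        Finset.erase_insert hk, smul_smul, r278y_sgn_sq, one_smul]
  · simp only [hkh, if_false, LinearMap.add_apply, Module.End.mul_apply, Pi.add_apply,
      LinearMap.zero_apply, Pi.zero_apply, qf76_iota_apply, qf76_eps_apply]
    by_cases hk : k ∈ U
    · have : k ∈ U.erase h := Finset.mem_erase.2 ⟨hkh, hk⟩
      simp [hk, this]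
    by_cases hh : h ∈ U
    · have h1 : h ∈ insert k U := Finset.mem_insert_of_mem hh
      have h2 : k ∉ U.erase h := fun hc => hk (Finset.mem_of_mem_erase hc)
      have h3 : h ∉ U.erase h := Finset.notMem_erase h U
      have h4 : (insert k U).erase h = insert k (U.erase h) :=
        Finset.erase_insert_of_ne hkh
      simp only [hk, hh, h1, h2, not_false_eq_true, if_true, smul_smul, h4]
      rw [← add_smul]
      have hswap := r278m_sgn_swap (U.erase h) hkh h2 h3
      rw [Finset.insert_erase hh] at hswap
      have hA := r278y_sgn_sq (U.erase h) k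
      have hD := r278y_sgn_sq U k
      have : r278m_sgn U k * r278m_sgn (insert k (U.erase h)) h +
          r278m_sgn (U.erase h) h * r278m_sgn (U.erase h) k = 0 := by
        linear_combination (r278m_sgn (U.erase h) k * r278m_sgn U k) * hswap
          - (r278m_sgn U k * r278m_sgn (insert k (U.erase h)) h) * hA
          - (r278m_sgn (U.erase h) h * r278m_sgn (U.erase h) k) * hD
      rw [this, zero_smul]
    · have h1 : h ∉ insert k U := by
        simp only [Finset.mem_insert, not_or]
        exact ⟨fun hc => hkh hc.symm, hh⟩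
      simp [hk, hh, h1]

theorem qf76_eps_iota (h k : Fin N) :
    qf76_eps K h * qf76_iota K k + qf76_iota K k * qf76_eps K h = if h = k then 1 else 0 := by
  rw [add_comm, qf76_iota_eps]
  simp only [eq_comm]

theorem qf76_par_par : qf76_par K N * qf76_par K N = 1 := by
  refine LinearMap.ext fun c => ?_
  funext U
  simp only [Module.End.mul_apply, qf76_par_apply, smul_smul, Module.End.one_apply]
  rw [← pow_add, ← two_mul, pow_mul]
  simp

theorem qf76_par_eps (h : Fin N) : qf76_par K N * qf76_eps K h + qf76_eps K h * qf76_par K N = 0 := by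
  refine LinearMap.ext fun c => ?_
  funext U
  simp only [LinearMap.add_apply, Module.End.mul_apply, Pi.add_apply, qf76_par_apply, qf76_eps_apply,
    LinearMap.zero_apply, Pi.zero_apply]
  by_cases hh : h ∈ U
  · simp only [hh, if_true, smul_smul]
    rw [← add_smul]
    have hc : U.card = (U.erase h).card + 1 := (Finset.card_erase_add_one hh).symm
    rw [hc, pow_succ]
    have : (-1 : ℤ) ^ (U.erase h).card * -1 * r278m_sgn (U.erase h) h +
        r278m_sgn (U.erase h) h * (-1) ^ (U.erase h).card = 0 := by ring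
    rw [this, zero_smul]
  · simp [hh]

theorem qf76_par_iota (k : Fin N) : qf76_par K N * qf76_iota K k + qf76_iota K k * qf76_par K N = 0 := by
  refine LinearMap.ext fun c => ?_
  funext U
  simp only [LinearMap.add_apply, Module.End.mul_apply, Pi.add_apply, qf76_par_apply, qf76_iota_apply,
    LinearMap.zero_apply, Pi.zero_apply]
  by_cases hk : k ∈ U
  · simp [hk]
  · simp only [hk, not_false_eq_true, if_true, smul_smul]
    rw [← add_smul, Finset.card_insert_of_notMem hk, pow_succ]
    have : (-1 : ℤ) ^ U.card * r278m_sgn U k + r278m_sgn U k * ((-1) ^ U.card * -1) = 0 := by ring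
    rw [this, zero_smul]

/-! ## contraction with a vector -/

/-- `∑ u_k ι_k` -/
def qf76_io (u : Fin N → K) : Module.End K (Qf76Lam K N) := ∑ k, u k • qf76_iota K k

theorem qf76_io_io (u v : Fin N → K) : qf76_io u * qf76_io v + qf76_io v * qf76_io u = 0 := by
  unfold qf76_io
  rw [Finset.sum_mul_sum, Finset.sum_mul_sum, Finset.sum_comm, ← Finset.sum_add_distrib]
  refine Finset.sum_eq_zero fun k _ => ?_
  rw [← Finset.sum_add_distrib]
  refine Finset.sum_eq_zero fun l _ => ?_
  simp only [smul_mul_assoc, mul_smul_comm]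
  rw [smul_comm (u l) (v k), ← smul_add, ← smul_add, qf76_iota_iota, smul_zero, smul_zero]

theorem qf76_eps_io (h : Fin N) (u : Fin N → K) :
    qf76_eps K h * qf76_io u + qf76_io u * qf76_eps K h = u h • 1 := by
  unfold qf76_io
  simp only [Finset.sum_mul, Finset.mul_sum, smul_mul_assoc, mul_smul_comm]
  rw [← Finset.sum_add_distrib]
  simp only [← smul_add, qf76_eps_iota]
  simp

theorem qf76_par_io (u : Fin N → K) : qf76_par K N * qf76_io u + qf76_io u * qf76_par K N = 0 := by
  unfold qf76_io
  simp only [Finset.sum_mul, Finset.mul_sum, smul_mul_assoc, mul_smul_comm]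
  rw [← Finset.sum_add_distrib]
  simp only [← smul_add, qf76_par_iota, smul_zero, Finset.sum_const_zero]

/-! ## the two commuting Clifford actions -/

/-- left multiplication by the generator `e_a` -/
def qf76_L (b : Fin N → Fin N → K) (a : Fin N) : Module.End K (Qf76Lam K N) :=
  qf76_eps K a + qf76_io (b a)

/-- twisted right multiplication -/
def qf76_Rt (b : Fin N → Fin N → K) (c : Fin N) : Module.End K (Qf76Lam K N) :=
  qf76_eps K c - qf76_io (fun a => b a c)

/-- right multiplication by the generator `e_c` -/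
def qf76_R (b : Fin N → Fin N → K) (c : Fin N) : Module.End K (Qf76Lam K N) :=
  qf76_Rt b c * qf76_par K N

theorem qf76_L_L (b : Fin N → Fin N → K) (a c : Fin N) :
    qf76_L b a * qf76_L b c + qf76_L b c * qf76_L b a = (b a c + b c a) • 1 := by
  unfold qf76_L
  have h1 := qf76_eps_eps (K := K) a c
  have h2 := qf76_eps_io a (b c)
  have h3 := qf76_eps_io c (b a)
  have h4 := qf76_io_io (b a) (b c)
  calc _ = (qf76_eps K a * qf76_eps K c + qf76_eps K c * qf76_eps K a)
        + (qf76_eps K a * qf76_io (b c) + qf76_io (b c) * qf76_eps K a)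
        + (qf76_eps K c * qf76_io (b a) + qf76_io (b a) * qf76_eps K c)
        + (qf76_io (b a) * qf76_io (b c) + qf76_io (b c) * qf76_io (b a)) := by
          simp only [mul_add, add_mul, mul_sub, sub_mul]; abel
    _ = _ := by rw [h1, h2, h3, h4, add_smul]; abel

theorem qf76_L_Rt (b : Fin N → Fin N → K) (a c : Fin N) :
    qf76_L b a * qf76_Rt b c + qf76_Rt b c * qf76_L b a = 0 := by
  unfold qf76_L qf76_Rt
  have h1 := qf76_eps_eps (K := K) a c
  have h2 := qf76_eps_io a (fun a => b a c)
  have h3 := qf76_eps_io c (b a)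
  have h4 := qf76_io_io (b a) (fun a => b a c)
  calc _ = (qf76_eps K a * qf76_eps K c + qf76_eps K c * qf76_eps K a)
        - (qf76_eps K a * qf76_io (fun a => b a c) + qf76_io (fun a => b a c) * qf76_eps K a)
        + (qf76_eps K c * qf76_io (b a) + qf76_io (b a) * qf76_eps K c)
        - (qf76_io (b a) * qf76_io (fun a => b a c) + qf76_io (fun a => b a c) * qf76_io (b a)) := by
          simp only [mul_add, add_mul, mul_sub, sub_mul]; abel
    _ = _ := by rw [h1, h2, h3, h4]; simp

theorem qf76_Rt_Rt (b : Fin N → Fin N → K) (c c' : Fin N) :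
    qf76_Rt b c * qf76_Rt b c' + qf76_Rt b c' * qf76_Rt b c = - ((b c c' + b c' c) • 1) := by
  unfold qf76_Rt
  have h1 := qf76_eps_eps (K := K) c c'
  have h2 := qf76_eps_io c (fun a => b a c')
  have h3 := qf76_eps_io c' (fun a => b a c)
  have h4 := qf76_io_io (fun a => b a c) (fun a => b a c')
  calc _ = (qf76_eps K c * qf76_eps K c' + qf76_eps K c' * qf76_eps K c)
        - (qf76_eps K c * qf76_io (fun a => b a c') + qf76_io (fun a => b a c') * qf76_eps K c)
        - (qf76_eps K c' * qf76_io (fun a => b a c) + qf76_io (fun a => b a c) * qf76_eps K c')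
        + (qf76_io (fun a => b a c) * qf76_io (fun a => b a c') +
            qf76_io (fun a => b a c') * qf76_io (fun a => b a c)) := by
          simp only [mul_add, add_mul, mul_sub, sub_mul]; abel
    _ = _ := by rw [h1, h2, h3, h4, add_smul]; abel

theorem qf76_par_L (b : Fin N → Fin N → K) (a : Fin N) :
    qf76_par K N * qf76_L b a + qf76_L b a * qf76_par K N = 0 := by
  unfold qf76_L
  have h1 := qf76_par_eps (K := K) a
  have h2 := qf76_par_io (b a)
  calc _ = (qf76_par K N * qf76_eps K a + qf76_eps K a * qf76_par K N)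
        + (qf76_par K N * qf76_io (b a) + qf76_io (b a) * qf76_par K N) := by
          simp only [mul_add, add_mul, mul_sub, sub_mul]; abel
    _ = _ := by rw [h1, h2, add_zero]

theorem qf76_par_Rt (b : Fin N → Fin N → K) (c : Fin N) :
    qf76_par K N * qf76_Rt b c + qf76_Rt b c * qf76_par K N = 0 := by
  unfold qf76_Rt
  have h1 := qf76_par_eps (K := K) c
  have h2 := qf76_par_io (fun a => b a c)
  calc _ = (qf76_par K N * qf76_eps K c + qf76_eps K c * qf76_par K N)
        - (qf76_par K N * qf76_io (fun a => b a c) + qf76_io (fun a => b a c) * qf76_par K N) := by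
          simp only [mul_add, add_mul, mul_sub, sub_mul]; abel
    _ = _ := by rw [h1, h2, sub_zero]

theorem qf76_aux1 {A : Type*} [Ring A] (r p l : A) (h1 : p * l + l * p = 0) (h2 : l * r + r * l = 0) :
    r * p * l = l * (r * p) := by
  have h1' : p * l = - (l * p) := eq_neg_of_add_eq_zero_left h1
  have h2' : r * l = - (l * r) := eq_neg_of_add_eq_zero_right h2
  rw [mul_assoc, h1', mul_neg, ← mul_assoc, h2', neg_mul, neg_neg, mul_assoc]

theorem qf76_aux2 {A : Type*} [Ring A] (r r' p : A) (hp : p * p = 1) (h : p * r' + r' * p = 0) :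
    r * p * (r' * p) = - (r * r') := by
  have h' : p * r' = - (r' * p) := eq_neg_of_add_eq_zero_left h
  rw [mul_assoc, ← mul_assoc p, h', neg_mul, mul_assoc r', hp, mul_one, mul_neg]

/-- **the right action commutes with the left action** -/
theorem qf76_R_L (b : Fin N → Fin N → K) (c a : Fin N) : Commute (qf76_R b c) (qf76_L b a) :=
  qf76_aux1 _ _ _ (qf76_par_L b a) (qf76_L_Rt b a c)

/-- **the right action satisfies the same Clifford relations** -/
theorem qf76_R_R (b : Fin N → Fin N → K) (c c' : Fin N) :
    qf76_R b c * qf76_R b c' + qf76_R b c' * qf76_R b c = (b c c' + b c' c) • 1 := by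
  unfold qf76_R
  rw [qf76_aux2 _ _ _ qf76_par_par (qf76_par_Rt b c'), qf76_aux2 _ _ _ qf76_par_par (qf76_par_Rt b c),
    ← neg_add, qf76_Rt_Rt, neg_neg]

end fock

/-! ## the grading of the Fock space over `P = F[Y]` : `deg (Y^m e_T) = 2 |m| + |T|` -/

section graded

open MvPolynomial

variable {F : Type} [Field F] {N : ℕ}

/-- the Fock space over the polynomial ring -/
abbrev Qf76LP (F : Type) [Field F] (N : ℕ) : Type := Qf76Lam (MvPolynomial (Fin N) F) N

/-- the piece of degree `d` -/
def qf76_gr (F : Type) [Field F] (N : ℕ) (d : ℕ) : Submodule F (Qf76LP F N) where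
  carrier := {u | ∀ (T : Finset (Fin N)) (m : Fin N →₀ ℕ), coeff m (u T) ≠ 0 → 2 * m.degree + T.card = d}
  add_mem' := by
    intro x y hx hy T m h
    by_contra hne
    have h1 : coeff m (x T) = 0 := by by_contra h1; exact hne (hx T m h1)
    have h2 : coeff m (y T) = 0 := by by_contra h2; exact hne (hy T m h2)
    exact h (by simp [h1, h2])
  zero_mem' := by intro T m h; simp at h
  smul_mem' := by
    intro c x hx T m h
    refine hx T m fun h0 => h ?_
    simp [h0]

theorem qf76_mem_gr {d : ℕ} {u : Qf76LP F N} :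
    u ∈ qf76_gr F N d ↔ ∀ (T : Finset (Fin N)) (m : Fin N →₀ ℕ), coeff m (u T) ≠ 0 → 2 * m.degree + T.card = d :=
  Iff.rfl

theorem qf76_wt (m : Fin N →₀ ℕ) : Finsupp.weight (fun _ : Fin N => (2 : ℤ)) m = 2 * (m.degree : ℤ) := by
  rw [Finsupp.weight_apply, Finsupp.degree_apply, Finsupp.sum, Nat.cast_sum, Finset.mul_sum]
  refine Finset.sum_congr rfl fun i _ => ?_
  simp [mul_comm]

/-- the projection to the piece of degree `d` -/
noncomputable def qf76_pr (F : Type) [Field F] (N : ℕ) (d : ℕ) : Qf76LP F N →ₗ[F] Qf76LP F N :=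
  LinearMap.pi fun T =>
    (weightedHomogeneousComponent (fun _ : Fin N => (2 : ℤ)) ((d : ℤ) - T.card)) ∘ₗ LinearMap.proj T

theorem qf76_coeff_pr (d : ℕ) (u : Qf76LP F N) (T : Finset (Fin N)) (m : Fin N →₀ ℕ) :
    coeff m (qf76_pr F N d u T) = if 2 * m.degree + T.card = d then coeff m (u T) else 0 := by
  simp only [qf76_pr, LinearMap.pi_apply, LinearMap.comp_apply, LinearMap.proj_apply,
    coeff_weightedHomogeneousComponent, qf76_wt]
  refine if_congr ?_ rfl rfl
  omega

theorem qf76_pr_mem (d : ℕ) (u : Qf76LP F N) : qf76_pr F N d u ∈ qf76_gr F N d := by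
  intro T m h
  rw [qf76_coeff_pr] at h
  by_contra hne
  exact h (if_neg hne)

theorem qf76_pr_self (d : ℕ) (u : Qf76LP F N) (hu : u ∈ qf76_gr F N d) : qf76_pr F N d u = u := by
  funext T
  ext m
  rw [qf76_coeff_pr]
  split_ifs with h
  · rfl
  · by_contra hne
    exact h (hu T m (fun h0 => hne h0.symm))

theorem qf76_pr_ne (d d' : ℕ) (u : Qf76LP F N) (hu : u ∈ qf76_gr F N d) (hd : d ≠ d') :
    qf76_pr F N d' u = 0 := by
  funext T
  ext m
  rw [qf76_coeff_pr]
  split_ifs with h
  · by_contra hne
    exact hd ((hu T m hne).symm.trans h)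
  · simp

theorem qf76_sum_pr (u : Qf76LP F N) : ∃ D, u = ∑ d ∈ Finset.range D, qf76_pr F N d u := by
  refine ⟨2 * (Finset.univ.sup fun T => (u T).totalDegree) + N + 1, ?_⟩
  funext T
  ext m
  rw [Finset.sum_apply, coeff_sum]
  simp only [qf76_coeff_pr]
  rw [Finset.sum_ite_eq]
  split_ifs with h
  · rfl
  · by_contra hne
    refine h (Finset.mem_range.2 ?_)
    have h1 : m.degree ≤ (u T).totalDegree := by
      have := le_totalDegree (mem_support_iff.2 hne)
      simpa [Finsupp.degree_apply, Finsupp.sum] using this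
    have h2 : (u T).totalDegree ≤ Finset.univ.sup fun T => (u T).totalDegree :=
      Finset.le_sup (f := fun T => (u T).totalDegree) (Finset.mem_univ T)
    have h3 : T.card ≤ N := by simpa using Finset.card_le_univ T
    omega

theorem qf76_mul_aux {p q : MvPolynomial (Fin N) F} {r k d : ℕ} (hp : p.IsHomogeneous r)
    (hq : ∀ m, coeff m q ≠ 0 → 2 * m.degree + k = d) (m : Fin N →₀ ℕ) (hm : coeff m (p * q) ≠ 0) :
    2 * m.degree + k = d + 2 * r := by
  rw [coeff_mul] at hm
  obtain ⟨x, hx, hx0⟩ := Finset.exists_ne_zero_of_sum_ne_zero hm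
  have h1 : coeff x.1 p ≠ 0 := left_ne_zero_of_mul hx0
  have h2 : coeff x.2 q ≠ 0 := right_ne_zero_of_mul hx0
  have h3 : x.1.degree = r := by
    by_contra hne
    exact h1 (hp.coeff_eq_zero hne)
  have h4 := hq _ h2
  have h5 : m = x.1 + x.2 := (Finset.HasAntidiagonal.mem_antidiagonal.1 hx).symm
  rw [h5, map_add]
  omega

theorem qf76_smul_mem (r : ℕ) (p : MvPolynomial (Fin N) F) (hp : p.IsHomogeneous r) (d : ℕ)
    (x : Qf76LP F N) (hx : x ∈ qf76_gr F N d) : p • x ∈ qf76_gr F N (d + 2 * r) := by
  intro T m hm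
  rw [Pi.smul_apply, smul_eq_mul] at hm
  exact qf76_mul_aux hp (hx T) m hm

theorem qf76_eps_mem (a : Fin N) (d : ℕ) (x : Qf76LP F N) (hx : x ∈ qf76_gr F N d) :
    qf76_eps _ a x ∈ qf76_gr F N (d + 1) := by
  intro T m hm
  rw [qf76_eps_apply] at hm
  by_cases ha : a ∈ T
  · rw [if_pos ha] at hm
    have h1 : coeff m (x (T.erase a)) ≠ 0 := by
      intro h0
      apply hm
      rw [← Int.cast_smul_eq_zsmul F]
      simp [h0]
    have h2 := hx _ m h1
    have h3 := Finset.card_erase_add_one ha
    omega
  · rw [if_neg ha] at hm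
    simp at hm

theorem qf76_smul_iota_mem (p : MvPolynomial (Fin N) F) (hp : p.IsHomogeneous 1) (a : Fin N) (d : ℕ)
    (x : Qf76LP F N) (hx : x ∈ qf76_gr F N d) : p • qf76_iota _ a x ∈ qf76_gr F N (d + 1) := by
  intro T m hm
  rw [Pi.smul_apply, smul_eq_mul, qf76_iota_apply] at hm
  by_cases ha : a ∈ T
  · simp [ha] at hm
  · rw [if_pos ha] at hm
    have h1 : ∀ m', coeff m' (r278m_sgn T a • x (insert a T)) ≠ 0 → 2 * m'.degree + (T.card + 1) = d := by
      intro m' hm'
      have h1 : coeff m' (x (insert a T)) ≠ 0 := by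
        intro h0
        apply hm'
        rw [← Int.cast_smul_eq_zsmul F]
        simp [h0]
      have h2 := hx _ m' h1
      rwa [Finset.card_insert_of_notMem ha] at h2
    have := qf76_mul_aux hp h1 m hm
    omega

theorem qf76_qcM_hom (B : Fin N → Matrix (Fin N) (Fin N) F) (a k : Fin N) : (qcM B a k).IsHomogeneous 1 := by
  unfold qcM
  refine IsHomogeneous.sum _ _ _ fun c _ => ?_
  simpa using (isHomogeneous_X F c).mul (isHomogeneous_C (Fin N) (B c a k))

theorem qf76_L_mem (B : Fin N → Matrix (Fin N) (Fin N) F) (a : Fin N) (d : ℕ)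
    (x : Qf76LP F N) (hx : x ∈ qf76_gr F N d) : qf76_L (qcM B) a x ∈ qf76_gr F N (d + 1) := by
  unfold qf76_L qf76_io
  rw [LinearMap.add_apply, LinearMap.sum_apply]
  refine Submodule.add_mem _ (qf76_eps_mem a d x hx) (Submodule.sum_mem _ fun k _ => ?_)
  rw [LinearMap.smul_apply]
  exact qf76_smul_iota_mem _ (qf76_qcM_hom B a k) k d x hx

theorem qf76_L_mem' (b : Fin N → Fin N → MvPolynomial (Fin N) F) (hb : ∀ a c, (b a c).IsHomogeneous 1)
    (a : Fin N) (d : ℕ) (x : Qf76LP F N) (hx : x ∈ qf76_gr F N d) : qf76_L b a x ∈ qf76_gr F N (d + 1) := by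
  unfold qf76_L qf76_io
  rw [LinearMap.add_apply, LinearMap.sum_apply]
  refine Submodule.add_mem _ (qf76_eps_mem a d x hx) (Submodule.sum_mem _ fun k _ => ?_)
  rw [LinearMap.smul_apply]
  exact qf76_smul_iota_mem _ (hb a k) k d x hx

end graded

/-! ## cyclicity (post G4, typed by helper66) -/

section g4

variable {K : Type} [CommRing K] {N : ℕ}

/-- the vacuum -/
def qf76_vac (K : Type) [CommRing K] (N : ℕ) : Qf76Lam K N := Pi.single (∅ : Finset (Fin N)) 1

theorem g4_eps_single (a : Fin N) (U : Finset (Fin N)) (h : a ∉ U) :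
    qf76_eps K a (Pi.single U 1) = r278m_sgn U a • (Pi.single (insert a U) 1 : Qf76Lam K N) := by
  funext V
  rw [qf76_eps_apply, Pi.smul_apply]
  by_cases hV : V = insert a U
  · subst hV
    simp [Finset.erase_insert h]
  · rw [Pi.single_eq_of_ne hV, smul_zero]
    split_ifs with ha
    · have : V.erase a ≠ U := by
        intro hc
        apply hV
        rw [← hc, Finset.insert_erase ha]
      rw [Pi.single_eq_of_ne this, smul_zero]
    · rfl

theorem g4_iota_single (k : Fin N) (U : Finset (Fin N)) :
    qf76_iota K k (Pi.single U 1) =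
      if k ∈ U then r278m_sgn (U.erase k) k • (Pi.single (U.erase k) 1 : Qf76Lam K N) else 0 := by
  funext V
  rw [qf76_iota_apply]
  by_cases hk : k ∈ U
  · rw [if_pos hk, Pi.smul_apply]
    by_cases hV : V = U.erase k
    · subst hV
      simp [Finset.insert_erase hk]
    · rw [Pi.single_eq_of_ne hV, smul_zero]
      split_ifs with hkV
      · rfl
      · have : insert k V ≠ U := by
          intro hc
          apply hV
          rw [← hc, Finset.erase_insert hkV]
        rw [Pi.single_eq_of_ne this, smul_zero]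
  · rw [if_neg hk, Pi.zero_apply]
    split_ifs with hkV
    · rfl
    · have : insert k V ≠ U := by
        intro hc
        apply hk
        rw [← hc]
        exact Finset.mem_insert_self k V
      rw [Pi.single_eq_of_ne this, smul_zero]

theorem g4_par_single (U : Finset (Fin N)) :
    qf76_par K N (Pi.single U 1) = ((-1 : ℤ) ^ U.card) • (Pi.single U 1 : Qf76Lam K N) := by
  funext V
  rw [qf76_par_apply, Pi.smul_apply]
  by_cases hV : V = U
  · subst hV; rfl
  · rw [Pi.single_eq_of_ne hV, smul_zero, smul_zero]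

/-- the common engine of (a) and (b) -/
theorem g4_top (A : Fin N → Module.End K (Qf76Lam K N))
    (hA : ∀ a U, ∃ (s : ℤ) (v : Fin N → K), s * s = 1 ∧
      A a (Pi.single U 1) = s • (qf76_eps K a (Pi.single U 1) + qf76_io v (Pi.single U 1)))
    (W : Submodule K (Qf76Lam K N)) (h0 : qf76_vac K N ∈ W) (hW : ∀ a u, u ∈ W → A a u ∈ W) :
    W = ⊤ := by
  have key : ∀ (k : ℕ) (T : Finset (Fin N)), T.card = k → (Pi.single T 1 : Qf76Lam K N) ∈ W := by
    intro k
    induction k using Nat.strong_induction_on with
    | _ k ih =>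
      intro T hT
      rcases T.eq_empty_or_nonempty with rfl | ⟨a, ha⟩
      · exact h0
      set U := T.erase a with hU
      have haU : a ∉ U := Finset.notMem_erase a T
      have hcard : U.card + 1 = k := by rw [hU, Finset.card_erase_add_one ha, hT]
      have hUW : (Pi.single U 1 : Qf76Lam K N) ∈ W := ih U.card (by omega) U rfl
      obtain ⟨s, v, hs, hAe⟩ := hA a U
      have h1 : s • A a (Pi.single U 1) ∈ W := W.smul_of_tower_mem s (hW a _ hUW)
      rw [hAe, smul_smul, hs, one_smul, g4_eps_single a U haU, hU, Finset.insert_erase ha, ← hU] at h1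
      have h2 : qf76_io v (Pi.single U 1 : Qf76Lam K N) ∈ W := by
        unfold qf76_io
        rw [LinearMap.sum_apply]
        refine W.sum_mem fun l _ => ?_
        rw [LinearMap.smul_apply]
        refine W.smul_mem _ ?_
        rw [g4_iota_single]
        split_ifs with hl
        · refine W.smul_of_tower_mem _ (ih (U.erase l).card ?_ _ rfl)
          have := Finset.card_erase_add_one hl
          omega
        · exact W.zero_mem
      have h3 : r278m_sgn U a • (Pi.single T 1 : Qf76Lam K N) ∈ W := by
        have := W.sub_mem h1 h2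
        rwa [add_sub_cancel_right] at this
      have h4 := W.smul_of_tower_mem (r278m_sgn U a) h3
      rwa [smul_smul, r278y_sgn_sq, one_smul] at h4
  refine eq_top_iff.2 fun c _ => ?_
  have hc : c = ∑ T, c T • (Pi.single T 1 : Qf76Lam K N) := by
    funext V
    rw [Finset.sum_apply]
    simp [Pi.single_apply]
  rw [hc]
  exact W.sum_mem fun T _ => W.smul_mem _ (key _ T rfl)

variable (b : Fin N → Fin N → K)

/-- (a) the vacuum is cyclic for the left action -/
theorem qf76_top_of_L (W : Submodule K (Qf76Lam K N)) (h0 : qf76_vac K N ∈ W)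
    (hL : ∀ a u, u ∈ W → qf76_L b a u ∈ W) : W = ⊤ := by
  refine g4_top (qf76_L b) (fun a U => ⟨1, b a, one_mul 1, ?_⟩) W h0 hL
  rw [one_smul]
  rfl

/-- (b) the vacuum is cyclic for the right action -/
theorem qf76_top_of_R (W : Submodule K (Qf76Lam K N)) (h0 : qf76_vac K N ∈ W)
    (hR : ∀ c u, u ∈ W → qf76_R b c u ∈ W) : W = ⊤ := by
  refine g4_top (qf76_R b) (fun c U => ⟨(-1) ^ U.card, fun a => - b a c, ?_, ?_⟩) W h0 hR
  · rw [← pow_add, ← two_mul, pow_mul]; simp
  · have hio : qf76_io (fun a => - b a c) = - qf76_io (fun a => b a c) := by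
      unfold qf76_io
      rw [← Finset.sum_neg_distrib]
      exact Finset.sum_congr rfl fun x _ => neg_smul (b x c) (qf76_iota K x)
    rw [hio]
    unfold qf76_R qf76_Rt
    rw [Module.End.mul_apply, g4_par_single, map_zsmul, LinearMap.sub_apply, LinearMap.neg_apply,
      sub_eq_add_neg]

/-- (c) an endomorphism which commutes with the left action and kills the vacuum is zero -/
theorem qf76_cyclic (ρ : Module.End K (Qf76Lam K N)) (hρ : ∀ a, Commute ρ (qf76_L b a))
    (h0 : ρ (qf76_vac K N) = 0) : ρ = 0 := by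
  have h := qf76_top_of_L b (LinearMap.ker ρ) (LinearMap.mem_ker.2 h0) (fun a u hu => by
    rw [LinearMap.mem_ker] at hu ⊢
    have := congrArg (fun φ : Module.End K (Qf76Lam K N) => φ u) (hρ a).eq
    simp only [Module.End.mul_apply] at this
    rw [this, hu, map_zero])
  exact LinearMap.ker_eq_top.1 h

/-- (d) every vector is the image of the vacuum under an endomorphism which commutes with the left action -/
theorem qf76_exists_right (u : Qf76Lam K N) :
    ∃ ρ : Module.End K (Qf76Lam K N), (∀ a, Commute ρ (qf76_L b a)) ∧ ρ (qf76_vac K N) = u := by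
  let W : Submodule K (Qf76Lam K N) :=
    { carrier := {u | ∃ ρ : Module.End K (Qf76Lam K N), (∀ a, Commute ρ (qf76_L b a)) ∧ ρ (qf76_vac K N) = u}
      add_mem' := by
        rintro x y ⟨ρ, h1, h2⟩ ⟨ρ', h1', h2'⟩
        exact ⟨ρ + ρ', fun a => (h1 a).add_left (h1' a), by rw [LinearMap.add_apply, h2, h2']⟩
      zero_mem' := ⟨0, fun a => Commute.zero_left _, by simp⟩
      smul_mem' := by
        rintro c x ⟨ρ, h1, h2⟩
        exact ⟨c • ρ, fun a => (h1 a).smul_left c, by rw [LinearMap.smul_apply, h2]⟩ }
  have hW : W = ⊤ := by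
    refine qf76_top_of_R b W ⟨1, fun a => Commute.one_left _, rfl⟩ ?_
    rintro c x ⟨ρ, h1, h2⟩
    exact ⟨qf76_R b c * ρ, fun a => (qf76_R_L b c a).mul_left (h1 a), by
      rw [Module.End.mul_apply, h2]⟩
  have : u ∈ W := hW ▸ Submodule.mem_top
  exact this

end g4

end Claimed.Agent.R278
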