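-- KEEP
import Claimed.Agent.R278.QuadFock76
import Claimed.Agent.R278.QuadDefs

/-!
# Row 278, C4-Q (a try: the box for `n` quadrics in `n` variables, `a = (2, …, 2)`, `c = n` ONLY; THE ROW STAYS OPEN)
`R278/QuadFock`, cluster G = the Fock space over `P = F[Y]` is a graded Clifford module `QcMod`   (head helper273, prefix `qg_`)

`Λ_P = Finset (Fin N) → P`, `deg (Y^m e_T) = 2 |m| + |T|`, `L_a = qf76_L (qcM B) a`.
Posts G1a G1b G2 (blocks BEGIN / END); `qg_mod` is assembled from them.
-/

set_option autoImplicit false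

open MvPolynomial

noncomputable section

namespace Claimed.Agent.R278

variable {F : Type} [Field F] {N : ℕ}

/-- the piece of degree `d` of the Fock space over `P = F[Y]`: `deg (Y^m e_T) = 2 |m| + |T|` -/
def qg_gr (F : Type) [Field F] (N d : ℕ) : Submodule F (Qf76Lam (MvPolynomial (Fin N) F) N) where
  carrier := {c | ∀ (T : Finset (Fin N)) (m : Fin N →₀ ℕ), coeff m (c T) ≠ 0 → 2 * m.degree + T.card = d}
  add_mem' := by
    intro x y hx hy T m h
    by_contra hne
    have h1 : coeff m (x T) = 0 := by by_contra h1; exact hne (hx T m h1)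
    have h2 : coeff m (y T) = 0 := by by_contra h2; exact hne (hy T m h2)
    exact h (by simp [h1, h2])
  zero_mem' := by intro T m h; simp at h
  smul_mem' := by
    intro c x hx T m h
    refine hx T m fun h0 => h ?_
    simp [h0]

/-- the projection to the piece of degree `d` -/
def qg_pr (F : Type) [Field F] (N d : ℕ) :
    Qf76Lam (MvPolynomial (Fin N) F) N →ₗ[F] Qf76Lam (MvPolynomial (Fin N) F) N :=
  LinearMap.pi fun T => if T.card ≤ d ∧ Even (d - T.card) then
    (homogeneousComponent ((d - T.card) / 2)).comp (LinearMap.proj T) else 0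

theorem qg_mem_gr {d : ℕ} {c : Qf76Lam (MvPolynomial (Fin N) F) N} :
    c ∈ qg_gr F N d ↔ ∀ (T : Finset (Fin N)) (m : Fin N →₀ ℕ), coeff m (c T) ≠ 0 → 2 * m.degree + T.card = d :=
  Iff.rfl

-- BEGIN G1a
theorem qnG1a_coeff (d : ℕ) (x : Qf76Lam (MvPolynomial (Fin N) F) N) (T : Finset (Fin N)) (m : Fin N →₀ ℕ) :
    coeff m (qg_pr F N d x T) = if 2 * m.degree + T.card = d then coeff m (x T) else 0 := by
  unfold qg_pr
  rw [LinearMap.pi_apply]
  by_cases hc : T.card ≤ d ∧ Even (d - T.card)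
  · rw [if_pos hc, LinearMap.comp_apply, LinearMap.proj_apply, coeff_homogeneousComponent]
    obtain ⟨h1, k, hk⟩ := hc
    by_cases h2 : 2 * m.degree + T.card = d
    · rw [if_pos h2, if_pos (by omega)]
    · rw [if_neg h2, if_neg (by omega)]
  · rw [if_neg hc, LinearMap.zero_apply, coeff_zero, if_neg]
    intro h2
    exact hc ⟨by omega, ⟨m.degree, by omega⟩⟩

/-- POST G1a: the four laws of the projections. -/
theorem qg_pr_mem (d : ℕ) (x : Qf76Lam (MvPolynomial (Fin N) F) N) : qg_pr F N d x ∈ qg_gr F N d := by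
  rw [qg_mem_gr]
  intro T m h
  rw [qnG1a_coeff] at h
  by_contra h2
  exact h (if_neg h2)

theorem qg_pr_self (d : ℕ) (x : Qf76Lam (MvPolynomial (Fin N) F) N) (hx : x ∈ qg_gr F N d) :
    qg_pr F N d x = x := by
  funext T
  ext m
  rw [qnG1a_coeff]
  by_cases h2 : 2 * m.degree + T.card = d
  · rw [if_pos h2]
  · rw [if_neg h2]
    by_contra h3
    exact h2 (hx T m (Ne.symm h3))

theorem qg_pr_ne (d d' : ℕ) (x : Qf76Lam (MvPolynomial (Fin N) F) N) (hx : x ∈ qg_gr F N d) (h : d ≠ d') :
    qg_pr F N d' x = 0 := by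
  funext T
  ext m
  rw [qnG1a_coeff, Pi.zero_apply, coeff_zero]
  by_cases h2 : 2 * m.degree + T.card = d'
  · rw [if_pos h2]
    by_contra h3
    exact h ((hx T m h3).symm.trans h2)
  · rw [if_neg h2]

theorem qg_sum_pr (x : Qf76Lam (MvPolynomial (Fin N) F) N) :
    ∃ D, x = ∑ d ∈ Finset.range D, qg_pr F N d x := by
  refine ⟨(Finset.univ.sup fun T : Finset (Fin N) => (x T).support.sup fun m => 2 * m.degree + T.card) + 1, ?_⟩
  funext T
  ext m
  rw [Finset.sum_apply, coeff_sum]
  simp only [qnG1a_coeff]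
  rw [Finset.sum_ite_eq]
  by_cases h3 : coeff m (x T) = 0
  · rw [h3, ite_self]
  · rw [if_pos]
    rw [Finset.mem_range, Nat.lt_succ_iff]
    have h4 : m ∈ (x T).support := mem_support_iff.mpr h3
    have h5 : 2 * m.degree + T.card ≤ (x T).support.sup fun m => 2 * m.degree + T.card :=
      Finset.le_sup (f := fun m : Fin N →₀ ℕ => 2 * m.degree + T.card) h4
    exact h5.trans (Finset.le_sup (f := fun T : Finset (Fin N) =>
      (x T).support.sup fun m => 2 * m.degree + T.card) (Finset.mem_univ T))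
-- END G1a

-- BEGIN G1b
/-- the two descriptions of the grading (76's `qf76_gr`, 273's `qg_gr`) have the same members -/
theorem qgG1b_mem_iff {d : ℕ} {x : Qf76Lam (MvPolynomial (Fin N) F) N} :
    x ∈ qg_gr F N d ↔ x ∈ qf76_gr F N d := Iff.rfl

/-- POST G1b: `L_a` has degree 1 (for ANY matrix `b` of linear forms), a form of degree `r` has degree `2 r`. -/
theorem qg_L_mem (b : Fin N → Fin N → MvPolynomial (Fin N) F) (hb : ∀ a c, (b a c).IsHomogeneous 1)
    (a : Fin N) (d : ℕ) (x : Qf76Lam (MvPolynomial (Fin N) F) N) (hx : x ∈ qg_gr F N d) :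
    qf76_L b a x ∈ qg_gr F N (d + 1) := by
  have hx' : x ∈ qf76_gr F N d := qgG1b_mem_iff.1 hx
  unfold qf76_L qf76_io
  rw [LinearMap.add_apply, LinearMap.sum_apply]
  refine Submodule.add_mem _ (qgG1b_mem_iff.2 (qf76_eps_mem a d x hx'))
    (Submodule.sum_mem _ fun k _ => ?_)
  rw [LinearMap.smul_apply]
  exact qgG1b_mem_iff.2 (qf76_smul_iota_mem _ (hb a k) k d x hx')

theorem qg_smul_mem (r : ℕ) (p : MvPolynomial (Fin N) F) (hp : p.IsHomogeneous r) (d : ℕ)
    (x : Qf76Lam (MvPolynomial (Fin N) F) N) (hx : x ∈ qg_gr F N d) : p • x ∈ qg_gr F N (d + 2 * r) :=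
  qgG1b_mem_iff.2 (qf76_smul_mem r p hp d x (qgG1b_mem_iff.1 hx))

theorem qg_qcM_homog (B : Fin N → Matrix (Fin N) (Fin N) F) (a c : Fin N) : (qcM B a c).IsHomogeneous 1 :=
  qf76_qcM_hom B a c
-- END G1b

-- BEGIN G2
/-! POST G2: the Hilbert function of the Fock space = that of `F[x_1..x_N]` (bijection `(m, T) ↦ 2 m + 1_T`;
`Finset.card_finsuppAntidiag_nat_eq_choose`).  (pen helper186) The `F`-linear isomorphism `qnG2_Phi : Fock ≃ F[x_1..x_N]`,
`Y^m e_U ↦ x^(2 m + 1_U)`, carries `qg_gr d` onto the forms of degree `d`. -/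

/-- `(U, m) ↦ 2 m + 1_U` -/
def qnG2_e (N : ℕ) : (Σ _ : Finset (Fin N), (Fin N →₀ ℕ)) ≃ (Fin N →₀ ℕ) where
  toFun x := Finsupp.equivFunOnFinite.symm (fun i => 2 * x.2 i + if i ∈ x.1 then 1 else 0)
  invFun k := ⟨Finset.univ.filter (fun i => k i % 2 = 1),
    Finsupp.equivFunOnFinite.symm (fun i => k i / 2)⟩
  left_inv := by
    rintro ⟨U, m⟩
    have h1 : (Finset.univ.filter fun i : Fin N => (2 * m i + if i ∈ U then 1 else 0) % 2 = 1) = U := by
      ext i
      simp only [Finset.mem_filter, Finset.mem_univ, true_and]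
      by_cases hi : i ∈ U
      · simp only [hi, if_true, iff_true]; omega
      · simp only [hi, if_false, iff_false]; omega
    have h2 : (Finsupp.equivFunOnFinite.symm
        (fun i : Fin N => (2 * m i + if i ∈ U then 1 else 0) / 2) : Fin N →₀ ℕ) = m := by
      ext i
      simp only [Finsupp.equivFunOnFinite_symm_apply_apply]
      by_cases hi : i ∈ U
      · simp only [hi, if_true]; omega
      · simp only [hi, if_false]; omega
    simp only [Finsupp.equivFunOnFinite_symm_apply_apply]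
    rw [h1, h2]
  right_inv := by
    intro k
    ext i
    simp only [Finsupp.equivFunOnFinite_symm_apply_apply, Finset.mem_filter, Finset.mem_univ,
      true_and]
    by_cases hi : k i % 2 = 1
    · simp only [hi, if_true]; omega
    · simp only [hi, if_false]; omega

theorem qnG2_e_degree (U : Finset (Fin N)) (m : Fin N →₀ ℕ) :
    (qnG2_e N ⟨U, m⟩).degree = 2 * m.degree + U.card := by
  rw [Finsupp.degree_eq_sum, Finsupp.degree_eq_sum]
  simp only [qnG2_e, Equiv.coe_fn_mk, Finsupp.equivFunOnFinite_symm_apply_apply]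
  rw [Finset.sum_add_distrib, ← Finset.mul_sum, Finset.sum_ite_mem, Finset.univ_inter,
    Finset.sum_const, smul_eq_mul, mul_one]

/-- `Y^m e_U ↦ x^(2 m + 1_U)` -/
def qnG2_Phi (F : Type) [Field F] (N : ℕ) : Qf76Lam (MvPolynomial (Fin N) F) N ≃ₗ[F] MvPolynomial (Fin N) F :=
  ((Pi.basis fun _ : Finset (Fin N) => basisMonomials (Fin N) F).repr.trans
    (Finsupp.domLCongr (qnG2_e N))).trans (basisMonomials (Fin N) F).repr.symm

theorem qnG2_coeff_Phi (c : Qf76Lam (MvPolynomial (Fin N) F) N) (U : Finset (Fin N)) (m : Fin N →₀ ℕ) :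
    coeff (qnG2_e N ⟨U, m⟩) (qnG2_Phi F N c) = coeff m (c U) := by
  have h : (basisMonomials (Fin N) F).repr (qnG2_Phi F N c) (qnG2_e N ⟨U, m⟩) =
      (Pi.basis fun _ : Finset (Fin N) => basisMonomials (Fin N) F).repr c ⟨U, m⟩ := by
    simp only [qnG2_Phi, LinearEquiv.trans_apply, LinearEquiv.apply_symm_apply,
      Finsupp.domLCongr_apply, Finsupp.domCongr_apply, Finsupp.equivMapDomain_apply,
      Equiv.symm_apply_apply]
  exact h

theorem qnG2_mem_gr_iff (d : ℕ) (c : Qf76Lam (MvPolynomial (Fin N) F) N) :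
    c ∈ qg_gr F N d ↔ qnG2_Phi F N c ∈ homogeneousSubmodule (Fin N) F d := by
  rw [qg_mem_gr, mem_homogeneousSubmodule]
  constructor
  · intro h k hk
    obtain ⟨⟨U, m⟩, rfl⟩ := (qnG2_e N).surjective k
    rw [qnG2_coeff_Phi] at hk
    have e : Finsupp.weight (1 : Fin N → ℕ) (qnG2_e N ⟨U, m⟩) = (qnG2_e N ⟨U, m⟩).degree :=
      (DFunLike.congr_fun Finsupp.degree_eq_weight_one _).symm
    rw [e, qnG2_e_degree]
    exact h U m hk
  · intro h U m hm
    rw [← qnG2_coeff_Phi] at hm
    have := h hm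
    have e : Finsupp.weight (1 : Fin N → ℕ) (qnG2_e N ⟨U, m⟩) = (qnG2_e N ⟨U, m⟩).degree :=
      (DFunLike.congr_fun Finsupp.degree_eq_weight_one _).symm
    rw [e, qnG2_e_degree] at this
    exact this

theorem qnG2_gr_eq_map (d : ℕ) : qg_gr F N d =
    (homogeneousSubmodule (Fin N) F d).map (qnG2_Phi F N).symm.toLinearMap := by
  ext c
  rw [qnG2_mem_gr_iff]
  constructor
  · intro h
    exact ⟨_, h, (qnG2_Phi F N).symm_apply_apply c⟩
  · rintro ⟨p, hp, rfl⟩
    simpa using hp

/-- the piece of degree `d` is the space of the forms of degree `d` -/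
def qnG2_equiv (d : ℕ) : homogeneousSubmodule (Fin N) F d ≃ₗ[F] qg_gr F N d :=
  ((qnG2_Phi F N).symm.submoduleMap (homogeneousSubmodule (Fin N) F d)).trans
    (LinearEquiv.ofEq _ _ (qnG2_gr_eq_map d).symm)

theorem qnG2_card_degree (d : ℕ) :
    Nat.card {s : Fin N →₀ ℕ | s.degree = d} = (N + d - 1).choose d := by
  have h := Finset.card_finsuppAntidiag_nat_eq_choose (s := (Finset.univ : Finset (Fin N))) d
  rw [Finset.card_univ, Fintype.card_fin] at h
  rw [← h]
  apply Nat.subtype_card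
  intro s
  simp [Finsupp.degree_eq_sum]

theorem qnG2_finite_degree (d : ℕ) : Finite {s : Fin N →₀ ℕ | s.degree = d} := by
  have : {s : Fin N →₀ ℕ | s.degree = d} = ↑((Finset.univ : Finset (Fin N)).finsuppAntidiag d) := by
    ext s
    simp [Finsupp.degree_eq_sum]
  rw [this]
  exact Finset.finite_toSet _

theorem qnG2_finite_homog (d : ℕ) : Module.Finite F (homogeneousSubmodule (Fin N) F d) := by
  have h : homogeneousSubmodule (Fin N) F d = restrictSupport F {s : Fin N →₀ ℕ | s.degree = d} :=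
    homogeneousSubmodule_eq_finsupp_supported (Fin N) F d
  rw [h]
  have := qnG2_finite_degree (N := N) d
  exact Module.Finite.of_basis (basisRestrictSupport F _)

theorem qnG2_finrank_homog (d : ℕ) :
    Module.finrank F (homogeneousSubmodule (Fin N) F d) = (N + d - 1).choose d := by
  have h : homogeneousSubmodule (Fin N) F d = restrictSupport F {s : Fin N →₀ ℕ | s.degree = d} :=
    homogeneousSubmodule_eq_finsupp_supported (Fin N) F d
  rw [h, Module.finrank_eq_nat_card_basis (basisRestrictSupport F _)]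
  exact qnG2_card_degree d

theorem qg_fin (d : ℕ) : Module.Finite F (qg_gr F N d) := by
  have := qnG2_finite_homog (F := F) (N := N) d
  exact Module.Finite.equiv (qnG2_equiv d)

theorem qg_dim (hN : 0 < N) (d : ℕ) :
    Module.finrank F (qg_gr F N d) = (d + N - 1).choose (N - 1) := by
  rw [← (qnG2_equiv (F := F) (N := N) d).finrank_eq, qnG2_finrank_homog]
  obtain ⟨M, rfl⟩ : ∃ M, N = M + 1 := ⟨N - 1, by omega⟩
  have e1 : M + 1 + d - 1 = d + M := by omega
  have e2 : d + (M + 1) - 1 = d + M := by omega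
  rw [e1, e2, Nat.add_sub_cancel]
  exact Nat.choose_symm_add
-- END G2

/-- **the Fock space is a graded Clifford module** (from the posts) -/
def qg_mod (hN : 0 < N) (B : Fin N → Matrix (Fin N) (Fin N) F) :
    QcMod B (Qf76Lam (MvPolynomial (Fin N) F) N) where
  L := qf76_L (qcM B)
  rel a b x := by
    have h := congrArg (fun φ : Module.End (MvPolynomial (Fin N) F) (Qf76Lam (MvPolynomial (Fin N) F) N) => φ x)
      (qf76_L_L (qcM B) a b)
    simpa using h
  gr := qg_gr F N
  pr := qg_pr F N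
  pr_mem := qg_pr_mem
  pr_self := qg_pr_self
  pr_ne := qg_pr_ne
  sum_pr := qg_sum_pr
  L_mem a d x hx := qg_L_mem _ (qg_qcM_homog B) a d x hx
  smul_mem := qg_smul_mem
  fin := qg_fin
  dim d := by simpa using qg_dim hN d

theorem qg_tf (p : MvPolynomial (Fin N) F) (x : Qf76Lam (MvPolynomial (Fin N) F) N) (h : p • x = 0) :
    p = 0 ∨ x = 0 := by
  by_cases hp : p = 0
  · exact Or.inl hp
  · refine Or.inr (funext fun T => ?_)
    have := congrFun h T
    simpa [hp] using this

end Claimed.Agent.R278
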