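-- KEEP
import Claimed.Agent.R278.QuadDefs

/-!
# Row 278, C4-Q, cluster N, part 1: `R278/QuadN` = integrality of the multiplicity      (head helper269, prefix `qn`)

`qn_int`: for every graded `L`-stable `P`-submodule `G` of a graded Clifford module `𝓛` the Hilbert function `h_G` satisfies
`∑_j (-1)^j C(N,j) h_G(j + δ) = 0` for `δ ≫ 0`.   Posts N0 .. N5: ALL PROVED (22:50Z; pens 104, 282, 38, 241, 297, 70, 62,
61, 36, 244, 125; merged by 269).  0 open contracts in this file.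
-/

set_option autoImplicit false

open MvPolynomial

noncomputable section

namespace Claimed.Agent.R278

variable {F : Type} [Field F] {ι : Type} [Fintype ι] [DecidableEq ι]
variable {B : ι → Matrix ι ι F}
variable {𝓛 : Type} [AddCommGroup 𝓛] [Module (MvPolynomial ι F) 𝓛] [Module F 𝓛]
  [IsScalarTower F (MvPolynomial ι F) 𝓛]

/-! ## N0: the graded API -/

-- BEGIN N0a
/-- POST N0a: a homogeneous `F`-linear map of degree `k` commutes with the projections. -/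
theorem qn_pr_map (Q : QcMod B 𝓛) (φ : 𝓛 →ₗ[F] 𝓛) (k : ℕ) (hφ : ∀ d x, x ∈ Q.gr d → φ x ∈ Q.gr (d + k))
    (d : ℕ) (x : 𝓛) : Q.pr (d + k) (φ x) = φ (Q.pr d x) := by
  obtain ⟨D, hD⟩ := Q.sum_pr x
  have h1 : ∀ e, Q.pr (d + k) (φ (Q.pr e x)) = if e = d then φ (Q.pr d x) else 0 := by
    intro e
    split_ifs with h
    · subst h
      exact Q.pr_self _ _ (hφ _ _ (Q.pr_mem _ _))
    · exact Q.pr_ne (e + k) (d + k) _ (hφ _ _ (Q.pr_mem _ _)) (by omega)
  have h2 : ∀ e, Q.pr d (Q.pr e x) = if e = d then Q.pr d x else 0 := by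
    intro e
    split_ifs with h
    · subst h
      exact Q.pr_self _ _ (Q.pr_mem _ _)
    · exact Q.pr_ne e d _ (Q.pr_mem _ _) h
  have h3 : Q.pr (d + k) (φ x) = ∑ e ∈ Finset.range D, if e = d then φ (Q.pr d x) else 0 := by
    conv_lhs => rw [hD]
    rw [map_sum, map_sum]
    exact Finset.sum_congr rfl fun e _ => h1 e
  have h4 : Q.pr d x = ∑ e ∈ Finset.range D, if e = d then Q.pr d x else 0 := by
    conv_lhs => rw [hD]
    rw [map_sum]
    exact Finset.sum_congr rfl fun e _ => h2 e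
  rw [h3]
  conv_rhs => rw [h4]
  rw [map_sum]
  refine Finset.sum_congr rfl fun e _ => ?_
  split_ifs <;> simp
-- END N0a

-- BEGIN N0b
/-- POST N0b: below its degree a homogeneous map has no component. -/
theorem qn_pr_map_lt (Q : QcMod B 𝓛) (φ : 𝓛 →ₗ[F] 𝓛) (k : ℕ) (hφ : ∀ d x, x ∈ Q.gr d → φ x ∈ Q.gr (d + k))
    (e : ℕ) (he : e < k) (x : 𝓛) : Q.pr e (φ x) = 0 := by
  obtain ⟨D, hD⟩ := Q.sum_pr x
  rw [hD, map_sum, map_sum]
  refine Finset.sum_eq_zero fun d _ => ?_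
  exact Q.pr_ne (d + k) e _ (hφ d _ (Q.pr_mem d x)) (by omega)
-- END N0b

-- BEGIN N0c
/-- POST N0c: an element all of whose components vanish is zero. -/
theorem qn_eq_zero_of_pr (Q : QcMod B 𝓛) (x : 𝓛) (h : ∀ d, Q.pr d x = 0) : x = 0 := by
  obtain ⟨D, hD⟩ := Q.sum_pr x
  rw [hD]
  exact Finset.sum_eq_zero fun d _ => h d
-- END N0c

/-! ## the operators `Θ = ∑ U^a ⊗ L_a`, `Ξ_c = ∑ V^{a,c} ⊗ L_a` on `𝓛^I` -/

/-- `Θ` -/
def qnTh (pk : QcPack B) (Q : QcMod B 𝓛) : (pk.I → 𝓛) →ₗ[MvPolynomial ι F] (pk.I → 𝓛) :=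
  LinearMap.pi fun i' => ∑ a, ∑ i, (C (pk.U a i' i) : MvPolynomial ι F) • (Q.L a).comp (LinearMap.proj i)

/-- `Ξ_c` -/
def qnXi (pk : QcPack B) (Q : QcMod B 𝓛) (c : ι) : (pk.I → 𝓛) →ₗ[MvPolynomial ι F] (pk.I → 𝓛) :=
  LinearMap.pi fun i' => ∑ a, ∑ i, (C (pk.V a c i' i) : MvPolynomial ι F) • (Q.L a).comp (LinearMap.proj i)

theorem qnTh_apply (pk : QcPack B) (Q : QcMod B 𝓛) (m : pk.I → 𝓛) (i' : pk.I) :
    qnTh pk Q m i' = ∑ a, ∑ i, (C (pk.U a i' i) : MvPolynomial ι F) • Q.L a (m i) := by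
  simp [qnTh]

theorem qnXi_apply (pk : QcPack B) (Q : QcMod B 𝓛) (c : ι) (m : pk.I → 𝓛) (i' : pk.I) :
    qnXi pk Q c m i' = ∑ a, ∑ i, (C (pk.V a c i' i) : MvPolynomial ι F) • Q.L a (m i) := by
  simp [qnXi]

-- BEGIN N1a
/-- a symmetric family of coefficients killed by all the `B_c`: the polynomial coefficient vanishes -/
theorem qnN1a_poly (W : ι → ι → F) (hB : ∀ c, ∑ a, ∑ b, B c a b * W a b = 0) :
    ∑ a, ∑ b, (C (W a b) : MvPolynomial ι F) * qcM B a b = 0 := by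
  have h : ∑ a, ∑ b, (C (W a b) : MvPolynomial ι F) * qcM B a b =
      ∑ c, X c * C (∑ a, ∑ b, B c a b * W a b) := by
    simp only [qcM, Finset.mul_sum, map_sum, map_mul]
    rw [Finset.sum_comm]
    conv_rhs => rw [Finset.sum_comm]
    rw [Finset.sum_comm]
    refine Finset.sum_congr rfl fun a _ => ?_
    rw [Finset.sum_comm]
    refine Finset.sum_congr rfl fun c _ => Finset.sum_congr rfl fun b _ => ?_
    ring
  rw [h]
  exact Finset.sum_eq_zero fun c _ => by rw [hB c, map_zero, mul_zero]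

/-- the Clifford relation kills a symmetric combination of the `L_a L_b` -/
theorem qnN1a_sym [CharZero F] (Q : QcMod B 𝓛) (W : ι → ι → F) (hW : ∀ a b, W a b = W b a)
    (hB : ∀ c, ∑ a, ∑ b, B c a b * W a b = 0) (x : 𝓛) :
    ∑ a, ∑ b, (C (W a b) : MvPolynomial ι F) • Q.L a (Q.L b x) = 0 := by
  set S : 𝓛 := ∑ a, ∑ b, (C (W a b) : MvPolynomial ι F) • Q.L a (Q.L b x) with hS
  have h1 : S = ∑ a, ∑ b, (C (W a b) : MvPolynomial ι F) • Q.L b (Q.L a x) := by
    rw [hS, Finset.sum_comm]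
    exact Finset.sum_congr rfl fun a _ => Finset.sum_congr rfl fun b _ => by rw [hW b a]
  have h0 := qnN1a_poly (B := B) W hB
  have h0' : ∑ a, ∑ b, (C (W a b) : MvPolynomial ι F) * qcM B b a = 0 := by
    rw [Finset.sum_comm, ← h0]
    exact Finset.sum_congr rfl fun a _ => Finset.sum_congr rfl fun b _ => by rw [hW b a]
  have h2 : S + S = 0 := by
    conv_lhs => rw [h1]; lhs; rw [← h1, hS]
    simp only [← Finset.sum_add_distrib, ← smul_add, Q.rel, smul_smul, mul_add]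
    simp only [add_smul, Finset.sum_add_distrib, ← Finset.sum_smul]
    rw [h0, h0', zero_smul, add_zero]
  have h3 : (2 : F) • S = 0 := by rw [two_smul, h2]
  rcases smul_eq_zero.1 h3 with h | h
  · exact absurd h two_ne_zero
  · exact h

/-- POST N1a: `Θ² = 0` (p1: the coefficient `U^a U^b` is symmetric; `rel`; p2).  Needs `2 ≠ 0`. -/
theorem qnTh_sq [CharZero F] (pk : QcPack B) (Q : QcMod B 𝓛) (m : pk.I → 𝓛) : qnTh pk Q (qnTh pk Q m) = 0 := by
  funext i''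
  have key : qnTh pk Q (qnTh pk Q m) i'' =
      ∑ i, ∑ a, ∑ b, (C ((pk.U a * pk.U b) i'' i) : MvPolynomial ι F) • Q.L a (Q.L b (m i)) := by
    rw [qnTh_apply]
    simp only [qnTh_apply, map_sum, map_smul, Finset.smul_sum, smul_smul, Matrix.mul_apply,
      Finset.sum_smul, map_mul]
    conv_rhs => rw [Finset.sum_comm]
    refine Finset.sum_congr rfl fun a _ => ?_
    rw [Finset.sum_comm]
    conv_rhs => rw [Finset.sum_comm]
    refine Finset.sum_congr rfl fun b _ => ?_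
    rw [Finset.sum_comm]
  rw [key]
  refine Finset.sum_eq_zero fun i _ => ?_
  refine qnN1a_sym Q (fun a b => (pk.U a * pk.U b) i'' i) (fun a b => by rw [pk.p1 a b]) (fun c => ?_) (m i)
  have h := congrFun (congrFun (pk.p2 c) i'') i
  simpa [Matrix.sum_apply, Matrix.smul_apply] using h
-- END N1a

-- BEGIN N1b
/-- composition of two operators `∑ A^a ⊗ L_a`, `∑ A'^b ⊗ L_b` -/
theorem qnN1b_comp (Q : QcMod B 𝓛) {I : Type} [Fintype I] (A A' : ι → Matrix I I F) (m : I → 𝓛) (i'' : I) :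
    ∑ a, ∑ i', (C (A a i'' i') : MvPolynomial ι F) •
        Q.L a (∑ b, ∑ i, (C (A' b i' i) : MvPolynomial ι F) • Q.L b (m i)) =
      ∑ a, ∑ b, ∑ i, (C ((A a * A' b) i'' i) : MvPolynomial ι F) • Q.L a (Q.L b (m i)) := by
  refine Finset.sum_congr rfl fun a _ => ?_
  simp only [map_sum, map_smul, Finset.smul_sum, smul_smul, Matrix.mul_apply, Finset.sum_smul]
  rw [Finset.sum_comm]
  refine Finset.sum_congr rfl fun b _ => ?_
  rw [Finset.sum_comm]
  refine Finset.sum_congr rfl fun i _ => ?_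
  refine Finset.sum_congr rfl fun i' _ => ?_
  rw [C_mul]

/-- a symmetric coefficient sees only the anticommutator -/
theorem qnN1b_sym (Q : QcMod B 𝓛) {I : Type} [Fintype I] (W : ι → ι → Matrix I I F)
    (hW : ∀ a b, W a b = W b a) (m : I → 𝓛) (i'' : I) :
    (2 : MvPolynomial ι F) • ∑ a, ∑ b, ∑ i, (C (W a b i'' i) : MvPolynomial ι F) • Q.L a (Q.L b (m i)) =
      ∑ a, ∑ b, ∑ i, (C (W a b i'' i) : MvPolynomial ι F) • ((qcM B a b + qcM B b a) • m i) := by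
  rw [two_smul]
  conv_lhs =>
    rhs
    rw [Finset.sum_comm]
  rw [← Finset.sum_add_distrib]
  refine Finset.sum_congr rfl fun a _ => ?_
  rw [← Finset.sum_add_distrib]
  refine Finset.sum_congr rfl fun b _ => ?_
  rw [← Finset.sum_add_distrib]
  refine Finset.sum_congr rfl fun i _ => ?_
  rw [hW b a, ← smul_add, Q.rel]

/-- the contraction of a coefficient with `qcM` -/
theorem qnN1b_contract {I : Type} (W : ι → ι → Matrix I I F) (i'' i : I) :
    ∑ a, ∑ b, (C (W a b i'' i) : MvPolynomial ι F) * qcM B a b =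
      ∑ c', (X c' : MvPolynomial ι F) * C ((∑ a, ∑ b, B c' a b • W a b) i'' i) := by
  simp only [qcM, Finset.mul_sum, Matrix.sum_apply, Matrix.smul_apply, smul_eq_mul, map_sum, C_mul]
  rw [Finset.sum_comm]
  conv_lhs =>
    enter [2, b]
    rw [Finset.sum_comm]
  rw [Finset.sum_comm]
  refine Finset.sum_congr rfl fun c' _ => ?_
  rw [Finset.sum_comm]
  refine Finset.sum_congr rfl fun a _ => ?_
  refine Finset.sum_congr rfl fun b _ => ?_
  ring

/-- POST N1b: `Θ Ξ_c + Ξ_c Θ = Y_c` (p3: the coefficient is symmetric; `rel`; p4). -/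
theorem qnTh_htpy [CharZero F] (pk : QcPack B) (Q : QcMod B 𝓛) (c : ι) (m : pk.I → 𝓛) :
    qnTh pk Q (qnXi pk Q c m) + qnXi pk Q c (qnTh pk Q m) = (X c : MvPolynomial ι F) • m := by
  funext i''
  rw [Pi.add_apply, Pi.smul_apply, qnTh_apply, qnXi_apply]
  simp only [qnTh_apply, qnXi_apply]
  rw [qnN1b_comp Q pk.U (fun b => pk.V b c) m i'', qnN1b_comp Q (fun a => pk.V a c) pk.U m i'']
  set W : ι → ι → Matrix pk.I pk.I F := fun a b => pk.U a * pk.V b c + pk.V a c * pk.U b with hWdef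
  have hW : ∀ a b, W a b = W b a := fun a b => pk.p3 a b c
  have h1 : ∑ a, ∑ b, ∑ i, (C ((pk.U a * pk.V b c) i'' i) : MvPolynomial ι F) • Q.L a (Q.L b (m i)) +
      ∑ a, ∑ b, ∑ i, (C ((pk.V a c * pk.U b) i'' i) : MvPolynomial ι F) • Q.L a (Q.L b (m i)) =
      ∑ a, ∑ b, ∑ i, (C (W a b i'' i) : MvPolynomial ι F) • Q.L a (Q.L b (m i)) := by
    simp only [← Finset.sum_add_distrib, ← add_smul, ← C_add, hWdef, Matrix.add_apply]
  rw [h1]
  have h2 := qnN1b_sym Q W hW m i''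
  -- the right side
  have h4 : ∀ i, ∑ a, ∑ b, (C (W a b i'' i) : MvPolynomial ι F) * qcM B a b =
      (X c : MvPolynomial ι F) * C ((1 : Matrix pk.I pk.I F) i'' i) := by
    intro i
    rw [qnN1b_contract W i'' i]
    rw [Finset.sum_eq_single c]
    · rw [pk.p4 c c, if_pos rfl]
    · intro c' _ hc'
      rw [pk.p4 c c', if_neg (Ne.symm hc')]
      simp
    · intro h; exact absurd (Finset.mem_univ c) h
  have h4' : ∀ i, ∑ a, ∑ b, (C (W a b i'' i) : MvPolynomial ι F) * qcM B b a =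
      (X c : MvPolynomial ι F) * C ((1 : Matrix pk.I pk.I F) i'' i) := by
    intro i
    rw [Finset.sum_comm, ← h4 i]
    refine Finset.sum_congr rfl fun a _ => Finset.sum_congr rfl fun b _ => ?_
    rw [hW b a]
  have h5 : ∑ a, ∑ b, ∑ i, (C (W a b i'' i) : MvPolynomial ι F) • ((qcM B a b + qcM B b a) • m i) =
      (2 : MvPolynomial ι F) • ((X c : MvPolynomial ι F) • m i'') := by
    have : ∀ i, ∑ a, ∑ b, (C (W a b i'' i) : MvPolynomial ι F) • ((qcM B a b + qcM B b a) • m i) =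
        ((2 : MvPolynomial ι F) * ((X c : MvPolynomial ι F) * C ((1 : Matrix pk.I pk.I F) i'' i))) • m i := by
      intro i
      rw [two_mul]
      nth_rewrite 1 [← h4 i]
      rw [← h4' i]
      simp only [smul_add, smul_smul, add_smul, Finset.sum_add_distrib, Finset.sum_smul]
    calc ∑ a, ∑ b, ∑ i, (C (W a b i'' i) : MvPolynomial ι F) • ((qcM B a b + qcM B b a) • m i)
        = ∑ i, ∑ a, ∑ b, (C (W a b i'' i) : MvPolynomial ι F) • ((qcM B a b + qcM B b a) • m i) := by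
          rw [Finset.sum_comm]
          conv_lhs =>
            enter [2, b]
            rw [Finset.sum_comm]
          rw [Finset.sum_comm]
          refine Finset.sum_congr rfl fun i _ => ?_
          rw [Finset.sum_comm]
      _ = ∑ i, ((2 : MvPolynomial ι F) * ((X c : MvPolynomial ι F) * C ((1 : Matrix pk.I pk.I F) i'' i))) • m i :=
          Finset.sum_congr rfl fun i _ => this i
      _ = (2 : MvPolynomial ι F) • ((X c : MvPolynomial ι F) • m i'') := by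
          rw [Finset.sum_eq_single i'']
          · rw [Matrix.one_apply_eq, C_1, mul_one, mul_smul]
          · intro i _ hi
            rw [Matrix.one_apply_ne (Ne.symm hi), C_0, mul_zero, mul_zero, zero_smul]
          · intro h; exact absurd (Finset.mem_univ i'') h
  rw [h5] at h2
  have h6 : (C (1 / 2 : F) : MvPolynomial ι F) * 2 = 1 := by
    have : (2 : MvPolynomial ι F) = C (2 : F) := (map_ofNat C 2).symm
    rw [this, ← C_mul]
    norm_num
  have h7 := congrArg (fun x => (C (1 / 2 : F) : MvPolynomial ι F) • x) h2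
  simp only [smul_smul] at h7
  rw [h6, one_smul] at h7
  rw [h7, ← mul_assoc, h6, one_mul]
-- END N1b

/-! ## graded `L`-stable submodules and the strands `C_δ` -/

/-- `G` is a graded `L`-stable submodule -/
structure QnStable (Q : QcMod B 𝓛) (G : Submodule (MvPolynomial ι F) 𝓛) : Prop where
  L_mem : ∀ a x, x ∈ G → Q.L a x ∈ G
  pr_mem : ∀ d x, x ∈ G → Q.pr d x ∈ G

/-- the piece `G_d` -/
def qnPc (Q : QcMod B 𝓛) (G : Submodule (MvPolynomial ι F) 𝓛) (d : ℕ) : Submodule F 𝓛 :=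
  G.restrictScalars F ⊓ Q.gr d

/-- the Hilbert function `h_G` -/
def qnH (Q : QcMod B 𝓛) (G : Submodule (MvPolynomial ι F) 𝓛) (d : ℕ) : ℕ := Module.finrank F (qnPc Q G d)

/-- the strand `C_δ = ⊕_i G_(deg i + δ)` -/
def qnC (pk : QcPack B) (Q : QcMod B 𝓛) (G : Submodule (MvPolynomial ι F) 𝓛) (δ : ℕ) : Submodule F (pk.I → 𝓛) :=
  Submodule.pi Set.univ fun i => qnPc Q G (pk.deg i + δ)

-- BEGIN N2a
/-- POST N2a: `Θ` keeps the strands. -/
theorem qnTh_mem (pk : QcPack B) (Q : QcMod B 𝓛) (G : Submodule (MvPolynomial ι F) 𝓛) (hG : QnStable Q G)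
    (δ : ℕ) (m : pk.I → 𝓛) (hm : m ∈ qnC pk Q G δ) : qnTh pk Q m ∈ qnC pk Q G δ := by
  rw [qnC, Submodule.mem_pi] at hm ⊢
  intro i' _
  rw [qnTh_apply]
  refine Submodule.sum_mem _ fun a _ => Submodule.sum_mem _ fun i _ => ?_
  by_cases hu : pk.U a i' i = 0
  · rw [hu, map_zero, zero_smul]
    exact Submodule.zero_mem _
  · have hd := pk.hU a i' i hu
    obtain ⟨h1, h2⟩ := Submodule.mem_inf.1 (hm i (Set.mem_univ i))
    refine Submodule.mem_inf.2 ⟨?_, ?_⟩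
    · exact (Submodule.restrictScalars_mem F G _).2
        (G.smul_mem _ (hG.L_mem a _ ((Submodule.restrictScalars_mem F G _).1 h1)))
    · have h3 := Q.L_mem a _ _ h2
      have e : pk.deg i + δ + 1 = pk.deg i' + δ := by omega
      rw [e] at h3
      rw [← MvPolynomial.algebraMap_eq, algebraMap_smul]
      exact (Q.gr _).smul_mem _ h3
-- END N2a

-- BEGIN N2b
/-- POST N2b: `Ξ_c` raises the strand by 2. -/
theorem qnXi_mem (pk : QcPack B) (Q : QcMod B 𝓛) (G : Submodule (MvPolynomial ι F) 𝓛) (hG : QnStable Q G)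
    (c : ι) (δ : ℕ) (m : pk.I → 𝓛) (hm : m ∈ qnC pk Q G δ) : qnXi pk Q c m ∈ qnC pk Q G (δ + 2) := by
  intro i' _
  show qnXi pk Q c m i' ∈ qnPc Q G (pk.deg i' + (δ + 2))
  rw [qnXi_apply]
  refine Submodule.sum_mem _ fun a _ => Submodule.sum_mem _ fun i _ => ?_
  by_cases hV : pk.V a c i' i = 0
  · rw [hV, C_0, zero_smul]
    exact Submodule.zero_mem _
  · have hd : pk.deg i' + (δ + 2) = pk.deg i + δ + 1 := by
      have := pk.hV a c i' i hV
      omega
    have hmi : m i ∈ qnPc Q G (pk.deg i + δ) := hm i (Set.mem_univ i)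
    rw [hd]
    refine ⟨G.smul_mem _ (hG.L_mem a _ hmi.1), ?_⟩
    have h := Q.smul_mem 0 (C (pk.V a c i' i)) (isHomogeneous_C _ _) _ _ (Q.L_mem a _ _ hmi.2)
    simpa using h
-- END N2b

/-- the projection of `𝓛^I` to the strand `δ` -/
def qnPi (pk : QcPack B) (Q : QcMod B 𝓛) (δ : ℕ) : (pk.I → 𝓛) →ₗ[F] (pk.I → 𝓛) :=
  LinearMap.pi fun i => (Q.pr (pk.deg i + δ)).comp (LinearMap.proj i)

-- BEGIN N2c
theorem qnN2c_C_smul (u : F) (y : 𝓛) : (C u : MvPolynomial ι F) • y = u • y := by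
  rw [← MvPolynomial.algebraMap_eq, algebraMap_smul]

theorem qnN2c_pr_L (Q : QcMod B 𝓛) (a : ι) (d : ℕ) (x : 𝓛) : Q.pr (d + 1) (Q.L a x) = Q.L a (Q.pr d x) :=
  qn_pr_map Q ((Q.L a).restrictScalars F) 1 (fun d x hx => Q.L_mem a d x hx) d x

/-- POST N2c: `Θ` commutes with the projection to a strand. -/
theorem qnTh_pi (pk : QcPack B) (Q : QcMod B 𝓛) (δ : ℕ) (m : pk.I → 𝓛) :
    qnTh pk Q (qnPi pk Q δ m) = qnPi pk Q δ (qnTh pk Q m) := by
  funext i'
  rw [qnTh_apply]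
  have e1 : qnPi pk Q δ (qnTh pk Q m) i' = Q.pr (pk.deg i' + δ) (qnTh pk Q m i') := rfl
  rw [e1, qnTh_apply, map_sum]
  refine Finset.sum_congr rfl fun a _ => ?_
  rw [map_sum]
  refine Finset.sum_congr rfl fun i _ => ?_
  have e2 : qnPi pk Q δ m i = Q.pr (pk.deg i + δ) (m i) := rfl
  rw [e2]
  by_cases hu : pk.U a i' i = 0
  · simp [hu]
  · have hd := pk.hU a i' i hu
    rw [qnN2c_C_smul, qnN2c_C_smul, map_smul, hd, show pk.deg i + 1 + δ = pk.deg i + δ + 1 by ring,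
      qnN2c_pr_L]
-- END N2c

-- BEGIN N2d
/-- POST N2d: `Y_c` shifts the strands by 2. -/
theorem qnPi_smul (pk : QcPack B) (Q : QcMod B 𝓛) (c : ι) (δ : ℕ) (m : pk.I → 𝓛) :
    qnPi pk Q (δ + 2) ((X c : MvPolynomial ι F) • m) = (X c : MvPolynomial ι F) • qnPi pk Q δ m := by
  funext i
  have h := qn_pr_map Q ((LinearMap.lsmul (MvPolynomial ι F) 𝓛 (X c)).restrictScalars F) 2
    (fun d x hx => by simpa using Q.smul_mem 1 (X c) (isHomogeneous_X F c) d x hx) (pk.deg i + δ) (m i)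
  simpa [qnPi, add_assoc] using h
-- END N2d

-- BEGIN N3
/-- every polynomial is a constant plus a combination of the variables -/
theorem qnN3_poly (p : MvPolynomial ι F) :
    ∃ (a : F) (r : ι → MvPolynomial ι F), p = C a + ∑ c, X c * r c := by
  induction p using MvPolynomial.induction_on with
  | C a => exact ⟨a, 0, by simp⟩
  | add p q hp hq =>
    obtain ⟨a, r, rfl⟩ := hp
    obtain ⟨a', r', rfl⟩ := hq
    refine ⟨a + a', r + r', ?_⟩
    simp only [Pi.add_apply, mul_add, Finset.sum_add_distrib, C_add]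
    ring
  | mul_X p n _ =>
    refine ⟨0, fun c => if c = n then p else 0, ?_⟩
    simp [mul_comm]

/-- the components of an element vanish in high degrees -/
theorem qnN3_pr_high (Q : QcMod B 𝓛) (x : 𝓛) : ∃ D, ∀ e, D ≤ e → Q.pr e x = 0 := by
  obtain ⟨D, hD⟩ := Q.sum_pr x
  refine ⟨D, fun e he => ?_⟩
  have h := congrArg (Q.pr e) hD
  rw [h, map_sum]
  refine Finset.sum_eq_zero fun d hd => ?_
  exact Q.pr_ne d e _ (Q.pr_mem d x) (by have := Finset.mem_range.1 hd; omega)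

theorem qnN3_pi_apply (pk : QcPack B) (Q : QcMod B 𝓛) (δ : ℕ) (m : pk.I → 𝓛) (i : pk.I) :
    qnPi pk Q δ m i = Q.pr (pk.deg i + δ) (m i) := rfl

/-- the projection to the strand is the identity on the strand -/
theorem qnN3_pi_self (pk : QcPack B) (Q : QcMod B 𝓛) (G : Submodule (MvPolynomial ι F) 𝓛) (δ : ℕ)
    (m : pk.I → 𝓛) (hm : m ∈ qnC pk Q G δ) : qnPi pk Q δ m = m := by
  funext i
  rw [qnN3_pi_apply]
  exact Q.pr_self _ _ (hm i (Set.mem_univ i)).2

/-- the projection of an element of `G^I` lies in the strand -/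
theorem qnN3_pi_mem (pk : QcPack B) (Q : QcMod B 𝓛) (G : Submodule (MvPolynomial ι F) 𝓛) (hG : QnStable Q G) (δ : ℕ)
    (m : pk.I → 𝓛) (hm : ∀ i, m i ∈ G) : qnPi pk Q δ m ∈ qnC pk Q G δ := by
  intro i _
  rw [qnN3_pi_apply]
  exact ⟨hG.pr_mem _ _ (hm i), Q.pr_mem _ _⟩

/-- POST N3 (the noetherian cut): the strands are exact for `δ ≫ 0`.
Text: `Z = {m ∈ G^I : Θ m = 0}` is a `P`-submodule of the noetherian module `𝓛^I`, so `Z = P z_1 + … + P z_r`; all components of all `z_l i` live in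
degrees `< D₀`; take `δ ≥ D₀ + 2`, `m ∈ C_δ ∩ Z`, `m = ∑ p_l z_l`, `p_l = C (p_l 0) + ∑_c X c * p_lc`; apply `qnPi δ`: the constant parts die,
`m = ∑_c Y_c • qnPi (δ-2) w_c` with `w_c = ∑_l p_lc z_l ∈ Z`, `w'_c := qnPi (δ-2) w_c ∈ Z ∩ C_(δ-2)` (N2c, `pr_mem`); by N1b `m = Θ (∑_c Ξ_c w'_c)`. -/
theorem qn_exact [CharZero F] [Module.Finite (MvPolynomial ι F) 𝓛] (pk : QcPack B) (Q : QcMod B 𝓛)
    (G : Submodule (MvPolynomial ι F) 𝓛) (hG : QnStable Q G) :
    ∃ δ₀, ∀ δ, δ₀ ≤ δ → ∀ m ∈ qnC pk Q G δ, qnTh pk Q m = 0 → ∃ m' ∈ qnC pk Q G δ, qnTh pk Q m' = m := by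
  classical
  have : IsNoetherian (MvPolynomial ι F) 𝓛 := isNoetherian_of_isNoetherianRing_of_finite _ _
  -- the cycles
  let Z : Submodule (MvPolynomial ι F) (pk.I → 𝓛) :=
    Submodule.pi Set.univ (fun _ => G) ⊓ LinearMap.ker (qnTh pk Q)
  obtain ⟨S, hS⟩ : Z.FG := IsNoetherian.noetherian Z
  have hSZ : ∀ z ∈ S, z ∈ Z := fun z hz => hS ▸ Submodule.subset_span hz
  choose Dx hDx using qnN3_pr_high Q
  let D₀ : ℕ := S.sup fun z => Finset.univ.sup fun i => Dx (z i)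
  have hD₀ : ∀ z ∈ S, ∀ i, Dx (z i) ≤ D₀ := fun z hz i =>
    (Finset.le_sup (f := fun i => Dx (z i)) (Finset.mem_univ i)).trans
      (Finset.le_sup (f := fun z => Finset.univ.sup fun i => Dx (z i)) hz)
  have hkill : ∀ z ∈ S, ∀ δ, D₀ ≤ δ → qnPi pk Q δ z = 0 := by
    intro z hz δ hδ
    funext i
    rw [qnN3_pi_apply]
    exact hDx (z i) _ (by have := hD₀ z hz i; omega)
  refine ⟨D₀ + 2, fun δ hδ m hm hΘ => ?_⟩
  obtain ⟨δ', rfl⟩ : ∃ δ', δ = δ' + 2 := ⟨δ - 2, by omega⟩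
  have hmZ : m ∈ Z := ⟨fun i _ => (hm i (Set.mem_univ i)).1, hΘ⟩
  rw [← hS] at hmZ
  obtain ⟨f, -, hf⟩ := Submodule.mem_span_finset.1 hmZ
  choose a r har using qnN3_poly (F := F) (ι := ι)
  let w : ι → pk.I → 𝓛 := fun c => ∑ z ∈ S, r (f z) c • z
  have hwZ : ∀ c, w c ∈ Z := fun c => Z.sum_mem fun z hz => Z.smul_mem _ (hSZ z hz)
  have hsplit : m = ∑ z ∈ S, a (f z) • z + ∑ c, (X c : MvPolynomial ι F) • w c := by
    rw [← hf]
    have h1 : ∀ z ∈ S, f z • z = a (f z) • z + ∑ c, (X c : MvPolynomial ι F) • (r (f z) c • z) := by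
      intro z _
      conv_lhs => rw [har (f z)]
      rw [add_smul, Finset.sum_smul, ← algebraMap_eq, algebraMap_smul]
      simp only [mul_smul]
    rw [Finset.sum_congr rfl h1, Finset.sum_add_distrib, Finset.sum_comm]
    simp only [w, Finset.smul_sum]
  let w' : ι → pk.I → 𝓛 := fun c => qnPi pk Q δ' (w c)
  have hm2 : m = ∑ c, (X c : MvPolynomial ι F) • w' c := by
    have h2 := congrArg (qnPi pk Q (δ' + 2)) hsplit
    rw [qnN3_pi_self pk Q G _ m hm, map_add, map_sum, map_sum] at h2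
    rw [h2, Finset.sum_eq_zero (fun z hz => by rw [map_smul, hkill z hz _ (by omega), smul_zero]), zero_add]
    exact Finset.sum_congr rfl fun c _ => qnPi_smul pk Q c δ' (w c)
  have hw'C : ∀ c, w' c ∈ qnC pk Q G δ' := fun c =>
    qnN3_pi_mem pk Q G hG δ' (w c) fun i => (hwZ c).1 i (Set.mem_univ i)
  have hw'Θ : ∀ c, qnTh pk Q (w' c) = 0 := by
    intro c
    show qnTh pk Q (qnPi pk Q δ' (w c)) = 0
    rw [qnTh_pi, show qnTh pk Q (w c) = 0 from (hwZ c).2, map_zero]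
  refine ⟨∑ c, qnXi pk Q c (w' c), (qnC pk Q G (δ' + 2)).sum_mem fun c _ => qnXi_mem pk Q G hG c δ' _ (hw'C c), ?_⟩
  rw [map_sum, hm2]
  refine Finset.sum_congr rfl fun c _ => ?_
  have h3 := qnTh_htpy pk Q c (w' c)
  rw [hw'Θ c, map_zero, add_zero] at h3
  exact h3
-- END N3

-- BEGIN N4a
/-- POST N4a (linear algebra): a two-periodic exact complex has equal dimensions. -/
theorem qn_two_periodic {V₀ V₁ : Type} [AddCommGroup V₀] [Module F V₀] [AddCommGroup V₁] [Module F V₁]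
    [Module.Finite F V₀] [Module.Finite F V₁] (T₀ : V₀ →ₗ[F] V₁) (T₁ : V₁ →ₗ[F] V₀)
    (h01 : LinearMap.ker T₁ = LinearMap.range T₀) (h10 : LinearMap.ker T₀ = LinearMap.range T₁) :
    Module.finrank F V₀ = Module.finrank F V₁ := by
  have h0 := LinearMap.finrank_range_add_finrank_ker T₀
  have h1 := LinearMap.finrank_range_add_finrank_ker T₁
  rw [h01] at h1
  rw [h10] at h0
  omega
-- END N4a

-- BEGIN N4b
/-- the pieces of the strand `C_δ` of parity `e` -/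
def qnN4b_W (pk : QcPack B) (Q : QcMod B 𝓛) (G : Submodule (MvPolynomial ι F) 𝓛) (δ e : ℕ) (i : pk.I) : Submodule F 𝓛 :=
  if pk.deg i % 2 = e then qnPc Q G (pk.deg i + δ) else ⊥

/-- the part of the strand `C_δ` of parity `e` -/
def qnN4b_V (pk : QcPack B) (Q : QcMod B 𝓛) (G : Submodule (MvPolynomial ι F) 𝓛) (δ e : ℕ) : Submodule F (pk.I → 𝓛) :=
  Submodule.pi Set.univ (qnN4b_W pk Q G δ e)

theorem qnN4b_mem_V (pk : QcPack B) (Q : QcMod B 𝓛) (G : Submodule (MvPolynomial ι F) 𝓛) (δ e : ℕ) (m : pk.I → 𝓛) :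
    m ∈ qnN4b_V pk Q G δ e ↔ m ∈ qnC pk Q G δ ∧ ∀ i, pk.deg i % 2 ≠ e → m i = 0 := by
  unfold qnN4b_V qnC qnN4b_W
  simp only [Submodule.mem_pi, Set.mem_univ, forall_true_left]
  constructor
  · intro h
    refine ⟨fun i => ?_, fun i hi => ?_⟩
    · have h1 := h i
      by_cases hi : pk.deg i % 2 = e
      · rwa [if_pos hi] at h1
      · rw [if_neg hi, Submodule.mem_bot] at h1
        rw [h1]
        exact zero_mem _
    · have h1 := h i
      rwa [if_neg hi, Submodule.mem_bot] at h1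
  · rintro ⟨h1, h2⟩ i
    by_cases hi : pk.deg i % 2 = e
    · rw [if_pos hi]
      exact h1 i
    · rw [if_neg hi, Submodule.mem_bot]
      exact h2 i hi

/-- the projection to the parity `e` -/
def qnN4b_E (pk : QcPack B) (e : ℕ) (m : pk.I → 𝓛) : pk.I → 𝓛 := fun i => if pk.deg i % 2 = e then m i else 0

/-- `Θ` exchanges the parities -/
theorem qnN4b_Th_E (pk : QcPack B) (Q : QcMod B 𝓛) (e e' : ℕ) (hee : ∀ n, (n + 1) % 2 = e' ↔ n % 2 = e) (m : pk.I → 𝓛) :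
    qnTh pk Q (qnN4b_E pk e m) = qnN4b_E pk e' (qnTh pk Q m) := by
  funext i'
  rw [qnTh_apply]
  unfold qnN4b_E
  by_cases hi' : pk.deg i' % 2 = e'
  · rw [if_pos hi', qnTh_apply]
    refine Finset.sum_congr rfl fun a _ => Finset.sum_congr rfl fun i _ => ?_
    by_cases hU : pk.U a i' i = 0
    · rw [hU, map_zero, zero_smul, zero_smul]
    · have h1 := pk.hU a i' i hU
      have h2 : pk.deg i % 2 = e := (hee _).1 (h1 ▸ hi')
      rw [if_pos h2]
  · rw [if_neg hi']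
    refine Finset.sum_eq_zero fun a _ => Finset.sum_eq_zero fun i _ => ?_
    by_cases hU : pk.U a i' i = 0
    · rw [hU, map_zero, zero_smul]
    · have h1 := pk.hU a i' i hU
      have h2 : ¬ pk.deg i % 2 = e := fun h => hi' (h1 ▸ (hee _).2 h)
      rw [if_neg h2, map_zero, smul_zero]

theorem qnN4b_E_mem (pk : QcPack B) (Q : QcMod B 𝓛) (G : Submodule (MvPolynomial ι F) 𝓛) (δ e : ℕ) {m : pk.I → 𝓛}
    (hm : m ∈ qnC pk Q G δ) : qnN4b_E pk e m ∈ qnN4b_V pk Q G δ e := by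
  rw [qnN4b_mem_V]
  refine ⟨fun i _ => ?_, fun i hi => if_neg hi⟩
  show (if pk.deg i % 2 = e then m i else 0) ∈ _
  split_ifs
  · exact hm i trivial
  · exact zero_mem _

theorem qnN4b_E_eq (pk : QcPack B) (Q : QcMod B 𝓛) (G : Submodule (MvPolynomial ι F) 𝓛) (δ e : ℕ) {m : pk.I → 𝓛}
    (hm : m ∈ qnN4b_V pk Q G δ e) : qnN4b_E pk e m = m := by
  funext i
  unfold qnN4b_E
  by_cases hi : pk.deg i % 2 = e
  · rw [if_pos hi]
  · rw [if_neg hi, ((qnN4b_mem_V pk Q G δ e m).1 hm).2 i hi]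

theorem qnN4b_Th_mem (pk : QcPack B) (Q : QcMod B 𝓛) (G : Submodule (MvPolynomial ι F) 𝓛) (hG : QnStable Q G) (δ e e' : ℕ)
    (hee : ∀ n, (n + 1) % 2 = e' ↔ n % 2 = e) (m : pk.I → 𝓛) (hm : m ∈ qnN4b_V pk Q G δ e) :
    qnTh pk Q m ∈ qnN4b_V pk Q G δ e' := by
  have h1 := qnN4b_Th_E pk Q e e' hee m
  rw [qnN4b_E_eq pk Q G δ e hm] at h1
  rw [h1]
  exact qnN4b_E_mem pk Q G δ e' (qnTh_mem pk Q G hG δ m ((qnN4b_mem_V pk Q G δ e m).1 hm).1)

/-- `Θ` from the parity `e` to the parity `e'` -/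
def qnN4b_T (pk : QcPack B) (Q : QcMod B 𝓛) (G : Submodule (MvPolynomial ι F) 𝓛) (hG : QnStable Q G) (δ e e' : ℕ)
    (hee : ∀ n, (n + 1) % 2 = e' ↔ n % 2 = e) : qnN4b_V pk Q G δ e →ₗ[F] qnN4b_V pk Q G δ e' :=
  ((qnTh pk Q).restrictScalars F).restrict (fun m hm => qnN4b_Th_mem pk Q G hG δ e e' hee m hm)

theorem qnN4b_exact [CharZero F] (pk : QcPack B) (Q : QcMod B 𝓛) (G : Submodule (MvPolynomial ι F) 𝓛) (hG : QnStable Q G)
    (δ e e' : ℕ) (hee : ∀ n, (n + 1) % 2 = e' ↔ n % 2 = e) (hee' : ∀ n, (n + 1) % 2 = e ↔ n % 2 = e')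
    (hex : ∀ m ∈ qnC pk Q G δ, qnTh pk Q m = 0 → ∃ m' ∈ qnC pk Q G δ, qnTh pk Q m' = m) :
    LinearMap.ker (qnN4b_T pk Q G hG δ e' e hee') = LinearMap.range (qnN4b_T pk Q G hG δ e e' hee) := by
  ext ⟨y, hy⟩
  rw [LinearMap.mem_ker, LinearMap.mem_range]
  constructor
  · intro h
    have h0 : qnTh pk Q y = 0 := congrArg Subtype.val h
    obtain ⟨m', hm', hm'y⟩ := hex y ((qnN4b_mem_V pk Q G δ e' y).1 hy).1 h0
    refine ⟨⟨qnN4b_E pk e m', qnN4b_E_mem pk Q G δ e hm'⟩, Subtype.ext ?_⟩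
    show qnTh pk Q (qnN4b_E pk e m') = y
    rw [qnN4b_Th_E pk Q e e' hee, hm'y, qnN4b_E_eq pk Q G δ e' hy]
  · rintro ⟨⟨x, hx⟩, hxy⟩
    have h1 : qnTh pk Q x = y := congrArg Subtype.val hxy
    apply Subtype.ext
    show qnTh pk Q y = 0
    rw [← h1, qnTh_sq]

/-- a product of subspaces, as a product of types -/
def qnN4b_equiv {J : Type} (p : J → Submodule F 𝓛) : (∀ i, p i) ≃ₗ[F] Submodule.pi Set.univ p where
  toFun f := ⟨fun i => (f i : 𝓛), fun i _ => (f i).2⟩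
  invFun m := fun i => ⟨m.1 i, m.2 i trivial⟩
  map_add' _ _ := rfl
  map_smul' _ _ := rfl
  left_inv _ := rfl
  right_inv _ := rfl

theorem qnN4b_finW (pk : QcPack B) (Q : QcMod B 𝓛) (G : Submodule (MvPolynomial ι F) 𝓛) (δ e : ℕ) (i : pk.I) :
    Module.Finite F (qnN4b_W pk Q G δ e i) := by
  have := Q.fin (pk.deg i + δ)
  have h : qnN4b_W pk Q G δ e i ≤ Q.gr (pk.deg i + δ) := by
    unfold qnN4b_W
    split_ifs
    · exact inf_le_right
    · exact bot_le
  exact Submodule.finiteDimensional_of_le h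

theorem qnN4b_finV (pk : QcPack B) (Q : QcMod B 𝓛) (G : Submodule (MvPolynomial ι F) 𝓛) (δ e : ℕ) :
    Module.Finite F (qnN4b_V pk Q G δ e) := by
  have := qnN4b_finW pk Q G δ e
  exact Module.Finite.equiv (qnN4b_equiv (qnN4b_W pk Q G δ e))

theorem qnN4b_finrank (pk : QcPack B) (Q : QcMod B 𝓛) (G : Submodule (MvPolynomial ι F) 𝓛) (δ e : ℕ) :
    Module.finrank F (qnN4b_V pk Q G δ e) = ∑ i : pk.I, if pk.deg i % 2 = e then qnH Q G (pk.deg i + δ) else 0 := by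
  have := qnN4b_finW pk Q G δ e
  have h1 := (qnN4b_equiv (qnN4b_W pk Q G δ e)).finrank_eq
  have h2 : Module.finrank F (qnN4b_V pk Q G δ e) = Module.finrank F (∀ i, qnN4b_W pk Q G δ e i) := h1.symm
  rw [h2, Module.finrank_pi_fintype F]
  refine Finset.sum_congr rfl fun i _ => ?_
  by_cases hi : pk.deg i % 2 = e
  · have hW : qnN4b_W pk Q G δ e i = qnPc Q G (pk.deg i + δ) := if_pos hi
    rw [hW, if_pos hi]
    rfl
  · have hW : qnN4b_W pk Q G δ e i = ⊥ := if_neg hi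
    rw [hW, if_neg hi]
    exact finrank_bot F 𝓛

/-- POST N4b (Euler characteristic of an exact strand; `Θ` changes the parity of `deg i` by `hU`). -/
theorem qn_euler [CharZero F] (pk : QcPack B) (Q : QcMod B 𝓛) (G : Submodule (MvPolynomial ι F) 𝓛) (hG : QnStable Q G) (δ : ℕ)
    (hex : ∀ m ∈ qnC pk Q G δ, qnTh pk Q m = 0 → ∃ m' ∈ qnC pk Q G δ, qnTh pk Q m' = m) :
    ∑ i : pk.I, (-1 : ℤ) ^ pk.deg i * (qnH Q G (pk.deg i + δ) : ℤ) = 0 := by
  have h01 : ∀ n, (n + 1) % 2 = 1 ↔ n % 2 = 0 := fun n => by omega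
  have h10 : ∀ n, (n + 1) % 2 = 0 ↔ n % 2 = 1 := fun n => by omega
  have := qnN4b_finV pk Q G δ 0
  have := qnN4b_finV pk Q G δ 1
  have key := qn_two_periodic (qnN4b_T pk Q G hG δ 0 1 h01) (qnN4b_T pk Q G hG δ 1 0 h10)
    (qnN4b_exact pk Q G hG δ 0 1 h01 h10 hex) (qnN4b_exact pk Q G hG δ 1 0 h10 h01 hex)
  rw [qnN4b_finrank, qnN4b_finrank] at key
  have key' : (∑ i : pk.I, if pk.deg i % 2 = 0 then (qnH Q G (pk.deg i + δ) : ℤ) else 0) =
      ∑ i : pk.I, if pk.deg i % 2 = 1 then (qnH Q G (pk.deg i + δ) : ℤ) else 0 := by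
    have := congrArg (Nat.cast : ℕ → ℤ) key
    push_cast at this
    exact this
  have hterm : ∀ i : pk.I, (-1 : ℤ) ^ pk.deg i * (qnH Q G (pk.deg i + δ) : ℤ) =
      (if pk.deg i % 2 = 0 then (qnH Q G (pk.deg i + δ) : ℤ) else 0) -
        (if pk.deg i % 2 = 1 then (qnH Q G (pk.deg i + δ) : ℤ) else 0) := by
    intro i
    rcases Nat.mod_two_eq_zero_or_one (pk.deg i) with h | h
    · rw [if_pos h, if_neg (by omega), (Nat.even_iff.2 h).neg_one_pow]
      ring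
    · rw [if_neg (by omega), if_pos h, (Nat.odd_iff.2 h).neg_one_pow]
      ring
  rw [Finset.sum_congr rfl fun i _ => hterm i, Finset.sum_sub_distrib, key', sub_self]
-- END N4b

-- BEGIN N5
/-- POST N5 (p5): the sum over `I` is the binomial sum. -/
theorem qn_sum_deg (pk : QcPack B) (h : ℕ → ℤ) :
    ∑ i : pk.I, (-1 : ℤ) ^ pk.deg i * h (pk.deg i) =
      ∑ j ∈ Finset.range (Fintype.card ι + 1), (-1 : ℤ) ^ j * ((Fintype.card ι).choose j : ℤ) * h j := by
  have hle : ∀ i ∈ (Finset.univ : Finset pk.I), pk.deg i ∈ Finset.range (Fintype.card ι + 1) := by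
    intro i _
    rw [Finset.mem_range, Nat.lt_succ_iff]
    by_contra hlt
    have h5 := pk.p5 (pk.deg i)
    rw [Nat.choose_eq_zero_of_lt (not_le.mp hlt), Finset.card_eq_zero] at h5
    have hi : i ∈ Finset.univ.filter fun i' => pk.deg i' = pk.deg i :=
      Finset.mem_filter.mpr ⟨Finset.mem_univ i, rfl⟩
    rw [h5] at hi
    exact absurd hi (Finset.notMem_empty i)
  rw [← Finset.sum_fiberwise_of_maps_to hle]
  refine Finset.sum_congr rfl fun j _ => ?_
  have hc : ∀ i ∈ Finset.univ.filter (fun i => pk.deg i = j),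
      (-1 : ℤ) ^ pk.deg i * h (pk.deg i) = (-1 : ℤ) ^ j * h j := by
    intro i hi
    rw [(Finset.mem_filter.mp hi).2]
  rw [Finset.sum_congr rfl hc, Finset.sum_const, pk.p5 j, nsmul_eq_mul]
  ring
-- END N5

/-- **integrality** -/
theorem qn_int [CharZero F] [Module.Finite (MvPolynomial ι F) 𝓛] (pk : QcPack B) (Q : QcMod B 𝓛)
    (G : Submodule (MvPolynomial ι F) 𝓛) (hG : QnStable Q G) :
    ∃ δ₀, ∀ δ, δ₀ ≤ δ → ∑ j ∈ Finset.range (Fintype.card ι + 1),
      (-1 : ℤ) ^ j * ((Fintype.card ι).choose j : ℤ) * (qnH Q G (j + δ) : ℤ) = 0 := by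
  obtain ⟨δ₀, h⟩ := qn_exact pk Q G hG
  refine ⟨δ₀, fun δ hδ => ?_⟩
  rw [← qn_sum_deg pk (fun j => (qnH Q G (j + δ) : ℤ))]
  exact qn_euler pk Q G hG δ (h δ hδ)

end Claimed.Agent.R278
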