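-- KEEP
import Mathlib

/-!
# Row 278, C4-Q, cluster N: `R278/QuadNum` = the numerics      (pen helper271, prefix `qnum`)

`qnum_false`: two Hilbert functions with `Δ^N h = 0` eventually and growth `≥ C(r+N-1, N-1)` along an arithmetic progression of step 2
cannot add up to `C(d+N-1, N-1)` (`e(h) := Δ^(N-1) h` is an integer, `e₁ + e₂ = 1`, `e_i ≥ 1`).
-/

set_option autoImplicit false

namespace Claimed.Agent.R278

-- BEGIN NUM
section

open Finset fwdDiff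

/-- the alternating sum of the Euler characteristic is the iterated difference, up to sign -/
theorem qn271_alt_eq (h : ℕ → ℤ) (N d : ℕ) :
    (fwdDiff 1)^[N] h d = (-1) ^ N * ∑ j ∈ range (N + 1), (-1 : ℤ) ^ j * (N.choose j : ℤ) * h (d + j) := by
  rw [fwdDiff_iter_eq_sum_shift, Finset.mul_sum]
  refine Finset.sum_congr rfl fun j hj => ?_
  have hj' : j ≤ N := Nat.lt_succ_iff.1 (Finset.mem_range.1 hj)
  have h1 : (-1 : ℤ) ^ (N - j) = (-1) ^ N * (-1) ^ j := by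
    obtain ⟨c, rfl⟩ := Nat.exists_eq_add_of_le hj'
    rw [Nat.add_sub_cancel_left, pow_add, mul_comm ((-1 : ℤ) ^ j), mul_assoc, ← mul_pow]
    simp
  rw [h1]
  simp only [smul_eq_mul, mul_one]
  ring

/-- if `Δ^N h` vanishes from `d0` on, so do all higher differences -/
theorem qn271_higher (h : ℕ → ℤ) (N d0 : ℕ) (h0 : ∀ d, d0 ≤ d → (fwdDiff 1)^[N] h d = 0) (j : ℕ) :
    ∀ d, d0 ≤ d → (fwdDiff 1)^[N + j] h d = 0 := by
  induction j with
  | zero => simpa using h0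
  | succ j ih =>
    intro d hd
    rw [← add_assoc, Function.iterate_succ_apply']
    simp only [fwdDiff]
    rw [ih d hd, ih (d + 1) (by omega)]
    simp

/-- `Δ^M h` is constant from `d0` on if `Δ^(M+1) h` vanishes there -/
theorem qn271_const (h : ℕ → ℤ) (M d0 : ℕ) (h0 : ∀ d, d0 ≤ d → (fwdDiff 1)^[M + 1] h d = 0) :
    ∀ d, d0 ≤ d → (fwdDiff 1)^[M] h d = (fwdDiff 1)^[M] h d0 := by
  intro d hd
  induction d, hd using Nat.le_induction with
  | base => rfl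
  | succ d hd ih =>
    have := h0 d hd
    rw [Function.iterate_succ_apply'] at this
    simp only [fwdDiff] at this
    omega

/-- Newton: from `d0` on, `h` is a polynomial of degree `≤ M` in binomial form -/
theorem qn271_newton (h : ℕ → ℤ) (M d0 : ℕ) (h0 : ∀ d, d0 ≤ d → (fwdDiff 1)^[M + 1] h d = 0) (n : ℕ) :
    h (d0 + n) = ∑ j ∈ range (M + 1), (n.choose j : ℤ) * (fwdDiff 1)^[j] h d0 := by
  have h1 := shift_eq_sum_fwdDiff_iter (1 : ℕ) h n d0
  simp only [smul_eq_mul, mul_one, nsmul_eq_mul] at h1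
  rw [h1]
  have key : ∀ K : ℕ, ∑ j ∈ range K, (n.choose j : ℤ) * (fwdDiff 1)^[j] h d0 =
      ∑ j ∈ range (min K (min (n + 1) (M + 1))), (n.choose j : ℤ) * (fwdDiff 1)^[j] h d0 := by
    intro K
    symm
    apply Finset.sum_subset
    · intro j hj
      simp only [Finset.mem_range, lt_min_iff] at hj ⊢
      exact hj.1
    · intro j hj hj'
      simp only [Finset.mem_range, lt_min_iff, not_and, not_lt] at hj hj'
      by_cases hn : j < n + 1
      · have hM := hj' hj hn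
        obtain ⟨c, rfl⟩ := Nat.exists_eq_add_of_le hM
        rw [qn271_higher h (M + 1) d0 h0 c d0 le_rfl, mul_zero]
      · rw [Nat.choose_eq_zero_of_lt (by omega)]
        simp
  rw [key (n + 1), key (M + 1)]
  congr 2
  omega

/-- **growth**: a copy of `P(-k)` (variables of degree 2) forces multiplicity `≥ 1` -/
theorem qn271_mult_pos (h : ℕ → ℤ) (M d0 k : ℕ)
    (h0 : ∀ d, d0 ≤ d → (fwdDiff 1)^[M + 1] h d = 0)
    (hk : ∀ m : ℕ, ((m + M).choose M : ℤ) ≤ h (k + 2 * m)) :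
    1 ≤ (fwdDiff 1)^[M] h d0 := by
  by_contra hcon
  have he : (fwdDiff 1)^[M] h d0 ≤ 0 := by omega
  set c : ℕ → ℤ := fun j => (fwdDiff 1)^[j] h d0 with hc
  set B : ℤ := ∑ j ∈ range M, |c j| with hB
  have hB0 : 0 ≤ B := Finset.sum_nonneg fun j _ => abs_nonneg _
  -- upper bound
  have up : ∀ n : ℕ, 1 ≤ n → (n : ℤ) * h (d0 + n) ≤ B * (n : ℤ) ^ M := by
    intro n hn
    rw [qn271_newton h M d0 h0 n, Finset.sum_range_succ, mul_add]
    have t1 : (n : ℤ) * ((n.choose M : ℤ) * (fwdDiff 1)^[M] h d0) ≤ 0 := by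
      have : (0 : ℤ) ≤ (n : ℤ) * (n.choose M : ℤ) := by positivity
      nlinarith
    have t2 : (n : ℤ) * ∑ j ∈ range M, (n.choose j : ℤ) * (fwdDiff 1)^[j] h d0 ≤ B * (n : ℤ) ^ M := by
      rw [Finset.mul_sum, hB, Finset.sum_mul]
      refine Finset.sum_le_sum fun j hj => ?_
      have hj' : j + 1 ≤ M := Finset.mem_range.1 hj
      have a1 : ((n.choose j : ℕ) : ℤ) ≤ (n : ℤ) ^ j := by exact_mod_cast Nat.choose_le_pow n j
      have a2 : (n : ℤ) * (n : ℤ) ^ j ≤ (n : ℤ) ^ M := by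
        rw [← pow_succ']
        exact pow_le_pow_right₀ (by exact_mod_cast hn) hj'
      have a3 : (fwdDiff 1)^[j] h d0 ≤ |c j| := le_abs_self _
      have a4 : (0 : ℤ) ≤ (n : ℤ) * (n.choose j : ℤ) := by positivity
      calc (n : ℤ) * ((n.choose j : ℤ) * (fwdDiff 1)^[j] h d0)
          = ((n : ℤ) * (n.choose j : ℤ)) * (fwdDiff 1)^[j] h d0 := by ring
        _ ≤ ((n : ℤ) * (n.choose j : ℤ)) * |c j| := mul_le_mul_of_nonneg_left a3 a4
        _ ≤ ((n : ℤ) * (n : ℤ) ^ j) * |c j| := by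
            apply mul_le_mul_of_nonneg_right _ (abs_nonneg _)
            exact mul_le_mul_of_nonneg_left a1 (by positivity)
        _ ≤ (n : ℤ) ^ M * |c j| := mul_le_mul_of_nonneg_right a2 (abs_nonneg _)
        _ = |c j| * (n : ℤ) ^ M := by ring
    linarith
  -- the choice of `m`
  obtain ⟨Bn, hBn⟩ : ∃ Bn : ℕ, B = Bn := ⟨B.toNat, (Int.toNat_of_nonneg hB0).symm⟩
  set m : ℕ := d0 + M.factorial * Bn * (k + 2) ^ M + 1 with hm
  set n : ℕ := k + 2 * m - d0 with hn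
  have hn1 : 1 ≤ n := by omega
  have hdn : d0 + n = k + 2 * m := by omega
  have u := up n hn1
  rw [hdn] at u
  have l1 : (m + 1) ^ M ≤ M.factorial * (m + M).choose M := by
    rw [← Nat.descFactorial_eq_factorial_mul_choose]
    have := Nat.pow_sub_le_descFactorial (m + M) M
    have e : m + M + 1 - M = m + 1 := by omega
    rwa [e] at this
  have l2 : n ≤ (k + 2) * (m + 1) := by
    have : k + 2 * m ≤ (k + 2) * (m + 1) := by nlinarith
    omega
  have l3 : n ^ M ≤ (k + 2) ^ M * (m + 1) ^ M := by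
    rw [← mul_pow]
    exact Nat.pow_le_pow_left l2 M
  have l4 : M.factorial * Bn * (k + 2) ^ M < n := by omega
  -- combine, in ℤ
  have l1' : ((m + 1 : ℕ) : ℤ) ^ M ≤ (M.factorial : ℤ) * ((m + M).choose M : ℤ) := by exact_mod_cast l1
  have l3' : (n : ℤ) ^ M ≤ ((k + 2 : ℕ) : ℤ) ^ M * ((m + 1 : ℕ) : ℤ) ^ M := by exact_mod_cast l3
  have l4' : (M.factorial : ℤ) * Bn * ((k + 2 : ℕ) : ℤ) ^ M < (n : ℤ) := by exact_mod_cast l4
  have pos : (0 : ℤ) < ((m + 1 : ℕ) : ℤ) ^ M := by positivity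
  have c1 : (n : ℤ) * ((m + 1 : ℕ) : ℤ) ^ M ≤
      ((M.factorial : ℤ) * Bn * ((k + 2 : ℕ) : ℤ) ^ M) * ((m + 1 : ℕ) : ℤ) ^ M := by
    calc (n : ℤ) * ((m + 1 : ℕ) : ℤ) ^ M
        ≤ (n : ℤ) * ((M.factorial : ℤ) * ((m + M).choose M : ℤ)) :=
          mul_le_mul_of_nonneg_left l1' (by positivity)
      _ ≤ (n : ℤ) * ((M.factorial : ℤ) * h (k + 2 * m)) := by
          apply mul_le_mul_of_nonneg_left _ (by positivity)
          exact mul_le_mul_of_nonneg_left (hk m) (by positivity)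
      _ = (M.factorial : ℤ) * ((n : ℤ) * h (k + 2 * m)) := by ring
      _ ≤ (M.factorial : ℤ) * (B * (n : ℤ) ^ M) := mul_le_mul_of_nonneg_left u (by positivity)
      _ ≤ (M.factorial : ℤ) * (B * (((k + 2 : ℕ) : ℤ) ^ M * ((m + 1 : ℕ) : ℤ) ^ M)) := by
          apply mul_le_mul_of_nonneg_left _ (by positivity)
          exact mul_le_mul_of_nonneg_left l3' hB0
      _ = ((M.factorial : ℤ) * Bn * ((k + 2 : ℕ) : ℤ) ^ M) * ((m + 1 : ℕ) : ℤ) ^ M := by
          rw [hBn]; ring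
  have c2 := le_of_mul_le_mul_right c1 pos
  omega

/-- the multiplicity of the Hilbert function of `A` is one -/
theorem qn271_mult_choose (M d : ℕ) :
    (fwdDiff 1)^[M] (fun x : ℕ => (((x + M).choose M : ℕ) : ℤ)) d = 1 := by
  have h1 := fwdDiff_iter_comp_add (1 : ℕ) (fun x : ℕ => ((x.choose M : ℕ) : ℤ)) M M d
  have h2 := fwdDiff_iter_choose 0 M
  simp only [add_zero] at h2
  rw [h1, h2]
  simp

/-- **THE NUMERICAL END OF THE DOMAIN ARGUMENT** (`N = M + 1` variables `Y_c` of degree 2).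
`h1` = Hilbert function of `ann v`, `h2` = Hilbert function of `A v`, `k = deg v`:
(a) the Euler characteristics of the complexes `C_δ` vanish for `δ ≥ d0`; (b) the exact sequence `0 → ann v → A → A v → 0`;
(c) both ideals contain a copy of a shift of `P`.  This is absurd: `1 = e(ann v) + e(A v) ≥ 2`. -/
theorem qn271_absurd (M d0 k k1 k2 : ℕ) (h1 h2 : ℕ → ℤ)
    (a1 : ∀ d, d0 ≤ d →
      ∑ j ∈ range (M + 1 + 1), (-1 : ℤ) ^ j * ((M + 1).choose j : ℤ) * h1 (d + j) = 0)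
    (a2 : ∀ d, d0 ≤ d →
      ∑ j ∈ range (M + 1 + 1), (-1 : ℤ) ^ j * ((M + 1).choose j : ℤ) * h2 (d + j) = 0)
    (b : ∀ d, h1 d + h2 (d + k) = ((d + M).choose M : ℤ))
    (c1 : ∀ m : ℕ, ((m + M).choose M : ℤ) ≤ h1 (k1 + 2 * m))
    (c2 : ∀ m : ℕ, ((m + M).choose M : ℤ) ≤ h2 (k2 + 2 * m)) : False := by
  have z1 : ∀ d, d0 ≤ d → (fwdDiff 1)^[M + 1] h1 d = 0 := fun d hd => by
    rw [qn271_alt_eq, a1 d hd, mul_zero]
  have z2 : ∀ d, d0 ≤ d → (fwdDiff 1)^[M + 1] h2 d = 0 := fun d hd => by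
    rw [qn271_alt_eq, a2 d hd, mul_zero]
  have e1 := qn271_mult_pos h1 M d0 k1 z1 c1
  have e2 := qn271_mult_pos h2 M d0 k2 z2 c2
  have e2' := qn271_const h2 M d0 z2 (d0 + k) (by omega)
  have hb : (fun x : ℕ => (((x + M).choose M : ℕ) : ℤ)) = h1 + fun r => h2 (r + k) := by
    funext d
    exact (b d).symm
  have h3 := qn271_mult_choose M d0
  rw [hb, fwdDiff_iter_add, Pi.add_apply, fwdDiff_iter_comp_add] at h3
  omega

/-- the same for Hilbert functions with values in `ℕ` -/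
theorem qn271_absurd_nat (M d0 k k1 k2 : ℕ) (h1 h2 : ℕ → ℕ)
    (a1 : ∀ d, d0 ≤ d →
      ∑ j ∈ range (M + 1 + 1), (-1 : ℤ) ^ j * ((M + 1).choose j : ℤ) * (h1 (d + j) : ℤ) = 0)
    (a2 : ∀ d, d0 ≤ d →
      ∑ j ∈ range (M + 1 + 1), (-1 : ℤ) ^ j * ((M + 1).choose j : ℤ) * (h2 (d + j) : ℤ) = 0)
    (b : ∀ d, h1 d + h2 (d + k) = (d + M).choose M)
    (c1 : ∀ m : ℕ, (m + M).choose M ≤ h1 (k1 + 2 * m))
    (c2 : ∀ m : ℕ, (m + M).choose M ≤ h2 (k2 + 2 * m)) : False :=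
  qn271_absurd M d0 k k1 k2 (fun d => (h1 d : ℤ)) (fun d => (h2 d : ℤ)) a1 a2
    (fun d => by exact_mod_cast b d) (fun m => by exact_mod_cast c1 m)
    (fun m => by exact_mod_cast c2 m)

end

/-- POST NUM. -/
theorem qnum_false (N : ℕ) (hN : 0 < N) (h₁ h₂ : ℕ → ℕ) (k k₁ k₂ : ℕ)
    (hsum : ∀ d, h₁ d + h₂ (d + k) = (d + N - 1).choose (N - 1))
    (hint₁ : ∃ δ₀, ∀ δ, δ₀ ≤ δ → ∑ j ∈ Finset.range (N + 1), (-1 : ℤ) ^ j * (N.choose j : ℤ) * (h₁ (j + δ) : ℤ) = 0)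
    (hint₂ : ∃ δ₀, ∀ δ, δ₀ ≤ δ → ∑ j ∈ Finset.range (N + 1), (-1 : ℤ) ^ j * (N.choose j : ℤ) * (h₂ (j + δ) : ℤ) = 0)
    (hg₁ : ∀ r, (r + N - 1).choose (N - 1) ≤ h₁ (k₁ + 2 * r))
    (hg₂ : ∀ r, (r + N - 1).choose (N - 1) ≤ h₂ (k₂ + 2 * r)) : False := by
  obtain ⟨M, rfl⟩ : ∃ M, N = M + 1 := ⟨N - 1, by omega⟩
  obtain ⟨δ₁, hδ₁⟩ := hint₁
  obtain ⟨δ₂, hδ₂⟩ := hint₂
  refine qn271_absurd_nat M (max δ₁ δ₂) k k₁ k₂ h₁ h₂ (fun d hd => ?_) (fun d hd => ?_)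
    (fun d => ?_) (fun m => ?_) (fun m => ?_)
  · have := hδ₁ d (le_trans (le_max_left _ _) hd)
    simpa only [add_comm d] using this
  · have := hδ₂ d (le_trans (le_max_right _ _) hd)
    simpa only [add_comm d] using this
  · simpa using hsum d
  · simpa using hg₁ m
  · simpa using hg₂ m
-- END NUM

end Claimed.Agent.R278
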