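-- KEEP
import Claimed.Agent.R278.QuadN
import Claimed.Agent.R278.QuadNum

/-!
# Row 278, C4-Q, cluster N, part 2: `R278/QuadN2` = the end theorem `qn_injective`      (head helper269, prefix `qn`)

ALL POSTS PROVED (22:50Z; pens 139, 45, 237, 13, 263; numerics 271): `qn_injective` has 0 open contracts and the 3 standard
axioms.  It is a statement about ANY `QcPack B` and ANY graded Clifford module `QcMod B 𝓛`; it does not by itself give the box.
-/

set_option autoImplicit false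

open MvPolynomial

noncomputable section

namespace Claimed.Agent.R278

variable {F : Type} [Field F] {ι : Type} [Fintype ι] [DecidableEq ι]
variable {B : ι → Matrix ι ι F}
variable {𝓛 : Type} [AddCommGroup 𝓛] [Module (MvPolynomial ι F) 𝓛] [Module F 𝓛]
  [IsScalarTower F (MvPolynomial ι F) 𝓛]

-- BEGIN N7
/-- the exponents of degree `r` -/
def qnN7_equiv (r : ℕ) :
    {x : ι →₀ ℕ | x.degree = r} ≃ ((Finset.univ : Finset ι).finsuppAntidiag r) where
  toFun x := ⟨x.1, by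
    have h : x.1.degree = r := x.2
    rw [Finset.mem_finsuppAntidiag]
    refine ⟨?_, Finset.subset_univ _⟩
    rw [Finsupp.degree_eq_sum] at h
    exact h⟩
  invFun m := ⟨m.1, by
    have h := (Finset.mem_finsuppAntidiag.1 m.2).1
    show m.1.degree = r
    rw [Finsupp.degree_eq_sum]
    exact h⟩
  left_inv x := rfl
  right_inv m := rfl

/-- POST N7: the Hilbert function of the polynomial ring. -/
theorem qn_finrank_homog (hN : 0 < Fintype.card ι) (r : ℕ) :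
    Module.finrank F (homogeneousSubmodule ι F r) = (r + Fintype.card ι - 1).choose (Fintype.card ι - 1) := by
  rw [homogeneousSubmodule_eq_finsupp_supported,
    (AddMonoidAlgebra.supportedEquivFinsupp (R := F) (S := F) {x : ι →₀ ℕ | x.degree = r}).finrank_eq,
    (Finsupp.domLCongr (M := F) (R := F) (qnN7_equiv (ι := ι) r)).finrank_eq, Module.finrank_finsupp_self,
    Fintype.card_coe, Finset.card_finsuppAntidiag_nat_eq_choose, Finset.card_univ]
  have h1 : Fintype.card ι + r - 1 = r + (Fintype.card ι - 1) := by omega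
  have h2 : r + Fintype.card ι - 1 = r + (Fintype.card ι - 1) := by omega
  rw [h1, h2, Nat.choose_symm_add]
-- END N7

-- BEGIN N6a
/-- POST N6a: the kernel of a homogeneous endomorphism that commutes with the `L_a` is graded and `L`-stable. -/
theorem qn_ker_stable (Q : QcMod B 𝓛) (φ : 𝓛 →ₗ[MvPolynomial ι F] 𝓛) (k : ℕ)
    (hφL : ∀ a x, φ (Q.L a x) = Q.L a (φ x)) (hφ : ∀ d x, x ∈ Q.gr d → φ x ∈ Q.gr (d + k)) :
    QnStable Q (LinearMap.ker φ) := by
  refine ⟨fun a x hx => ?_, fun d x hx => ?_⟩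
  · rw [LinearMap.mem_ker] at hx ⊢
    rw [hφL, hx, map_zero]
  · rw [LinearMap.mem_ker] at hx ⊢
    have h := qn_pr_map Q (φ.restrictScalars F) k (fun d x hx => hφ d x hx) d x
    rw [LinearMap.restrictScalars_apply, LinearMap.restrictScalars_apply, hx, map_zero] at h
    exact h.symm
-- END N6a

-- BEGIN N6b
/-- POST N6b: so is its range. -/
theorem qn_range_stable (Q : QcMod B 𝓛) (φ : 𝓛 →ₗ[MvPolynomial ι F] 𝓛) (k : ℕ)
    (hφL : ∀ a x, φ (Q.L a x) = Q.L a (φ x)) (hφ : ∀ d x, x ∈ Q.gr d → φ x ∈ Q.gr (d + k)) :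
    QnStable Q (LinearMap.range φ) := by
  refine ⟨?_, ?_⟩
  · rintro a _ ⟨y, rfl⟩
    exact ⟨Q.L a y, hφL a y⟩
  · rintro d _ ⟨y, rfl⟩
    have hφ' : ∀ d x, x ∈ Q.gr d → (φ.restrictScalars F) x ∈ Q.gr (d + k) := hφ
    by_cases hd : d < k
    · have h0 : Q.pr d (φ y) = 0 := qn_pr_map_lt Q (φ.restrictScalars F) k hφ' d hd y
      rw [h0]
      exact Submodule.zero_mem _
    · obtain ⟨e, rfl⟩ := Nat.exists_eq_add_of_le (Nat.not_lt.1 hd)
      have h1 : Q.pr (e + k) (φ y) = φ (Q.pr e y) := qn_pr_map Q (φ.restrictScalars F) k hφ' e y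
      rw [Nat.add_comm k e, h1]
      exact ⟨Q.pr e y, rfl⟩
-- END N6b

-- BEGIN N6c
/-- POST N6c: rank-nullity of `φ : 𝓛_d → 𝓛_(d+k)`. -/
theorem qn_rank_nullity (Q : QcMod B 𝓛) (φ : 𝓛 →ₗ[MvPolynomial ι F] 𝓛) (k : ℕ)
    (hφ : ∀ d x, x ∈ Q.gr d → φ x ∈ Q.gr (d + k)) (d : ℕ) :
    qnH Q (LinearMap.ker φ) d + qnH Q (LinearMap.range φ) (d + k) =
      (d + Fintype.card ι - 1).choose (Fintype.card ι - 1) := by
  classical
  have := Q.fin d
  obtain ⟨φF, hφF⟩ : ∃ φF : 𝓛 →ₗ[F] 𝓛, ∀ x, φF x = φ x := ⟨φ.restrictScalars F, fun _ => rfl⟩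
  obtain ⟨ψ, hψ⟩ : ∃ ψ : Q.gr d →ₗ[F] 𝓛, ∀ x, ψ x = φ x.1 :=
    ⟨φF.comp (Q.gr d).subtype, fun x => hφF x.1⟩
  have h1 : Module.finrank F (LinearMap.range ψ) + Module.finrank F (LinearMap.ker ψ) = Module.finrank F (Q.gr d) :=
    LinearMap.finrank_range_add_finrank_ker ψ
  have hk : qnPc Q (LinearMap.ker φ) d = (LinearMap.ker ψ).map (Q.gr d).subtype := by
    ext x
    constructor
    · rintro ⟨h0, hx⟩
      refine ⟨⟨x, hx⟩, ?_, rfl⟩
      show ψ ⟨x, hx⟩ = 0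
      rw [hψ]
      exact h0
    · rintro ⟨⟨y, hy⟩, h0, rfl⟩
      refine ⟨?_, hy⟩
      show φ y = 0
      have : ψ ⟨y, hy⟩ = 0 := h0
      rwa [hψ] at this
  have hr : qnPc Q (LinearMap.range φ) (d + k) = LinearMap.range ψ := by
    ext y
    constructor
    · rintro ⟨⟨x, rfl⟩, hy⟩
      refine ⟨⟨Q.pr d x, Q.pr_mem d x⟩, ?_⟩
      have h2 := qn_pr_map Q φF k (fun d x hx => by rw [hφF]; exact hφ d x hx) d x
      rw [hφF, hφF, Q.pr_self (d + k) (φ x) hy] at h2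
      rw [hψ]
      exact h2.symm
    · rintro ⟨⟨x, hx⟩, rfl⟩
      rw [hψ]
      exact ⟨⟨x, rfl⟩, hφ d x hx⟩
  unfold qnH
  rw [hk, hr, Submodule.finrank_map_subtype_eq, add_comm, h1, Q.dim]
-- END N6c

-- BEGIN N6d
/-- POST N6d: a nonzero graded submodule of a torsion free module contains a copy `P x` of `P(-k₀)`. -/
theorem qn_growth (hN : 0 < Fintype.card ι) (Q : QcMod B 𝓛)
    (htf : ∀ (p : MvPolynomial ι F) (x : 𝓛), p • x = 0 → p = 0 ∨ x = 0)
    (G : Submodule (MvPolynomial ι F) 𝓛) (hG : QnStable Q G) (hG0 : G ≠ ⊥) :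
    ∃ k₀, ∀ r, (r + Fintype.card ι - 1).choose (Fintype.card ι - 1) ≤ qnH Q G (k₀ + 2 * r) := by
  obtain ⟨x, hxG, hx0⟩ := (Submodule.ne_bot_iff G).1 hG0
  obtain ⟨D, hD⟩ := Q.sum_pr x
  have hex : ∃ k₀, Q.pr k₀ x ≠ 0 := by
    by_contra hcon
    push Not at hcon
    apply hx0
    rw [hD]
    exact Finset.sum_eq_zero fun d _ => hcon d
  obtain ⟨k₀, hk⟩ := hex
  refine ⟨k₀, fun r => ?_⟩
  have hyG : Q.pr k₀ x ∈ G := hG.pr_mem k₀ x hxG
  have hygr : Q.pr k₀ x ∈ Q.gr k₀ := Q.pr_mem k₀ x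
  let ψ : homogeneousSubmodule ι F r →ₗ[F] qnPc Q G (k₀ + 2 * r) :=
    { toFun := fun p => ⟨(p : MvPolynomial ι F) • Q.pr k₀ x, ⟨G.smul_mem _ hyG,
        Q.smul_mem r p ((mem_homogeneousSubmodule r p.1).1 p.2) k₀ _ hygr⟩⟩
      map_add' := fun p q => by
        ext
        simp [add_smul]
      map_smul' := fun c p => by
        ext
        simp [smul_assoc] }
  have hinj : Function.Injective ψ := by
    rw [injective_iff_map_eq_zero]
    intro p hp
    have h0 : (p : MvPolynomial ι F) • Q.pr k₀ x = 0 := congrArg Subtype.val hp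
    rcases htf _ _ h0 with h | h
    · exact Subtype.ext h
    · exact absurd h hk
  have : Module.Finite F (Q.gr (k₀ + 2 * r)) := Q.fin _
  have : Module.Finite F (qnPc Q G (k₀ + 2 * r)) := Submodule.finiteDimensional_of_le inf_le_right
  have hle := LinearMap.finrank_le_finrank_of_injective hinj
  rw [qn_finrank_homog hN r] at hle
  exact hle
-- END N6d

/-- **THE END THEOREM OF CLUSTER N.** -/
theorem qn_injective [CharZero F] [Module.Finite (MvPolynomial ι F) 𝓛] (hN : 0 < Fintype.card ι) (pk : QcPack B)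
    (Q : QcMod B 𝓛) (htf : ∀ (p : MvPolynomial ι F) (x : 𝓛), p • x = 0 → p = 0 ∨ x = 0)
    (φ : 𝓛 →ₗ[MvPolynomial ι F] 𝓛) (k : ℕ)
    (hφL : ∀ a x, φ (Q.L a x) = Q.L a (φ x)) (hφ : ∀ d x, x ∈ Q.gr d → φ x ∈ Q.gr (d + k)) (hφ0 : φ ≠ 0) :
    Function.Injective φ := by
  by_contra hinj
  have hker : LinearMap.ker φ ≠ ⊥ := fun h => hinj (LinearMap.ker_eq_bot.1 h)
  have hran : LinearMap.range φ ≠ ⊥ := fun h => hφ0 (LinearMap.range_eq_bot.1 h)
  have hs1 := qn_ker_stable Q φ k hφL hφ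
  have hs2 := qn_range_stable Q φ k hφL hφ
  obtain ⟨k₁, hg1⟩ := qn_growth hN Q htf _ hs1 hker
  obtain ⟨k₂, hg2⟩ := qn_growth hN Q htf _ hs2 hran
  exact qnum_false (Fintype.card ι) hN (qnH Q (LinearMap.ker φ)) (qnH Q (LinearMap.range φ)) k k₁ k₂
    (qn_rank_nullity Q φ k hφ) (qn_int pk Q _ hs1) (qn_int pk Q _ hs2) hg1 hg2

end Claimed.Agent.R278
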