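-- KEEP
import Claimed.Agent.R278.QuadFock
import Claimed.Agent.R278.QuadN2

/-!
# Row 278, C4-Q (a try: the box for `n` quadrics in `n` variables, `a = (2, …, 2)`, `c = n` ONLY; THE ROW STAYS OPEN)
`R278/QuadDiv`, cluster D = the centraliser of the `L_a` over the fraction field is a division ring   (head helper273, prefix `qd_`)

Posts D0 D1 D2a D2b D3 (blocks BEGIN / END); `qd_inj_P`, `qd_inj_K`, `qd_isDomain` are assembled from them and from `qn_injective`.
-/

set_option autoImplicit false

open MvPolynomial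

noncomputable section

namespace Claimed.Agent.R278

variable {F : Type} [Field F] {N : ℕ}

-- BEGIN D0
/-- POST D0: the Fock operators are natural in the ring. -/
theorem qd_L_map {K₁ K₂ : Type} [CommRing K₁] [CommRing K₂] (φ : K₁ →+* K₂) (b : Fin N → Fin N → K₁) (a : Fin N)
    (x : Qf76Lam K₁ N) :
    qf76_L (fun a c => φ (b a c)) a (fun T => φ (x T)) = fun T => φ (qf76_L b a x T) := by
  funext T
  unfold qf76_L qf76_io
  simp only [LinearMap.add_apply, Pi.add_apply, LinearMap.sum_apply, Finset.sum_apply, LinearMap.smul_apply,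
    Pi.smul_apply, qf76_eps_apply, qf76_iota_apply, map_add, map_sum, smul_eq_mul, map_mul]
  congr 1
  · split_ifs
    · rw [map_zsmul]
    · rw [map_zero]
  · refine Finset.sum_congr rfl fun k _ => ?_
    split_ifs
    · rw [map_zero]
    · rw [map_zsmul]
-- END D0

-- BEGIN D1
/-- clearing the denominators of a finite family -/
theorem qdD1_clear {P K : Type} [CommRing P] [IsDomain P] [Field K] [Algebra P K] [IsFractionRing P K] {J : Type} [Finite J]
    (y : J → K) : ∃ (q : P) (x : J → P), q ≠ 0 ∧ ∀ i, algebraMap P K (x i) = algebraMap P K q * y i := by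
  obtain ⟨q, hq⟩ := IsLocalization.exist_integer_multiples_of_finite (nonZeroDivisors P) y
  choose x hx using hq
  refine ⟨q, x, nonZeroDivisors.ne_zero q.2, fun i => ?_⟩
  rw [hx i, Algebra.smul_def]

/-- POST D1 (fractions): `P` a domain, `K` its fraction field.  If every nonzero `P`-endomorphism of `Λ_P` that commutes with
the `L_a` is injective, the same holds over `K`.  (Clear the denominators of the finitely many entries `ρ (e_T) S`
(`IsLocalization.exist_integer_multiples_of_finset`), get `φ` over `P` with `j (φ x) = p • ρ (j x)`, `j` = entrywise `algebraMap`,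
injective; `φ` commutes with `L_a` by D0 and the injectivity of `j`; every `y : Λ_K` is `q⁻¹ • j x`.) -/
theorem qd_descend {P K : Type} [CommRing P] [IsDomain P] [Field K] [Algebra P K] [IsFractionRing P K]
    (b : Fin N → Fin N → P)
    (H : ∀ φ : Module.End P (Qf76Lam P N), (∀ a, Commute φ (qf76_L b a)) → φ ≠ 0 → Function.Injective φ)
    (ρ : Module.End K (Qf76Lam K N))
    (hρ : ∀ a, Commute ρ (qf76_L (fun a c => algebraMap P K (b a c)) a)) (hρ0 : ρ ≠ 0) :
    Function.Injective ρ := by
  classical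
  have hinjA : Function.Injective (algebraMap P K) := IsFractionRing.injective P K
  -- the entries
  obtain ⟨p, A, hp, hA⟩ := qdD1_clear (P := P) (K := K)
    (fun TS : Finset (Fin N) × Finset (Fin N) => ρ (fun U => if TS.1 = U then 1 else 0) TS.2)
  have hpK : algebraMap P K p ≠ 0 := fun h => hp (hinjA (by rw [h, map_zero]))
  let φ : Module.End P (Qf76Lam P N) := LinearMap.pi fun S => ∑ T, A (T, S) • LinearMap.proj T
  have hφ_apply : ∀ x S, φ x S = ∑ T, A (T, S) * x T := by
    intro x S
    simp [φ]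
  let j : Qf76Lam P N → Qf76Lam K N := fun x T => algebraMap P K (x T)
  have hj_inj : Function.Injective j := fun x y h => funext fun T => hinjA (congrFun h T)
  have key : ∀ x, j (φ x) = algebraMap P K p • ρ (j x) := by
    intro x
    funext S
    show algebraMap P K (φ x S) = algebraMap P K p * ρ (j x) S
    rw [hφ_apply, LinearMap.pi_apply_eq_sum_univ ρ (j x), Finset.sum_apply, map_sum, Finset.mul_sum]
    refine Finset.sum_congr rfl fun T _ => ?_
    rw [map_mul, hA (T, S)]
    show _ = algebraMap P K p * (j x T * ρ (fun U => if T = U then 1 else 0) S)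
    show _ = algebraMap P K p * (algebraMap P K (x T) * ρ (fun U => if T = U then 1 else 0) S)
    ring
  have hD0 : ∀ a x, qf76_L (fun a c => algebraMap P K (b a c)) a (j x) = j (qf76_L b a x) :=
    fun a x => qd_L_map (algebraMap P K) b a x
  have hcomm : ∀ a, Commute φ (qf76_L b a) := by
    intro a
    refine LinearMap.ext fun x => hj_inj ?_
    show j (φ (qf76_L b a x)) = j (qf76_L b a (φ x))
    rw [key, ← hD0, ← hD0, key, map_smul]
    congr 1
    exact LinearMap.congr_fun (hρ a).eq (j x)
  -- every vector is a fraction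
  have hfrac : ∀ y : Qf76Lam K N, ∃ (q : P) (x : Qf76Lam P N), q ≠ 0 ∧ j x = algebraMap P K q • y := by
    intro y
    obtain ⟨q, x, hq, hx⟩ := qdD1_clear (P := P) (K := K) y
    exact ⟨q, x, hq, funext fun T => hx T⟩
  have hφ0 : φ ≠ 0 := by
    intro h0
    apply hρ0
    refine LinearMap.ext fun y => ?_
    obtain ⟨q, x, hq, hx⟩ := hfrac y
    have hqK : algebraMap P K q ≠ 0 := fun h => hq (hinjA (by rw [h, map_zero]))
    have h1 := key x
    rw [h0, hx, map_smul] at h1
    have h2 : algebraMap P K p • algebraMap P K q • ρ y = 0 := by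
      rw [← h1]
      funext T
      show algebraMap P K 0 = 0
      exact map_zero _
    have h3 := (smul_eq_zero.1 h2).resolve_left hpK
    exact (smul_eq_zero.1 h3).resolve_left hqK
  have hφinj := H φ hcomm hφ0
  rw [injective_iff_map_eq_zero]
  intro y hy
  obtain ⟨q, x, hq, hx⟩ := hfrac y
  have hqK : algebraMap P K q ≠ 0 := fun h => hq (hinjA (by rw [h, map_zero]))
  have h1 := key x
  rw [hx, map_smul, hy, smul_zero, smul_zero] at h1
  have h2 : φ x = 0 := hj_inj (by
    rw [h1]
    funext T
    show (0 : K) = algebraMap P K 0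
    exact (map_zero _).symm)
  have h3 : x = 0 := hφinj (by rw [h2, map_zero])
  have h4 : algebraMap P K q • y = 0 := by
    rw [← hx, h3]
    funext T
    show algebraMap P K 0 = 0
    exact map_zero _
  exact (smul_eq_zero.1 h4).resolve_left hqK
-- END D1

-- BEGIN D2a
/-- the projections vanish in high degrees -/
theorem qdD2a_pr_high (z : Qf76Lam (MvPolynomial (Fin N) F) N) :
    ∃ D, ∀ e, D ≤ e → qg_pr F N e z = 0 := by
  obtain ⟨D, hD⟩ := qg_sum_pr z
  refine ⟨D, fun e he => ?_⟩
  rw [hD, map_sum]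
  refine Finset.sum_eq_zero fun d hd => ?_
  have hd' : d < D := Finset.mem_range.1 hd
  exact qg_pr_ne d e _ (qg_pr_mem d z) (by omega)

/-- the sum of the projections up to any high bound -/
theorem qdD2a_sum_pr (z : Qf76Lam (MvPolynomial (Fin N) F) N) (D : ℕ)
    (hD : ∀ e, D ≤ e → qg_pr F N e z = 0) (D' : ℕ) (h : D ≤ D') :
    z = ∑ d ∈ Finset.range D', qg_pr F N d z := by
  obtain ⟨E, hE⟩ := qg_sum_pr z
  have key : ∀ A, D ≤ A → ∑ d ∈ Finset.range A, qg_pr F N d z = ∑ d ∈ Finset.range D, qg_pr F N d z := by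
    intro A hA
    obtain ⟨j, rfl⟩ := Nat.exists_eq_add_of_le hA
    rw [Finset.sum_range_add]
    rw [Finset.sum_eq_zero (s := Finset.range j) (fun i _ => hD (D + i) (by omega)), add_zero]
  rcases le_total D E with h1 | h1
  · rw [key D' h, ← key E h1]
    exact hE
  · -- `E ≤ D`: the projections from `E` on vanish too
    have hE0 : ∀ e, E ≤ e → qg_pr F N e z = 0 := by
      intro e he
      rw [hE, map_sum]
      refine Finset.sum_eq_zero fun d hd => ?_
      have hd' : d < E := Finset.mem_range.1 hd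
      exact qg_pr_ne d e _ (qg_pr_mem d z) (by omega)
    obtain ⟨j, rfl⟩ := Nat.exists_eq_add_of_le (h1.trans h)
    rw [Finset.sum_range_add]
    rw [Finset.sum_eq_zero (s := Finset.range j) (fun i _ => hE0 (E + i) (by omega)), add_zero]
    exact hE

/-- a multiple of a form of degree `r` has no component below `2 r` -/
theorem qdD2a_pr_low (r : ℕ) (p : MvPolynomial (Fin N) F) (hp : p.IsHomogeneous r)
    (y : Qf76Lam (MvPolynomial (Fin N) F) N) (d : ℕ) (hd : d < 2 * r) :
    qg_pr F N d (p • y) = 0 := by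
  obtain ⟨E, hE⟩ := qg_sum_pr y
  rw [hE, Finset.smul_sum, map_sum]
  refine Finset.sum_eq_zero fun e _ => ?_
  exact qg_pr_ne (e + 2 * r) d _ (qg_smul_mem r p hp e _ (qg_pr_mem e y)) (by omega)

/-- an entry of a homogeneous vector is a form -/
theorem qdD2a_entry (d : ℕ) (x : Qf76Lam (MvPolynomial (Fin N) F) N) (hx : x ∈ qg_gr F N d)
    (T : Finset (Fin N)) : x T = 0 ∨ ∃ r, (x T).IsHomogeneous r ∧ 2 * r + T.card = d := by
  by_cases h0 : x T = 0
  · exact Or.inl h0
  · right
    obtain ⟨m, hm⟩ := MvPolynomial.ne_zero_iff.1 h0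
    refine ⟨m.degree, ?_, hx T m hm⟩
    intro m' hm'
    have h1 := hx T m hm
    have h2 := hx T m' hm'
    have h3 : (Finsupp.weight 1) m' = m'.degree :=
      (congrFun (congrArg DFunLike.coe (Finsupp.degree_eq_weight_one (σ := Fin N) (R := ℕ))) m').symm
    rw [h3]
    omega

/-- a vector is the sum of its entries -/
theorem qdD2a_expand (x : Qf76Lam (MvPolynomial (Fin N) F) N) :
    x = ∑ T : Finset (Fin N), x T • (Pi.single T 1 : Qf76Lam (MvPolynomial (Fin N) F) N) := by
  funext S
  rw [Finset.sum_apply]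
  simp [Pi.single_apply]

/-- POST D2a: after multiplication by `p = Y_0 ^ N` an endomorphism of `Λ_P` is a finite sum of homogeneous ones of degrees `k ≥ 0`:
`ψ k x = ∑_T x T • qg_pr (k + |T|) (p • φ e_T)`, `e_T = Pi.single T 1`  (only G1a, `qg_smul_mem`). -/
theorem qd_decomp0 (hN : 0 < N)
    (φ : Module.End (MvPolynomial (Fin N) F) (Qf76Lam (MvPolynomial (Fin N) F) N)) :
    ∃ (p : MvPolynomial (Fin N) F) (M : ℕ)
      (ψ : ℕ → Module.End (MvPolynomial (Fin N) F) (Qf76Lam (MvPolynomial (Fin N) F) N)),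
      p ≠ 0 ∧ p • φ = ∑ k ∈ Finset.range M, ψ k ∧ ∀ k d x, x ∈ qg_gr F N d → ψ k x ∈ qg_gr F N (d + k) := by
  classical
  set p : MvPolynomial (Fin N) F := X ⟨0, hN⟩ ^ N with hp
  have hph : p.IsHomogeneous N := by
    have := (isHomogeneous_X F (⟨0, hN⟩ : Fin N)).pow N
    simpa using this
  set z : Finset (Fin N) → Qf76Lam (MvPolynomial (Fin N) F) N :=
    fun T => p • φ (Pi.single T 1) with hz
  choose D hD using fun T => qdD2a_pr_high (z T)
  set M : ℕ := Finset.univ.sup D with hM
  have hDM : ∀ T, D T ≤ M := fun T => Finset.le_sup (Finset.mem_univ T)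
  refine ⟨p, M, fun k => ∑ T : Finset (Fin N),
    (LinearMap.proj T : Qf76Lam (MvPolynomial (Fin N) F) N →ₗ[MvPolynomial (Fin N) F] MvPolynomial (Fin N) F).smulRight
      (qg_pr F N (k + T.card) (z T)), ?_, ?_, ?_⟩
  · exact pow_ne_zero _ (X_ne_zero _)
  · have hzT : ∀ T, z T = ∑ k ∈ Finset.range M, qg_pr F N (k + T.card) (z T) := by
      intro T
      have h1 := qdD2a_sum_pr (z T) (D T) (hD T) (T.card + M) (by have := hDM T; omega)
      rw [Finset.sum_range_add] at h1
      rw [Finset.sum_eq_zero (s := Finset.range T.card)] at h1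
      · rw [zero_add] at h1
        calc z T = ∑ k ∈ Finset.range M, qg_pr F N (T.card + k) (z T) := h1
          _ = _ := Finset.sum_congr rfl fun k _ => by rw [add_comm]
      · intro d hd
        have hd' : d < T.card := Finset.mem_range.1 hd
        have hc : T.card ≤ N := by simpa using Finset.card_le_univ T
        exact qdD2a_pr_low N p hph _ d (by omega)
    refine LinearMap.ext fun x => ?_
    have hx := qdD2a_expand x
    have h2 : (p • φ) x = ∑ T : Finset (Fin N), x T • z T := by
      conv_lhs => rw [hx]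
      rw [map_sum]
      refine Finset.sum_congr rfl fun T _ => ?_
      rw [map_smul]
      rfl
    rw [h2, LinearMap.sum_apply]
    simp only [LinearMap.sum_apply, LinearMap.smulRight_apply, LinearMap.proj_apply]
    rw [Finset.sum_comm]
    refine Finset.sum_congr rfl fun T _ => ?_
    rw [← Finset.smul_sum, ← hzT T]
  · intro k d x hx
    rw [LinearMap.sum_apply]
    refine Submodule.sum_mem _ fun T _ => ?_
    rw [LinearMap.smulRight_apply, LinearMap.proj_apply]
    rcases qdD2a_entry d x hx T with h0 | ⟨r, hr, hrd⟩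
    · rw [h0, zero_smul]
      exact Submodule.zero_mem _
    · have h3 := qg_smul_mem r (x T) hr (k + T.card) _ (qg_pr_mem (k + T.card) (z T))
      have h4 : k + T.card + 2 * r = d + k := by omega
      rwa [h4] at h3
-- END D2a

-- BEGIN D2b
/-- POST D2b: the homogeneous components of an operator that commutes with an operator of degree 1 commute with it. -/
theorem qd_comm_comp (M : ℕ)
    (ψ : ℕ → Module.End (MvPolynomial (Fin N) F) (Qf76Lam (MvPolynomial (Fin N) F) N))
    (hψ : ∀ k d x, x ∈ qg_gr F N d → ψ k x ∈ qg_gr F N (d + k))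
    (L : Module.End (MvPolynomial (Fin N) F) (Qf76Lam (MvPolynomial (Fin N) F) N))
    (hL : ∀ d x, x ∈ qg_gr F N d → L x ∈ qg_gr F N (d + 1))
    (hc : Commute (∑ k ∈ Finset.range M, ψ k) L) : ∀ k, k < M → Commute (ψ k) L := by
  intro k hk
  have key : ∀ d x, x ∈ qg_gr F N d → ψ k (L x) = L (ψ k x) := by
    intro d x hx
    have hsum : ∑ j ∈ Finset.range M, (ψ j (L x) - L (ψ j x)) = 0 := by
      have h := LinearMap.congr_fun hc.eq x
      simp only [Module.End.mul_apply, LinearMap.sum_apply, map_sum] at h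
      rw [Finset.sum_sub_distrib, h, sub_self]
    have hmem : ∀ j, ψ j (L x) - L (ψ j x) ∈ qg_gr F N (d + 1 + j) := by
      intro j
      refine (qg_gr F N _).sub_mem (hψ j _ _ (hL d x hx)) ?_
      have := hL _ _ (hψ j d x hx)
      rwa [show d + j + 1 = d + 1 + j by omega] at this
    have h2 := congrArg (qg_pr F N (d + 1 + k)) hsum
    rw [map_sum, map_zero, Finset.sum_eq_single k] at h2
    · rw [qg_pr_self _ _ (hmem k)] at h2
      exact sub_eq_zero.1 h2
    · intro j _ hj
      exact qg_pr_ne _ _ _ (hmem j) (by omega)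
    · intro h; exact absurd (Finset.mem_range.2 hk) h
  refine LinearMap.ext fun x => ?_
  obtain ⟨D, hD⟩ := qg_sum_pr x
  rw [Module.End.mul_apply, Module.End.mul_apply, hD]
  simp only [map_sum]
  exact Finset.sum_congr rfl fun d _ => key d _ (qg_pr_mem d x)
-- END D2b

-- BEGIN D3
/-- POST D3 (leading terms): a nonzero finite sum of homogeneous operators, each of them zero or injective, is injective. -/
theorem qd_lead (M : ℕ)
    (ψ : ℕ → Module.End (MvPolynomial (Fin N) F) (Qf76Lam (MvPolynomial (Fin N) F) N))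
    (hψ : ∀ k d x, x ∈ qg_gr F N d → ψ k x ∈ qg_gr F N (d + k))
    (hinj : ∀ k, k < M → ψ k ≠ 0 → Function.Injective (ψ k))
    (Φ : Module.End (MvPolynomial (Fin N) F) (Qf76Lam (MvPolynomial (Fin N) F) N))
    (hΦ : Φ = ∑ k ∈ Finset.range M, ψ k) (h0 : Φ ≠ 0) : Function.Injective Φ := by
  classical
  refine (injective_iff_map_eq_zero Φ).2 fun x hx => ?_
  by_contra hx0
  have hk : ∃ k, k < M ∧ ψ k ≠ 0 := by
    by_contra hcon
    push_neg at hcon
    apply h0
    rw [hΦ]
    exact Finset.sum_eq_zero fun k hk => hcon k (Finset.mem_range.1 hk)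
  obtain ⟨D, hD⟩ := qg_sum_pr x
  have hd : ∃ d, qg_pr F N d x ≠ 0 := by
    by_contra hcon
    push_neg at hcon
    apply hx0
    rw [hD]
    exact Finset.sum_eq_zero fun d _ => hcon d
  have hbd : ∀ d, D ≤ d → qg_pr F N d x = 0 := by
    intro d hd'
    rw [hD, map_sum]
    exact Finset.sum_eq_zero fun e he =>
      qg_pr_ne e d _ (qg_pr_mem e x) (by have := Finset.mem_range.1 he; omega)
  obtain ⟨hk0M, hk0⟩ := Nat.find_spec hk
  have hd0 := Nat.find_spec hd
  have hd0D : Nat.find hd < D := by
    by_contra hcon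
    exact hd0 (hbd _ (by omega))
  have e1 : Φ x = ∑ k ∈ Finset.range M, ∑ d ∈ Finset.range D, ψ k (qg_pr F N d x) := by
    rw [hΦ, LinearMap.sum_apply]
    refine Finset.sum_congr rfl fun k _ => ?_
    conv_lhs => rw [hD]
    rw [map_sum]
  have key : qg_pr F N (Nat.find hd + Nat.find hk) (Φ x) =
      ψ (Nat.find hk) (qg_pr F N (Nat.find hd) x) := by
    rw [e1, map_sum, Finset.sum_eq_single (Nat.find hk)]
    · rw [map_sum, Finset.sum_eq_single (Nat.find hd)]
      · exact qg_pr_self _ _ (hψ _ _ _ (qg_pr_mem _ x))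
      · intro d _ hdne
        exact qg_pr_ne (d + Nat.find hk) _ _ (hψ _ d _ (qg_pr_mem d x)) (by omega)
      · intro hnot
        exact absurd (Finset.mem_range.2 hd0D) hnot
    · intro k hkM hkne
      rw [map_sum]
      refine Finset.sum_eq_zero fun d _ => ?_
      by_cases hψk : ψ k = 0
      · simp [hψk]
      by_cases hxd : qg_pr F N d x = 0
      · simp [hxd]
      have h1 : Nat.find hk ≤ k := Nat.find_min' hk ⟨Finset.mem_range.1 hkM, hψk⟩
      have h2 : Nat.find hd ≤ d := Nat.find_min' hd hxd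
      exact qg_pr_ne (d + k) _ _ (hψ k d _ (qg_pr_mem d x)) (by omega)
    · intro hnot
      exact absurd (Finset.mem_range.2 hk0M) hnot
  rw [hx, map_zero] at key
  exact hd0 (hinj _ hk0M hk0 (key.symm.trans (map_zero _).symm))
-- END D3

/-- over `P`: every nonzero endomorphism of the Fock space that commutes with the `L_a` is injective -/
theorem qd_inj_P [CharZero F] (hN : 0 < N) (B : Fin N → Matrix (Fin N) (Fin N) F) (pk : QcPack B)
    (φ : Module.End (MvPolynomial (Fin N) F) (Qf76Lam (MvPolynomial (Fin N) F) N))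
    (hφ : ∀ a, Commute φ (qf76_L (qcM B) a)) (h0 : φ ≠ 0) : Function.Injective φ := by
  obtain ⟨p, M, ψ, hp, hsum, hdeg⟩ := qd_decomp0 hN φ
  have hcomm : ∀ a, Commute (∑ k ∈ Finset.range M, ψ k) (qf76_L (qcM B) a) := by
    intro a
    rw [← hsum]
    exact (hφ a).smul_left p
  have hc : ∀ k, k < M → ∀ a, Commute (ψ k) (qf76_L (qcM B) a) := fun k hk a =>
    qd_comm_comp M ψ hdeg _ (fun d x hx => qg_L_mem _ (qg_qcM_homog B) a d x hx) (hcomm a) k hk
  have hne : p • φ ≠ 0 := by
    intro h
    apply h0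
    refine LinearMap.ext fun x => ?_
    have h1 : p • φ x = 0 := by
      have := congrArg (fun g : Module.End (MvPolynomial (Fin N) F) (Qf76Lam (MvPolynomial (Fin N) F) N) => g x) h
      simpa using this
    rcases qg_tf p _ h1 with h2 | h2
    · exact absurd h2 hp
    · simpa using h2
  have hinj := qd_lead M ψ hdeg (fun k hk hk0 =>
    qn_injective (by simpa using hN) pk (qg_mod hN B) qg_tf (ψ k) k
      (fun a x => LinearMap.congr_fun (hc k hk a).eq x)
      (fun d x hx => hdeg k d x hx) hk0) (p • φ) hsum hne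
  intro x y hxy
  apply hinj
  simp [hxy]

/-- over `K = Frac P` -/
theorem qd_inj_K [CharZero F] (hN : 0 < N) (B : Fin N → Matrix (Fin N) (Fin N) F) (pk : QcPack B)
    (ρ : Module.End (FractionRing (MvPolynomial (Fin N) F)) (Qf76Lam (FractionRing (MvPolynomial (Fin N) F)) N))
    (hρ : ∀ a, Commute ρ (qf76_L (fun a c => algebraMap (MvPolynomial (Fin N) F)
      (FractionRing (MvPolynomial (Fin N) F)) (qcM B a c)) a)) (hρ0 : ρ ≠ 0) :
    Function.Injective ρ :=
  qd_descend (qcM B) (fun φ hφ h0 => qd_inj_P hN B pk φ hφ h0) ρ hρ hρ0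

/-- the centraliser of the left action -/
def qdCent (K : Type) [Field K] (b : Fin N → Fin N → K) : Subalgebra K (Module.End K (Qf76Lam K N)) :=
  Subalgebra.centralizer K (Set.range (qf76_L b))

theorem qd_mem_cent {K : Type} [Field K] {b : Fin N → Fin N → K} {ρ : Module.End K (Qf76Lam K N)} :
    ρ ∈ qdCent K b ↔ ∀ a, Commute ρ (qf76_L b a) := by
  unfold qdCent
  rw [Subalgebra.mem_centralizer_iff]
  constructor
  · intro h a
    exact (h _ ⟨a, rfl⟩).symm
  · rintro h _ ⟨a, rfl⟩
    exact (h a).eq.symm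

theorem qd_isDomain {K : Type} [Field K] (b : Fin N → Fin N → K)
    (H : ∀ ρ : Module.End K (Qf76Lam K N), (∀ a, Commute ρ (qf76_L b a)) → ρ ≠ 0 → Function.Injective ρ) :
    IsDomain (qdCent K b) := by
  have : NoZeroDivisors (qdCent K b) := by
    refine ⟨fun {x y} hxy => ?_⟩
    by_cases hx : x = 0
    · exact Or.inl hx
    · refine Or.inr (Subtype.ext (LinearMap.ext fun v => ?_))
      have hinj := H x.1 (qd_mem_cent.1 x.2) (fun h => hx (Subtype.ext h))
      apply hinj
      have := congrArg (fun g : qdCent K b => (g : Module.End K (Qf76Lam K N)) v) hxy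
      simpa using this
  exact NoZeroDivisors.to_isDomain (qdCent K b)

end Claimed.Agent.R278
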