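-- KEEP
import Claimed.Agent.R278.QuadDiv
import Claimed.Agent.R278.QuadCramer

/-!
# Row 278, C4-Q (a try: the box for `n` quadrics in `n` variables, `a = (2, …, 2)`, `c = n` ONLY; THE ROW STAYS OPEN)
`R278/QuadBox`, cluster D = the forms `t_i = ∑_j c_i e^(i)_j x_j` and the box   (head helper273, prefix `qb_`)

Posts B1a B1b B1c B1d B2a B2b (blocks BEGIN / END); `qb_box` is assembled from them.
-/

set_option autoImplicit false

open MvPolynomial

noncomputable section

namespace Claimed.Agent.R278

-- BEGIN B1a
/-- POST B1a: linear forms whose coefficients commute, commute. -/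
theorem qb_comm {D : Type} [Ring D] {n : ℕ} (τ : Fin n → Fin n → D) (h : Qd273RowComm τ) (i k : Fin n) :
    Commute (eg2Lin (τ i)) (eg2Lin (τ k)) := by
  by_cases hik : i = k
  · subst hik
    exact Commute.refl _
  · unfold eg2Lin
    refine Commute.sum_left _ _ _ fun j _ => Commute.sum_right _ _ _ fun j' _ => ?_
    show AddMonoidAlgebra.single (Finsupp.single j 1) (τ i j) * AddMonoidAlgebra.single (Finsupp.single j' 1) (τ k j')
      = AddMonoidAlgebra.single (Finsupp.single j' 1) (τ k j') * AddMonoidAlgebra.single (Finsupp.single j 1) (τ i j)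
    rw [AddMonoidAlgebra.single_mul_single, AddMonoidAlgebra.single_mul_single, add_comm,
      (h i k j j' hik).eq]
-- END B1a

-- BEGIN B1b
/-- POST B1b: products of two generators of one site commute with those of another site. -/
theorem qb_rowcomm {D : Type} [Ring D] {n : ℕ} (R : Fin n × Option (Fin n) → D)
    (hanti : ∀ a b, a.1 ≠ b.1 → R a * R b = - (R b * R a)) :
    Qd273RowComm (fun i j => R (i, none) * R (i, some j)) := by
  intro i i' j j' hne
  have h1 : R (i, some j) * R (i', none) = - (R (i', none) * R (i, some j)) := hanti _ _ hne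
  have h2 : R (i, none) * R (i', none) = - (R (i', none) * R (i, none)) := hanti _ _ hne
  have h3 : R (i, some j) * R (i', some j') = - (R (i', some j') * R (i, some j)) := hanti _ _ hne
  have h4 : R (i, none) * R (i', some j') = - (R (i', some j') * R (i, none)) := hanti _ _ hne
  change R (i, none) * R (i, some j) * (R (i', none) * R (i', some j')) =
    R (i', none) * R (i', some j') * (R (i, none) * R (i, some j))
  calc R (i, none) * R (i, some j) * (R (i', none) * R (i', some j'))
      = R (i, none) * (R (i, some j) * R (i', none)) * R (i', some j') := by noncomm_ring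
    _ = - ((R (i, none) * R (i', none)) * (R (i, some j) * R (i', some j'))) := by
        rw [h1]; noncomm_ring
    _ = - (R (i', none) * (R (i, none) * R (i', some j')) * R (i, some j)) := by
        rw [h2, h3]; noncomm_ring
    _ = R (i', none) * R (i', some j') * (R (i, none) * R (i, some j)) := by
        rw [h4]; noncomm_ring
-- END B1b

-- BEGIN B1d
theorem b1d_single_add_iff {n : ℕ} (a' b' a b : Fin n) :
    (Finsupp.single a' 1 + Finsupp.single b' 1 : Fin n →₀ ℕ) = Finsupp.single a 1 + Finsupp.single b 1 ↔
      (a' = a ∧ b' = b) ∨ (a' = b ∧ b' = a) := by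
  constructor
  · intro h
    have h1 : (Finsupp.single a 1 + Finsupp.single b 1 : Fin n →₀ ℕ) a' ≠ 0 := by
      rw [← h]
      simp
    have h2 : a' = a ∨ a' = b := by
      by_contra hcon
      push Not at hcon
      apply h1
      simp [hcon.1.symm, hcon.2.symm]
    rcases h2 with rfl | rfl
    · left
      exact ⟨rfl, Finsupp.single_left_injective one_ne_zero (add_left_cancel h)⟩
    · right
      rw [add_comm (Finsupp.single a 1)] at h
      exact ⟨rfl, Finsupp.single_left_injective one_ne_zero (add_left_cancel h)⟩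
  · rintro (⟨rfl, rfl⟩ | ⟨rfl, rfl⟩)
    · rfl
    · exact add_comm _ _

theorem b1d_deg_two {n : ℕ} (m : Fin n →₀ ℕ) (hm : m.degree = 2) :
    ∃ a b, m = Finsupp.single a 1 + Finsupp.single b 1 := by
  have h1 : Multiset.card (Finsupp.toMultiset m) = 2 := by
    rw [Finsupp.card_toMultiset, ← hm, Finsupp.degree_eq_sum, Finsupp.sum_fintype _ _ (fun _ => rfl)]
    rfl
  obtain ⟨a, b, hab⟩ := Multiset.card_eq_two.1 h1
  refine ⟨a, b, ?_⟩
  have h2 : Multiset.toFinsupp (Finsupp.toMultiset m) = m := Finsupp.toMultiset_toFinsupp m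
  rw [← h2, hab, Multiset.insert_eq_cons, ← Multiset.singleton_add, map_add,
    Multiset.toFinsupp_singleton, Multiset.toFinsupp_singleton]

/-- POST B1d: a quadric is the quadratic form of its symmetric matrix. -/
theorem qb_quadric {F : Type} [Field F] (h2 : (2 : F) ≠ 0) {n : ℕ} (f : Fin n → MvPolynomial (Fin n) F)
    (hf : ∀ k, (f k).IsHomogeneous 2) (k : Fin n) : f k = ∑ a, ∑ b, C (qcB f k a b) * X a * X b := by
  symm
  ext m
  have hmon : ∀ (r : F) (a b : Fin n),
      C r * X a * X b = monomial (Finsupp.single a 1 + Finsupp.single b 1) r := by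
    intro r a b
    rw [X, X, C_mul_monomial, monomial_mul]
    simp
  simp only [hmon, coeff_sum, coeff_monomial]
  by_cases hm : m.degree = 2
  · obtain ⟨a, b, rfl⟩ := b1d_deg_two m hm
    simp only [b1d_single_add_iff]
    by_cases hab : a = b
    · subst hab
      rw [Finset.sum_eq_single a, Finset.sum_eq_single a]
      · simp [qcB, ← Finsupp.single_add]
      · intro b _ hb
        simp [hb]
      · intro h
        exact absurd (Finset.mem_univ a) h
      · intro a' _ ha'
        refine Finset.sum_eq_zero fun b' _ => ?_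
        simp [ha']
      · intro h
        exact absurd (Finset.mem_univ a) h
    · have hsplit : ∀ a' b' : Fin n,
          (if (a' = a ∧ b' = b) ∨ (a' = b ∧ b' = a) then qcB f k a' b' else 0)
            = (if a' = a then (if b' = b then qcB f k a b else 0) else 0)
              + (if a' = b then (if b' = a then qcB f k b a else 0) else 0) := by
        intro a' b'
        by_cases h1 : a' = a
        · subst h1
          by_cases h2 : b' = b
          · subst h2
            simp [hab]
          · simp [h2, hab]
        · by_cases h3 : a' = b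
          · subst h3
            by_cases h4 : b' = a
            · subst h4
              simp [h1]
            · simp [h1, h4]
          · simp [h1, h3]
      have hs : ∀ (a b : Fin n) (c : F),
          ∑ x : Fin n, ∑ y : Fin n, (if x = a then (if y = b then c else 0) else 0) = c := by
        intro a b c
        rw [Finset.sum_eq_single a]
        · simp
        · intro x _ hx
          simp [hx]
        · intro h
          exact absurd (Finset.mem_univ a) h
      simp only [hsplit, Finset.sum_add_distrib, hs]
      have hba : b ≠ a := fun h => hab h.symm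
      simp only [qcB, if_neg hab, if_neg hba, add_comm (Finsupp.single b 1) (Finsupp.single a 1)]
      field_simp
      ring
  · rw [(hf k).coeff_eq_zero hm]
    refine Finset.sum_eq_zero fun a _ => Finset.sum_eq_zero fun b _ => ?_
    rw [if_neg]
    rintro rfl
    apply hm
    simp [map_add, Finsupp.degree_single]
-- END B1d

-- BEGIN B1c
/-- the quadratic form `∑ w_ab x_a x_b` of `D[x]` -/
def qnb1cT {D : Type} [Ring D] {n : ℕ} (w : Fin n → Fin n → D) : Eg2N D n :=
  ∑ a, ∑ b, AddMonoidAlgebra.single (Finsupp.single a 1 + Finsupp.single b 1) (w a b)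

theorem qnb1c_add {D : Type} [Ring D] {n : ℕ} (w w' : Fin n → Fin n → D) :
    qnb1cT (fun a b => w a b + w' a b) = qnb1cT w + qnb1cT w' := by
  simp only [qnb1cT, AddMonoidAlgebra.single_add, Finset.sum_add_distrib]

theorem qnb1c_swap {D : Type} [Ring D] {n : ℕ} (w : Fin n → Fin n → D) :
    qnb1cT (fun a b => w b a) = qnb1cT w := by
  unfold qnb1cT
  rw [Finset.sum_comm]
  refine Finset.sum_congr rfl fun a _ => Finset.sum_congr rfl fun b _ => ?_
  rw [add_comm]

theorem qnb1c_smul {D : Type} [Ring D] {n : ℕ} (d : D) (w : Fin n → Fin n → D) :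
    qnb1cT (fun a b => d * w a b) = d • qnb1cT w := by
  simp only [qnb1cT, Finset.smul_sum, AddMonoidAlgebra.smul_single']

theorem qnb1c_sum {D : Type} [Ring D] {n : ℕ} {κ : Type} (s : Finset κ) (w : κ → Fin n → Fin n → D) :
    qnb1cT (fun a b => ∑ k ∈ s, w k a b) = ∑ k ∈ s, qnb1cT (w k) := by
  classical
  induction s using Finset.induction_on with
  | empty => simp [qnb1cT]
  | insert k s hk ih =>
    simp only [Finset.sum_insert hk]
    rw [qnb1c_add, ih]

/-- the image of a quadric in `D[x]` -/
theorem qnb1c_iota {F D : Type} [Field F] [DivisionRing D] [Algebra F D] {n : ℕ} (M : Fin n → Fin n → F) :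
    eg2Iota F D n (∑ a, ∑ b, C (M a b) * X a * X b) = qnb1cT (fun a b => algebraMap F D (M a b)) := by
  unfold qnb1cT
  rw [map_sum]
  refine Finset.sum_congr rfl fun a _ => ?_
  rw [map_sum]
  refine Finset.sum_congr rfl fun b _ => ?_
  have h : (C (M a b) * X a * X b : MvPolynomial (Fin n) F)
      = monomial (Finsupp.single a 1 + Finsupp.single b 1) (M a b) := by
    rw [X, X, C_mul_monomial, monomial_mul, mul_one, mul_one]
  rw [h, eg2i_single]

/-- POST B1c: the square of `t = ∑_j c e_j x_j` is `- z ∑_k y_k f_k(x)`  (uses B1d; `2` is invertible in `D`). -/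
theorem qb_square {F D : Type} [Field F] [DivisionRing D] [Algebra F D] (h2 : (2 : F) ≠ 0) {n : ℕ}
    (f : Fin n → MvPolynomial (Fin n) F) (hf : ∀ k, (f k).IsHomogeneous 2)
    (c z : D) (e y : Fin n → D) (hz : ∀ x, Commute z x) (hy : ∀ k x, Commute (y k) x)
    (hc : c * c = z) (hce : ∀ j, c * e j = - (e j * c))
    (hee : ∀ a b, e a * e b + e b * e a = ∑ k, y k * algebraMap F D (qcB f k a b + qcB f k b a)) :
    eg2Lin (fun j => c * e j) ^ 2 ∈ eg2Ext D (Ideal.span (Set.range f)) := by
  classical
  have h2D : (2 : D) ≠ 0 := by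
    intro h
    apply h2
    apply (algebraMap F D).injective
    rw [map_ofNat, map_zero, h]
  have hsq : eg2Lin (fun j => c * e j) ^ 2 = (-z) • qnb1cT (fun a b => e a * e b) := by
    rw [← qnb1c_smul, pow_two, eg2Lin, Finset.sum_mul, qnb1cT]
    refine Finset.sum_congr rfl fun a _ => ?_
    rw [Finset.mul_sum]
    refine Finset.sum_congr rfl fun b _ => ?_
    rw [AddMonoidAlgebra.single_mul_single]
    congr 1
    calc c * e a * (c * e b) = c * (e a * c) * e b := by simp only [mul_assoc]
      _ = c * (-(c * e a)) * e b := by rw [hce a, neg_neg]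
      _ = -(c * c) * (e a * e b) := by simp only [mul_neg, neg_mul, mul_assoc]
      _ = -z * (e a * e b) := by rw [hc]
  have hmem : ∀ k, eg2Iota F D n (f k) ∈ eg2Ext D (Ideal.span (Set.range f)) := fun k =>
    Submodule.subset_span ⟨f k, Ideal.subset_span ⟨k, rfl⟩, rfl⟩
  have hiota : ∀ k, qnb1cT (fun a b => algebraMap F D (qcB f k a b)) = eg2Iota F D n (f k) := by
    intro k
    conv_rhs => rw [qb_quadric h2 f hf k]
    exact (qnb1c_iota (D := D) (qcB f k)).symm
  have h2S : qnb1cT (fun a b => e a * e b) + qnb1cT (fun a b => e a * e b)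
      = ∑ k, y k • (eg2Iota F D n (f k) + eg2Iota F D n (f k)) := by
    have h1 : qnb1cT (fun a b => e a * e b) + qnb1cT (fun a b => e a * e b)
        = qnb1cT (fun a b => e a * e b + e b * e a) := by
      rw [qnb1c_add, qnb1c_swap (fun a b => e a * e b)]
    rw [h1]
    simp only [hee]
    rw [qnb1c_sum]
    refine Finset.sum_congr rfl fun k _ => ?_
    rw [qnb1c_smul]
    congr 1
    simp only [map_add]
    rw [qnb1c_add, qnb1c_swap (fun a b => algebraMap F D (qcB f k a b)), hiota]
  have hSS : qnb1cT (fun a b => e a * e b) + qnb1cT (fun a b => e a * e b)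
      ∈ eg2Ext D (Ideal.span (Set.range f)) := by
    rw [h2S]
    exact Submodule.sum_mem _ fun k _ => Submodule.smul_mem _ _ (Submodule.add_mem _ (hmem k) (hmem k))
  have hSmem : qnb1cT (fun a b => e a * e b) ∈ eg2Ext D (Ideal.span (Set.range f)) := by
    have h : qnb1cT (fun a b => e a * e b)
        = (2 : D)⁻¹ • (qnb1cT (fun a b => e a * e b) + qnb1cT (fun a b => e a * e b)) := by
      rw [← two_smul D (qnb1cT (fun a b => e a * e b)), smul_smul, inv_mul_cancel₀ h2D, one_smul]
    rw [h]
    exact Submodule.smul_mem _ _ hSS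
  rw [hsq]
  exact Submodule.smul_mem _ _ hSmem
-- END B1c

-- BEGIN B2a
theorem qbB2a_R_apply {K : Type} [CommRing K] {N : ℕ} (b : Fin N → Fin N → K) (c : Fin N) (v : Qf76Lam K N)
    (S : Finset (Fin N)) :
    qf76_R b c v S = (if c ∈ S then r278m_sgn (S.erase c) c • (((-1 : ℤ) ^ (S.erase c).card) • v (S.erase c)) else 0)
      - ∑ k, b k c * (if k ∉ S then r278m_sgn S k • (((-1 : ℤ) ^ (insert k S).card) • v (insert k S)) else 0) := by
  unfold qf76_R qf76_Rt qf76_io
  simp only [Module.End.mul_apply, LinearMap.sub_apply, LinearMap.sum_apply, LinearMap.smul_apply, Pi.sub_apply,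
    Finset.sum_apply, Pi.smul_apply, qf76_eps_apply, qf76_iota_apply, qf76_par_apply, smul_eq_mul]

theorem qbB2a_R_apply' {K : Type} [CommRing K] {N : ℕ} (b : Fin N → Fin N → K) (c : Fin N) (v : Qf76Lam K N)
    (S : Finset (Fin N)) (hv : ∀ S' : Finset (Fin N), S.card < S'.card → v S' = 0) :
    qf76_R b c v S =
      if c ∈ S then r278m_sgn (S.erase c) c • (((-1 : ℤ) ^ (S.erase c).card) • v (S.erase c)) else 0 := by
  rw [qbB2a_R_apply, sub_eq_self]
  refine Finset.sum_eq_zero fun k _ => ?_
  by_cases hk : k ∈ S
  · simp [hk]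
  · rw [if_pos hk, hv (insert k S) (by rw [Finset.card_insert_of_notMem hk]; omega)]
    simp

theorem qbB2a_sgn (N : ℕ) (U : Finset (Fin N)) (k : Fin N) : r278m_sgn U k = 1 ∨ r278m_sgn U k = -1 := by
  unfold r278m_sgn
  exact neg_one_pow_eq_or ℤ _

/-- POST B2a: the top coefficients of a word in the right generators applied to the vacuum. -/
theorem qb_top {K : Type} [CommRing K] {N : ℕ} (b : Fin N → Fin N → K) (l : List (Fin N)) :
    (∀ S : Finset (Fin N), l.length < S.card → ((l.map (qf76_R b)).prod (Pi.single ∅ 1 : Qf76Lam K N)) S = 0) ∧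
    (∀ S : Finset (Fin N), S.card = l.length → S ≠ l.toFinset →
      ((l.map (qf76_R b)).prod (Pi.single ∅ 1 : Qf76Lam K N)) S = 0) ∧
    (l.Nodup → ((l.map (qf76_R b)).prod (Pi.single ∅ 1 : Qf76Lam K N)) l.toFinset = 1 ∨
      ((l.map (qf76_R b)).prod (Pi.single ∅ 1 : Qf76Lam K N)) l.toFinset = -1) := by
  induction l with
  | nil =>
    refine ⟨fun S hS => ?_, fun S hS hne => ?_, fun _ => Or.inl ?_⟩
    · have : S ≠ ∅ := by
        rintro rfl
        simp at hS
      simp [Pi.single_eq_of_ne this]
    · exact absurd (Finset.card_eq_zero.1 (by simpa using hS)) (by simpa using hne)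
    · simp
  | cons c l ih =>
    obtain ⟨ih1, ih2, ih3⟩ := ih
    set w : Qf76Lam K N := (l.map (qf76_R b)).prod (Pi.single ∅ 1 : Qf76Lam K N) with hw
    have hcons : ((c :: l).map (qf76_R b)).prod (Pi.single ∅ 1 : Qf76Lam K N) = qf76_R b c w := by
      rw [List.map_cons, List.prod_cons, Module.End.mul_apply]
    rw [hcons]
    refine ⟨fun S hS => ?_, fun S hS hne => ?_, fun hnd => ?_⟩
    · rw [List.length_cons] at hS
      rw [qbB2a_R_apply' b c w S (fun S' h => ih1 S' (by omega))]
      by_cases hc : c ∈ S
      · rw [if_pos hc, ih1 (S.erase c) (by rw [Finset.card_erase_of_mem hc]; omega)]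
        simp
      · rw [if_neg hc]
    · rw [List.length_cons] at hS
      rw [qbB2a_R_apply' b c w S (fun S' h => ih1 S' (by omega))]
      by_cases hc : c ∈ S
      · rw [if_pos hc, ih2 (S.erase c) (by rw [Finset.card_erase_of_mem hc]; omega) ?_]
        · simp
        · intro he
          apply hne
          rw [List.toFinset_cons, ← he, Finset.insert_erase hc]
      · rw [if_neg hc]
    · have hc : c ∉ l := (List.nodup_cons.1 hnd).1
      have hl : l.Nodup := (List.nodup_cons.1 hnd).2
      have hc' : c ∉ l.toFinset := by simpa using hc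
      have hcard : (insert c l.toFinset).card = l.length + 1 := by
        rw [Finset.card_insert_of_notMem hc', List.toFinset_card_of_nodup hl]
      rw [List.toFinset_cons, qbB2a_R_apply' b c w _ (fun S' h => ih1 S' (by omega)),
        if_pos (Finset.mem_insert_self _ _), Finset.erase_insert hc']
      rcases ih3 hl with h | h <;> rcases qbB2a_sgn N l.toFinset c with h' | h' <;>
        rcases neg_one_pow_eq_or ℤ l.toFinset.card with h'' | h'' <;> rw [h, h', h''] <;> simp
-- END B2a

-- BEGIN B2b
theorem qbB2b_word {A : Type} [Monoid A] {α β : Type} (R : β → A) (p q : α → β) (L : List α) :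
    (L.map fun i => R (p i) * R (q i)).prod = ((L.flatMap fun i => [p i, q i]).map R).prod := by
  induction L with
  | nil => simp
  | cons a L ih => simp [List.flatMap_cons, ih, mul_assoc]

theorem qbB2b_M {D : Type} [Ring D] {n : ℕ} (τ : Fin n → Fin n → D) (h : Qd273RowComm τ) (κ : Fin n → Fin n) :
    qd273_M τ h Finset.univ κ = ((List.finRange n).map fun i => τ i (κ i)).prod := by
  unfold qd273_M
  have hu : (Finset.univ : Finset (Fin n)) = (List.finRange n).toFinset := by
    ext; simp
  exact (Finset.noncommProd_congr hu (fun _ _ => rfl) _).trans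
    (Finset.noncommProd_toFinset _ _ _ (List.nodup_finRange n))

/-- the word of a map `κ` -/
def qbB2b_l {N n : ℕ} (g : Fin n × Option (Fin n) → Fin N) (κ : Fin n → Fin n) : List (Fin N) :=
  (List.finRange n).flatMap fun i => [g (i, none), g (i, some (κ i))]

theorem qbB2b_mem {N n : ℕ} (g : Fin n × Option (Fin n) → Fin N) (κ : Fin n → Fin n) (x : Fin N) :
    x ∈ qbB2b_l g κ ↔ ∃ i, x = g (i, none) ∨ x = g (i, some (κ i)) := by
  simp [qbB2b_l, List.mem_flatMap]

theorem qbB2b_length {N n : ℕ} (g : Fin n × Option (Fin n) → Fin N) (κ : Fin n → Fin n) :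
    (qbB2b_l g κ).length = 2 * n := by
  simp [qbB2b_l, List.length_flatMap, mul_comm]

theorem qbB2b_nodup {N n : ℕ} (g : Fin n × Option (Fin n) → Fin N) (hg : Function.Injective g)
    (κ : Fin n → Fin n) : (qbB2b_l g κ).Nodup := by
  unfold qbB2b_l
  rw [List.nodup_flatMap]
  refine ⟨fun i _ => ?_, ?_⟩
  · have : g (i, none) ≠ g (i, some (κ i)) := fun he => by
      have := hg he
      simp at this
    simp [this]
  · refine (List.nodup_finRange n).imp ?_
    intro i i' hne
    simp only [Function.onFun, List.disjoint_cons_left, List.mem_cons, List.not_mem_nil, or_false, not_or,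
      List.disjoint_nil_left, and_true]
    refine ⟨⟨fun he => ?_, fun he => ?_⟩, ⟨fun he => ?_, fun he => ?_⟩⟩ <;>
    · have := hg he
      simp only [Prod.mk.injEq] at this
      exact hne this.1

/-- POST B2b: the row determinant of `τ i j = R (i, none) R (i, some j)` is not zero: evaluate on the vacuum, at
`T = {g (i, none), g (i, some i)}` (B2a; `Finset.noncommProd_toFinset` with `List.finRange n`; words `l_π`, `T_π = T_id ↔ π = 1`). -/
theorem qb_det_ne {K : Type} [Field K] {N n : ℕ} (b : Fin N → Fin N → K)
    (g : Fin n × Option (Fin n) → Fin N) (hg : Function.Injective g)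
    (h : Qd273RowComm (fun i j => qf76_R b (g (i, none)) * qf76_R b (g (i, some j)))) :
    qd273_det (fun i j => qf76_R b (g (i, none)) * qf76_R b (g (i, some j))) h ≠ 0 := by
  classical
  intro h0
  set T : Finset (Fin N) := (qbB2b_l g id).toFinset with hT
  have hTcard : T.card = 2 * n := by
    rw [hT, List.toFinset_card_of_nodup (qbB2b_nodup g hg id), qbB2b_length]
  have hM : ∀ κ : Fin n → Fin n,
      qd273_M (fun i j => qf76_R b (g (i, none)) * qf76_R b (g (i, some j))) h Finset.univ κ =
        ((qbB2b_l g κ).map (qf76_R b)).prod := by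
    intro κ
    rw [qbB2b_M, qbB2b_word (qf76_R b) (fun i => g (i, none)) (fun i => g (i, some (κ i)))]
    rfl
  have h1 := congrArg (fun φ : Module.End K (Qf76Lam K N) => φ (Pi.single ∅ 1 : Qf76Lam K N) T) h0
  simp only [qd273_det, qd273_detS, LinearMap.sum_apply, LinearMap.smul_apply, Finset.sum_apply, Pi.smul_apply,
    LinearMap.zero_apply, Pi.zero_apply, hM, id] at h1
  rw [Finset.sum_eq_single (1 : Equiv.Perm (Fin n))] at h1
  · have h2 := (qb_top b (qbB2b_l g id)).2.2 (qbB2b_nodup g hg id)
    have h3 : (fun i => (1 : Equiv.Perm (Fin n)) i) = id := by funext i; simp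
    rw [h3, Equiv.Perm.sign_one] at h1
    rcases h2 with h2 | h2
    · rw [← hT] at h2
      rw [h2] at h1
      simp at h1
    · rw [← hT] at h2
      rw [h2] at h1
      simp at h1
  · intro π _ hπ
    rw [(qb_top b (qbB2b_l g fun i => π i)).2.1 T (by rw [hTcard, qbB2b_length]) ?_, smul_zero]
    intro he
    apply hπ
    ext i
    have hi : g (i, some (π i)) ∈ (qbB2b_l g fun i => π i).toFinset := by
      rw [List.mem_toFinset, qbB2b_mem]
      exact ⟨i, Or.inr rfl⟩
    rw [← he, hT, List.mem_toFinset, qbB2b_mem] at hi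
    obtain ⟨i', hi' | hi'⟩ := hi
    · have := hg hi'
      simp at this
    · have := hg hi'
      simp only [Prod.mk.injEq, Option.some.injEq, id] at this
      rw [Equiv.Perm.one_apply, this.2, this.1]
  · intro hh
    exact absurd (Finset.mem_univ _) hh
-- END B2b

-- BEGIN B2c
/-- POST B2c: a ring homomorphism maps the row determinant to the row determinant. -/
theorem qb_det_map {D A : Type} [Ring D] [Ring A] (φ : D →+* A) {n : ℕ} (τ : Fin n → Fin n → D)
    (h : Qd273RowComm τ) (h' : Qd273RowComm (fun i j => φ (τ i j))) :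
    φ (qd273_det τ h) = qd273_det (fun i j => φ (τ i j)) h' := by
  unfold qd273_det qd273_detS
  rw [map_sum]
  refine Finset.sum_congr rfl fun π _ => ?_
  rw [map_zsmul]
  congr 1
  unfold qd273_M
  exact Finset.map_noncommProd _ _ _ φ
-- END B2c

-- BEGIN B1
/-- the big system across two sites -/
theorem qb1_big_ne {F : Type} [Field F] {n : ℕ} (f : Fin n → MvPolynomial (Fin n) F)
    (c a b : Fin n × Option (Fin n)) (hab : a.1 ≠ b.1) : qcBig f c a b = 0 := by
  unfold qcBig qcPow
  rw [if_neg]
  rintro ⟨h1, h2⟩
  exact hab (h1.trans h2.symm)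

/-- the big system at one site -/
theorem qb1_big_site {F : Type} [Field F] {n : ℕ} (f : Fin n → MvPolynomial (Fin n) F)
    (c : Fin n × Option (Fin n)) (i : Fin n) (a b : Option (Fin n)) :
    qcBig f c (i, a) (i, b) = if c.1 = i then qcOpt (qcB f) c.2 a b else 0 := by
  unfold qcBig qcPow
  by_cases h : c.1 = i
  · rw [if_pos h, if_pos ⟨h.symm, h.symm⟩]
  · rw [if_neg h, if_neg]
    rintro ⟨h1, -⟩
    exact h h1.symm

/-- the sum over the big index set of a function supported at the site `i` -/
theorem qb1_sum_site {D : Type} [Ring D] {n : ℕ} (i : Fin n) (g : Fin n × Option (Fin n) → D)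
    (hg : ∀ c, c.1 ≠ i → g c = 0) : ∑ c, g c = g (i, none) + ∑ k, g (i, some k) := by
  classical
  rw [Fintype.sum_prod_type, Finset.sum_eq_single i, Fintype.sum_option]
  · intro j _ hj
    exact Finset.sum_eq_zero fun o _ => hg (j, o) hj
  · intro h
    exact absurd (Finset.mem_univ i) h

/-- POST B1: **the abstract box**: a division ring with central `Y_c` and Clifford generators `R_a` of the big system, and a left
inverse of `τ`, is a box (uses B1a B1b B1c; `qcBig` vanishes across the sites and between `none` and `some`;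
`R (i, none) ^ 2 = Y (i, none)`, `C = 0`). -/
theorem qb_box_of_gens {F : Type} [Field F] (h2 : (2 : F) ≠ 0) {n : ℕ} (f : Fin n → MvPolynomial (Fin n) F)
    (hf : ∀ k, (f k).IsHomogeneous 2) (D : Type) [DivisionRing D] [Algebra F D]
    (R Y : Fin n × Option (Fin n) → D) (hY : ∀ c x, Commute (Y c) x)
    (hR : ∀ a b, R a * R b + R b * R a = ∑ c, Y c * algebraMap F D (qcBig f c a b + qcBig f c b a))
    (hσ : ∃ σ : Fin n → Fin n → D, ∀ i k, ∑ j, σ i j * (R (j, none) * R (j, some k)) = if i = k then 1 else 0) :
    Eg2Box F n (fun _ => 2) (Ideal.span (Set.range f)) := by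
  classical
  obtain ⟨σ, hσ⟩ := hσ
  have h2D : (2 : D) ≠ 0 := by
    have h := (map_ne_zero (algebraMap F D)).2 h2
    rwa [map_ofNat] at h
  have hanti : ∀ a b : Fin n × Option (Fin n), a.1 ≠ b.1 → R a * R b = - (R b * R a) := by
    intro a b hab
    have h := hR a b
    rw [Finset.sum_eq_zero] at h
    · exact eq_neg_of_add_eq_zero_left h
    · intro c _
      rw [qb1_big_ne f c a b hab, qb1_big_ne f c b a hab.symm]
      simp
  have hsite : ∀ (i : Fin n) (a b : Option (Fin n)),
      R (i, a) * R (i, b) + R (i, b) * R (i, a)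
        = Y (i, none) * algebraMap F D (qcOpt (qcB f) none a b + qcOpt (qcB f) none b a)
          + ∑ k, Y (i, some k) * algebraMap F D (qcOpt (qcB f) (some k) a b + qcOpt (qcB f) (some k) b a) := by
    intro i a b
    rw [hR, qb1_sum_site i]
    · simp only [qb1_big_site, if_true]
    · intro c hc
      rw [qb1_big_site, qb1_big_site, if_neg hc, if_neg hc]
      simp
  refine ⟨D, inferInstance, inferInstance, fun i j => R (i, none) * R (i, some j), σ, hσ,
    qb_comm _ (qb_rowcomm R hanti), fun i => ⟨fun _ => 0, fun _ _ => rfl, fun _ => Submodule.zero_mem _, ?_⟩⟩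
  have hsq := qb_square h2 f hf (R (i, none)) (Y (i, none)) (fun j => R (i, some j)) (fun k => Y (i, some k))
    (hY _) (fun k => hY _) ?_ ?_ ?_
  · simpa using hsq
  · have h := hsite i none none
    simp only [qcOpt] at h
    have h' : (2 : D) * (R (i, none) * R (i, none)) = 2 * Y (i, none) := by
      rw [two_mul, h]
      simp [two_mul, mul_add]
    exact mul_left_cancel₀ h2D h'
  · intro j
    have h := hsite i none (some j)
    simp only [qcOpt] at h
    refine eq_neg_of_add_eq_zero_left ?_
    rw [h]
    simp
  · intro a b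
    have h := hsite i (some a) (some b)
    simp only [qcOpt] at h
    rw [h]
    simp
-- END B1

set_option linter.style.haveILetI false in
/-- from a finite-dimensional domain to the box -/
theorem qb_box_of_domain {F K : Type} [Field F] [Field K] (h2 : (2 : F) ≠ 0) (ι₀ : F →+* K) {n : ℕ}
    (f : Fin n → MvPolynomial (Fin n) F) (hf : ∀ k, (f k).IsHomogeneous 2)
    (A : Type) [Ring A] [IsDomain A] [Algebra K A] [FiniteDimensional K A]
    (R : Fin n × Option (Fin n) → A) (Y : Fin n × Option (Fin n) → K)
    (hR : ∀ a b, R a * R b + R b * R a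
      = ∑ c, algebraMap K A (Y c) * algebraMap K A (ι₀ (qcBig f c a b + qcBig f c b a)))
    (hdet : ∀ h : Qd273RowComm (fun i j => R (i, none) * R (i, some j)),
      qd273_det (fun i j => R (i, none) * R (i, some j)) h ≠ 0) :
    Eg2Box F n (fun _ => 2) (Ideal.span (Set.range f)) := by
  classical
  letI : DivisionRing A := divisionRingOfFiniteDimensional K A
  letI : Algebra F A := ((algebraMap K A).comp ι₀).toAlgebra' (fun c x => Algebra.commutes _ _)
  refine qb_box_of_gens h2 f hf A R (fun c => algebraMap K A (Y c)) (fun c x => Algebra.commutes _ _) hR ?_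
  have hanti : ∀ a b : Fin n × Option (Fin n), a.1 ≠ b.1 → R a * R b = - (R b * R a) := by
    intro a b hab
    have h := hR a b
    have h0 : ∀ c, qcBig f c a b + qcBig f c b a = 0 := by
      intro c
      have h1 : ¬ (a.1 = c.1 ∧ b.1 = c.1) := fun h => hab (h.1.trans h.2.symm)
      have h2 : ¬ (b.1 = c.1 ∧ a.1 = c.1) := fun h => hab (h.2.trans h.1.symm)
      simp [qcBig, qcPow, h1, h2]
    simp only [h0, map_zero, mul_zero, Finset.sum_const_zero] at h
    exact eq_neg_of_add_eq_zero_left h
  have hrc := qb_rowcomm R hanti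
  exact qd273_cramer _ hrc (hdet hrc)

/-- **THE QUADRIC BOX** from the commutative package (assembled from the posts). -/
theorem qb_box {F : Type} [Field F] [CharZero F] {n N : ℕ} (e : Fin n × Option (Fin n) ≃ Fin N)
    (f : Fin n → MvPolynomial (Fin n) F) (hf : ∀ k, (f k).IsHomogeneous 2)
    (pk : QcPack (qcRe e (qcBig f))) : Eg2Box F n (fun _ => 2) (Ideal.span (Set.range f)) := by
  classical
  rcases Nat.eq_zero_or_pos N with hN | hN
  · have hn : n = 0 := by
      by_contra hn
      subst hN
      exact (e (⟨0, Nat.pos_of_ne_zero hn⟩, none)).elim0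
    subst hn
    exact ⟨F, inferInstance, inferInstance, fun i => i.elim0, fun i => i.elim0, fun i => i.elim0,
      fun i => i.elim0, fun i => i.elim0⟩
  let bK : Fin N → Fin N → FractionRing (MvPolynomial (Fin N) F) := fun a c =>
    algebraMap (MvPolynomial (Fin N) F) (FractionRing (MvPolynomial (Fin N) F)) (qcM (qcRe e (qcBig f)) a c)
  have hdom : IsDomain (qdCent (FractionRing (MvPolynomial (Fin N) F)) bK) :=
    qd_isDomain bK (fun ρ hρ h0 => qd_inj_K hN _ pk ρ hρ h0)
  have hRmem : ∀ a, qf76_R bK a ∈ qdCent (FractionRing (MvPolynomial (Fin N) F)) bK := fun a =>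
    qd_mem_cent.2 (fun c => qf76_R_L bK a c)
  refine qb_box_of_domain two_ne_zero
    ((algebraMap (MvPolynomial (Fin N) F) (FractionRing (MvPolynomial (Fin N) F))).comp C) f hf
    (qdCent (FractionRing (MvPolynomial (Fin N) F)) bK) (fun a => ⟨qf76_R bK (e a), hRmem _⟩)
    (fun c => algebraMap (MvPolynomial (Fin N) F) (FractionRing (MvPolynomial (Fin N) F)) (X (e c))) ?_ ?_
  · intro a b
    apply Subtype.ext
    have h1 := qf76_R_R bK (e a) (e b)
    have h3 : ∀ a b : Fin n × Option (Fin n), qcM (qcRe e (qcBig f)) (e a) (e b)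
        = ∑ c, X (e c) * C (qcBig f c a b) := by
      intro a b
      unfold qcM
      rw [← Equiv.sum_comp e]
      simp [qcRe]
    have h2 : bK (e a) (e b) + bK (e b) (e a) = ∑ c : Fin n × Option (Fin n),
        algebraMap (MvPolynomial (Fin N) F) (FractionRing (MvPolynomial (Fin N) F)) (X (e c)) *
          ((algebraMap (MvPolynomial (Fin N) F) (FractionRing (MvPolynomial (Fin N) F))).comp C)
            (qcBig f c a b + qcBig f c b a) := by
      simp only [bK, h3, map_sum, map_mul, map_add, RingHom.comp_apply, mul_add, Finset.sum_add_distrib]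
    simp only [← map_mul, ← map_sum]
    rw [← h2]
    simpa [Algebra.algebraMap_eq_smul_one] using h1
  · intro h h0
    have h' : Qd273RowComm (fun i j => qf76_R bK (e (i, none)) * qf76_R bK (e (i, some j))) := by
      intro i i' j j' hne
      have := h i i' j j' hne
      exact congrArg Subtype.val this.eq
    have := qb_det_map (qdCent (FractionRing (MvPolynomial (Fin N) F)) bK).val.toRingHom _ h h'
    rw [h0, map_zero] at this
    exact qb_det_ne bK e e.injective h' this.symm

end Claimed.Agent.R278
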