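-- KEEP
import Claimed.Agent.R278.QuadDefs

/-!
# Row 278, C4-Q, cluster P, part 2: `R278/QuadP2` = operations on the commutative package `QcPack`      (pen helper5, prefix `qp2`)

* `QcPack.reindex e : QcPack B → QcPack (qcRe e B)`
* `qp2Opt : QcPack B → QcPack (qcOpt B)`      (`I × Bool`, Kronecker products; `R[ζ]/(ζ²)`)
* `qp2Pow σ : QcPack B → QcPack (qcPow σ B)`      (`σ → I`, one-site operators; `R^{⊗ σ}`; `p5` by the generating polynomial)
* `qp2Big : QcPack (qcB f) → QcPack (qcBig f)`
THE ROW STAYS OPEN (case `a = (2, …, 2)` only).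
-/

set_option autoImplicit false
set_option linter.unusedSectionVars false

open MvPolynomial

noncomputable section

namespace Claimed.Agent.R278

variable {F : Type} [Field F]

/-! ## 1. one-site operators -/

section site

variable {σ I : Type} [Fintype σ] [DecidableEq σ] [Fintype I] [DecidableEq I]

/-- the operator `M` acting at the site `s` of `σ → I` -/
def qp2Site (s : σ) (M : Matrix I I F) : Matrix (σ → I) (σ → I) F :=
  fun i' i => if ∀ s', s' ≠ s → i' s' = i s' then M (i' s) (i s) else 0

theorem qp2_site_apply (s : σ) (M : Matrix I I F) (i' i : σ → I) :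
    qp2Site s M i' i = if ∀ s', s' ≠ s → i' s' = i s' then M (i' s) (i s) else 0 := rfl

/-- a sum over `σ → I` of a function supported on the configurations that agree with `i` off `s` -/
theorem qp2_sum_site (s : σ) (i : σ → I) (g : (σ → I) → F)
    (hg : ∀ i', (¬ ∀ s', s' ≠ s → i' s' = i s') → g i' = 0) :
    ∑ i', g i' = ∑ x, g (Function.update i s x) := by
  classical
  rw [← Finset.sum_image (s := Finset.univ) (g := fun x => Function.update i s x) (f := g)
    (fun x _ y _ h => Function.update_injective i s h)]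
  refine (Finset.sum_subset (Finset.subset_univ _) fun i' _ hi' => hg i' fun h => hi' ?_).symm
  refine Finset.mem_image.2 ⟨i' s, Finset.mem_univ _, ?_⟩
  funext s'
  by_cases hs : s' = s
  · subst hs; simp
  · rw [Function.update_of_ne hs, h s' hs]

theorem qp2_site_mul (s : σ) (M M' : Matrix I I F) :
    qp2Site s M * qp2Site s M' = qp2Site s (M * M') := by
  ext i'' i
  rw [Matrix.mul_apply, qp2_sum_site s i _ (fun i' h => by rw [qp2_site_apply s M' i' i, if_neg h, mul_zero])]
  rw [qp2_site_apply s (M * M'), Matrix.mul_apply]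
  by_cases h : ∀ s', s' ≠ s → i'' s' = i s'
  · rw [if_pos h]
    refine Finset.sum_congr rfl fun x _ => ?_
    rw [qp2_site_apply, qp2_site_apply, if_pos, if_pos, Function.update_self]
    · intro s' hs; rw [Function.update_of_ne hs]
    · intro s' hs; rw [Function.update_of_ne hs, h s' hs]
  · rw [if_neg h]
    refine Finset.sum_eq_zero fun x _ => ?_
    rw [qp2_site_apply s M, if_neg, zero_mul]
    intro h'
    exact h fun s' hs => by rw [h' s' hs, Function.update_of_ne hs]

theorem qp2_site_mul_ne {s t : σ} (hst : s ≠ t) (M M' : Matrix I I F) (i'' i : σ → I) :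
    (qp2Site s M * qp2Site t M') i'' i =
      if ∀ s', s' ≠ s → s' ≠ t → i'' s' = i s' then M (i'' s) (i s) * M' (i'' t) (i t) else 0 := by
  rw [Matrix.mul_apply, qp2_sum_site t i _ (fun i' h => by rw [qp2_site_apply t M' i' i, if_neg h, mul_zero])]
  rw [Finset.sum_eq_single (i'' t)]
  · rw [qp2_site_apply, qp2_site_apply, Function.update_self, Function.update_of_ne hst,
      if_pos (show ∀ s', s' ≠ t → Function.update i t (i'' t) s' = i s' from
        fun s' hs => by rw [Function.update_of_ne hs])]
    by_cases h : ∀ s', s' ≠ s → s' ≠ t → i'' s' = i s'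
    · rw [if_pos h, if_pos]
      intro s' hs
      by_cases h2 : s' = t
      · subst h2; rw [Function.update_self]
      · rw [Function.update_of_ne h2, h s' hs h2]
    · rw [if_neg h, if_neg, zero_mul]
      intro h'
      exact h fun s' hs h2 => by rw [h' s' hs, Function.update_of_ne h2]
  · intro x _ hx
    rw [qp2_site_apply s M, if_neg, zero_mul]
    intro h'
    have := h' t (Ne.symm hst)
    rw [Function.update_self] at this
    exact hx this.symm
  · intro h; exact absurd (Finset.mem_univ _) h

theorem qp2_site_comm {s t : σ} (hst : s ≠ t) (M M' : Matrix I I F) :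
    qp2Site s M * qp2Site t M' = qp2Site t M' * qp2Site s M := by
  ext i'' i
  rw [qp2_site_mul_ne hst, qp2_site_mul_ne (Ne.symm hst)]
  by_cases h : ∀ s', s' ≠ s → s' ≠ t → i'' s' = i s'
  · rw [if_pos h, if_pos (fun s' h1 h2 => h s' h2 h1), mul_comm]
  · rw [if_neg h, if_neg (fun h' => h fun s' h1 h2 => h' s' h2 h1)]

theorem qp2_site_add (s : σ) (M M' : Matrix I I F) : qp2Site s (M + M') = qp2Site s M + qp2Site s M' := by
  ext i' i
  rw [Matrix.add_apply, qp2_site_apply, qp2_site_apply, qp2_site_apply]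
  split_ifs
  · rfl
  · rw [add_zero]

theorem qp2_site_smul (s : σ) (c : F) (M : Matrix I I F) : qp2Site s (c • M) = c • qp2Site s M := by
  ext i' i
  rw [Matrix.smul_apply, qp2_site_apply, qp2_site_apply]
  split_ifs
  · rfl
  · rw [smul_zero]

theorem qp2_site_zero (s : σ) : qp2Site s (0 : Matrix I I F) = 0 := by
  ext i' i
  rw [qp2_site_apply]
  split_ifs <;> rfl

theorem qp2_site_one (s : σ) : qp2Site s (1 : Matrix I I F) = 1 := by
  ext i' i
  rw [qp2_site_apply, Matrix.one_apply, Matrix.one_apply]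
  by_cases h : i' = i
  · subst h
    rw [if_pos (fun _ _ => rfl), if_pos rfl, if_pos rfl]
  · rw [if_neg h]
    split_ifs with h1 h2
    · exfalso
      apply h
      funext s'
      by_cases hs : s' = s
      · subst hs; exact h2
      · exact h1 s' hs
    · rfl
    · rfl

theorem qp2_site_sum {α : Type} (s : σ) (T : Finset α) (M : α → Matrix I I F) :
    qp2Site s (∑ x ∈ T, M x) = ∑ x ∈ T, qp2Site s (M x) := by
  classical
  induction T using Finset.induction_on with
  | empty => simp [qp2_site_zero]
  | insert a T ha ih => rw [Finset.sum_insert ha, Finset.sum_insert ha, qp2_site_add, ih]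

end site

/-! ## 2. powers -/

section pow

variable {κ : Type} [Fintype κ] [DecidableEq κ] (σ : Type) [Fintype σ] [DecidableEq σ]

theorem qp2_sum_pow {B : κ → Matrix κ κ F} {A : Type} [AddCommMonoid A] [Module F A] (t : σ) (k : κ)
    (X : σ × κ → σ × κ → A) :
    ∑ a, ∑ b, qcPow σ B (t, k) a b • X a b = ∑ a, ∑ b, B k a b • X (t, a) (t, b) := by
  rw [Fintype.sum_prod_type, Finset.sum_eq_single t]
  · refine Finset.sum_congr rfl fun a _ => ?_
    rw [Fintype.sum_prod_type, Finset.sum_eq_single t]
    · refine Finset.sum_congr rfl fun b _ => ?_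
      simp [qcPow]
    · intro s _ hs
      refine Finset.sum_eq_zero fun b _ => ?_
      simp [qcPow, hs]
    · intro h; exact absurd (Finset.mem_univ _) h
  · intro s _ hs
    refine Finset.sum_eq_zero fun a _ => Finset.sum_eq_zero fun b _ => ?_
    simp [qcPow, hs]
  · intro h; exact absurd (Finset.mem_univ _) h

variable {σ}

theorem qp2_deg_site {I : Type} (deg : I → ℕ) (s : σ) (i' i : σ → I) (h1 : ∀ s', s' ≠ s → i' s' = i s') :
    ∑ s', deg (i' s') + deg (i s) = ∑ s', deg (i s') + deg (i' s) := by
  rw [← Finset.add_sum_erase Finset.univ (fun s' => deg (i' s')) (Finset.mem_univ s),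
    ← Finset.add_sum_erase Finset.univ (fun s' => deg (i s')) (Finset.mem_univ s),
    Finset.sum_congr rfl (fun s' hs => by rw [h1 s' (Finset.ne_of_mem_erase hs)] :
      ∀ s' ∈ Finset.univ.erase s, deg (i' s') = deg (i s'))]
  ring

theorem qp2_coeff_gen {J : Type} [Fintype J] (d : J → ℕ) (j : ℕ) :
    (∑ x : J, (Polynomial.X : Polynomial ℕ) ^ d x).coeff j = (Finset.univ.filter fun x => d x = j).card := by
  rw [Polynomial.finsetSum_coeff, Finset.card_filter]
  refine Finset.sum_congr rfl fun x _ => ?_
  rw [Polynomial.coeff_X_pow]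
  by_cases h : d x = j
  · rw [if_pos h, if_pos h.symm]
  · rw [if_neg h, if_neg (fun h' => h h'.symm)]

theorem qp2_pow_card {I : Type} [Fintype I] [DecidableEq I] (deg : I → ℕ) (N : ℕ)
    (h : ∀ j, (Finset.univ.filter fun i => deg i = j).card = N.choose j) (j : ℕ) :
    (Finset.univ.filter fun i : σ → I => ∑ s, deg (i s) = j).card = (Fintype.card σ * N).choose j := by
  have h1 : (∑ x : I, (Polynomial.X : Polynomial ℕ) ^ deg x) = (Polynomial.X + 1) ^ N := by
    ext j
    rw [qp2_coeff_gen, h, Polynomial.coeff_X_add_one_pow]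
    simp
  have h2 : (∑ i : σ → I, (Polynomial.X : Polynomial ℕ) ^ (∑ s, deg (i s))) = (Polynomial.X + 1) ^ (Fintype.card σ * N) := by
    have := Finset.prod_univ_sum (fun _ : σ => (Finset.univ : Finset I))
      (fun (_ : σ) (x : I) => (Polynomial.X : Polynomial ℕ) ^ deg x)
    rw [Fintype.piFinset_univ] at this
    simp only [Finset.prod_pow_eq_pow_sum] at this
    rw [← this, h1, Finset.prod_const, Finset.card_univ, ← pow_mul, mul_comm]
  rw [← qp2_coeff_gen, h2, Polynomial.coeff_X_add_one_pow]
  simp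

variable {B : κ → Matrix κ κ F} (pk : QcPack B)

theorem qp2_pow_p1 (a b : σ × κ) :
    qp2Site a.1 (pk.U a.2) * qp2Site b.1 (pk.U b.2) = qp2Site b.1 (pk.U b.2) * qp2Site a.1 (pk.U a.2) := by
  obtain ⟨s, a⟩ := a
  obtain ⟨t, b⟩ := b
  by_cases h : s = t
  · subst h
    show qp2Site s (pk.U a) * qp2Site s (pk.U b) = qp2Site s (pk.U b) * qp2Site s (pk.U a)
    rw [qp2_site_mul, qp2_site_mul, pk.p1]
  · exact qp2_site_comm h _ _

theorem qp2_pow_p2 (c : σ × κ) :
    ∑ a, ∑ b, qcPow σ B c a b • (qp2Site a.1 (pk.U a.2) * qp2Site b.1 (pk.U b.2)) = 0 := by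
  obtain ⟨t, k⟩ := c
  rw [qp2_sum_pow σ t k (fun a b => qp2Site a.1 (pk.U a.2) * qp2Site b.1 (pk.U b.2))]
  simp only [qp2_site_mul, ← qp2_site_smul, ← qp2_site_sum]
  rw [pk.p2, qp2_site_zero]

/-- the operators `V` of the power -/
def qp2PowV (a c : σ × κ) : Matrix (σ → pk.I) (σ → pk.I) F :=
  if a.1 = c.1 then qp2Site a.1 (pk.V a.2 c.2) else 0

theorem qp2_pow_p3 (a b c : σ × κ) :
    qp2Site a.1 (pk.U a.2) * qp2PowV pk b c + qp2PowV pk a c * qp2Site b.1 (pk.U b.2) =
      qp2Site b.1 (pk.U b.2) * qp2PowV pk a c + qp2PowV pk b c * qp2Site a.1 (pk.U a.2) := by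
  obtain ⟨s, a⟩ := a
  obtain ⟨t, b⟩ := b
  obtain ⟨r, c⟩ := c
  simp only [qp2PowV]
  by_cases h : s = t
  · subst h
    by_cases h2 : s = r
    · subst h2
      simp only [if_true, qp2_site_mul, ← qp2_site_add]
      rw [pk.p3]
    · simp only [if_neg h2, mul_zero, zero_mul, add_zero]
  · by_cases h2 : s = r <;> by_cases h3 : t = r
    · exact absurd (h2.trans h3.symm) h
    · simp only [if_pos h2, if_neg h3, mul_zero, zero_mul, zero_add, add_zero]
      exact qp2_site_comm h _ _
    · simp only [if_neg h2, if_pos h3, mul_zero, zero_mul, zero_add, add_zero]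
      exact qp2_site_comm h _ _
    · simp only [if_neg h2, if_neg h3, mul_zero, zero_mul, zero_add]

theorem qp2_pow_p4 (c c' : σ × κ) :
    ∑ a, ∑ b, qcPow σ B c' a b • (qp2Site a.1 (pk.U a.2) * qp2PowV pk b c + qp2PowV pk a c * qp2Site b.1 (pk.U b.2)) =
      if c = c' then 1 else 0 := by
  obtain ⟨r, c⟩ := c
  obtain ⟨t, k⟩ := c'
  rw [qp2_sum_pow σ t k (fun a b => qp2Site a.1 (pk.U a.2) * qp2PowV pk b (r, c) + qp2PowV pk a (r, c) * qp2Site b.1 (pk.U b.2))]
  simp only [qp2PowV]
  by_cases h : t = r
  · subst h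
    simp only [if_true, qp2_site_mul, ← qp2_site_add, ← qp2_site_smul, ← qp2_site_sum]
    rw [pk.p4]
    by_cases h2 : c = k
    · subst h2
      rw [if_pos rfl, if_pos rfl, qp2_site_one]
    · rw [if_neg h2, if_neg (fun h' => h2 (Prod.mk.inj h').2), qp2_site_zero]
  · simp only [if_neg h, mul_zero, zero_mul, add_zero, smul_zero, Finset.sum_const_zero]
    rw [if_neg (fun h' => h (Prod.mk.inj h').1.symm)]

variable (σ)

/-- **the package of `σ` independent copies** -/
def qp2Pow : QcPack (qcPow σ B) where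
  I := σ → pk.I
  fI := inferInstance
  dI := inferInstance
  deg := fun i => ∑ s, pk.deg (i s)
  U := fun a => qp2Site a.1 (pk.U a.2)
  V := fun a c => qp2PowV pk a c
  hU := by
    intro a i' i h
    rw [qp2_site_apply] at h
    split_ifs at h with h1
    · have h2 := pk.hU _ _ _ h
      have h3 := qp2_deg_site pk.deg a.1 i' i h1
      omega
    · exact absurd rfl h
  hV := by
    intro a c i' i h
    unfold qp2PowV at h
    split_ifs at h with h0
    · rw [qp2_site_apply] at h
      split_ifs at h with h1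
      · have h2 := pk.hV _ _ _ _ h
        have h3 := qp2_deg_site pk.deg a.1 i' i h1
        omega
      · exact absurd rfl h
    · exact absurd rfl h
  p1 := qp2_pow_p1 pk
  p2 := qp2_pow_p2 pk
  p3 := qp2_pow_p3 pk
  p4 := qp2_pow_p4 pk
  p5 := by
    intro j
    rw [Fintype.card_prod]
    exact qp2_pow_card pk.deg _ pk.p5 j

end pow

/-! ## 3. change of the index type -/

section re

variable {ι ι' : Type} [Fintype ι] [DecidableEq ι] [Fintype ι'] [DecidableEq ι']

theorem qp2_sum_re (e : ι ≃ ι') {A : Type} [AddCommMonoid A] (g : ι → ι → A) :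
    ∑ a', ∑ b', g (e.symm a') (e.symm b') = ∑ a, ∑ b, g a b := by
  rw [← e.symm.sum_comp (fun a => ∑ b, g a b)]
  exact Finset.sum_congr rfl fun a' _ => e.symm.sum_comp (fun b => g (e.symm a') b)

/-- **change of the index type** -/
def QcPack.reindex (e : ι ≃ ι') {B : ι → Matrix ι ι F} (pk : QcPack B) : QcPack (qcRe e B) where
  I := pk.I
  fI := pk.fI
  dI := pk.dI
  deg := pk.deg
  U := fun a => pk.U (e.symm a)
  V := fun a c => pk.V (e.symm a) (e.symm c)
  hU := fun a => pk.hU _
  hV := fun a c => pk.hV _ _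
  p1 := fun a b => pk.p1 _ _
  p2 := fun c => (qp2_sum_re e (fun a b => B (e.symm c) a b • (pk.U a * pk.U b))).trans (pk.p2 _)
  p3 := fun a b c => pk.p3 _ _ _
  p4 := fun c c' => by
    refine (qp2_sum_re e (fun a b => B (e.symm c') a b •
      (pk.U a * pk.V b (e.symm c) + pk.V a (e.symm c) * pk.U b))).trans ((pk.p4 _ _).trans ?_)
    by_cases h : c = c'
    · subst h; rw [if_pos rfl, if_pos rfl]
    · rw [if_neg h, if_neg (fun h' => h (e.symm.injective h'))]
  p5 := fun j => by
    rw [← Fintype.card_congr e]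
    exact pk.p5 j

end re

/-! ## 4. one more variable with the quadric `ζ²` -/

section opt

open Kronecker

variable {κ : Type} [Fintype κ] [DecidableEq κ]

/-- multiplication by `ζ` on `F[ζ]/(ζ²)` -/
def qp2N : Matrix Bool Bool F := fun b' b => if b' = true ∧ b = false then 1 else 0

/-- the coefficient of `ζ²` in `ζ ·` -/
def qp2E : Matrix Bool Bool F := fun b' b => if b' = false ∧ b = true then 1 else 0

theorem qp2_NN : (qp2N : Matrix Bool Bool F) * qp2N = 0 := by
  ext b' b
  cases b' <;> cases b <;> simp [Matrix.mul_apply, qp2N]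

theorem qp2_NE : (qp2N : Matrix Bool Bool F) * qp2E + qp2E * qp2N = 1 := by
  ext b' b
  cases b' <;> cases b <;> simp [Matrix.mul_apply, qp2N, qp2E]

section kron

variable {I : Type} [Fintype I] [DecidableEq I]

/-- `M ⊗ 1` -/
def qp2L (M : Matrix I I F) : Matrix (I × Bool) (I × Bool) F := M ⊗ₖ (1 : Matrix Bool Bool F)

variable (I) in
/-- `1 ⊗ T` -/
def qp2R (T : Matrix Bool Bool F) : Matrix (I × Bool) (I × Bool) F := (1 : Matrix I I F) ⊗ₖ T

theorem qp2_L_mul (M M' : Matrix I I F) : qp2L M * qp2L M' = qp2L (M * M') := by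
  unfold qp2L
  rw [← Matrix.mul_kronecker_mul, one_mul]

theorem qp2_R_mul (T T' : Matrix Bool Bool F) : qp2R I T * qp2R I T' = qp2R I (T * T') := by
  unfold qp2R
  rw [← Matrix.mul_kronecker_mul, one_mul]

theorem qp2_LR (M : Matrix I I F) (T : Matrix Bool Bool F) : qp2L M * qp2R I T = qp2R I T * qp2L M := by
  unfold qp2L qp2R
  rw [← Matrix.mul_kronecker_mul, ← Matrix.mul_kronecker_mul, mul_one, one_mul, mul_one, one_mul]

theorem qp2_L_add (M M' : Matrix I I F) : qp2L (M + M') = qp2L M + qp2L M' := Matrix.add_kronecker _ _ _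

theorem qp2_L_smul (c : F) (M : Matrix I I F) : qp2L (c • M) = c • qp2L M := Matrix.smul_kronecker _ _ _

theorem qp2_L_zero : qp2L (0 : Matrix I I F) = 0 := Matrix.zero_kronecker _

theorem qp2_L_one : qp2L (1 : Matrix I I F) = 1 := Matrix.one_kronecker_one

theorem qp2_L_sum {α : Type} (T : Finset α) (M : α → Matrix I I F) :
    qp2L (∑ x ∈ T, M x) = ∑ x ∈ T, qp2L (M x) := by
  classical
  induction T using Finset.induction_on with
  | empty => simp [qp2_L_zero]
  | insert a T ha ih => rw [Finset.sum_insert ha, Finset.sum_insert ha, qp2_L_add, ih]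

theorem qp2_R_add (T T' : Matrix Bool Bool F) : qp2R I (T + T') = qp2R I T + qp2R I T' := Matrix.kronecker_add _ _ _

theorem qp2_R_zero : qp2R I (0 : Matrix Bool Bool F) = 0 := Matrix.kronecker_zero _

theorem qp2_R_one : qp2R I (1 : Matrix Bool Bool F) = 1 := Matrix.one_kronecker_one

end kron

theorem qp2_sum_opt_some {B : κ → Matrix κ κ F} {A : Type} [AddCommMonoid A] [Module F A] (k : κ)
    (X : Option κ → Option κ → A) :
    ∑ a, ∑ b, qcOpt B (some k) a b • X a b = ∑ a, ∑ b, B k a b • X (some a) (some b) := by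
  simp only [Fintype.sum_option, qcOpt, zero_smul, Finset.sum_const_zero, zero_add]

theorem qp2_sum_opt_none {B : κ → Matrix κ κ F} {A : Type} [AddCommMonoid A] [Module F A]
    (X : Option κ → Option κ → A) :
    ∑ a, ∑ b, qcOpt B none a b • X a b = X none none := by
  simp only [Fintype.sum_option, qcOpt, zero_smul, Finset.sum_const_zero, add_zero, one_smul]

variable {B : κ → Matrix κ κ F} (pk : QcPack B)

/-- the operators `U` of `R[ζ]/(ζ²)` -/
def qp2OptU : Option κ → Matrix (pk.I × Bool) (pk.I × Bool) F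
  | some a => qp2L (pk.U a)
  | none => qp2R pk.I qp2N

/-- the operators `V` of `R[ζ]/(ζ²)` -/
def qp2OptV : Option κ → Option κ → Matrix (pk.I × Bool) (pk.I × Bool) F
  | some a, some c => qp2L (pk.V a c)
  | none, none => qp2R pk.I qp2E
  | some _, none => 0
  | none, some _ => 0

theorem qp2_opt_p1 (a b : Option κ) : qp2OptU pk a * qp2OptU pk b = qp2OptU pk b * qp2OptU pk a := by
  cases a <;> cases b <;> simp only [qp2OptU]
  · exact (qp2_LR _ _).symm
  · exact qp2_LR _ _
  · rw [qp2_L_mul, qp2_L_mul, pk.p1]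

theorem qp2_opt_p2 (c : Option κ) : ∑ a, ∑ b, qcOpt B c a b • (qp2OptU pk a * qp2OptU pk b) = 0 := by
  cases c with
  | none =>
    rw [qp2_sum_opt_none (fun a b => qp2OptU pk a * qp2OptU pk b)]
    simp only [qp2OptU]
    rw [qp2_R_mul, qp2_NN, qp2_R_zero]
  | some k =>
    rw [qp2_sum_opt_some k (fun a b => qp2OptU pk a * qp2OptU pk b)]
    simp only [qp2OptU, qp2_L_mul, ← qp2_L_smul, ← qp2_L_sum]
    rw [pk.p2, qp2_L_zero]

theorem qp2_opt_p3 (a b c : Option κ) :
    qp2OptU pk a * qp2OptV pk b c + qp2OptV pk a c * qp2OptU pk b =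
      qp2OptU pk b * qp2OptV pk a c + qp2OptV pk b c * qp2OptU pk a := by
  cases a <;> cases b <;> cases c <;>
    simp only [qp2OptU, qp2OptV, mul_zero, zero_mul, add_zero, zero_add]
  · exact (qp2_LR _ _).symm
  · exact (qp2_LR _ _).symm
  · exact qp2_LR _ _
  · exact qp2_LR _ _
  · rw [qp2_L_mul, qp2_L_mul, qp2_L_mul, qp2_L_mul, ← qp2_L_add, ← qp2_L_add, pk.p3]

theorem qp2_opt_p4 (c c' : Option κ) :
    ∑ a, ∑ b, qcOpt B c' a b • (qp2OptU pk a * qp2OptV pk b c + qp2OptV pk a c * qp2OptU pk b) =
      if c = c' then 1 else 0 := by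
  cases c' with
  | none =>
    rw [qp2_sum_opt_none (fun a b => qp2OptU pk a * qp2OptV pk b c + qp2OptV pk a c * qp2OptU pk b)]
    cases c with
    | none =>
      simp only [qp2OptU, qp2OptV]
      rw [qp2_R_mul, qp2_R_mul, ← qp2_R_add, qp2_NE, qp2_R_one]
      simp
    | some c =>
      simp only [qp2OptU, qp2OptV, mul_zero, zero_mul, add_zero]
      rw [if_neg (by simp)]
  | some k =>
    rw [qp2_sum_opt_some k (fun a b => qp2OptU pk a * qp2OptV pk b c + qp2OptV pk a c * qp2OptU pk b)]
    cases c with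
    | none =>
      simp only [qp2OptU, qp2OptV, mul_zero, zero_mul, add_zero, smul_zero, Finset.sum_const_zero]
      rw [if_neg (by simp)]
    | some c =>
      simp only [qp2OptU, qp2OptV, qp2_L_mul, ← qp2_L_add, ← qp2_L_smul, ← qp2_L_sum]
      rw [pk.p4]
      by_cases h : c = k
      · subst h; rw [if_pos rfl, if_pos rfl, qp2_L_one]
      · rw [if_neg h, if_neg (fun h' => h (Option.some.inj h')), qp2_L_zero]

theorem qp2_opt_card {I : Type} [Fintype I] [DecidableEq I] (deg : I → ℕ) (N : ℕ)
    (h : ∀ j, (Finset.univ.filter fun i => deg i = j).card = N.choose j) (j : ℕ) :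
    (Finset.univ.filter fun p : I × Bool => deg p.1 + (if p.2 then 1 else 0) = j).card = (N + 1).choose j := by
  have h1 : (∑ x : I, (Polynomial.X : Polynomial ℕ) ^ deg x) = (Polynomial.X + 1) ^ N := by
    ext j
    rw [qp2_coeff_gen, h, Polynomial.coeff_X_add_one_pow]
    simp
  have h2 : (∑ p : I × Bool, (Polynomial.X : Polynomial ℕ) ^ (deg p.1 + (if p.2 then 1 else 0))) =
      (Polynomial.X + 1) ^ (N + 1) := by
    rw [Fintype.sum_prod_type, pow_succ, ← h1, Finset.sum_mul]
    refine Finset.sum_congr rfl fun i _ => ?_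
    rw [Fintype.sum_bool]
    simp only [if_true, Bool.false_eq_true, if_false, add_zero]
    ring
  rw [← qp2_coeff_gen, h2, Polynomial.coeff_X_add_one_pow]
  simp

/-- **the package of `R[ζ]/(ζ²)`** -/
def qp2Opt : QcPack (qcOpt B) where
  I := pk.I × Bool
  fI := inferInstance
  dI := inferInstance
  deg := fun p => pk.deg p.1 + (if p.2 then 1 else 0)
  U := qp2OptU pk
  V := qp2OptV pk
  hU := by
    rintro a ⟨i', b'⟩ ⟨i, b⟩ h
    cases a with
    | none =>
      simp only [qp2OptU, qp2R, Matrix.kroneckerMap_apply, qp2N, Matrix.one_apply] at h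
      by_cases h1 : i' = i
      · by_cases h2 : b' = true ∧ b = false
        · obtain ⟨rfl, rfl⟩ := h2
          subst h1
          simp
        · rw [if_neg h2, mul_zero] at h
          exact absurd rfl h
      · rw [if_neg h1, zero_mul] at h
        exact absurd rfl h
    | some a =>
      simp only [qp2OptU, qp2L, Matrix.kroneckerMap_apply, Matrix.one_apply] at h
      by_cases h2 : b' = b
      · subst h2
        have h3 := pk.hU a i' i (left_ne_zero_of_mul h)
        show pk.deg i' + (if b' = true then 1 else 0) = pk.deg i + (if b' = true then 1 else 0) + 1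
        omega
      · rw [if_neg h2, mul_zero] at h
        exact absurd rfl h
  hV := by
    rintro a c ⟨i', b'⟩ ⟨i, b⟩ h
    cases a with
    | none =>
      cases c with
      | none =>
        simp only [qp2OptV, qp2R, Matrix.kroneckerMap_apply, qp2E, Matrix.one_apply] at h
        by_cases h1 : i' = i
        · by_cases h2 : b' = false ∧ b = true
          · obtain ⟨rfl, rfl⟩ := h2
            subst h1
            simp
          · rw [if_neg h2, mul_zero] at h
            exact absurd rfl h
        · rw [if_neg h1, zero_mul] at h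
          exact absurd rfl h
      | some c => exact absurd rfl h
    | some a =>
      cases c with
      | none => exact absurd rfl h
      | some c =>
        simp only [qp2OptV, qp2L, Matrix.kroneckerMap_apply, Matrix.one_apply] at h
        by_cases h2 : b' = b
        · subst h2
          have h3 := pk.hV a c i' i (left_ne_zero_of_mul h)
          show pk.deg i' + (if b' = true then 1 else 0) + 1 = pk.deg i + (if b' = true then 1 else 0)
          omega
        · rw [if_neg h2, mul_zero] at h
          exact absurd rfl h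
  p1 := qp2_opt_p1 pk
  p2 := qp2_opt_p2 pk
  p3 := qp2_opt_p3 pk
  p4 := qp2_opt_p4 pk
  p5 := by
    intro j
    rw [Fintype.card_option]
    exact qp2_opt_card pk.deg _ pk.p5 j

end opt

/-! ## 5. the big system -/

/-- **EXIT of P2**: the package of the big system from the package of `f` -/
def qp2Big {n : ℕ} {f : Fin n → MvPolynomial (Fin n) F} (pk : QcPack (qcB f)) : QcPack (qcBig f) :=
  qp2Pow (Fin n) (qp2Opt pk)

/-- the equation lemmas of the definitions of this file are generated HERE (RULES.md, rule 6) -/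
theorem qp2_eqns_cite : True := by
  have := @qp2Site.eq_1
  have := @qp2PowV.eq_1
  have := @qp2Pow.eq_1
  have := @QcPack.reindex.eq_1
  have := @qp2N.eq_1
  have := @qp2E.eq_1
  have := @qp2L.eq_1
  have := @qp2R.eq_1
  have := @qp2OptU.eq_1
  have := @qp2OptV.eq_1
  have := @qp2Opt.eq_1
  have := @qp2Big.eq_1
  trivial

end Claimed.Agent.R278
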