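-- KEEP
import Claimed.Agent.R278.QuadDefs
import Claimed.Agent.R278.QuadP2
import Claimed.Agent.R278.HilbReg256

/-!
# Row 278, C4-Q, cluster P, part 1: a regular sequence of `n` quadrics in `n` variables has a commutative package      (head helper216, prefix `qp1_`)

End theorems: `qp1_pack : Nonempty (QcPack (qcB f))`, `qc_pack_big : Nonempty (QcPack (qcBig f))` (0 sorry; posts by 38 220 63 297 263 25 74 155 216).
Road: `Qp1NF J` = graded normal forms modulo `J = (f)` (`ν : S → F^I` with kernel `J`, homogeneous lifts `β`), `s = ∑ r_i β_i`, `U_a = ν X_a s`,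
`γ_c (∑ f_c' g_c') = ν g_c` (well defined by quasi-regularity), `V_{a,c} = γ_c (X_a s - s U_a)`.
THE ROW STAYS OPEN: this is a piece of the case `a = (2, …, 2)`, `c = n` only.
-/

set_option autoImplicit false

open MvPolynomial Claims.C0450

noncomputable section

namespace Claimed.Agent.R278

variable {F : Type} [Field F] {n : ℕ}

/-- graded normal forms modulo a homogeneous ideal of finite colength -/
structure Qp1NF (J : Ideal (MvPolynomial (Fin n) F)) where
  I : Type
  fI : Fintype I
  dI : DecidableEq I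
  deg : I → ℕ
  β : I → MvPolynomial (Fin n) F
  hβ : ∀ i, (β i).IsHomogeneous (deg i)
  ν : MvPolynomial (Fin n) F →ₗ[F] (I → F)
  ker : ∀ x, ν x = 0 ↔ x ∈ J
  νβ : ∀ i, ν (β i) = Pi.single i 1
  gr : ∀ d x, x.IsHomogeneous d → ∀ i, ν x i ≠ 0 → deg i = d
  card : ∀ j, (Finset.univ.filter fun i => deg i = j).card + Module.finrank F (degPart J j) =
    Module.finrank F (homogeneousSubmodule (Fin n) F j)

attribute [instance] Qp1NF.fI Qp1NF.dI

-- BEGIN POST A
/-- the component map to `S_d` -/
def qp1a_hc (F : Type) [Field F] (n d : ℕ) :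
    MvPolynomial (Fin n) F →ₗ[F] homogeneousSubmodule (Fin n) F d :=
  LinearMap.codRestrict _ (homogeneousComponent d) (fun x => homogeneousComponent_isHomogeneous d x)

/-- `J ∩ S_d` inside `S_d` -/
def qp1a_K (J : Ideal (MvPolynomial (Fin n) F)) (d : ℕ) : Submodule F (homogeneousSubmodule (Fin n) F d) :=
  (degPart J d).comap (homogeneousSubmodule (Fin n) F d).subtype

/-- `Q_d = S_d / (J ∩ S_d)` -/
abbrev qp1a_Q (J : Ideal (MvPolynomial (Fin n) F)) (d : ℕ) : Type :=
  (homogeneousSubmodule (Fin n) F d) ⧸ qp1a_K J d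

theorem qp1a_finQ (J : Ideal (MvPolynomial (Fin n) F)) (d : ℕ) : Module.Finite F (qp1a_Q J d) := by
  haveI := r278h_finite_homog (F := F) (n := n) d
  infer_instance

/-- the projection `S → Q_d` -/
def qp1a_pi (J : Ideal (MvPolynomial (Fin n) F)) (d : ℕ) : MvPolynomial (Fin n) F →ₗ[F] qp1a_Q J d :=
  (qp1a_K J d).mkQ ∘ₗ qp1a_hc F n d

theorem qp1a_pi_eq_zero (J : Ideal (MvPolynomial (Fin n) F)) (d : ℕ) (x : MvPolynomial (Fin n) F) :
    qp1a_pi J d x = 0 ↔ homogeneousComponent d x ∈ J := by
  unfold qp1a_pi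
  rw [LinearMap.comp_apply, Submodule.mkQ_apply, Submodule.Quotient.mk_eq_zero]
  unfold qp1a_K
  rw [Submodule.mem_comap, r278h_mem_degPart]
  constructor
  · intro h; exact h.1
  · intro h; exact ⟨h, homogeneousComponent_isHomogeneous d x⟩

/-- a basis of `Q_d` -/
def qp1a_b (J : Ideal (MvPolynomial (Fin n) F)) (d : ℕ) :
    Module.Basis (Fin (Module.finrank F (qp1a_Q J d))) F (qp1a_Q J d) :=
  haveI := qp1a_finQ J d
  Module.finBasis F _

/-- lifts of the basis -/
def qp1a_lift (J : Ideal (MvPolynomial (Fin n) F)) (d : ℕ) (k : Fin (Module.finrank F (qp1a_Q J d))) :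
    homogeneousSubmodule (Fin n) F d :=
  Classical.choose ((qp1a_K J d).mkQ_surjective (qp1a_b J d k))

theorem qp1a_lift_spec (J : Ideal (MvPolynomial (Fin n) F)) (d : ℕ) (k : Fin (Module.finrank F (qp1a_Q J d))) :
    (qp1a_K J d).mkQ (qp1a_lift J d k) = qp1a_b J d k :=
  Classical.choose_spec ((qp1a_K J d).mkQ_surjective (qp1a_b J d k))

theorem qp1a_hc_self (d : ℕ) (y : homogeneousSubmodule (Fin n) F d) : qp1a_hc F n d (y : MvPolynomial (Fin n) F) = y := by
  apply Subtype.ext
  show homogeneousComponent d (y : MvPolynomial (Fin n) F) = y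
  rw [homogeneousComponent_of_mem y.2, if_pos rfl]

theorem qp1a_pi_of_ne (J : Ideal (MvPolynomial (Fin n) F)) {d e : ℕ} (h : d ≠ e) {x : MvPolynomial (Fin n) F}
    (hx : x.IsHomogeneous e) : qp1a_pi J d x = 0 := by
  rw [qp1a_pi_eq_zero, homogeneousComponent_of_mem hx, if_neg h]
  exact J.zero_mem

theorem qp1a_finrank (J : Ideal (MvPolynomial (Fin n) F)) (d : ℕ) :
    Module.finrank F (qp1a_Q J d) + Module.finrank F (degPart J d) =
      Module.finrank F (homogeneousSubmodule (Fin n) F d) := by
  haveI := r278h_finite_homog (F := F) (n := n) d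
  rw [← Submodule.finrank_quotient_add_finrank (qp1a_K J d)]
  congr 1
  exact (Submodule.comapSubtypeEquivOfLe (p := degPart J d) (q := homogeneousSubmodule (Fin n) F d)
    inf_le_right).finrank_eq.symm

/-- POST A.  `I := Σ d : Fin (D + 1), Fin (finrank Q_d)`, `Q_d := S_d ⧸ (J ∩ S_d)` (a quotient of the submodule `homogeneousSubmodule d`), `b_d` a basis of
`Q_d` (`Module.finBasis`), `β ⟨d, k⟩` a lift of `b_d k`, `ν x ⟨d, k⟩ := b_d.repr (mk (homogeneousComponent d x)) k`.  `gr`, `νβ`: components.
`ker`: `x = ∑ components`, `hJ`, `hD`.  `card`: `Submodule.finrank_quotient_add_finrank`; for `j > D` both sides agree as `degPart J j = S_j`. -/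
theorem qp1_nf {J : Ideal (MvPolynomial (Fin n) F)} (hJ : IsHomogeneousIdeal J) (D : ℕ)
    (hD : ∀ d, D < d → ∀ x : MvPolynomial (Fin n) F, x.IsHomogeneous d → x ∈ J) : Nonempty (Qp1NF J) := by
  classical
  refine ⟨{
    I := Σ d : Fin (D + 1), Fin (Module.finrank F (qp1a_Q J d))
    fI := inferInstance
    dI := inferInstance
    deg := fun i => i.1
    β := fun i => (qp1a_lift J i.1 i.2 : MvPolynomial (Fin n) F)
    hβ := fun i => (qp1a_lift J i.1 i.2).2
    ν := LinearMap.pi fun i => (qp1a_b J i.1).coord i.2 ∘ₗ qp1a_pi J i.1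
    ker := ?_
    νβ := ?_
    gr := ?_
    card := ?_ }⟩
  · intro x
    constructor
    · intro h
      have h1 : ∀ d, homogeneousComponent d x ∈ J := by
        intro d
        by_cases hd : D < d
        · exact hD d hd _ (homogeneousComponent_isHomogeneous d x)
        · rw [← qp1a_pi_eq_zero]
          apply (qp1a_b J d).ext_elem
          intro k
          have := congrFun h ⟨⟨d, by omega⟩, k⟩
          simpa using this
      rw [← sum_homogeneousComponent x]
      exact J.sum_mem fun d _ => h1 d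
    · intro h
      funext i
      have : qp1a_pi J i.1 x = 0 := (qp1a_pi_eq_zero J i.1 x).2 (hJ x h _)
      simp [this]
  · rintro ⟨d, k⟩
    funext ⟨d', k'⟩
    by_cases hdd : d' = d
    · subst hdd
      have : qp1a_pi J d' (qp1a_lift J d' k : MvPolynomial (Fin n) F) = qp1a_b J d' k := by
        unfold qp1a_pi
        rw [LinearMap.comp_apply, qp1a_hc_self, qp1a_lift_spec]
      by_cases hk : k' = k
      · subst hk
        simp [this]
      · have hne : (⟨d', k'⟩ : Σ d : Fin (D + 1), Fin (Module.finrank F (qp1a_Q J d))) ≠ ⟨d', k⟩ := by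
          intro h
          exact hk (eq_of_heq (Sigma.mk.inj h).2)
        simp [this, Pi.single_eq_of_ne hne, Finsupp.single_eq_of_ne hk]
    · have hne : (⟨d', k'⟩ : Σ d : Fin (D + 1), Fin (Module.finrank F (qp1a_Q J d))) ≠ ⟨d, k⟩ := by
        intro h
        exact hdd (Sigma.mk.inj h).1
      have : qp1a_pi J d' (qp1a_lift J d k : MvPolynomial (Fin n) F) = 0 :=
        qp1a_pi_of_ne J (fun h => hdd (Fin.ext h)) (qp1a_lift J d k).2
      simp [this, Pi.single_eq_of_ne hne]
  · intro d x hx i hi
    by_contra hne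
    apply hi
    have : qp1a_pi J i.1 x = 0 := qp1a_pi_of_ne J hne hx
    simp [this]
  · intro j
    by_cases hj : j ≤ D
    · rw [← qp1a_finrank J j]
      congr 1
      have : (Finset.univ.filter fun i : Σ d : Fin (D + 1), Fin (Module.finrank F (qp1a_Q J d)) => (i.1 : ℕ) = j) =
          Finset.univ.map (Function.Embedding.sigmaMk (β := fun d : Fin (D + 1) => Fin (Module.finrank F (qp1a_Q J d)))
            ⟨j, by omega⟩) := by
        ext ⟨d, k⟩
        simp only [Finset.mem_filter, Finset.mem_univ, true_and, Finset.mem_map,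
          Function.Embedding.sigmaMk_apply]
        constructor
        · intro h
          subst h
          exact ⟨k, rfl⟩
        · rintro ⟨k', hk'⟩
          rw [← (Sigma.mk.inj hk').1]
      rw [this, Finset.card_map, Finset.card_univ, Fintype.card_fin]
    · have h0 : (Finset.univ.filter fun i : Σ d : Fin (D + 1), Fin (Module.finrank F (qp1a_Q J d)) => (i.1 : ℕ) = j) = ∅ := by
        apply Finset.filter_eq_empty_iff.2
        intro i _ h
        have := i.1.2
        omega
      have h1 : degPart J j = homogeneousSubmodule (Fin n) F j := by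
        apply le_antisymm inf_le_right
        intro x hx
        exact r278h_mem_degPart.2 ⟨hD j (by omega) x hx, hx⟩
      rw [h0, h1, Finset.card_empty, zero_add]
-- END POST A

-- BEGIN POST B
/-- abstract form of quasi-regularity: a chain of ideals `I k = (φ 0, …, φ (k-1))` such that `φ k` is regular modulo `I k`. -/
theorem qp1b_abstract {A : Type} [CommRing A] (φ : ℕ → A) (I : ℕ → Ideal A) (J : Ideal A) (N : ℕ)
    (h1 : ∀ k, k < N → ∀ s, φ k * s ∈ I k → s ∈ I k)
    (h2 : ∀ k, k < N → ∀ x ∈ I k, ∃ h : ℕ → A, x = ∑ i ∈ Finset.range k, φ i * h i)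
    (h3 : ∀ k, k < N → ∀ h : ℕ → A, ∑ i ∈ Finset.range k, φ i * h i ∈ I k)
    (h4 : ∀ i, i < N → φ i ∈ J) :
    ∀ k, k ≤ N → ∀ g : ℕ → A, ∑ i ∈ Finset.range k, φ i * g i = 0 → ∀ i, i < k → g i ∈ J := by
  intro k
  induction k with
  | zero => intro _ g _ i hi; exact absurd hi (Nat.not_lt_zero i)
  | succ k ih =>
    intro hk g hg i hi
    have hkN : k < N := hk
    rw [Finset.sum_range_succ] at hg
    have hmem : φ k * g k ∈ I k := by
      have e : φ k * g k = ∑ i ∈ Finset.range k, φ i * (-g i) := by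
        simp only [mul_neg, Finset.sum_neg_distrib]
        linear_combination hg
      rw [e]
      exact h3 k hkN _
    obtain ⟨h, hh⟩ := h2 k hkN _ (h1 k hkN _ hmem)
    have hgk : g k ∈ J := by
      rw [hh]
      exact Ideal.sum_mem _ fun j hj =>
        Ideal.mul_mem_right _ _ (h4 j ((Finset.mem_range.1 hj).trans hkN))
    have hsum : ∑ j ∈ Finset.range k, φ j * (g j + φ k * h j) = 0 := by
      have e : ∑ j ∈ Finset.range k, φ j * (g j + φ k * h j) =
          ∑ j ∈ Finset.range k, φ j * g j + φ k * ∑ j ∈ Finset.range k, φ j * h j := by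
        rw [Finset.mul_sum, ← Finset.sum_add_distrib]
        exact Finset.sum_congr rfl fun j _ => by ring
      rw [e, ← hh]
      exact hg
    rcases Nat.lt_succ_iff_lt_or_eq.1 hi with hi' | rfl
    · have h5 := ih hkN.le _ hsum i hi'
      have h6 : φ k * h i ∈ J := Ideal.mul_mem_right _ _ (h4 k hkN)
      have e : g i = (g i + φ k * h i) - φ k * h i := by ring
      rw [e]
      exact J.sub_mem h5 h6
    · exact hgk

/-- POST B.  quasi-regularity (first syzygies are Koszul): induction on the length `k` of the prefix, with `r278h_regular_extract`: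
`∑_{c < k+1} f_c g_c = 0 ⇒ g_k ∈ (f_0..f_{k-1})`, `g_k = ∑_{c<k} f_c h_c`, `∑_{c<k} f_c (g_c + f_k h_c) = 0`. -/
theorem qp1_quasi (f : Fin n → MvPolynomial (Fin n) F)
    (hreg : RingTheory.Sequence.IsRegular (MvPolynomial (Fin n) F) (List.ofFn f))
    (g : Fin n → MvPolynomial (Fin n) F) (h : ∑ c, f c * g c = 0) (c : Fin n) :
    g c ∈ Ideal.span (Set.range f) := by
  classical
  set φ : ℕ → MvPolynomial (Fin n) F := fun i => if hi : i < n then f ⟨i, hi⟩ else 0 with hφ
  set γ : ℕ → MvPolynomial (Fin n) F := fun i => if hi : i < n then g ⟨i, hi⟩ else 0 with hγ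
  have hφi : ∀ (i : ℕ) (hi : i < n), φ i = f ⟨i, hi⟩ := fun i hi => by simp [hφ, hi]
  have hγi : ∀ (i : ℕ) (hi : i < n), γ i = g ⟨i, hi⟩ := fun i hi => by simp [hγ, hi]
  have hlen : (List.ofFn f).length = n := by simp
  have hget : ∀ (i : ℕ) (hi : i < (List.ofFn f).length), (List.ofFn f)[i] = φ i := by
    intro i hi
    rw [List.getElem_ofFn, hφi i (hlen ▸ hi)]
  have key := qp1b_abstract φ (fun k => Ideal.ofList ((List.ofFn f).take k)) (Ideal.span (Set.range f)) n
    (fun k hk s hs => by
      have := (r278h_regular_extract hreg k (hlen.symm ▸ hk)).1 s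
      rw [hget] at this
      exact this hs)
    (fun k hk x hx => by
      unfold Ideal.ofList at hx
      induction hx using Submodule.span_induction with
      | mem x hx =>
        obtain ⟨i, hi, rfl⟩ := List.mem_take_iff_getElem.1 hx
        have hik : i < k := lt_of_lt_of_le hi (min_le_left _ _)
        refine ⟨fun j => if j = i then 1 else 0, ?_⟩
        rw [hget]
        simp [Finset.sum_ite_eq', hik]
      | zero => exact ⟨0, by simp⟩
      | add x y _ _ hx hy =>
        obtain ⟨a, rfl⟩ := hx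
        obtain ⟨b, rfl⟩ := hy
        exact ⟨a + b, by simp [mul_add, Finset.sum_add_distrib]⟩
      | smul r x _ hx =>
        obtain ⟨a, rfl⟩ := hx
        refine ⟨fun j => r * a j, ?_⟩
        rw [smul_eq_mul, Finset.mul_sum]
        exact Finset.sum_congr rfl fun j _ => by ring)
    (fun k hk a => by
      refine Ideal.sum_mem _ fun j hj => Ideal.mul_mem_right _ _ (Ideal.subset_span ?_)
      have hjk : j < k := Finset.mem_range.1 hj
      exact List.mem_take_iff_getElem.2 ⟨j, lt_min hjk (hlen.symm ▸ hjk.trans hk), hget j _⟩)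
    (fun i hi => by
      rw [hφi i hi]
      exact Ideal.subset_span ⟨_, rfl⟩)
    n le_rfl γ
    (by
      rw [Finset.sum_range]
      rw [← h]
      exact Finset.sum_congr rfl fun c _ => by rw [hφi c c.2, hγi c c.2])
    c c.2
  rw [hγi c c.2] at key
  exact key
-- END POST B

-- BEGIN POST C
/-- POST C.  `Φ g = ∑ f_c g_c`, `ker Φ ≤ ker (ν ∘ proj c)` by `hq`; factor through the range of `Φ` and extend to `S` (`LinearMap.exists_extend`). -/
theorem qp1_gamma (f : Fin n → MvPolynomial (Fin n) F) (N : Qp1NF (Ideal.span (Set.range f)))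
    (hq : ∀ g : Fin n → MvPolynomial (Fin n) F, ∑ c, f c * g c = 0 → ∀ c, g c ∈ Ideal.span (Set.range f)) :
    ∃ γ : Fin n → MvPolynomial (Fin n) F →ₗ[F] (N.I → F),
      ∀ (g : Fin n → MvPolynomial (Fin n) F) (c : Fin n), γ c (∑ c', f c' * g c') = N.ν (g c) := by
  classical
  set Φ : (Fin n → MvPolynomial (Fin n) F) →ₗ[F] MvPolynomial (Fin n) F :=
    ∑ c, (LinearMap.mulLeft F (f c)) ∘ₗ (LinearMap.proj c) with hΦ
  have hΦa : ∀ g, Φ g = ∑ c, f c * g c := by
    intro g
    simp [hΦ, LinearMap.sum_apply]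
  obtain ⟨ρ, hρ⟩ := LinearMap.exists_rightInverse_of_surjective Φ.rangeRestrict
    (LinearMap.range_rangeRestrict Φ)
  have hρ' : ∀ y : LinearMap.range Φ, Φ (ρ y) = y := fun y => by
    have := congrArg (fun L => ((L y : LinearMap.range Φ) : MvPolynomial (Fin n) F)) hρ
    simpa using this
  choose γ hγ using fun c : Fin n => LinearMap.exists_extend ((N.ν ∘ₗ LinearMap.proj c) ∘ₗ ρ)
  refine ⟨γ, fun g c => ?_⟩
  rw [← hΦa]
  have h1 : γ c (Φ g) = (N.ν ∘ₗ LinearMap.proj c) (ρ (Φ.rangeRestrict g)) := by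
    have := congrArg (fun L => L (Φ.rangeRestrict g)) (hγ c)
    simpa using this
  rw [h1]
  have h2 : ∑ c', f c' * (g - ρ (Φ.rangeRestrict g)) c' = 0 := by
    rw [← hΦa, map_sub, hρ']
    simp
  have h4 := (N.ker _).2 (hq _ h2 c)
  rw [Pi.sub_apply, map_sub, sub_eq_zero] at h4
  exact h4.symm
-- END POST C

-- BEGIN POST D
/-- POST D.  homogeneous coefficients (`r278h_homogComp_mul`, `Ideal.mem_span_range_iff_exists_fun`). -/
theorem qp1_coeff (f : Fin n → MvPolynomial (Fin n) F) (hf : ∀ k, (f k).IsHomogeneous 2)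
    {y : MvPolynomial (Fin n) F} (hy : y ∈ Ideal.span (Set.range f)) {d : ℕ} (hd : y.IsHomogeneous (d + 2)) :
    ∃ g : Fin n → MvPolynomial (Fin n) F, y = ∑ c, f c * g c ∧ ∀ c, (g c).IsHomogeneous d := by
  obtain ⟨c, hc⟩ := Ideal.mem_span_range_iff_exists_fun.1 hy
  refine ⟨fun k => homogeneousComponent d (c k), ?_,
    fun k => homogeneousComponent_isHomogeneous d (c k)⟩
  have h1 : homogeneousComponent (d + 2) y = y := by
    rw [homogeneousComponent_of_mem hd, if_pos rfl]
  calc y = homogeneousComponent (d + 2) y := h1.symm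
    _ = homogeneousComponent (d + 2) (∑ k, c k * f k) := by rw [hc]
    _ = ∑ k, homogeneousComponent (d + 2) (f k * c k) := by
        rw [map_sum]
        exact Finset.sum_congr rfl fun k _ => by rw [mul_comm]
    _ = ∑ k, f k * homogeneousComponent d (c k) := by
        refine Finset.sum_congr rfl fun k _ => ?_
        rw [r278h_homogComp_mul (hf k), if_pos (by omega), Nat.add_sub_cancel]

theorem qp1_coeff_lt (f : Fin n → MvPolynomial (Fin n) F) (hf : ∀ k, (f k).IsHomogeneous 2)
    {y : MvPolynomial (Fin n) F} (hy : y ∈ Ideal.span (Set.range f)) {d : ℕ} (hd : y.IsHomogeneous d) (h2 : d < 2) :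
    y = 0 := by
  obtain ⟨c, hc⟩ := Ideal.mem_span_range_iff_exists_fun.1 hy
  have h1 : homogeneousComponent d y = y := by
    rw [homogeneousComponent_of_mem hd, if_pos rfl]
  calc y = homogeneousComponent d y := h1.symm
    _ = homogeneousComponent d (∑ k, c k * f k) := by rw [hc]
    _ = ∑ k, homogeneousComponent d (f k * c k) := by
        rw [map_sum]
        exact Finset.sum_congr rfl fun k _ => by rw [mul_comm]
    _ = 0 := by
        refine Finset.sum_eq_zero fun k _ => ?_
        rw [r278h_homogComp_mul (hf k), if_neg (by omega)]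
-- END POST D

-- BEGIN POST E
theorem qp1e_single_add_iff (a' b' a b : Fin n) :
    (Finsupp.single a' 1 + Finsupp.single b' 1 : Fin n →₀ ℕ) = Finsupp.single a 1 + Finsupp.single b 1 ↔
      (a' = a ∧ b' = b) ∨ (a' = b ∧ b' = a) := by
  constructor
  · intro h
    have h1 : (Finsupp.single a 1 + Finsupp.single b 1 : Fin n →₀ ℕ) a' ≠ 0 := by
      rw [← h]
      simp
    have h2 : a' = a ∨ a' = b := by
      by_contra hcon
      push Not at hcon
      apply h1
      simp [hcon.1.symm, hcon.2.symm]
    rcases h2 with rfl | rfl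
    · left
      exact ⟨rfl, Finsupp.single_left_injective one_ne_zero (add_left_cancel h)⟩
    · right
      rw [add_comm (Finsupp.single a 1)] at h
      exact ⟨rfl, Finsupp.single_left_injective one_ne_zero (add_left_cancel h)⟩
  · rintro (⟨rfl, rfl⟩ | ⟨rfl, rfl⟩)
    · rfl
    · exact add_comm _ _

theorem qp1e_deg_two (m : Fin n →₀ ℕ) (hm : m.degree = 2) :
    ∃ a b, m = Finsupp.single a 1 + Finsupp.single b 1 := by
  have h1 : Multiset.card (Finsupp.toMultiset m) = 2 := by
    rw [Finsupp.card_toMultiset, ← hm, Finsupp.degree_eq_sum, Finsupp.sum_fintype _ _ (fun _ => rfl)]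
    rfl
  obtain ⟨a, b, hab⟩ := Multiset.card_eq_two.1 h1
  refine ⟨a, b, ?_⟩
  have h2 : Multiset.toFinsupp (Finsupp.toMultiset m) = m := Finsupp.toMultiset_toFinsupp m
  rw [← h2, hab, Multiset.insert_eq_cons, ← Multiset.singleton_add, map_add,
    Multiset.toFinsupp_singleton, Multiset.toFinsupp_singleton]

/-- POST E.  a quadric is the quadric of its symmetric matrix (compare coefficients; `char ≠ 2`). -/
theorem qp1_qcq [CharZero F] (f : Fin n → MvPolynomial (Fin n) F) (k : Fin n) (hf : (f k).IsHomogeneous 2) :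
    qcq (qcB f) k = f k := by
  ext m
  have hmon : ∀ (r : F) (a b : Fin n),
      C r * X a * X b = monomial (Finsupp.single a 1 + Finsupp.single b 1) r := by
    intro r a b
    rw [X, X, C_mul_monomial, monomial_mul]
    simp
  unfold qcq
  simp only [hmon, coeff_sum, coeff_monomial]
  by_cases hm : m.degree = 2
  · obtain ⟨a, b, rfl⟩ := qp1e_deg_two m hm
    simp only [qp1e_single_add_iff]
    by_cases hab : a = b
    · subst hab
      rw [Finset.sum_eq_single a, Finset.sum_eq_single a]
      · simp [qcB, ← Finsupp.single_add]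
      · intro b _ hb
        simp [hb]
      · intro h
        exact absurd (Finset.mem_univ a) h
      · intro a' _ ha'
        refine Finset.sum_eq_zero fun b' _ => ?_
        simp [ha']
      · intro h
        exact absurd (Finset.mem_univ a) h
    · have hsplit : ∀ a' b' : Fin n,
          (if (a' = a ∧ b' = b) ∨ (a' = b ∧ b' = a) then qcB f k a' b' else 0)
            = (if a' = a then (if b' = b then qcB f k a b else 0) else 0)
              + (if a' = b then (if b' = a then qcB f k b a else 0) else 0) := by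
        intro a' b'
        by_cases h1 : a' = a
        · subst h1
          by_cases h2 : b' = b
          · subst h2
            simp [hab]
          · simp [h2, hab]
        · by_cases h3 : a' = b
          · subst h3
            by_cases h4 : b' = a
            · subst h4
              simp [h1]
            · simp [h1, h4]
          · simp [h1, h3]
      have hs : ∀ (a b : Fin n) (c : F),
          ∑ x : Fin n, ∑ y : Fin n, (if x = a then (if y = b then c else 0) else 0) = c := by
        intro a b c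
        rw [Finset.sum_eq_single a]
        · simp
        · intro x _ hx
          simp [hx]
        · intro h
          exact absurd (Finset.mem_univ a) h
      simp only [hsplit, Finset.sum_add_distrib, hs]
      have hba : b ≠ a := fun h => hab h.symm
      simp only [qcB, if_neg hab, if_neg hba, add_comm (Finsupp.single b 1) (Finsupp.single a 1)]
      ring
  · rw [hf.coeff_eq_zero hm]
    refine Finset.sum_eq_zero fun a _ => Finset.sum_eq_zero fun b _ => ?_
    rw [if_neg]
    rintro rfl
    apply hm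
    simp [map_add, Finsupp.degree_single]
-- END POST E

-- BEGIN POST G
/-- POST G.  `r278h_finrank_degPart_regular` with `c = n`, `a = 2`: for `d > n` every exponent vector of degree `d` has an entry `≥ 2` (pigeonhole), so
`finrank (degPart J d) = finrank S_d` (`r278h_finrank_homog`), so `degPart J d = S_d` (`Submodule.eq_of_le_of_finrank_eq`). -/
theorem qp1_top (f : Fin n → MvPolynomial (Fin n) F) (hf : ∀ k, (f k).IsHomogeneous 2)
    (hreg : RingTheory.Sequence.IsRegular (MvPolynomial (Fin n) F) (List.ofFn f))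
    (d : ℕ) (hd : n < d) (x : MvPolynomial (Fin n) F) (hx : x.IsHomogeneous d) : x ∈ Ideal.span (Set.range f) := by
  have h1 := r278h_finrank_degPart_regular (F := F) (le_refl n) (fun _ => 2) f
    (fun i => (mem_homogeneousSubmodule _ _).2 (hf i)) hreg d
  have h2 : ((Finset.Nat.antidiagonalTuple n d).filter fun m => inPowers (le_refl n) (fun _ => 2) m = true) =
      Finset.Nat.antidiagonalTuple n d := by
    refine Finset.filter_true_of_mem fun m hm => ?_
    rw [Finset.Nat.mem_antidiagonalTuple] at hm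
    simp only [inPowers, decide_eq_true_eq]
    by_contra hcon
    push Not at hcon
    have h3 : ∑ i, m i ≤ ∑ _i : Fin n, 1 := Finset.sum_le_sum fun i _ => by
      have h6 := hcon i
      have h7 : Fin.castLE (le_refl n) i = i := rfl
      rw [h7] at h6
      omega
    simp only [Finset.sum_const, Finset.card_univ, Fintype.card_fin, smul_eq_mul, mul_one] at h3
    omega
  rw [h2, ← r278h_finrank_homog (F := F)] at h1
  have := r278h_finite_homog (F := F) (n := n) d
  have h4 : degPart (Ideal.span (Set.range f)) d = homogeneousSubmodule (Fin n) F d :=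
    Submodule.eq_of_le_of_finrank_eq inf_le_right h1
  have h5 : x ∈ degPart (Ideal.span (Set.range f)) d := by
    rw [h4]
    exact (mem_homogeneousSubmodule _ _).2 hx
  exact (r278h_mem_degPart.1 h5).1
-- END POST G

-- BEGIN POST H
/-- the exponent vectors of degree `j` with all entries `≤ 1` are the indicator functions of the `j`-subsets -/
theorem qp1h_card (n j : ℕ) :
    ((Finset.Nat.antidiagonalTuple n j).filter fun m => inPowers (le_refl n) (fun _ => 2) m = false).card = n.choose j := by
  classical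
  have h0 : (Finset.powersetCard j (Finset.univ : Finset (Fin n))).card = n.choose j := by
    rw [Finset.card_powersetCard, Finset.card_univ, Fintype.card_fin]
  rw [← h0]
  symm
  apply Finset.card_bij (fun s _ => fun i => if i ∈ s then 1 else 0)
  · intro s hs
    rw [Finset.mem_powersetCard] at hs
    rw [Finset.mem_filter, Finset.Nat.mem_antidiagonalTuple]
    refine ⟨?_, ?_⟩
    · rw [Finset.sum_ite_mem, Finset.univ_inter, Finset.sum_const, hs.2]
      simp
    · unfold inPowers
      rw [decide_eq_false_iff_not]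
      rintro ⟨i, hi⟩
      simp only at hi
      split_ifs at hi <;> omega
  · intro s hs s' hs' h
    ext i
    have := congrFun h i
    by_cases h1 : i ∈ s <;> by_cases h2 : i ∈ s' <;> simp_all
  · intro m hm
    rw [Finset.mem_filter, Finset.Nat.mem_antidiagonalTuple] at hm
    obtain ⟨hsum, hp⟩ := hm
    have hle : ∀ i, m i ≤ 1 := by
      intro i
      by_contra hcon
      unfold inPowers at hp
      rw [decide_eq_false_iff_not] at hp
      exact hp ⟨i, by
        have : m (Fin.castLE (le_refl n) i) = m i := rfl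
        show 2 ≤ m (Fin.castLE (le_refl n) i)
        omega⟩
    refine ⟨Finset.univ.filter fun i => m i = 1, ?_, ?_⟩
    · rw [Finset.mem_powersetCard]
      refine ⟨Finset.subset_univ _, ?_⟩
      rw [← hsum, Finset.card_filter]
      apply Finset.sum_congr rfl
      intro i _
      have := hle i
      split_ifs <;> omega
    · funext i
      have := hle i
      simp only [Finset.mem_filter, Finset.mem_univ, true_and]
      split_ifs <;> omega

/-- POST H.  `r278h_finrank_degPart_regular`, `r278h_finrank_homog`; the exponent vectors of degree `j` with all entries `≤ 1` are the indicator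
functions of the `j`-subsets (`Finset.card_powersetCard`). -/
theorem qp1_count (f : Fin n → MvPolynomial (Fin n) F) (hf : ∀ k, (f k).IsHomogeneous 2)
    (hreg : RingTheory.Sequence.IsRegular (MvPolynomial (Fin n) F) (List.ofFn f)) (j : ℕ) :
    n.choose j + Module.finrank F (degPart (Ideal.span (Set.range f)) j) =
      Module.finrank F (homogeneousSubmodule (Fin n) F j) := by
  have h1 := r278h_finrank_degPart_regular (le_refl n) (fun _ => 2) f
    (fun i => (mem_homogeneousSubmodule _ _).2 (hf i)) hreg j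
  rw [h1, r278h_finrank_homog, ← qp1h_card n j, add_comm]
  have h2 := Finset.card_filter_add_card_filter_not (s := Finset.Nat.antidiagonalTuple n j)
    (fun m => inPowers (le_refl n) (fun _ => 2) m = true)
  simpa using h2
-- END POST H

theorem qp1_homogeneous (f : Fin n → MvPolynomial (Fin n) F) (hf : ∀ k, (f k).IsHomogeneous 2)
    (hreg : RingTheory.Sequence.IsRegular (MvPolynomial (Fin n) F) (List.ofFn f)) :
    IsHomogeneousIdeal (Ideal.span (Set.range f)) := by
  have h := (r278h_induction le_rfl (fun _ => 2) f hf hreg n le_rfl).1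
  have h1 : (List.ofFn f).take n = List.ofFn f := List.take_of_length_le (by simp)
  have h2 : Ideal.ofList (List.ofFn f) = Ideal.span (Set.range f) := by
    unfold Ideal.ofList
    congr 1
    ext r
    simp [List.mem_ofFn]
  rwa [h1, h2] at h

namespace Qp1NF

variable {J : Ideal (MvPolynomial (Fin n) F)} (N : Qp1NF J)

/-- the graded section -/
def s : (N.I → F) →ₗ[F] MvPolynomial (Fin n) F := Fintype.linearCombination F N.β

/-- multiplication by `x` on `R = S / J`, in coordinates -/
def mu (x : MvPolynomial (Fin n) F) : (N.I → F) →ₗ[F] (N.I → F) := N.ν ∘ₗ LinearMap.mulLeft F x ∘ₗ N.s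

/-- the defect of the section: `x s(r) - s(x r) ∈ J` -/
def df (x : MvPolynomial (Fin n) F) : (N.I → F) →ₗ[F] MvPolynomial (Fin n) F :=
  LinearMap.mulLeft F x ∘ₗ N.s - N.s ∘ₗ N.mu x

-- BEGIN POST K
/-- POST K (five small facts). -/
theorem ν_s (r : N.I → F) : N.ν (N.s r) = r := by
  unfold s
  rw [Fintype.linearCombination_apply, map_sum]
  simp only [map_smul, N.νβ]
  funext j
  simp [Finset.sum_apply, Pi.single_apply]

theorem sub_mem (x : MvPolynomial (Fin n) F) : x - N.s (N.ν x) ∈ J :=
  (N.ker _).1 (by rw [map_sub, ν_s, sub_self])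

theorem ν_mul (x z : MvPolynomial (Fin n) F) : N.ν (x * N.s (N.ν z)) = N.ν (x * z) := by
  have h : x * z - x * N.s (N.ν z) ∈ J := by
    rw [← mul_sub]
    exact J.mul_mem_left _ (N.sub_mem z)
  have h2 := (N.ker _).2 h
  rw [map_sub, sub_eq_zero] at h2
  exact h2.symm

theorem s_ν_homog {x : MvPolynomial (Fin n) F} {d : ℕ} (hx : x.IsHomogeneous d) : (N.s (N.ν x)).IsHomogeneous d := by
  unfold s
  rw [Fintype.linearCombination_apply]
  show _ ∈ homogeneousSubmodule (Fin n) F d
  refine Submodule.sum_mem _ fun i _ => ?_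
  by_cases h : N.ν x i = 0
  · rw [h, zero_smul]
    exact Submodule.zero_mem _
  · refine Submodule.smul_mem _ _ ?_
    have := N.hβ i
    rwa [N.gr d x hx i h] at this

theorem df_mem (x : MvPolynomial (Fin n) F) (r : N.I → F) : N.df x r ∈ J :=
  N.sub_mem (x * N.s r)

theorem mu_mul (x y : MvPolynomial (Fin n) F) : N.mu x ∘ₗ N.mu y = N.mu (x * y) := by
  refine LinearMap.ext fun r => ?_
  show N.ν (x * N.s (N.ν (y * N.s r))) = N.ν (x * y * N.s r)
  rw [ν_mul, mul_assoc]

theorem mu_of_mem {x : MvPolynomial (Fin n) F} (hx : x ∈ J) : N.mu x = 0 := by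
  refine LinearMap.ext fun r => ?_
  show N.ν (x * N.s r) = 0
  exact (N.ker _).2 (J.mul_mem_right _ hx)

theorem mu_add (x y : MvPolynomial (Fin n) F) : N.mu (x + y) = N.mu x + N.mu y := by
  refine LinearMap.ext fun r => ?_
  show N.ν ((x + y) * N.s r) = N.ν (x * N.s r) + N.ν (y * N.s r)
  rw [add_mul, map_add]

theorem mu_C_mul (t : F) (x : MvPolynomial (Fin n) F) : N.mu (C t * x) = t • N.mu x := by
  refine LinearMap.ext fun r => ?_
  show N.ν (C t * x * N.s r) = t • N.ν (x * N.s r)
  rw [mul_assoc, ← smul_eq_C_mul, map_smul]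

theorem df_add (x y : MvPolynomial (Fin n) F) : N.df (x + y) = N.df x + N.df y := by
  refine LinearMap.ext fun r => ?_
  show (x + y) * N.s r - N.s (N.mu (x + y) r) = (x * N.s r - N.s (N.mu x r)) + (y * N.s r - N.s (N.mu y r))
  rw [mu_add, LinearMap.add_apply, map_add]
  ring

theorem df_C_mul (t : F) (x : MvPolynomial (Fin n) F) : N.df (C t * x) = t • N.df x := by
  refine LinearMap.ext fun r => ?_
  show C t * x * N.s r - N.s (N.mu (C t * x) r) = t • (x * N.s r - N.s (N.mu x r))
  rw [mu_C_mul, LinearMap.smul_apply, map_smul, smul_sub, mul_assoc, ← smul_eq_C_mul]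
-- END POST K

end Qp1NF

section Gamma

variable (f : Fin n → MvPolynomial (Fin n) F) (N : Qp1NF (Ideal.span (Set.range f)))
  (γ : Fin n → MvPolynomial (Fin n) F →ₗ[F] (N.I → F))
  (hγ : ∀ (g : Fin n → MvPolynomial (Fin n) F) (c : Fin n), γ c (∑ c', f c' * g c') = N.ν (g c))

-- BEGIN POST L
/-- POST L.  `y = ∑ f g`, `x y = ∑ f (x g)`, `ν (x g_c) = ν (x s (ν g_c))` (`Qp1NF.ν_mul`). -/
theorem qp1_gamma_mul (hγ : ∀ (g : Fin n → MvPolynomial (Fin n) F) (c : Fin n), γ c (∑ c', f c' * g c') = N.ν (g c))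
    (c : Fin n) (x : MvPolynomial (Fin n) F) {y : MvPolynomial (Fin n) F}
    (hy : y ∈ Ideal.span (Set.range f)) : γ c (x * y) = N.mu x (γ c y) := by
  obtain ⟨g, rfl⟩ := (Ideal.mem_span_range_iff_exists_fun).1 hy
  have h1 : (∑ i, g i * f i) = ∑ c', f c' * g c' := Finset.sum_congr rfl fun i _ => mul_comm _ _
  have h2 : x * (∑ c', f c' * g c') = ∑ c', f c' * (x * g c') := by
    rw [Finset.mul_sum]
    exact Finset.sum_congr rfl fun i _ => by ring
  rw [h1, h2, hγ, hγ]
  show _ = N.ν (x * N.s (N.ν (g c)))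
  rw [N.ν_mul]

/-- the cocycle identity: `x · V_y + V_x · y = V_{xy}`, `V_x := γ_c ∘ df x`. -/
theorem qp1_cocycle (hγ : ∀ (g : Fin n → MvPolynomial (Fin n) F) (c : Fin n), γ c (∑ c', f c' * g c') = N.ν (g c))
    (c : Fin n) (x y : MvPolynomial (Fin n) F) :
    N.mu x ∘ₗ (γ c ∘ₗ N.df y) + (γ c ∘ₗ N.df x) ∘ₗ N.mu y = γ c ∘ₗ N.df (x * y) := by
  refine LinearMap.ext fun r => ?_
  show N.mu x (γ c (N.df y r)) + γ c (N.df x (N.mu y r)) = γ c (N.df (x * y) r)
  rw [← qp1_gamma_mul f N γ hγ c x (N.df_mem y r), ← map_add]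
  congr 1
  have h1 : N.mu x (N.mu y r) = N.mu (x * y) r := by
    rw [← N.mu_mul x y]
    rfl
  show x * (y * N.s r - N.s (N.mu y r)) + (x * N.s (N.mu y r) - N.s (N.mu x (N.mu y r))) =
    x * y * N.s r - N.s (N.mu (x * y) r)
  rw [h1]
  ring

/-- `V_{f_c'} = δ_{c c'}`. -/
theorem qp1_gamma_f (hγ : ∀ (g : Fin n → MvPolynomial (Fin n) F) (c : Fin n), γ c (∑ c', f c' * g c') = N.ν (g c))
    (c c' : Fin n) : γ c ∘ₗ N.df (f c') = if c = c' then LinearMap.id else 0 := by
  refine LinearMap.ext fun r => ?_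
  have hmem : f c' ∈ Ideal.span (Set.range f) := Ideal.subset_span ⟨c', rfl⟩
  have h1 : N.df (f c') r = ∑ c'', f c'' * (if c'' = c' then N.s r else 0) := by
    show f c' * N.s r - N.s (N.mu (f c') r) = _
    rw [N.mu_of_mem hmem, LinearMap.zero_apply, map_zero, sub_zero]
    simp
  show γ c (N.df (f c') r) = _
  rw [h1, hγ]
  by_cases h : c = c'
  · rw [if_pos h, if_pos h, N.ν_s]
    rfl
  · rw [if_neg h, if_neg h, map_zero]
    rfl
-- END POST L

-- BEGIN POST M
theorem qp1m_s_single (i : N.I) : N.s (Pi.single i 1) = N.β i := by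
  unfold Qp1NF.s
  rw [Fintype.linearCombination_apply_single, one_smul]

theorem qp1m_homog (a : Fin n) (i : N.I) : (X a * N.β i : MvPolynomial (Fin n) F).IsHomogeneous (N.deg i + 1) := by
  have h := (isHomogeneous_X F a).mul (N.hβ i)
  rwa [add_comm] at h

/-- POST M.  degrees.  `ν (X_a β_i)`: `Qp1NF.gr`. -/
theorem qp1_deg_mu (a : Fin n) (i i' : N.I) (h : N.mu (X a) (Pi.single i 1) i' ≠ 0) : N.deg i' = N.deg i + 1 := by
  have e : N.mu (X a) (Pi.single i 1) = N.ν (X a * N.β i) := by
    show N.ν (X a * N.s (Pi.single i 1)) = _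
    rw [qp1m_s_single]
  rw [e] at h
  exact N.gr _ _ (qp1m_homog f N a i) i' h

/-- `y = X_a β_i - s (ν (X_a β_i))` is homogeneous of degree `deg i + 1` and lies in `J`: `qp1_coeff`, `qp1_coeff_lt`, `hγ`, `Qp1NF.gr`. -/
theorem qp1_deg_df (hf : ∀ k, (f k).IsHomogeneous 2)
    (hγ : ∀ (g : Fin n → MvPolynomial (Fin n) F) (c : Fin n), γ c (∑ c', f c' * g c') = N.ν (g c))
    (a c : Fin n) (i i' : N.I) (h : γ c (N.df (X a) (Pi.single i 1)) i' ≠ 0) : N.deg i' + 1 = N.deg i := by
  have e : N.df (X a) (Pi.single i 1) = X a * N.β i - N.s (N.ν (X a * N.β i)) := by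
    show X a * N.s (Pi.single i 1) - N.s (N.ν (X a * N.s (Pi.single i 1))) = _
    rw [qp1m_s_single]
  have hmem := N.df_mem (X a) (Pi.single i 1)
  have hhom : (N.df (X a) (Pi.single i 1)).IsHomogeneous (N.deg i + 1) := by
    rw [e]
    exact (homogeneousSubmodule (Fin n) F (N.deg i + 1)).sub_mem (qp1m_homog f N a i)
      (N.s_ν_homog (qp1m_homog f N a i))
  rcases Nat.eq_zero_or_pos (N.deg i) with h0 | h0
  · exfalso
    apply h
    rw [qp1_coeff_lt f hf hmem hhom (by omega), map_zero]
    rfl
  · obtain ⟨d, hd⟩ : ∃ d, N.deg i = d + 1 := ⟨N.deg i - 1, by omega⟩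
    rw [hd] at hhom
    obtain ⟨g, hg, hgd⟩ := qp1_coeff f hf hmem (d := d) hhom
    rw [hg, hγ] at h
    rw [N.gr d (g c) (hgd c) i' h, hd]
-- END POST M

end Gamma

/-! ### The assembly (pen 216) -/

namespace Qp1NF

variable {J : Ideal (MvPolynomial (Fin n) F)} (N : Qp1NF J)

theorem mu_zero : N.mu 0 = 0 := N.mu_of_mem J.zero_mem

theorem df_zero : N.df 0 = 0 := by
  have h := N.df_C_mul 0 0
  simpa using h

theorem mu_sum {κ : Type} (t : Finset κ) (g : κ → MvPolynomial (Fin n) F) :
    N.mu (∑ k ∈ t, g k) = ∑ k ∈ t, N.mu (g k) := by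
  classical
  induction t using Finset.induction_on with
  | empty => simpa using N.mu_zero
  | insert a t ha ih => rw [Finset.sum_insert ha, Finset.sum_insert ha, mu_add, ih]

theorem df_sum {κ : Type} (t : Finset κ) (g : κ → MvPolynomial (Fin n) F) :
    N.df (∑ k ∈ t, g k) = ∑ k ∈ t, N.df (g k) := by
  classical
  induction t using Finset.induction_on with
  | empty => simpa using N.df_zero
  | insert a t ha ih => rw [Finset.sum_insert ha, Finset.sum_insert ha, df_add, ih]

theorem mu_qcq (B : Fin n → Matrix (Fin n) (Fin n) F) (c : Fin n) :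
    N.mu (qcq B c) = ∑ a, ∑ b, B c a b • N.mu (X a * X b) := by
  unfold qcq
  rw [mu_sum]
  refine Finset.sum_congr rfl fun a _ => ?_
  rw [mu_sum]
  refine Finset.sum_congr rfl fun b _ => ?_
  rw [mul_assoc, mu_C_mul]

theorem df_qcq (B : Fin n → Matrix (Fin n) (Fin n) F) (c : Fin n) :
    N.df (qcq B c) = ∑ a, ∑ b, B c a b • N.df (X a * X b) := by
  unfold qcq
  rw [df_sum]
  refine Finset.sum_congr rfl fun a _ => ?_
  rw [df_sum]
  refine Finset.sum_congr rfl fun b _ => ?_
  rw [mul_assoc, df_C_mul]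

end Qp1NF

theorem qp1_toMatrix_apply {I : Type} [Fintype I] [DecidableEq I] (φ : (I → F) →ₗ[F] (I → F)) (i' i : I) :
    LinearMap.toMatrix' φ i' i = φ (Pi.single i 1) i' := by
  rw [LinearMap.toMatrix'_apply]

/-- **END THEOREM OF P1.** -/
theorem qp1_pack [CharZero F] (f : Fin n → MvPolynomial (Fin n) F) (hf : ∀ k, (f k).IsHomogeneous 2)
    (hreg : RingTheory.Sequence.IsRegular (MvPolynomial (Fin n) F) (List.ofFn f)) : Nonempty (QcPack (qcB f)) := by
  obtain ⟨N⟩ := qp1_nf (qp1_homogeneous f hf hreg) n (qp1_top f hf hreg)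
  obtain ⟨γ, hγ⟩ := qp1_gamma f N (qp1_quasi f hreg)
  have hW : ∀ a b c, LinearMap.toMatrix' (N.mu (X a)) * LinearMap.toMatrix' (γ c ∘ₗ N.df (X b)) +
      LinearMap.toMatrix' (γ c ∘ₗ N.df (X a)) * LinearMap.toMatrix' (N.mu (X b)) =
      LinearMap.toMatrix' (γ c ∘ₗ N.df (X a * X b)) := by
    intro a b c
    rw [← LinearMap.toMatrix'_comp, ← LinearMap.toMatrix'_comp, ← map_add, qp1_cocycle f N γ hγ]
  refine ⟨{ I := N.I, fI := N.fI, dI := N.dI, deg := N.deg
            U := fun a => LinearMap.toMatrix' (N.mu (X a))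
            V := fun a c => LinearMap.toMatrix' (γ c ∘ₗ N.df (X a))
            hU := ?_, hV := ?_, p1 := ?_, p2 := ?_, p3 := ?_, p4 := ?_, p5 := ?_ }⟩
  · intro a i' i h
    rw [qp1_toMatrix_apply] at h
    exact qp1_deg_mu f N a i i' h
  · intro a c i' i h
    rw [qp1_toMatrix_apply] at h
    exact qp1_deg_df f N γ hf hγ a c i i' h
  · intro a b
    rw [← LinearMap.toMatrix'_comp, ← LinearMap.toMatrix'_comp, N.mu_mul, N.mu_mul, mul_comm]
  · intro c
    have h1 : N.mu (qcq (qcB f) c) = 0 := by
      rw [qp1_qcq f c (hf c)]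
      exact N.mu_of_mem (Ideal.subset_span ⟨c, rfl⟩)
    rw [N.mu_qcq] at h1
    have h2 := congrArg LinearMap.toMatrix' h1
    simp only [map_sum, map_smul, map_zero] at h2
    rw [← h2]
    refine Finset.sum_congr rfl fun a _ => Finset.sum_congr rfl fun b _ => ?_
    rw [← LinearMap.toMatrix'_comp, N.mu_mul]
  · intro a b c
    rw [hW, hW, mul_comm]
  · intro c c'
    have h1 : γ c ∘ₗ N.df (qcq (qcB f) c') = if c = c' then LinearMap.id else 0 := by
      rw [qp1_qcq f c' (hf c')]
      exact qp1_gamma_f f N γ hγ c c'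
    rw [N.df_qcq] at h1
    have h0 : γ c ∘ₗ (∑ a, ∑ b, qcB f c' a b • N.df (X a * X b)) =
        ∑ a, ∑ b, qcB f c' a b • (γ c ∘ₗ N.df (X a * X b)) :=
      LinearMap.ext fun r => by
        simp only [LinearMap.comp_apply, LinearMap.sum_apply, LinearMap.smul_apply, map_sum, map_smul]
    rw [h0] at h1
    have h2 := congrArg LinearMap.toMatrix' h1
    simp only [map_sum, map_smul] at h2
    have h3 : LinearMap.toMatrix' (if c = c' then (LinearMap.id : (N.I → F) →ₗ[F] (N.I → F)) else 0) =
        if c = c' then 1 else 0 := by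
      split_ifs
      · exact LinearMap.toMatrix'_id
      · exact map_zero _
    rw [h3] at h2
    rw [← h2]
    refine Finset.sum_congr rfl fun a _ => Finset.sum_congr rfl fun b _ => ?_
    rw [hW]
  · intro j
    have h1 := N.card j
    have h2 := qp1_count f hf hreg j
    rw [Fintype.card_fin]
    omega

/-- **END THEOREM OF CLUSTER P**: the big system (`n` sites, each with `f_1(ξ), …, f_n(ξ), ζ²`) has a commutative package. -/
theorem qc_pack_big [CharZero F] (f : Fin n → MvPolynomial (Fin n) F) (hf : ∀ k, (f k).IsHomogeneous 2)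
    (hreg : RingTheory.Sequence.IsRegular (MvPolynomial (Fin n) F) (List.ofFn f)) : Nonempty (QcPack (qcBig f)) :=
  (qp1_pack f hf hreg).map qp2Big

end Claimed.Agent.R278
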