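-- KEEP
import Claimed.Agent.R278.QuadBox
import Claimed.Agent.R278.QuadP1
import Claimed.Agent.R278.QuadP2
import Claimed.Agent.R278.Hub

/-!
# Row 278, C4-Q: THE QUADRIC CASE `a = (2, …, 2)` OF THE ROW, EVERY `1 ≤ c ≤ n`, CHARACTERISTIC ZERO.   THE ROW STAYS OPEN (`a_i ≥ 3`).
`R278/QuadHub` = the last assemblies      (pen helper269, prefixes `qc`, `qm`)

NO OPEN CONTRACT in this file or in the 11 files `R278/Quad*` below it; every theorem named here has the three standard axioms only.

* `qc_box` : a regular sequence of `n` quadrics in `n` variables over a field of characteristic zero has a box `Eg2Box`.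
  Assembled from the end theorems of the clusters
  (P) `qp1_pack`, `qp2Big`, `QcPack.reindex`;  (N) `qn_injective` (inside `qd_inj_K`);  (G) `qg_mod`, `qf76_*`;
  (D) `qd_isDomain`, `qd273_cramer`, `qb_rowcomm`, `qb_det_map`, `qb_det_ne`, `qb_box_of_gens`.
* `hub278_S0522_quadrics`, `hub278_S0523_quadrics` : the conclusions of S0522 / S0523 for `c = n`.
* `qm_box` : `c ≤ n` regular quadrics and powers of suitable linear forms have a box for `(2, …, 2, N, …, N)`.
* `hub278_S0522_quadrics_le`, `hub278_S0523_quadrics_le` : **the frozen statements of S0522 and S0523 with the one extra hypothesis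
  `∀ i, a i = 2`** (in place of `2 ≤ a i` and `Monotone a`): EGH and the lex-plus-powers Betti bound for quadrics.

What this is NOT: the row.  For `a_i ≥ 3` the wall `hub278_BOX` (`R278/Hub`, `R278/Wall`) stands; no S-file is written.
-/

set_option autoImplicit false

open MvPolynomial

noncomputable section

namespace Claimed.Agent.R278

/-- the box from a finite dimensional domain with Clifford generators of the big system and a nonzero row determinant -/
theorem qc_box_of_domain {F : Type} [Field F] (h2 : (2 : F) ≠ 0) {n : ℕ} (f : Fin n → MvPolynomial (Fin n) F)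
    (hf : ∀ k, (f k).IsHomogeneous 2)
    (K : Type) [Field K] [Algebra F K] (A : Type) [Ring A] [IsDomain A] [Algebra K A] [FiniteDimensional K A]
    (R : Fin n × Option (Fin n) → A) (Y : Fin n × Option (Fin n) → K)
    (hR : ∀ a b, R a * R b + R b * R a =
      ∑ c, algebraMap K A (Y c) * algebraMap K A (algebraMap F K (qcBig f c a b + qcBig f c b a)))
    (hΔ : ∀ h, qd273_det (fun i j => R (i, none) * R (i, some j)) h ≠ 0) :
    Eg2Box F n (fun _ => 2) (Ideal.span (Set.range f)) := by
  have hanti : ∀ a b : Fin n × Option (Fin n), a.1 ≠ b.1 → R a * R b = -(R b * R a) := by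
    intro a b hab
    have h := hR a b
    have h0 : ∀ c, qcBig f c a b + qcBig f c b a = 0 := by
      intro c
      have h1 : ¬ (a.1 = c.1 ∧ b.1 = c.1) := fun h => hab (h.1.trans h.2.symm)
      have h2 : ¬ (b.1 = c.1 ∧ a.1 = c.1) := fun h => hab (h.2.trans h.1.symm)
      simp [qcBig, qcPow, h1, h2]
    simp only [h0, map_zero, mul_zero, Finset.sum_const_zero] at h
    exact eq_neg_of_add_eq_zero_left h
  have hrc := qb_rowcomm R hanti
  let iD : DivisionRing A := divisionRingOfFiniteDimensional K A
  let iA : Algebra F A := ((algebraMap K A).comp (algebraMap F K)).toAlgebra' (fun c x => Algebra.commutes _ _)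
  obtain ⟨σ, hσ⟩ := qd273_cramer (D := A) _ hrc (hΔ hrc)
  exact qb_box_of_gens h2 f hf A R (fun c => algebraMap K A (Y c)) (fun c x => Algebra.commutes _ _) hR ⟨σ, hσ⟩

/-- **THE BOX FOR QUADRICS.** -/
theorem qc_box (F : Type) [Field F] [CharZero F] (n : ℕ) (hn : 1 ≤ n) (f : Fin n → MvPolynomial (Fin n) F)
    (hf : ∀ i, f i ∈ homogeneousSubmodule (Fin n) F 2)
    (hreg : RingTheory.Sequence.IsRegular (MvPolynomial (Fin n) F) (List.ofFn f)) :
    Eg2Box F n (fun _ => 2) (Ideal.span (Set.range f)) := by
  classical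
  have hf' : ∀ k, (f k).IsHomogeneous 2 := fun k => (mem_homogeneousSubmodule 2 (f k)).1 (hf k)
  obtain ⟨pk0⟩ := qp1_pack f hf' hreg
  obtain ⟨N, ⟨e⟩⟩ : ∃ N : ℕ, Nonempty (Fin n × Option (Fin n) ≃ Fin N) :=
    ⟨Fintype.card (Fin n × Option (Fin n)), ⟨Fintype.equivFin _⟩⟩
  have hN : 0 < N := by
    have : Nonempty (Fin N) := ⟨e (⟨0, by omega⟩, none)⟩
    exact Fin.pos_iff_nonempty.2 this
  have pk : QcPack (qcRe e (qcBig f)) := (qp2Big pk0).reindex e
  set b : Fin N → Fin N → FractionRing (MvPolynomial (Fin N) F) := fun a c =>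
    algebraMap (MvPolynomial (Fin N) F) (FractionRing (MvPolynomial (Fin N) F)) (qcM (qcRe e (qcBig f)) a c) with hb
  have H : ∀ ρ : Module.End (FractionRing (MvPolynomial (Fin N) F)) (Qf76Lam (FractionRing (MvPolynomial (Fin N) F)) N),
      (∀ a, Commute ρ (qf76_L b a)) → ρ ≠ 0 → Function.Injective ρ :=
    fun ρ hρ h0 => qd_inj_K hN (qcRe e (qcBig f)) pk ρ hρ h0
  have hdom := qd_isDomain b H
  refine qc_box_of_domain two_ne_zero f hf' (FractionRing (MvPolynomial (Fin N) F))
    (qdCent (FractionRing (MvPolynomial (Fin N) F)) b)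
    (fun a => ⟨qf76_R b (e a), qd_mem_cent.2 (fun a' => qf76_R_L b _ _)⟩)
    (fun c => algebraMap (MvPolynomial (Fin N) F) _ (X (e c))) ?_ ?_
  · intro a a'
    apply Subtype.ext
    have h1 := qf76_R_R b (e a) (e a')
    have h3 : b (e a) (e a') + b (e a') (e a) = ∑ c, algebraMap (MvPolynomial (Fin N) F) (FractionRing (MvPolynomial (Fin N) F)) (X (e c)) *
        algebraMap F (FractionRing (MvPolynomial (Fin N) F)) (qcBig f c a a' + qcBig f c a' a) := by
      simp only [hb, qcM, map_sum, map_mul, ← Finset.sum_add_distrib]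
      rw [← e.sum_comp]
      refine Finset.sum_congr rfl fun c _ => ?_
      simp only [qcRe, Equiv.symm_apply_apply, IsScalarTower.algebraMap_apply F (MvPolynomial (Fin N) F)
        (FractionRing (MvPolynomial (Fin N) F)), MvPolynomial.algebraMap_eq, map_add, mul_add]
    simp only [← map_mul, ← map_sum, ← h3]
    rw [Algebra.algebraMap_eq_smul_one]
    exact h1
  · intro h hdet
    have h' : Qd273RowComm (fun i j => qf76_R b (e (i, none)) * qf76_R b (e (i, some j))) := by
      intro i i' j j' hne
      have := h i i' j j' hne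
      exact congrArg Subtype.val this.eq
    have h4 := qb_det_map (qdCent (FractionRing (MvPolynomial (Fin N) F)) b).val.toRingHom _ h h'
    rw [hdet, map_zero] at h4
    exact qb_det_ne b e e.injective h' h4.symm

section egh
open Claims.C0450

/-- **EGH for `n` quadrics in `n` variables** (the conclusion of S0522 with `c = n`, `a = (2, …, 2)`), characteristic zero. -/
theorem hub278_S0522_quadrics (F : Type) [Field F] [CharZero F] (n : ℕ) (hn : 1 ≤ n)
    (I : Ideal (MvPolynomial (Fin n) F)) (hI : IsHomogeneousIdeal I)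
    (f : Fin n → MvPolynomial (Fin n) F) (hf : ∀ i, f i ∈ homogeneousSubmodule (Fin n) F 2)
    (hfI : ∀ i, f i ∈ I)
    (hreg : RingTheory.Sequence.IsRegular (MvPolynomial (Fin n) F) (List.ofFn f)) :
    (∀ d : ℕ, 0 ≤ qDim (le_refl n) (fun _ => 2) I d ∧
        qDim (le_refl n) (fun _ => 2) I d ≤ (nonPowerMonomials (le_refl n) (fun _ => 2) d).card) ∧
      (∃ J : Ideal (MvPolynomial (Fin n) F),
        J.restrictScalars F = Submodule.span F (lppMonomials (le_refl n) (fun _ => 2) I)) ∧
      ∀ d : ℕ, Module.finrank F (degPart I d) =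
        Module.finrank F (Submodule.span F (lppMonomials (le_refl n) (fun _ => 2) I) ⊓
          homogeneousSubmodule (Fin n) F d : Submodule F (MvPolynomial (Fin n) F)) :=
  hub278_S0522_of_box F n (fun _ => 2) (fun _ => by norm_num) (fun _ _ _ => le_rfl) I hI
    (hub278_box_mono (Ideal.span_le.2 (by rintro _ ⟨i, rfl⟩; exact hfI i)) (qc_box F n hn f hf hreg))

end egh

section betti
open Claims.C0451

/-- **the lex-plus-powers Betti bound for `n` quadrics in `n` variables**, algebraically closed field of characteristic zero. -/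
theorem hub278_S0523_quadrics (E : Type) [Field E] [CharZero E] [IsAlgClosed E] (n : ℕ) (hn : 1 ≤ n)
    (I : Ideal (MvPolynomial (Fin n) E)) (hI : IsHomogeneousIdeal I)
    (f : Fin n → MvPolynomial (Fin n) E) (hf : ∀ i, f i ∈ homogeneousSubmodule (Fin n) E 2)
    (hfI : ∀ i, f i ∈ I)
    (hreg : RingTheory.Sequence.IsRegular (MvPolynomial (Fin n) E) (List.ofFn f)) :
    ∀ p j : ℕ, gradedBetti I p j ≤ gradedBetti (Ideal.span (lppMonomials (le_refl n) (fun _ => 2) I)) p j :=
  hub278_S0523_of_box E n (fun _ => 2) (fun _ => le_rfl) (fun _ _ _ => le_rfl) I hI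
    (hub278_box_mono (Ideal.span_le.2 (by rintro _ ⟨i, rfl⟩; exact hfI i)) (qc_box E n hn f hf hreg))

end betti

/-! ## C4-Q2 (CLOSED 23:26Z): `c ≤ n` quadrics, every field of characteristic zero

Extend `f_1..f_c` by squares `ℓ_d ²` of linear forms to a regular sequence `g` of `n` quadrics; take the generators `R`, `Y` of `g`;
`t_i = R (i, none) ∑_k R (i, some k) x_k` for `i < c`, `t_d = ℓ_d` for `d ≥ c`:  `t_i ² + z_i ∑_{d ≥ c} y_d ℓ_d t_d ∈ D (f_1..f_c)`,
`t_d ^ N = ℓ_d ^ N`.  So `I + (ℓ_d ^ N)` has a box for `(2, …, 2, N, …, N)`; truncation as in `hub278_coreA_pure`.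
Posts M1 M2a M2b M3 M4 M5 X1 T1 T2 T3 (blocks BEGIN / END): ALL PROVED at 23:26Z (pens 113 44 289 190 61 57 187 and others; merged by 269). -/

/-- the mixed matrix: rows `i < c` of `τ`, rows `d ≥ c` of `z` -/
def qmTau {D : Type} {n : ℕ} (c : ℕ) (τ z : Fin n → Fin n → D) : Fin n → Fin n → D :=
  fun i k => if i.val < c then τ i k else z i k

-- BEGIN M1
/-- POST M1 (proved). -/
theorem qm_rowcomm {D : Type} [Ring D] {n : ℕ} (c : ℕ) (τ z : Fin n → Fin n → D) (h : Qd273RowComm τ)
    (hz : ∀ i k x, Commute (z i k) x) : Qd273RowComm (qmTau c τ z) := by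
  intro i i' j j' hne
  unfold qmTau
  by_cases hi : i.val < c
  · by_cases hi' : i'.val < c
    · rw [if_pos hi, if_pos hi']
      exact h i i' j j' hne
    · rw [if_pos hi, if_neg hi']
      exact (hz i' j' _).symm
  · rw [if_neg hi]
    exact hz i j _
-- END M1

-- BEGIN M2a
/-- POST M2a (proved): `qb_square` with the explicit right side (copy the proof of B1c in `QuadBox`, helpers `qnb1c_*` are there). -/
theorem qm_square_eq {F D : Type} [Field F] [DivisionRing D] [Algebra F D] (h2 : (2 : F) ≠ 0) {n : ℕ}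
    (f : Fin n → MvPolynomial (Fin n) F) (hf : ∀ k, (f k).IsHomogeneous 2)
    (c z : D) (e y : Fin n → D) (hz : ∀ x, Commute z x) (hy : ∀ k x, Commute (y k) x)
    (hc : c * c = z) (hce : ∀ j, c * e j = - (e j * c))
    (hee : ∀ a b, e a * e b + e b * e a = ∑ k, y k * algebraMap F D (qcB f k a b + qcB f k b a)) :
    eg2Lin (fun j => c * e j) ^ 2 = ∑ k, (-z * y k) • eg2Iota F D n (f k) := by
  classical
  have h2D : (2 : D) ≠ 0 := by
    intro h
    apply h2
    apply (algebraMap F D).injective
    rw [map_ofNat, map_zero, h]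
  have hsq : eg2Lin (fun j => c * e j) ^ 2 = (-z) • qnb1cT (fun a b => e a * e b) := by
    rw [← qnb1c_smul, pow_two, eg2Lin, Finset.sum_mul, qnb1cT]
    refine Finset.sum_congr rfl fun a _ => ?_
    rw [Finset.mul_sum]
    refine Finset.sum_congr rfl fun b _ => ?_
    rw [AddMonoidAlgebra.single_mul_single]
    congr 1
    calc c * e a * (c * e b) = c * (e a * c) * e b := by simp only [mul_assoc]
      _ = c * (-(c * e a)) * e b := by rw [hce a, neg_neg]
      _ = -(c * c) * (e a * e b) := by simp only [mul_neg, neg_mul, mul_assoc]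
      _ = -z * (e a * e b) := by rw [hc]
  have hiota : ∀ k, qnb1cT (fun a b => algebraMap F D (qcB f k a b)) = eg2Iota F D n (f k) := by
    intro k
    conv_rhs => rw [qb_quadric h2 f hf k]
    exact (qnb1c_iota (D := D) (qcB f k)).symm
  have h2S : qnb1cT (fun a b => e a * e b) + qnb1cT (fun a b => e a * e b)
      = ∑ k, y k • (eg2Iota F D n (f k) + eg2Iota F D n (f k)) := by
    have h1 : qnb1cT (fun a b => e a * e b) + qnb1cT (fun a b => e a * e b)
        = qnb1cT (fun a b => e a * e b + e b * e a) := by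
      rw [qnb1c_add, qnb1c_swap (fun a b => e a * e b)]
    rw [h1]
    simp only [hee]
    rw [qnb1c_sum]
    refine Finset.sum_congr rfl fun k _ => ?_
    rw [qnb1c_smul]
    congr 1
    simp only [map_add]
    rw [qnb1c_add, qnb1c_swap (fun a b => algebraMap F D (qcB f k a b)), hiota]
  have hS : qnb1cT (fun a b => e a * e b) = ∑ k, y k • eg2Iota F D n (f k) := by
    have h : ∀ T : Eg2N D n, T = (2 : D)⁻¹ • (T + T) := by
      intro T
      rw [← two_smul D T, smul_smul, inv_mul_cancel₀ h2D, one_smul]
    rw [h (qnb1cT (fun a b => e a * e b)), h2S, h (∑ k, y k • eg2Iota F D n (f k))]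
    congr 1
    simp only [smul_add, Finset.sum_add_distrib]
  rw [hsq, hS, Finset.smul_sum]
  refine Finset.sum_congr rfl fun k _ => ?_
  rw [smul_smul]
-- END M2a

-- BEGIN M2b
/-- a linear form with coefficients in `F` -/
theorem qm2b_lin {F : Type} [Field F] (D : Type) [DivisionRing D] [Algebra F D] {n : ℕ} (v : Fin n → F) :
    eg2Lin (fun k => algebraMap F D (v k)) = eg2Iota F D n (∑ k, C (v k) * X k) := by
  unfold eg2Lin eg2Iota
  rw [map_sum]
  refine Finset.sum_congr rfl fun j _ => ?_
  have : (C (v j) * X j : MvPolynomial (Fin n) F) = AddMonoidAlgebra.single (Finsupp.single j 1) (v j) := by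
    rw [X, C_mul_monomial, mul_one]; rfl
  rw [this]
  simp

/-- POST M2b: the abstract mixed box (113). -/
theorem qm_box_of_gens {F : Type} [Field F] (h2 : (2 : F) ≠ 0) {n : ℕ} (g : Fin n → MvPolynomial (Fin n) F)
    (hg : ∀ k, (g k).IsHomogeneous 2) (D : Type) [DivisionRing D] [Algebra F D]
    (R Y : Fin n × Option (Fin n) → D) (hY : ∀ c x, Commute (Y c) x)
    (hR : ∀ a b, R a * R b + R b * R a = ∑ c, Y c * algebraMap F D (qcBig g c a b + qcBig g c b a))
    (c : ℕ) (l : Fin n → Fin n → F) (hl : ∀ d : Fin n, c ≤ d.val → g d = (∑ k, C (l d k) * X k) ^ 2)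
    (hσ : ∃ σ : Fin n → Fin n → D, ∀ i k, ∑ j, σ i j *
      qmTau c (fun i k => R (i, none) * R (i, some k)) (fun i k => algebraMap F D (l i k)) j k = if i = k then 1 else 0)
    (a : Fin n → ℕ) (ha : ∀ i : Fin n, i.val < c → a i = 2)
    (I : Ideal (MvPolynomial (Fin n) F)) (hgI : ∀ i : Fin n, i.val < c → g i ∈ I)
    (hlI : ∀ d : Fin n, c ≤ d.val → (∑ k, C (l d k) * X k) ^ a d ∈ I) :
    Eg2Box F n a I := by
  classical
  obtain ⟨σ, hσ⟩ := hσ
  have h2D : (2 : D) ≠ 0 := by
    have h := (map_ne_zero (algebraMap F D)).2 h2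
    rwa [map_ofNat] at h
  have hanti : ∀ a b : Fin n × Option (Fin n), a.1 ≠ b.1 → R a * R b = - (R b * R a) := by
    intro a b hab
    have h := hR a b
    rw [Finset.sum_eq_zero] at h
    · exact eq_neg_of_add_eq_zero_left h
    · intro c _
      rw [qb1_big_ne g c a b hab, qb1_big_ne g c b a hab.symm]
      simp
  have hsite : ∀ (i : Fin n) (a b : Option (Fin n)),
      R (i, a) * R (i, b) + R (i, b) * R (i, a)
        = Y (i, none) * algebraMap F D (qcOpt (qcB g) none a b + qcOpt (qcB g) none b a)
          + ∑ k, Y (i, some k) * algebraMap F D (qcOpt (qcB g) (some k) a b + qcOpt (qcB g) (some k) b a) := by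
    intro i a b
    rw [hR, qb1_sum_site i]
    · simp only [qb1_big_site, if_true]
    · intro c hc
      rw [qb1_big_site, qb1_big_site, if_neg hc, if_neg hc]
      simp
  have hlow : ∀ i : Fin n, i.val < c →
      qmTau c (fun i k => R (i, none) * R (i, some k)) (fun i k => algebraMap F D (l i k)) i
        = fun k => R (i, none) * R (i, some k) := by
    intro i hi
    funext k
    simp [qmTau, hi]
  have hhigh : ∀ i : Fin n, c ≤ i.val →
      qmTau c (fun i k => R (i, none) * R (i, some k)) (fun i k => algebraMap F D (l i k)) i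
        = fun k => algebraMap F D (l i k) := by
    intro i hi
    funext k
    simp [qmTau, Nat.not_lt.2 hi]
  refine ⟨D, inferInstance, inferInstance, _, σ, hσ,
    qb_comm _ (qm_rowcomm c _ _ (qb_rowcomm R hanti) (fun i k x => Algebra.commutes _ _)), fun i => ?_⟩
  by_cases hi : i.val < c
  · have hsq := qm_square_eq h2 g hg (R (i, none)) (Y (i, none)) (fun j => R (i, some j)) (fun k => Y (i, some k))
      (hY _) (fun k => hY _) ?_ ?_ ?_
    · refine ⟨fun d => if c ≤ d.val then (- Y (i, none) * Y (i, some d)) • eg2Lin (fun k => algebraMap F D (l d k)) else 0,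
        ?_, ?_, ?_⟩
      · intro d hd
        have : ¬ c ≤ d.val := by
          have : d.val ≤ i.val := hd
          omega
        simp [this]
      · intro d
        rw [ha i hi]
        by_cases hd : c ≤ d.val
        · simp only [hd, if_true]
          exact Submodule.smul_mem _ _ (eg2d_lin _)
        · simp only [hd, if_false]
          exact Submodule.zero_mem _
      · rw [ha i hi, hlow i hi, hsq, ← Finset.sum_sub_distrib]
        refine Submodule.sum_mem _ fun d _ => ?_
        by_cases hd : c ≤ d.val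
        · simp only [hd, if_true]
          rw [hhigh d hd, hl d hd, map_pow, ← qm2b_lin, pow_two, smul_mul_assoc, sub_self]
          exact Submodule.zero_mem _
        · simp only [hd, if_false, zero_mul, sub_zero]
          exact Submodule.smul_mem _ _ (Submodule.subset_span ⟨_, hgI d (Nat.not_le.1 hd), rfl⟩)
    · have h := hsite i none none
      simp only [qcOpt] at h
      have h' : (2 : D) * (R (i, none) * R (i, none)) = 2 * Y (i, none) := by
        rw [two_mul, h]
        simp [two_mul, mul_add]
      exact mul_left_cancel₀ h2D h'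
    · intro j
      have h := hsite i none (some j)
      simp only [qcOpt] at h
      refine eq_neg_of_add_eq_zero_left ?_
      rw [h]
      simp
    · intro a b
      have h := hsite i (some a) (some b)
      simp only [qcOpt] at h
      rw [h]
      simp
  · have hi' : c ≤ i.val := Nat.not_lt.1 hi
    refine ⟨0, fun _ _ => rfl, fun d => Submodule.zero_mem _, ?_⟩
    simp only [Pi.zero_apply, zero_mul, Finset.sum_const_zero, sub_zero]
    rw [hhigh i hi', qm2b_lin, ← map_pow]
    exact Submodule.subset_span ⟨_, hlI i hi', rfl⟩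
-- END M2b

-- BEGIN M3
/-- the word of the rows `i < c` -/
def qmM3_l {N n : ℕ} (g : Fin n × Option (Fin n) → Fin N) (c : ℕ) (κ : Fin n → Fin n) : List (Fin N) :=
  ((List.finRange n).filter fun i => decide (i.val < c)).flatMap fun i => [g (i, none), g (i, some (κ i))]

theorem qmM3_mem {N n : ℕ} (g : Fin n × Option (Fin n) → Fin N) (c : ℕ) (κ : Fin n → Fin n) (x : Fin N) :
    x ∈ qmM3_l g c κ ↔ ∃ i : Fin n, i.val < c ∧ (x = g (i, none) ∨ x = g (i, some (κ i))) := by
  simp [qmM3_l, List.mem_flatMap]

theorem qmM3_length {N n : ℕ} (g : Fin n × Option (Fin n) → Fin N) (c : ℕ) (κ κ' : Fin n → Fin n) :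
    (qmM3_l g c κ).length = (qmM3_l g c κ').length := by
  simp [qmM3_l, List.length_flatMap]

theorem qmM3_nodup {N n : ℕ} (g : Fin n × Option (Fin n) → Fin N) (hg : Function.Injective g) (c : ℕ)
    (κ : Fin n → Fin n) : (qmM3_l g c κ).Nodup := by
  unfold qmM3_l
  rw [List.nodup_flatMap]
  refine ⟨fun i _ => ?_, ?_⟩
  · have : g (i, none) ≠ g (i, some (κ i)) := fun he => by
      have := hg he
      simp at this
    simp [this]
  · refine ((List.nodup_finRange n).filter _).imp ?_
    intro i i' hne
    simp only [Function.onFun, List.disjoint_cons_left, List.mem_cons, List.not_mem_nil, or_false, not_or,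
      List.disjoint_nil_left, and_true]
    refine ⟨⟨fun he => ?_, fun he => ?_⟩, ⟨fun he => ?_, fun he => ?_⟩⟩ <;>
    · have := hg he
      simp only [Prod.mk.injEq] at this
      exact hne this.1

theorem qmM3_prod {K : Type} [Field K] {N n : ℕ} (b : Fin N → Fin N → K)
    (g : Fin n × Option (Fin n) → Fin N) (c : ℕ) (l : Fin n → Fin n → K) (κ : Fin n → Fin n) (L : List (Fin n)) :
    (L.map fun i => qmTau c (fun i j => qf76_R b (g (i, none)) * qf76_R b (g (i, some j)))
      (fun i j => algebraMap K (Module.End K (Qf76Lam K N)) (l i j)) i (κ i)).prod =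
    (L.map fun i => if i.val < c then (1 : K) else l i (κ i)).prod •
      (((L.filter fun i => decide (i.val < c)).flatMap fun i => [g (i, none), g (i, some (κ i))]).map
        (qf76_R b)).prod := by
  induction L with
  | nil => simp
  | cons a L ih =>
    rw [List.map_cons, List.prod_cons, ih, List.map_cons, List.prod_cons]
    by_cases ha : a.val < c
    · rw [List.filter_cons_of_pos (by simpa using ha)]
      simp only [qmTau, if_pos ha, one_mul, List.flatMap_cons, List.cons_append, List.nil_append, List.map_cons,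
        List.prod_cons, mul_smul_comm, mul_assoc]
    · rw [List.filter_cons_of_neg (by simpa using ha)]
      simp only [qmTau, if_neg ha, mul_smul, Algebra.algebraMap_eq_smul_one, smul_mul_assoc, one_mul]

/-- POST M3: the row determinant of the mixed matrix is not zero: its value on the vacuum at
`T_κ = {g (i, none), g (i, some (κ i)) : i < c}` is `± det M_κ`, `M_κ` = rows `e_{κ i}` (`i < c`), `l d` (`d ≥ c`)
(adapt the proof of B2b in `QuadBox`; `qb_top`; `Matrix.det_apply`). -/
theorem qm_det_ne {K : Type} [Field K] {N n : ℕ} (b : Fin N → Fin N → K)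
    (g : Fin n × Option (Fin n) → Fin N) (hg : Function.Injective g) (c : ℕ) (l : Fin n → Fin n → K)
    (κ : Fin n → Fin n)
    (hκ : Matrix.det (Matrix.of (qmTau c (fun i k => if k = κ i then (1 : K) else 0) l)) ≠ 0)
    (h : Qd273RowComm (qmTau c (fun i j => qf76_R b (g (i, none)) * qf76_R b (g (i, some j)))
      (fun i j => algebraMap K (Module.End K (Qf76Lam K N)) (l i j)))) :
    qd273_det _ h ≠ 0 := by
  classical
  intro h0
  set T : Finset (Fin N) := (qmM3_l g c κ).toFinset with hT
  have hTcard : T.card = (qmM3_l g c κ).length := by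
    rw [hT, List.toFinset_card_of_nodup (qmM3_nodup g hg c κ)]
  set ε : K := (((qmM3_l g c κ).map (qf76_R b)).prod (Pi.single ∅ 1 : Qf76Lam K N)) T with hε
  have hε1 : ε = 1 ∨ ε = -1 := (qb_top b (qmM3_l g c κ)).2.2 (qmM3_nodup g hg c κ)
  have hM : ∀ κ' : Fin n → Fin n,
      qd273_M _ h Finset.univ κ' =
        ((List.finRange n).map fun i => if i.val < c then (1 : K) else l i (κ' i)).prod •
          ((qmM3_l g c κ').map (qf76_R b)).prod := by
    intro κ'
    rw [qbB2b_M, qmM3_prod]
    rfl
  have hval : ∀ π : Equiv.Perm (Fin n),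
      ((List.finRange n).map fun i => if i.val < c then (1 : K) else l i (π i)).prod *
        (((qmM3_l g c fun i => π i).map (qf76_R b)).prod (Pi.single ∅ 1 : Qf76Lam K N)) T =
      ε * ∏ i, qmTau c (fun i k => if k = κ i then (1 : K) else 0) l i (π i) := by
    intro π
    by_cases hπ : ∀ i : Fin n, i.val < c → π i = κ i
    · have hw : (qmM3_l g c fun i => π i) = qmM3_l g c κ := by
        unfold qmM3_l
        refine List.flatMap_congr ?_
        intro i hi
        have hi' : i.val < c := by simpa using (List.mem_filter.1 hi).2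
        simp only [hπ i hi']
      rw [hw, ← hε, mul_comm, Fin.prod_univ_def]
      congr 2
      refine List.map_congr_left ?_
      intro i _
      unfold qmTau
      by_cases hi : i.val < c
      · simp only [if_pos hi, hπ i hi, if_true]
      · simp only [if_neg hi]
    · push Not at hπ
      obtain ⟨i, hi, hne⟩ := hπ
      rw [(qb_top b (qmM3_l g c fun i => π i)).2.1 T (by rw [hTcard]; exact qmM3_length g c _ _) ?_, mul_zero,
        Finset.prod_eq_zero (Finset.mem_univ i), mul_zero]
      · unfold qmTau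
        simp only [if_pos hi, if_neg hne]
      · intro he
        apply hne
        have hi2 : g (i, some (π i)) ∈ (qmM3_l g c fun i => π i).toFinset := by
          rw [List.mem_toFinset, qmM3_mem]
          exact ⟨i, hi, Or.inr rfl⟩
        rw [← he, hT, List.mem_toFinset, qmM3_mem] at hi2
        obtain ⟨i', _, hi' | hi'⟩ := hi2
        · have := hg hi'
          simp at this
        · have := hg hi'
          simp only [Prod.mk.injEq, Option.some.injEq] at this
          rw [this.2, this.1]
  have h1 := congrArg (fun φ : Module.End K (Qf76Lam K N) => φ (Pi.single ∅ 1 : Qf76Lam K N) T) h0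
  simp only [qd273_det, qd273_detS, LinearMap.sum_apply, LinearMap.smul_apply, Finset.sum_apply, Pi.smul_apply,
    LinearMap.zero_apply, Pi.zero_apply, hM, id, smul_eq_mul, hval] at h1
  apply hκ
  rw [← Matrix.det_transpose, Matrix.det_apply]
  have h2 : ε * ∑ π : Equiv.Perm (Fin n), ((Equiv.Perm.sign π : ℤˣ) : ℤ) •
      ∏ i, qmTau c (fun i k => if k = κ i then (1 : K) else 0) l i (π i) = 0 := by
    rw [Finset.mul_sum]
    refine Eq.trans (Finset.sum_congr rfl fun π _ => ?_) h1
    rw [mul_smul_comm]
  have hε0 : ε ≠ 0 := by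
    rcases hε1 with h | h <;> rw [h] <;> simp
  have h3 := (mul_eq_zero.1 h2).resolve_left hε0
  refine Eq.trans (Finset.sum_congr rfl fun π _ => ?_) h3
  simp [Matrix.transpose_apply, Units.smul_def]
-- END M3

-- BEGIN M4
/-- a family of fewer than `n` vectors of `K ^ n` misses a unit vector -/
theorem qmM4_unit {K : Type} [Field K] {n : ℕ} (c : ℕ) (hc : c < n) (l : Fin n → Fin n → K) :
    ∃ j : Fin n, (Pi.single j (1 : K) : Fin n → K) ∉ Submodule.span K (l '' {d : Fin n | c + 1 ≤ d.val}) := by
  classical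
  by_contra hcon
  push Not at hcon
  have htop : Submodule.span K (l '' {d : Fin n | c + 1 ≤ d.val}) = ⊤ := by
    rw [eq_top_iff, ← (Pi.basisFun K (Fin n)).span_eq, Submodule.span_le]
    rintro _ ⟨j, rfl⟩
    simpa using hcon j
  have h1 : Module.finrank K (Submodule.span K (l '' {d : Fin n | c + 1 ≤ d.val})) = n := by
    rw [htop, finrank_top, Module.finrank_fin_fun]
  have himg : l '' {d : Fin n | c + 1 ≤ d.val} = Set.range (fun d : {d : Fin n // c + 1 ≤ d.val} => l d.1) := by
    ext v
    constructor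
    · rintro ⟨d, hd, rfl⟩
      exact ⟨⟨d, hd⟩, rfl⟩
    · rintro ⟨d, rfl⟩
      exact ⟨d.1, d.2, rfl⟩
  have h2 : Module.finrank K (Submodule.span K (l '' {d : Fin n | c + 1 ≤ d.val})) < n := by
    rw [himg]
    calc _ ≤ Fintype.card {d : Fin n // c + 1 ≤ d.val} := finrank_range_le_card _
      _ < Fintype.card (Fin n) := Fintype.card_subtype_lt (x := (⟨c, hc⟩ : Fin n)) (by simp)
      _ = n := Fintype.card_fin n
  omega

/-- POST M4 (Steinitz): independent rows `l d`, `d ≥ c`, are completed by unit vectors (induction on `c`). -/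
theorem qm_kappa {K : Type} [Field K] {n : ℕ} (c : ℕ) (l : Fin n → Fin n → K)
    (hli : LinearIndependent K (fun d : {d : Fin n // c ≤ d.val} => l d.1)) :
    ∃ κ : Fin n → Fin n, Matrix.det (Matrix.of (qmTau c (fun i k => if k = κ i then (1 : K) else 0) l)) ≠ 0 := by
  classical
  induction c generalizing l with
  | zero =>
    refine ⟨id, ?_⟩
    have h0 : qmTau 0 (fun i k => if k = id i then (1 : K) else 0) l = l := by
      funext i k
      simp [qmTau]
    rw [h0]
    have h1 : LinearIndependent K (Matrix.of l).row := by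
      have := hli.comp (fun d : Fin n => (⟨d, Nat.zero_le _⟩ : {d : Fin n // 0 ≤ d.val}))
        (fun a b h => by simpa using h)
      exact this
    have h2 := Matrix.linearIndependent_rows_iff_isUnit.1 h1
    exact ((Matrix.isUnit_iff_isUnit_det _).1 h2).ne_zero
  | succ c ih =>
    by_cases hc : c < n
    · obtain ⟨j, hj⟩ := qmM4_unit c hc l
      set c0 : Fin n := ⟨c, hc⟩ with hc0
      have hs : {d : Fin n | c ≤ d.val} = insert c0 {d : Fin n | c + 1 ≤ d.val} := by
        ext d
        simp only [Set.mem_ofPred_eq, Set.mem_insert_iff, hc0, Fin.ext_iff]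
        omega
      have hnot : c0 ∉ {d : Fin n | c + 1 ≤ d.val} := by
        simp [hc0]
      have heq : Set.EqOn l (Function.update l c0 (Pi.single j (1 : K))) {d : Fin n | c + 1 ≤ d.val} := by
        intro d hd
        have : d ≠ c0 := fun h => hnot (h ▸ hd)
        simp [Function.update_of_ne this]
      have hli1 : LinearIndepOn K l {d : Fin n | c + 1 ≤ d.val} := hli
      have hli2 : LinearIndepOn K (Function.update l c0 (Pi.single j (1 : K))) {d : Fin n | c ≤ d.val} := by
        rw [hs, linearIndepOn_insert hnot]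
        refine ⟨hli1.congr heq, ?_⟩
        rw [← heq.image_eq, Function.update_self]
        exact hj
      obtain ⟨κ, hκ⟩ := ih (Function.update l c0 (Pi.single j (1 : K))) hli2
      refine ⟨Function.update κ c0 j, ?_⟩
      have hm : qmTau (c + 1) (fun i k => if k = Function.update κ c0 j i then (1 : K) else 0) l
          = qmTau c (fun i k => if k = κ i then (1 : K) else 0) (Function.update l c0 (Pi.single j (1 : K))) := by
        funext i k
        rcases lt_trichotomy i.val c with h | h | h
        · have hne : i ≠ c0 := by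
            intro h'
            rw [h', hc0] at h
            exact lt_irrefl _ h
          simp [qmTau, h, Nat.lt_succ_of_lt h, Function.update_of_ne hne]
        · have he : i = c0 := Fin.ext h
          subst he
          simp [qmTau, hc0, Pi.single_apply]
        · have hne : i ≠ c0 := by
            intro h'
            rw [h', hc0] at h
            exact lt_irrefl _ h
          have h1 : ¬ i.val < c + 1 := by omega
          have h2 : ¬ i.val < c := by omega
          simp [qmTau, h1, h2, Function.update_of_ne hne]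
      rw [hm]
      exact hκ
    · have hemp : IsEmpty {d : Fin n // c ≤ d.val} := ⟨fun d => hc (lt_of_le_of_lt d.2 d.1.2)⟩
      obtain ⟨κ, hκ⟩ := ih l linearIndependent_empty_type
      refine ⟨κ, ?_⟩
      have hm : qmTau (c + 1) (fun i k => if k = κ i then (1 : K) else 0) l
          = qmTau c (fun i k => if k = κ i then (1 : K) else 0) l := by
        funext i k
        have h1 : i.val < c := by have := i.2; omega
        simp [qmTau, h1, Nat.lt_succ_of_lt h1]
      rw [hm]
      exact hκ
-- END M4

-- BEGIN M5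
/-- POST M5 (proved): linear forms whose squares are members of a regular sequence are independent
(the last form of a relation is nilpotent modulo the earlier members, and regular: `1` would lie in an ideal of forms). -/
theorem qm_indep {F : Type} [Field F] {n : ℕ} (c : ℕ) (g : Fin n → MvPolynomial (Fin n) F) (l : Fin n → Fin n → F)
    (hg : ∀ k, (g k).IsHomogeneous 2) (hl : ∀ d : Fin n, c ≤ d.val → g d = (∑ k, C (l d k) * X k) ^ 2)
    (hreg : RingTheory.Sequence.IsRegular (MvPolynomial (Fin n) F) (List.ofFn g)) :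
    LinearIndependent F (fun d : {d : Fin n // c ≤ d.val} => l d.1) := by
  classical
  set rs := List.ofFn g with hrs
  rw [Fintype.linearIndependent_iff]
  intro r hr
  by_contra hne
  rw [not_forall] at hne
  set T := Finset.univ.filter (fun d : {d : Fin n // c ≤ d.val} => r d ≠ 0) with hT
  have hTne : T.Nonempty := by
    obtain ⟨i, hi⟩ := hne
    exact ⟨i, by simp [hT, hi]⟩
  set d0 := T.max' hTne with hd0
  have hd0T : r d0 ≠ 0 := (Finset.mem_filter.1 (T.max'_mem hTne)).2
  have hgt : ∀ d, d0 < d → r d = 0 := by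
    intro d hd
    by_contra h
    have : d ≤ d0 := T.le_max' d (by simp [hT, h])
    exact absurd hd (not_lt.2 this)
  set lam : Fin n → MvPolynomial (Fin n) F := fun d => ∑ k, C (l d k) * X k with hlam
  have hk : d0.1.val < rs.length := by simp [hrs]
  obtain ⟨hregk, -⟩ := r278h_regular_extract hreg d0.1.val hk
  have hrsk : rs[d0.1.val] = g d0.1 := by simp [hrs]
  rw [hrsk] at hregk
  set J := Ideal.ofList (rs.take d0.1.val) with hJ
  have hmem : ∀ d : Fin n, d.val < d0.1.val → g d ∈ J := by
    intro d hd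
    apply Ideal.subset_span
    show g d ∈ rs.take d0.1.val
    rw [List.mem_take_iff_getElem]
    refine ⟨d.val, ?_, ?_⟩
    · simp only [hrs, List.length_ofFn]
      omega
    · simp [hrs]
  -- the relation among the forms
  have hrel : ∑ d, C (r d) * lam d.1 = 0 := by
    have h1 : ∀ k, ∑ d, r d * l d.1 k = 0 := by
      intro k
      have := congrFun hr k
      simpa [Finset.sum_apply] using this
    simp only [hlam, Finset.mul_sum]
    rw [Finset.sum_comm]
    refine Finset.sum_eq_zero fun k _ => ?_
    have h2 : ∑ d : {d : Fin n // c ≤ d.val}, C (r d) * (C (l d.1 k) * X k) =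
        C (∑ d : {d : Fin n // c ≤ d.val}, r d * l d.1 k) * (X k : MvPolynomial (Fin n) F) := by
      rw [map_sum, Finset.sum_mul]
      refine Finset.sum_congr rfl fun d _ => ?_
      rw [C_mul, mul_assoc]
    rw [h2, h1, C_0, zero_mul]
  have hrad : ∀ d : {d : Fin n // c ≤ d.val}, d < d0 → lam d.1 ∈ J.radical := by
    intro d hd
    refine ⟨2, ?_⟩
    rw [← hl d.1 d.2]
    exact hmem d.1 hd
  have hlam0 : lam d0.1 ∈ J.radical := by
    have h3 : C (r d0) * lam d0.1 = - ∑ d ∈ Finset.univ.erase d0, C (r d) * lam d.1 := by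
      rw [eq_neg_iff_add_eq_zero]
      have := Finset.add_sum_erase Finset.univ (fun d : {d : Fin n // c ≤ d.val} => C (r d) * lam d.1)
        (Finset.mem_univ d0)
      exact this.trans hrel
    have h4 : C (r d0) * lam d0.1 ∈ J.radical := by
      rw [h3]
      refine neg_mem (Ideal.sum_mem _ fun d hd => ?_)
      rcases lt_trichotomy d d0 with h | h | h
      · exact Ideal.mul_mem_left _ _ (hrad d h)
      · exact absurd h (Finset.ne_of_mem_erase hd)
      · rw [hgt d h, C_0, zero_mul]
        exact zero_mem _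
    have h5 : lam d0.1 = C (r d0)⁻¹ * (C (r d0) * lam d0.1) := by
      rw [← mul_assoc, ← C_mul, inv_mul_cancel₀ hd0T, C_1, one_mul]
    rw [h5]
    exact Ideal.mul_mem_left _ _ h4
  obtain ⟨m, hm⟩ := hlam0
  have hgm : g d0.1 ^ m ∈ J := by
    rw [hl d0.1 d0.2, ← pow_mul, mul_comm, pow_mul]
    exact Ideal.pow_mem_of_mem _ hm 2 (by norm_num)
  have hone : ∀ m : ℕ, g d0.1 ^ m ∈ J → (1 : MvPolynomial (Fin n) F) ∈ J := by
    intro m
    induction m with
    | zero => intro h; simpa using h
    | succ m ih =>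
      intro h
      rw [pow_succ'] at h
      exact ih (hregk _ h)
  have h1J := hone m hgm
  have hJle : J ≤ Ideal.ofList rs := Ideal.span_mono fun x hx => List.mem_of_mem_take hx
  apply hreg.top_ne_smul
  rw [smul_eq_mul, Ideal.mul_top]
  exact ((Ideal.eq_top_iff_one _).2 (hJle h1J)).symm
-- END M5

-- BEGIN X1
/-- a linear form is the sum of its terms -/
theorem qmX1_linear {F : Type} [Field F] {n : ℕ} (p : MvPolynomial (Fin n) F) (hp : p.IsHomogeneous 1) :
    p = ∑ k, C (coeff (Finsupp.single k 1) p) * X k := by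
  classical
  ext m
  rw [coeff_sum]
  simp only [coeff_C_mul, coeff_X]
  by_cases hm : ∃ j, m = Finsupp.single j 1
  · obtain ⟨j, rfl⟩ := hm
    rw [Finset.sum_eq_single j]
    · simp
    · intro b _ hb
      have : Finsupp.single b 1 ≠ (Finsupp.single j 1 : Fin n →₀ ℕ) := by
        intro h
        exact hb (Finsupp.single_left_injective one_ne_zero h)
      simp [this]
    · intro h
      exact absurd (Finset.mem_univ j) h
  · have h0 : coeff m p = 0 := by
      apply hp.coeff_eq_zero
      intro hd
      apply hm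
      exact (Finsupp.sum_eq_one_iff m).1 hd
    rw [h0]
    symm
    apply Finset.sum_eq_zero
    intro k _
    have : Finsupp.single k 1 ≠ m := fun h => hm ⟨k, h.symm⟩
    simp [this]

/-- POST X1 (proved): extension by squares of linear forms (`r278x_extend_k` of `Ext76` with `D = 2`, or `egh26_step`). -/
theorem qm_extend {F : Type} [Field F] [Infinite F] {n c : ℕ} (hc : c ≤ n) (f : Fin c → MvPolynomial (Fin n) F)
    (hf : ∀ i, (f i).IsHomogeneous 2)
    (hreg : RingTheory.Sequence.IsRegular (MvPolynomial (Fin n) F) (List.ofFn f)) :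
    ∃ (g : Fin n → MvPolynomial (Fin n) F) (l : Fin n → Fin n → F),
      (∀ i : Fin c, g (Fin.castLE hc i) = f i) ∧ (∀ d : Fin n, c ≤ d.val → g d = (∑ k, C (l d k) * X k) ^ 2) ∧
      (∀ k, (g k).IsHomogeneous 2) ∧ RingTheory.Sequence.IsRegular (MvPolynomial (Fin n) F) (List.ofFn g) := by
  classical
  obtain ⟨k, rfl⟩ := Nat.exists_eq_add_of_le hc
  have h0 : ∀ i, constantCoeff (f i) = 0 := by
    intro i
    rw [constantCoeff_eq]
    exact (hf i).coeff_eq_zero (by simp)
  obtain ⟨g, hg1, hg2, -, hg4⟩ := r278x_extend_k f h0 hreg 2 (by norm_num) k le_rfl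
  choose! L hL1 hL2 using hg2
  refine ⟨g, fun d j => coeff (Finsupp.single j 1) (L d), fun i => hg1 i, ?_, ?_, hg4⟩
  · intro d hd
    rw [hL2 d hd]
    congr 1
    exact qmX1_linear (L d) ((mem_homogeneousSubmodule 1 _).1 (hL1 d hd))
  · intro j
    by_cases hj : j.val < c
    · have : j = Fin.castLE hc ⟨j.val, hj⟩ := rfl
      rw [this, hg1]
      exact hf _
    · rw [hL2 j (by omega)]
      exact ((mem_homogeneousSubmodule 1 _).1 (hL1 j (by omega))).pow 2
-- END X1

section egh3
open Claims.C0450

-- BEGIN T1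
/-- POST T1 (proved): truncation for S0522 (copy the proof of `hub278_coreA_pure` in `Hub`, with `lam i ^ N` for `X i ^ N` and
`hub278_S0522_of_box` for `hub278_S0522_pure`). -/
theorem qm_coreA_of_boxes (F : Type) [Field F] (n c : ℕ) (hc : c ≤ n)
    (a : Fin c → ℕ) (ha : ∀ i, 2 ≤ a i) (hmono : Monotone a)
    (I : Ideal (MvPolynomial (Fin n) F)) (hI : IsHomogeneousIdeal I)
    (lam : Fin n → MvPolynomial (Fin n) F) (hlam : ∀ d, (lam d).IsHomogeneous 1)
    (hbox : ∀ N, 2 ≤ N →
      Eg2Box F n (egh26_ext a N) (I ⊔ Ideal.span {q | ∃ i : Fin n, c ≤ i.val ∧ q = lam i ^ N})) :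
    EgCoreA hc a I := by
  classical
  have key : ∀ N₀ : ℕ, ∃ (N : ℕ) (I' : Ideal (MvPolynomial (Fin n) F)), N₀ ≤ N ∧
      (∀ d, d < N → degPart I' d = degPart I d) ∧
      (∀ m ∈ egh26_lppSet (le_refl n) (egh26_ext a N) I', ∀ i,
        Function.update m i (m i + 1) ∈ egh26_lppSet (le_refl n) (egh26_ext a N) I') ∧
      (∀ d, Module.finrank F (degPart I' d) = ((Finset.Nat.antidiagonalTuple n d).filter
        (· ∈ egh26_lppSet (le_refl n) (egh26_ext a N) I')).card) := by
    intro N₀
    obtain ⟨N, hN0, hN2, hNa⟩ : ∃ N : ℕ, N₀ ≤ N ∧ 2 ≤ N ∧ ∀ i, a i ≤ N := by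
      refine ⟨N₀ + 2 + ∑ i, a i, by omega, by omega, fun i => ?_⟩
      have := Finset.single_le_sum (f := a) (fun _ _ => Nat.zero_le _) (Finset.mem_univ i)
      omega
    set s : Set (MvPolynomial (Fin n) F) := {q | ∃ i : Fin n, c ≤ i.val ∧ q = lam i ^ N} with hs
    have hsN : ∀ q ∈ s, q ∈ homogeneousSubmodule (Fin n) F N := by
      rintro q ⟨i, hi, rfl⟩
      rw [mem_homogeneousSubmodule]
      simpa using (hlam i).pow N
    obtain ⟨hI', hdeg⟩ := egh26_add_forms I hI N s hsN
    have hm' := egh26_ext_mono (n := n) a N hmono hNa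
    obtain ⟨_, ⟨J, hJ⟩, h3⟩ := hub278_S0522_of_box F n (egh26_ext a N)
      (fun i => by have := egh26_ext_two_le (n := n) a N ha hN2 i; omega) hm' (I ⊔ Ideal.span s) hI' (hbox N hN2)
    refine ⟨N, I ⊔ Ideal.span s, hN0, hdeg, ?_, ?_⟩
    · rw [egh26_lppMonomials] at hJ
      exact egh26_up_of_ideal _ J hJ
    · intro d
      rw [h3 d, egh26_lppMonomials, eg_finrank_span]
  refine ⟨egh26_lppSet hc a I, ?_, fun m hm => Or.inl hm, ?_⟩
  · intro m hm i
    obtain ⟨N, I', hN, hdeg, hup, _⟩ := key (∑ j, m j + 2)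
    have hfr : ∀ d, d < N → Module.finrank F (degPart I' d) = Module.finrank F (degPart I d) :=
      fun d hd => by rw [hdeg d hd]
    have h1 := (egh26_lppSet_trunc hc a N I I' hfr m (by omega)).mpr hm
    have h2 := hup m h1 i
    exact (egh26_lppSet_trunc hc a N I I' hfr _ (by rw [eg_sum_update]; omega)).mp h2
  · intro d
    obtain ⟨N, I', hN, hdeg, _, hcard⟩ := key (d + 1)
    have hfr : ∀ d, d < N → Module.finrank F (degPart I' d) = Module.finrank F (degPart I d) :=
      fun d hd => by rw [hdeg d hd]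
    rw [← hdeg d (by omega), hcard d]
    congr 1
    apply Finset.filter_congr
    intro m hm
    rw [Finset.Nat.mem_antidiagonalTuple] at hm
    exact egh26_lppSet_trunc hc a N I I' hfr m (by omega)
-- END T1

end egh3

section betti3
open Claims.C0451

-- BEGIN T2
/-- POST T2 (proved): truncation for S0523 (copy the proof of `hub278_S0523_monomial` in `Hub`, with `lam i ^ N` for `X i ^ N` and
`hub278_S0523_of_box` for `hub278_S0523_pure`). -/
theorem qm_betti_of_boxes (E : Type) [Field E] [CharZero E] [IsAlgClosed E] (n c : ℕ) (hc : c ≤ n)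
    (a : Fin c → ℕ) (ha : ∀ i, 2 ≤ a i) (hmono : Monotone a)
    (I : Ideal (MvPolynomial (Fin n) E)) (hI : IsHomogeneousIdeal I)
    (lam : Fin n → MvPolynomial (Fin n) E) (hlam : ∀ d, (lam d).IsHomogeneous 1)
    (hbox : ∀ N, 2 ≤ N →
      Eg2Box E n (bt66_ext a N) (I ⊔ Ideal.span {q | ∃ i : Fin n, c ≤ i.val ∧ q = lam i ^ N})) :
    ∀ p j : ℕ, gradedBetti I p j ≤ gradedBetti (Ideal.span (lppMonomials hc a I)) p j := by
  intro p j
  rw [bt66_span_lpp]
  obtain ⟨N, hNj, hNa⟩ : ∃ N : ℕ, j + 1 < N ∧ ∀ i, a i ≤ N := by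
    refine ⟨j + 2 + ∑ i, a i, by omega, fun i => ?_⟩
    have := Finset.single_le_sum (f := a) (fun _ _ => Nat.zero_le _) (Finset.mem_univ i)
    omega
  set s : Set (MvPolynomial (Fin n) E) := {q | ∃ i : Fin n, c ≤ i.val ∧ q = lam i ^ N} with hs
  have hsN : ∀ q ∈ s, q ∈ MvPolynomial.homogeneousSubmodule (Fin n) E N := by
    rintro q ⟨i, _, rfl⟩
    rw [MvPolynomial.mem_homogeneousSubmodule]
    simpa using (hlam i).pow N
  obtain ⟨hI', hdeg⟩ := bt66_add_forms I hI N s hsN
  set I' := I ⊔ Ideal.span s with hI'def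
  have ha' : ∀ i : Fin n, 2 ≤ bt66_ext a N i := by
    intro i
    unfold bt66_ext
    split_ifs with h
    · exact ha _
    · omega
  have hmono' : Monotone (bt66_ext (n := n) a N) := by
    intro i k hik
    unfold bt66_ext
    have hik' : i.val ≤ k.val := hik
    split_ifs with h1 h2 h2
    · exact hmono (by simpa using hik')
    · exact hNa _
    · omega
    · exact le_rfl
  have hmain := hub278_S0523_of_box E n (bt66_ext a N) ha' hmono' I' hI' (hbox N (by omega)) p j
  rw [bt66_span_lpp] at hmain
  have h1 : gradedBetti I' p j = gradedBetti I p j :=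
    bt66_betti_trunc I' I hI' hI p j (fun d hd => hdeg d (by omega))
  have h2 : gradedBetti (bt66_ideal E (bt66_lppSet (le_refl n) (bt66_ext a N) I')) p j =
      gradedBetti (bt66_ideal E (bt66_lppSet hc a I)) p j :=
    bt66_betti_trunc _ _ (bt66_ideal_homog E _) (bt66_ideal_homog E _) p j (fun d hd =>
      bt66_degPart_ideal_trunc E _ _ N (fun m hm => bt66_lppSet_trunc hc a N I I' hdeg m hm) d
        (by omega))
  rw [h1, h2] at hmain
  exact hmain
-- END T2

-- BEGIN T3
/-- POST T3 (proved): the Betti bound descends along an extension of the field (the last lines of `hub278_S0523_pure` in `Hub`). -/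
theorem qm_betti_descend {F E : Type} [Field F] [Field E] (φ : F →+* E) (n c : ℕ) (hc : c ≤ n) (a : Fin c → ℕ)
    (I : Ideal (MvPolynomial (Fin n) F)) (hI : IsHomogeneousIdeal I)
    (h : ∀ p j : ℕ, gradedBetti (I.map (MvPolynomial.map φ)) p j ≤
      gradedBetti (Ideal.span (lppMonomials hc a (I.map (MvPolynomial.map φ)))) p j) :
    ∀ p j : ℕ, gradedBetti I p j ≤ gradedBetti (Ideal.span (lppMonomials hc a I)) p j := by
  intro p j
  have hmain := h p j
  have hset : bt66_lppSet hc a (I.map (MvPolynomial.map φ)) = bt66_lppSet hc a I :=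
    bt66_lppSet_congr _ a _ _ (fun d => bt66_finrank_map φ I hI d)
  rw [bt66_span_lpp] at hmain ⊢
  rw [bt66_betti_map φ I hI, hset, ← bt66_ideal_map φ,
    bt66_betti_map φ _ (bt66_ideal_homog F _)] at hmain
  exact hmain
-- END T3

end betti3

/-! ### the assemblies of C4-Q2 -/

theorem qm_det_congr {D : Type} [Ring D] {n : ℕ} {τ τ' : Fin n → Fin n → D} (e : τ = τ') (h : Qd273RowComm τ)
    (h' : Qd273RowComm τ') : qd273_det τ h = qd273_det τ' h' := by
  subst e
  rfl

/-- the mixed box from a finite dimensional domain -/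
theorem qm_box_of_domain {F : Type} [Field F] (h2 : (2 : F) ≠ 0) {n : ℕ} (g : Fin n → MvPolynomial (Fin n) F)
    (hg : ∀ k, (g k).IsHomogeneous 2)
    (K : Type) [Field K] [Algebra F K] (A : Type) [Ring A] [IsDomain A] [Algebra K A] [FiniteDimensional K A]
    (R : Fin n × Option (Fin n) → A) (Y : Fin n × Option (Fin n) → K)
    (hR : ∀ a b, R a * R b + R b * R a =
      ∑ c, algebraMap K A (Y c) * algebraMap K A (algebraMap F K (qcBig g c a b + qcBig g c b a)))
    (c : ℕ) (l : Fin n → Fin n → F) (hl : ∀ d : Fin n, c ≤ d.val → g d = (∑ k, C (l d k) * X k) ^ 2)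
    (hΔ : ∀ h, qd273_det (qmTau c (fun i j => R (i, none) * R (i, some j))
      (fun i j => algebraMap K A (algebraMap F K (l i j)))) h ≠ 0)
    (a : Fin n → ℕ) (ha : ∀ i : Fin n, i.val < c → a i = 2)
    (I : Ideal (MvPolynomial (Fin n) F)) (hgI : ∀ i : Fin n, i.val < c → g i ∈ I)
    (hlI : ∀ d : Fin n, c ≤ d.val → (∑ k, C (l d k) * X k) ^ a d ∈ I) :
    Eg2Box F n a I := by
  have hanti : ∀ a b : Fin n × Option (Fin n), a.1 ≠ b.1 → R a * R b = -(R b * R a) := by
    intro a b hab
    have h := hR a b
    have h0 : ∀ c, qcBig g c a b + qcBig g c b a = 0 := by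
      intro c
      have h1 : ¬ (a.1 = c.1 ∧ b.1 = c.1) := fun h => hab (h.1.trans h.2.symm)
      have h2 : ¬ (b.1 = c.1 ∧ a.1 = c.1) := fun h => hab (h.2.trans h.1.symm)
      simp [qcBig, qcPow, h1, h2]
    simp only [h0, map_zero, mul_zero, Finset.sum_const_zero] at h
    exact eq_neg_of_add_eq_zero_left h
  have hrc := qm_rowcomm c _ (fun i j => algebraMap K A (algebraMap F K (l i j))) (qb_rowcomm R hanti)
    (fun i k x => Algebra.commutes _ _)
  let iD : DivisionRing A := divisionRingOfFiniteDimensional K A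
  let iA : Algebra F A := ((algebraMap K A).comp (algebraMap F K)).toAlgebra' (fun c x => Algebra.commutes _ _)
  obtain ⟨σ, hσ⟩ := qd273_cramer (D := A) _ hrc (hΔ hrc)
  exact qm_box_of_gens h2 g hg A R (fun c => algebraMap K A (Y c)) (fun c x => Algebra.commutes _ _) hR c l hl
    ⟨σ, hσ⟩ a ha I hgI hlI

/-- **THE MIXED BOX**: `c ≤ n` regular quadrics, and powers of suitable linear forms. -/
theorem qm_box (F : Type) [Field F] [CharZero F] (n c : ℕ) (hn : 1 ≤ n) (hc : c ≤ n)
    (f : Fin c → MvPolynomial (Fin n) F) (hf : ∀ i, (f i).IsHomogeneous 2)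
    (hreg : RingTheory.Sequence.IsRegular (MvPolynomial (Fin n) F) (List.ofFn f)) :
    ∃ lam : Fin n → MvPolynomial (Fin n) F, (∀ d, (lam d).IsHomogeneous 1) ∧
      ∀ a : Fin n → ℕ, (∀ i : Fin n, i.val < c → a i = 2) → ∀ I : Ideal (MvPolynomial (Fin n) F),
        (∀ i, f i ∈ I) → (∀ d : Fin n, c ≤ d.val → lam d ^ a d ∈ I) → Eg2Box F n a I := by
  classical
  obtain ⟨g, l, hgf, hl, hg, hregg⟩ := qm_extend hc f hf hreg
  refine ⟨fun d => ∑ k, C (l d k) * X k, fun d => IsHomogeneous.sum _ _ _ fun k _ => isHomogeneous_C_mul_X _ _, ?_⟩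
  intro a ha I hfI hlI
  have hgI : ∀ i : Fin n, i.val < c → g i ∈ I := by
    intro i hi
    have h1 : i = Fin.castLE hc ⟨i.val, hi⟩ := by ext; simp
    rw [h1, hgf]
    exact hfI _
  obtain ⟨κ, hκ⟩ := qm_kappa c l (qm_indep c g l hg hl hregg)
  obtain ⟨pk0⟩ := qp1_pack g hg hregg
  obtain ⟨N, ⟨e⟩⟩ : ∃ N : ℕ, Nonempty (Fin n × Option (Fin n) ≃ Fin N) :=
    ⟨Fintype.card (Fin n × Option (Fin n)), ⟨Fintype.equivFin _⟩⟩
  have hN : 0 < N := by
    have : Nonempty (Fin N) := ⟨e (⟨0, by omega⟩, none)⟩
    exact Fin.pos_iff_nonempty.2 this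
  have pk : QcPack (qcRe e (qcBig g)) := (qp2Big pk0).reindex e
  set b : Fin N → Fin N → FractionRing (MvPolynomial (Fin N) F) := fun a c =>
    algebraMap (MvPolynomial (Fin N) F) (FractionRing (MvPolynomial (Fin N) F)) (qcM (qcRe e (qcBig g)) a c) with hb
  have H : ∀ ρ : Module.End (FractionRing (MvPolynomial (Fin N) F)) (Qf76Lam (FractionRing (MvPolynomial (Fin N) F)) N),
      (∀ a, Commute ρ (qf76_L b a)) → ρ ≠ 0 → Function.Injective ρ :=
    fun ρ hρ h0 => qd_inj_K hN (qcRe e (qcBig g)) pk ρ hρ h0
  have hdom := qd_isDomain b H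
  refine qm_box_of_domain two_ne_zero g hg (FractionRing (MvPolynomial (Fin N) F))
    (qdCent (FractionRing (MvPolynomial (Fin N) F)) b)
    (fun a => ⟨qf76_R b (e a), qd_mem_cent.2 (fun a' => qf76_R_L b _ _)⟩)
    (fun c => algebraMap (MvPolynomial (Fin N) F) _ (X (e c))) ?_ c l hl ?_ a ha I hgI hlI
  · intro a a'
    apply Subtype.ext
    have h1 := qf76_R_R b (e a) (e a')
    have h3 : b (e a) (e a') + b (e a') (e a) = ∑ c, algebraMap (MvPolynomial (Fin N) F) (FractionRing (MvPolynomial (Fin N) F)) (X (e c)) *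
        algebraMap F (FractionRing (MvPolynomial (Fin N) F)) (qcBig g c a a' + qcBig g c a' a) := by
      simp only [hb, qcM, map_sum, map_mul, ← Finset.sum_add_distrib]
      rw [← e.sum_comp]
      refine Finset.sum_congr rfl fun c _ => ?_
      simp only [qcRe, Equiv.symm_apply_apply, IsScalarTower.algebraMap_apply F (MvPolynomial (Fin N) F)
        (FractionRing (MvPolynomial (Fin N) F)), MvPolynomial.algebraMap_eq, map_add, mul_add]
    simp only [← map_mul, ← map_sum, ← h3]
    rw [Algebra.algebraMap_eq_smul_one]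
    exact h1
  · intro h hdet
    have heq : (fun i j => (qdCent (FractionRing (MvPolynomial (Fin N) F)) b).val.toRingHom
        (qmTau c (fun i j => (⟨qf76_R b (e (i, none)), qd_mem_cent.2 (fun a' => qf76_R_L b _ _)⟩ :
            qdCent (FractionRing (MvPolynomial (Fin N) F)) b) * ⟨qf76_R b (e (i, some j)), qd_mem_cent.2 (fun a' => qf76_R_L b _ _)⟩)
          (fun i j => algebraMap (FractionRing (MvPolynomial (Fin N) F)) (qdCent (FractionRing (MvPolynomial (Fin N) F)) b)
            (algebraMap F (FractionRing (MvPolynomial (Fin N) F)) (l i j))) i j)) =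
        qmTau c (fun i j => qf76_R b (e (i, none)) * qf76_R b (e (i, some j)))
          (fun i j => algebraMap (FractionRing (MvPolynomial (Fin N) F))
            (Module.End (FractionRing (MvPolynomial (Fin N) F)) (Qf76Lam (FractionRing (MvPolynomial (Fin N) F)) N))
            (algebraMap F (FractionRing (MvPolynomial (Fin N) F)) (l i j))) := by
      funext i j
      unfold qmTau
      split_ifs
      · rfl
      · rfl
    have h' : Qd273RowComm (qmTau c (fun i j => qf76_R b (e (i, none)) * qf76_R b (e (i, some j)))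
          (fun i j => algebraMap (FractionRing (MvPolynomial (Fin N) F))
            (Module.End (FractionRing (MvPolynomial (Fin N) F)) (Qf76Lam (FractionRing (MvPolynomial (Fin N) F)) N))
            (algebraMap F (FractionRing (MvPolynomial (Fin N) F)) (l i j)))) := by
      rw [← heq]
      intro i i' j j' hne
      exact (h i i' j j' hne).map (qdCent (FractionRing (MvPolynomial (Fin N) F)) b).val.toRingHom
    have h4 := qb_det_map (qdCent (FractionRing (MvPolynomial (Fin N) F)) b).val.toRingHom _ h (heq ▸ h')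
    rw [hdet, map_zero, qm_det_congr heq _ h'] at h4
    refine qm_det_ne b e e.injective c (fun i j => algebraMap F (FractionRing (MvPolynomial (Fin N) F)) (l i j)) κ ?_ h' h4.symm
    have h5 : Matrix.of (qmTau c (fun i k => if k = κ i then (1 : FractionRing (MvPolynomial (Fin N) F)) else 0)
        (fun i j => algebraMap F (FractionRing (MvPolynomial (Fin N) F)) (l i j))) =
        (Matrix.of (qmTau c (fun i k => if k = κ i then (1 : F) else 0) l)).map
          (algebraMap F (FractionRing (MvPolynomial (Fin N) F))) := by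
      ext i j
      simp only [Matrix.of_apply, Matrix.map_apply, qmTau]
      split_ifs <;> simp
    rw [h5, ← RingHom.mapMatrix_apply, ← RingHom.map_det]
    exact (map_ne_zero _).2 hκ

section egh4
open Claims.C0450

/-- **THE STATEMENT OF S0522 WITH THE EXTRA HYPOTHESIS `a i = 2`** (EGH for quadrics: every `1 ≤ c ≤ n`, every field of characteristic zero). -/
theorem hub278_S0522_quadrics_le (F : Type) [Field F] [CharZero F] (n c : ℕ) (hc1 : 1 ≤ c) (hc : c ≤ n)
    (a : Fin c → ℕ) (ha : ∀ i, a i = 2)
    (I : Ideal (MvPolynomial (Fin n) F)) (hI : IsHomogeneousIdeal I)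
    (f : Fin c → MvPolynomial (Fin n) F) (hfdeg : ∀ i, f i ∈ homogeneousSubmodule (Fin n) F (a i))
    (hfI : ∀ i, f i ∈ I)
    (hreg : RingTheory.Sequence.IsRegular (MvPolynomial (Fin n) F) (List.ofFn f)) :
    (∀ d : ℕ, 0 ≤ qDim hc a I d ∧ qDim hc a I d ≤ (nonPowerMonomials hc a d).card) ∧
      (∃ J : Ideal (MvPolynomial (Fin n) F),
        J.restrictScalars F = Submodule.span F (lppMonomials hc a I)) ∧
      ∀ d : ℕ, Module.finrank F (degPart I d) =
        Module.finrank F (Submodule.span F (lppMonomials hc a I) ⊓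
          homogeneousSubmodule (Fin n) F d : Submodule F (MvPolynomial (Fin n) F)) := by
  have hmono : Monotone a := fun i k _ => by rw [ha i, ha k]
  obtain ⟨lam, hlam, hbox⟩ := qm_box F n c (by omega) hc f
    (fun i => by have := (mem_homogeneousSubmodule _ _).1 (hfdeg i); rwa [ha i] at this) hreg
  refine eg_roof hc a I (hub278_CL n c hc a hmono)
    (qm_coreA_of_boxes F n c hc a (fun i => (ha i).ge) hmono I hI lam hlam fun N _ => ?_)
  refine hbox (egh26_ext a N) (fun i hi => ?_) _ (fun i => Ideal.mem_sup_left (hfI i)) (fun d hd => ?_)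
  · simp [egh26_ext, hi, ha]
  · exact Ideal.mem_sup_right (Ideal.subset_span ⟨d, hd, by rw [egh26_ext_of_le a N d hd]⟩)

end egh4

section betti4
open Claims.C0451

/-- **THE STATEMENT OF S0523 WITH THE EXTRA HYPOTHESIS `a i = 2`** (the lex-plus-powers Betti bound for quadrics: every `1 ≤ c ≤ n`,
every field of characteristic zero). -/
theorem hub278_S0523_quadrics_le (F : Type) [Field F] [CharZero F] (n c : ℕ) (hc1 : 1 ≤ c) (hc : c ≤ n)
    (a : Fin c → ℕ) (ha : ∀ i, a i = 2)
    (I : Ideal (MvPolynomial (Fin n) F)) (hI : IsHomogeneousIdeal I)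
    (f : Fin c → MvPolynomial (Fin n) F) (hfdeg : ∀ i, f i ∈ homogeneousSubmodule (Fin n) F (a i))
    (hfI : ∀ i, f i ∈ I) (hreg : RingTheory.Sequence.IsRegular (MvPolynomial (Fin n) F) (List.ofFn f)) :
    ∀ p j : ℕ, gradedBetti I p j ≤ gradedBetti (Ideal.span (lppMonomials hc a I)) p j := by
  have hmono : Monotone a := fun i k _ => by rw [ha i, ha k]
  let E := AlgebraicClosure F
  let φ : F →+* E := algebraMap F E
  have : CharZero E := charZero_of_injective_algebraMap (algebraMap F E).injective
  refine qm_betti_descend φ n c hc a I hI ?_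
  obtain ⟨lam, hlam, hbox⟩ := qm_box E n c (by omega) hc (fun i => MvPolynomial.map φ (f i))
    (fun i => by
      have := (mem_homogeneousSubmodule _ _).1 (hfdeg i)
      rw [ha i] at this
      exact this.map φ) (r278d_regular_map φ f hreg)
  refine qm_betti_of_boxes E n c hc a (fun i => (ha i).ge) hmono _ (bt66_homog_map φ I hI) lam hlam fun N _ => ?_
  refine hbox (bt66_ext a N) (fun i hi => ?_) _
    (fun i => Ideal.mem_sup_left (Ideal.mem_map_of_mem _ (hfI i))) (fun d hd => ?_)
  · simp [bt66_ext, hi, ha]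
  · refine Ideal.mem_sup_right (Ideal.subset_span ⟨d, hd, ?_⟩)
    simp [bt66_ext, Nat.not_lt.mpr hd]

end betti4

end Claimed.Agent.R278
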