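-- KEEP
import Claimed.Agent.R278.QuadHub

/-!
# Row 278, C4-Q, second part: `c ≤ n` quadrics in `n` variables (`a = (2, …, 2)` ONLY; THE ROW STAYS OPEN)
`R278/QuadCut`      (pen helper271, prefix `qk_`)

Text.  Let `f_1, …, f_c` be a regular sequence of quadrics of `F[x_1..x_n]`, `c ≤ n`, `char F = 0`.
1. `bt66_extend` with `N = 2` prolongs it to a regular sequence `g` of `n` quadrics.
2. The construction of the quadric box for `g` gives more than `Eg2Box` says: `t_i² = - ∑_k z_i y^(i)_k g_k`, where the `z_i`, `y^(i)_k` are central,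
   the images of independent variables of `K = Frac F[Y]` (`qk_square_eq`, `qk_data`).
3. For every `i` solve over the field `K` the system `∑_{d ≥ c} γ_id z_d y^(d)_k = z_i y^(i)_k` (`k ≥ c`); the matrix is invertible: evaluate
   `y^(d)_k ↦ δ_dk`, `z ↦ 1` (`qk_gamma`).  Then `t_i² - ∑_{d ≥ c} (γ_id t_d) t_d ∈ D · (f_1, …, f_c)`.
4. For `d ≥ c`: `t_d ^ N ∈ D[x]_N = D · (all forms of degree N)`.  So the SAME `D, τ, σ` are a box for `(2, …, 2, N, …, N)` and every ideal that contains
   `f_1, …, f_c` and all monomials of degree `N` (`qk_box_of_gens`, `qk_box`).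
5. `I + 𝔪^N` agrees with `I` below `N`; the truncation proofs of `R278/Full26` and `R278/Betti66` give the conclusions of S0522 / S0523.
End theorems: `hub278_S0522_quadrics_cut`, `hub278_S0523_quadrics_cut` = the frozen words of S0522 / S0523 with `a = fun _ => 2`, every `c ≤ n`,
every field of characteristic zero.  NO GAP: the five blocks K1 .. K5 are filled (K1: 205, K2: 271, K3: 25, K4: 276, K5: 271; ropes 38 65 165 112 146 4),
`#print axioms` of both end theorems = `propext`, `Classical.choice`, `Quot.sound`.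
`qk_S0522_of_all_two`, `qk_S0523_of_all_two` (tail of the file) = the two frozen statements VERBATIM with the one extra hypothesis `∀ i, a i = 2`.
`qk_fvector` (tail) = the original form of the conjecture: `n` quadrics in `n` variables: the Hilbert function of `F[x]/I` is the `f`-vector of a simplicial complex.
`qk_multicomplex` (tail) = the same for `c ≤ n` quadrics: the Hilbert function of `F[x]/I` is that of a divisor-closed set of monomials, squarefree in `x_1..x_c`.
No S-file: this is the case `a = (2, …, 2)` of the row and nothing more.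
-/

set_option autoImplicit false

open MvPolynomial

noncomputable section

namespace Claimed.Agent.R278

-- BEGIN K1
/-- POST K1: the square of `t = ∑_j c e_j x_j`, as an EQUATION (copy the proof of `qb_square`). -/
theorem qk_square_eq {F D : Type} [Field F] [DivisionRing D] [Algebra F D] (h2 : (2 : F) ≠ 0) {n : ℕ}
    (f : Fin n → MvPolynomial (Fin n) F) (hf : ∀ k, (f k).IsHomogeneous 2)
    (c z : D) (e y : Fin n → D)
    (hc : c * c = z) (hce : ∀ j, c * e j = - (e j * c))
    (hee : ∀ a b, e a * e b + e b * e a = ∑ k, y k * algebraMap F D (qcB f k a b + qcB f k b a)) :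
    eg2Lin (fun j => c * e j) ^ 2 = ∑ k, (-(z * y k)) • eg2Iota F D n (f k) := by
  classical
  have h2D : (2 : D) ≠ 0 := by
    intro h
    apply h2
    apply (algebraMap F D).injective
    rw [map_ofNat, map_zero, h]
  have hsq : eg2Lin (fun j => c * e j) ^ 2 = (-z) • qnb1cT (fun a b => e a * e b) := by
    rw [← qnb1c_smul, pow_two, eg2Lin, Finset.sum_mul, qnb1cT]
    refine Finset.sum_congr rfl fun a _ => ?_
    rw [Finset.mul_sum]
    refine Finset.sum_congr rfl fun b _ => ?_
    rw [AddMonoidAlgebra.single_mul_single]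
    congr 1
    calc c * e a * (c * e b) = c * (e a * c) * e b := by simp only [mul_assoc]
      _ = c * (-(c * e a)) * e b := by rw [hce a, neg_neg]
      _ = -(c * c) * (e a * e b) := by simp only [mul_neg, neg_mul, mul_assoc]
      _ = -z * (e a * e b) := by rw [hc]
  have hiota : ∀ k, qnb1cT (fun a b => algebraMap F D (qcB f k a b)) = eg2Iota F D n (f k) := by
    intro k
    conv_rhs => rw [qb_quadric h2 f hf k]
    exact (qnb1c_iota (D := D) (qcB f k)).symm
  have h2S : qnb1cT (fun a b => e a * e b) + qnb1cT (fun a b => e a * e b)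
      = ∑ k, y k • (eg2Iota F D n (f k) + eg2Iota F D n (f k)) := by
    have h1 : qnb1cT (fun a b => e a * e b) + qnb1cT (fun a b => e a * e b)
        = qnb1cT (fun a b => e a * e b + e b * e a) := by
      rw [qnb1c_add, qnb1c_swap (fun a b => e a * e b)]
    rw [h1]
    simp only [hee]
    rw [qnb1c_sum]
    refine Finset.sum_congr rfl fun k _ => ?_
    rw [qnb1c_smul]
    congr 1
    simp only [map_add]
    rw [qnb1c_add, qnb1c_swap (fun a b => algebraMap F D (qcB f k a b)), hiota]
  have hS : qnb1cT (fun a b => e a * e b) = ∑ k, y k • eg2Iota F D n (f k) := by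
    have h : (2 : D) • qnb1cT (fun a b => e a * e b) = (2 : D) • ∑ k, y k • eg2Iota F D n (f k) := by
      rw [two_smul, h2S, two_smul, ← Finset.sum_add_distrib]
      exact Finset.sum_congr rfl fun k _ => smul_add _ _ _
    have h' := congrArg (fun t => (2 : D)⁻¹ • t) h
    simp only [smul_smul, inv_mul_cancel₀ h2D, one_smul] at h'
    exact h'
  rw [hsq, hS, Finset.smul_sum]
  refine Finset.sum_congr rfl fun k _ => ?_
  rw [smul_smul, neg_mul]
-- END K1

-- BEGIN K2
/-- POST K2: an ideal that contains all monomials of degree `N` absorbs `D[x]_N`. -/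
theorem qk_deg_le {F D : Type} [Field F] [Ring D] [Algebra F D] {n : ℕ} (N : ℕ)
    (I : Ideal (MvPolynomial (Fin n) F))
    (hI : ∀ α : Fin n →₀ ℕ, ∑ i, α i = N → monomial α (1 : F) ∈ I) :
    eg2Deg D n N ≤ eg2Ext D I := by
  refine eg2d_le (eg2Ext D I) N fun α hα => ?_
  refine Submodule.subset_span ⟨monomial α (1 : F), hI α hα, ?_⟩
  have h : eg2Iota F D n (monomial α (1 : F)) = AddMonoidAlgebra.single α (algebraMap F D 1) :=
    AddMonoidAlgebra.mapRingHom_single _ _ _
  rw [h, map_one]
-- END K2

/-- the generators of the quadric box, with the solutions `γ` of the linear systems of step 3 -/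
def QkData (F : Type) [Field F] {n : ℕ} (g : Fin n → MvPolynomial (Fin n) F) : Prop :=
  ∃ (D : Type) (_ : DivisionRing D) (_ : Algebra F D) (R Y : Fin n × Option (Fin n) → D),
    (∀ c x, Commute (Y c) x) ∧
    (∀ a b, R a * R b + R b * R a = ∑ c, Y c * algebraMap F D (qcBig g c a b + qcBig g c b a)) ∧
    (∃ σ : Fin n → Fin n → D, ∀ i k, ∑ j, σ i j * (R (j, none) * R (j, some k)) = if i = k then 1 else 0) ∧
    ∀ c₀ : ℕ, ∃ γ : Fin n → Fin n → D, ∀ i k : Fin n, c₀ ≤ k.val →
      ∑ d : Fin n, (if c₀ ≤ d.val then γ i d * (Y (d, none) * Y (d, some k)) else 0) =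
        Y (i, none) * Y (i, some k)

-- BEGIN K3
/-- POST K3: **the cut box** from the data. -/
theorem qk_box_of_data {F : Type} [Field F] (h2 : (2 : F) ≠ 0) {n : ℕ} (g : Fin n → MvPolynomial (Fin n) F)
    (hg : ∀ k, (g k).IsHomogeneous 2) (hD : QkData F g) (c N : ℕ)
    (I : Ideal (MvPolynomial (Fin n) F)) (hgI : ∀ k : Fin n, k.val < c → g k ∈ I)
    (hI : ∀ α : Fin n →₀ ℕ, ∑ i, α i = N → monomial α (1 : F) ∈ I) :
    Eg2Box F n (bt66_ext (fun _ : Fin c => 2) N) I := by
  classical
  obtain ⟨D, iD, iA, R, Y, hY, hR, ⟨σ, hσ⟩, hγ⟩ := hD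
  obtain ⟨γ, hγ⟩ := hγ c
  have h2D : (2 : D) ≠ 0 := by
    have h := (map_ne_zero (algebraMap F D)).2 h2
    rwa [map_ofNat] at h
  have hanti : ∀ a b : Fin n × Option (Fin n), a.1 ≠ b.1 → R a * R b = - (R b * R a) := by
    intro a b hab
    have h := hR a b
    rw [Finset.sum_eq_zero] at h
    · exact eq_neg_of_add_eq_zero_left h
    · intro c _
      rw [qb1_big_ne g c a b hab, qb1_big_ne g c b a hab.symm]
      simp
  have hsite : ∀ (i : Fin n) (a b : Option (Fin n)),
      R (i, a) * R (i, b) + R (i, b) * R (i, a)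
        = Y (i, none) * algebraMap F D (qcOpt (qcB g) none a b + qcOpt (qcB g) none b a)
          + ∑ k, Y (i, some k) * algebraMap F D (qcOpt (qcB g) (some k) a b + qcOpt (qcB g) (some k) b a) := by
    intro i a b
    rw [hR, qb1_sum_site i]
    · simp only [qb1_big_site, if_true]
    · intro c hc
      rw [qb1_big_site, qb1_big_site, if_neg hc, if_neg hc]
      simp
  have hsq : ∀ i, eg2Lin (fun j => R (i, none) * R (i, some j)) ^ 2 =
      ∑ k, (-(Y (i, none) * Y (i, some k))) • eg2Iota F D n (g k) := by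
    intro i
    refine qk_square_eq h2 g hg (R (i, none)) (Y (i, none)) (fun j => R (i, some j)) (fun k => Y (i, some k))
      ?_ ?_ ?_
    · have h := hsite i none none
      simp only [qcOpt] at h
      have h' : (2 : D) * (R (i, none) * R (i, none)) = 2 * Y (i, none) := by
        rw [two_mul, h]
        simp [two_mul, mul_add]
      exact mul_left_cancel₀ h2D h'
    · intro j
      have h := hsite i none (some j)
      simp only [qcOpt] at h
      refine eq_neg_of_add_eq_zero_left ?_
      rw [h]
      simp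
    · intro a b
      have h := hsite i (some a) (some b)
      simp only [qcOpt] at h
      rw [h]
      simp
  refine ⟨D, iD, iA, fun i j => R (i, none) * R (i, some j), σ, hσ,
    qb_comm _ (qb_rowcomm R hanti), fun i => ?_⟩
  by_cases hi : i.val < c
  · have ha : bt66_ext (n := n) (fun _ : Fin c => 2) N i = 2 := by
      unfold bt66_ext
      rw [dif_pos hi]
    rw [ha]
    refine ⟨fun d => if c ≤ d.val then γ i d • eg2Lin (fun j => R (d, none) * R (d, some j)) else 0,
      ?_, ?_, ?_⟩
    · intro d hd
      have h1 : d.val ≤ i.val := hd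
      exact if_neg (by omega)
    · intro d
      show (if c ≤ d.val then γ i d • eg2Lin (fun j => R (d, none) * R (d, some j)) else 0) ∈ _
      split_ifs
      · exact Submodule.smul_mem _ _ (eg2d_lin _)
      · exact Submodule.zero_mem _
    · have hd : ∀ d : Fin n,
          (if c ≤ d.val then γ i d • eg2Lin (fun j => R (d, none) * R (d, some j)) else 0) *
            eg2Lin (fun j => R (d, none) * R (d, some j)) =
          ∑ k, (if c ≤ d.val then -(γ i d * (Y (d, none) * Y (d, some k))) else 0) •
            eg2Iota F D n (g k) := by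
        intro d
        split_ifs with h
        · rw [smul_mul_assoc, ← pow_two, hsq d, Finset.smul_sum]
          refine Finset.sum_congr rfl fun k _ => ?_
          rw [smul_smul, mul_neg]
        · simp
      have e1 : ∑ d : Fin n,
          (if c ≤ d.val then γ i d • eg2Lin (fun j => R (d, none) * R (d, some j)) else 0) *
            eg2Lin (fun j => R (d, none) * R (d, some j)) =
          ∑ k, (∑ d : Fin n, if c ≤ d.val then -(γ i d * (Y (d, none) * Y (d, some k))) else 0) •
            eg2Iota F D n (g k) := by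
        rw [Finset.sum_congr rfl fun d _ => hd d, Finset.sum_comm]
        refine Finset.sum_congr rfl fun k _ => ?_
        rw [Finset.sum_smul]
      show eg2Lin (fun j => R (i, none) * R (i, some j)) ^ 2 - ∑ d : Fin n,
          (if c ≤ d.val then γ i d • eg2Lin (fun j => R (d, none) * R (d, some j)) else 0) *
            eg2Lin (fun j => R (d, none) * R (d, some j)) ∈ _
      rw [hsq i, e1, ← Finset.sum_sub_distrib]
      refine Submodule.sum_mem _ fun k _ => ?_
      rw [← sub_smul]
      by_cases hk : k.val < c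
      · exact Submodule.smul_mem _ _ (Submodule.subset_span ⟨g k, hgI k hk, rfl⟩)
      · have h3 : ∑ d : Fin n, (if c ≤ d.val then -(γ i d * (Y (d, none) * Y (d, some k))) else 0) =
            -∑ d : Fin n, (if c ≤ d.val then γ i d * (Y (d, none) * Y (d, some k)) else 0) := by
          rw [← Finset.sum_neg_distrib]
          refine Finset.sum_congr rfl fun d _ => ?_
          split_ifs <;> simp
        rw [h3, hγ i k (by omega), sub_neg_eq_add, neg_add_cancel, zero_smul]
        exact Submodule.zero_mem _
  · have ha : bt66_ext (n := n) (fun _ : Fin c => 2) N i = N := by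
      unfold bt66_ext
      rw [dif_neg hi]
    rw [ha]
    refine ⟨fun _ => 0, fun _ _ => rfl, fun _ => Submodule.zero_mem _, ?_⟩
    simp only [zero_mul, Finset.sum_const_zero, sub_zero]
    exact qk_deg_le N I hI (eg2d_pow (eg2d_lin _) N)
-- END K3

-- BEGIN K4
/-- POST K4: the linear systems of step 3 over `K = Frac F[Y]`. -/
theorem qk_gamma {F : Type} [Field F] {n N : ℕ} (e : Fin n × Option (Fin n) ≃ Fin N) (c₀ : ℕ) :
    ∃ γ : Fin n → Fin n → FractionRing (MvPolynomial (Fin N) F), ∀ i k : Fin n, c₀ ≤ k.val →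
      ∑ d : Fin n, (if c₀ ≤ d.val then γ i d *
        (algebraMap (MvPolynomial (Fin N) F) (FractionRing (MvPolynomial (Fin N) F)) (X (e (d, none))) *
          algebraMap (MvPolynomial (Fin N) F) (FractionRing (MvPolynomial (Fin N) F)) (X (e (d, some k)))) else 0) =
        algebraMap (MvPolynomial (Fin N) F) (FractionRing (MvPolynomial (Fin N) F)) (X (e (i, none))) *
          algebraMap (MvPolynomial (Fin N) F) (FractionRing (MvPolynomial (Fin N) F)) (X (e (i, some k))) := by
  classical
  let a : MvPolynomial (Fin N) F →+* FractionRing (MvPolynomial (Fin N) F) :=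
    algebraMap (MvPolynomial (Fin N) F) (FractionRing (MvPolynomial (Fin N) F))
  let W : Matrix (Fin n) (Fin n) (MvPolynomial (Fin N) F) := fun d k =>
    if c₀ ≤ d.val ∧ c₀ ≤ k.val then X (e (d, none)) * X (e (d, some k)) else if d = k then 1 else 0
  have hdet : W.det ≠ 0 := by
    intro h0
    let pt : Fin n × Option (Fin n) → F := fun p => match p with
      | (_, none) => 1
      | (d, some k) => if d = k then 1 else 0
    let ev : MvPolynomial (Fin N) F →+* F := MvPolynomial.eval (fun m : Fin N => pt (e.symm m))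
    have h1 : ev.mapMatrix W = 1 := by
      ext d k
      show ev (W d k) = _
      by_cases h : c₀ ≤ d.val ∧ c₀ ≤ k.val
      · simp [W, h, ev, pt, Matrix.one_apply]
      · have hW : W d k = if d = k then 1 else 0 := if_neg h
        rw [hW, Matrix.one_apply]
        by_cases hdk : d = k
        · rw [if_pos hdk, if_pos hdk, map_one]
        · rw [if_neg hdk, if_neg hdk, map_zero]
    have h2 := RingHom.map_det ev W
    rw [h0, map_zero, h1, Matrix.det_one] at h2
    exact zero_ne_one h2
  let WK : Matrix (Fin n) (Fin n) (FractionRing (MvPolynomial (Fin N) F)) := a.mapMatrix W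
  have hdetK : WK.det ≠ 0 := by
    have h5 : WK.det = a W.det := (RingHom.map_det a W).symm
    rw [h5]
    exact (map_ne_zero_iff a (IsFractionRing.injective (MvPolynomial (Fin N) F) _)).2 hdet
  have hunit : IsUnit WK.det := isUnit_iff_ne_zero.2 hdetK
  let v : Fin n → Fin n → FractionRing (MvPolynomial (Fin N) F) := fun i k =>
    if c₀ ≤ k.val then a (X (e (i, none))) * a (X (e (i, some k))) else 0
  refine ⟨fun i => Matrix.vecMul (v i) WK⁻¹, fun i k hk => ?_⟩
  have h3 : Matrix.vecMul (Matrix.vecMul (v i) WK⁻¹) WK = v i := by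
    rw [Matrix.vecMul_vecMul, Matrix.nonsing_inv_mul _ hunit, Matrix.vecMul_one]
  have h4 := congrFun h3 k
  have h6 : v i k = a (X (e (i, none))) * a (X (e (i, some k))) := if_pos hk
  rw [h6] at h4
  refine Eq.trans ?_ h4
  simp only [Matrix.vecMul, dotProduct]
  refine Finset.sum_congr rfl fun d _ => ?_
  have h7 : WK d k = a (W d k) := rfl
  rw [h7]
  by_cases hd : c₀ ≤ d.val
  · have h8 : W d k = X (e (d, none)) * X (e (d, some k)) := if_pos ⟨hd, hk⟩
    rw [if_pos hd, h8, map_mul]
  · have hne : d ≠ k := by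
      rintro rfl
      exact hd hk
    have h8 : W d k = 0 := by
      show (if c₀ ≤ d.val ∧ c₀ ≤ k.val then _ else if d = k then 1 else 0) = _
      rw [if_neg (fun h => hd h.1), if_neg hne]
    rw [if_neg hd, h8, map_zero, mul_zero]
-- END K4

-- BEGIN K5
theorem qk5_cross {F : Type} [Field F] {n : ℕ} (f : Fin n → MvPolynomial (Fin n) F)
    (c a b : Fin n × Option (Fin n)) (h : a.1 ≠ b.1) : qcBig f c a b = 0 := by
  simp only [qcBig, qcPow]
  rw [if_neg]
  rintro ⟨h1, h2⟩
  exact h (h1.trans h2.symm)

set_option linter.style.haveILetI false in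
/-- the abstract end: the centraliser of the Fock operators carries the data as soon as it is a domain -/
theorem qk5_abs {F : Type} [Field F] {n : ℕ} (f : Fin n → MvPolynomial (Fin n) F)
    {K : Type} [Field K] (i : F →+* K) {N : ℕ} (b : Fin N → Fin N → K)
    (e : Fin n × Option (Fin n) ≃ Fin N) (y : Fin n × Option (Fin n) → K)
    (hb : ∀ a a', b (e a) (e a') = ∑ c, y c * i (qcBig f c a a'))
    (hdom : IsDomain (qdCent K b))
    (hγ : ∀ c₀ : ℕ, ∃ γ : Fin n → Fin n → K, ∀ i k : Fin n, c₀ ≤ k.val →
      ∑ d : Fin n, (if c₀ ≤ d.val then γ i d * (y (d, none) * y (d, some k)) else 0) =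
        y (i, none) * y (i, some k)) : QkData F f := by
  classical
  letI : DivisionRing (qdCent K b) := divisionRingOfFiniteDimensional K (qdCent K b)
  letI : Algebra F (qdCent K b) := RingHom.toAlgebra' ((algebraMap K (qdCent K b)).comp i)
    (fun c x => Algebra.commutes (i c) x)
  let R : Fin n × Option (Fin n) → qdCent K b := fun a =>
    ⟨qf76_R b (e a), qd_mem_cent.2 fun a' => qf76_R_L b (e a) a'⟩
  let Y : Fin n × Option (Fin n) → qdCent K b := fun c => algebraMap K (qdCent K b) (y c)
  have hY : ∀ c x, Commute (Y c) x := fun c x => Algebra.commutes _ _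
  have hR : ∀ a a', R a * R a' + R a' * R a =
      ∑ c, Y c * algebraMap F (qdCent K b) (qcBig f c a a' + qcBig f c a' a) := by
    intro a a'
    have h1 : ∑ c, Y c * algebraMap F (qdCent K b) (qcBig f c a a' + qcBig f c a' a) =
        algebraMap K (qdCent K b) (b (e a) (e a') + b (e a') (e a)) := by
      rw [hb, hb, ← Finset.sum_add_distrib, map_sum]
      refine Finset.sum_congr rfl fun c _ => ?_
      change algebraMap K (qdCent K b) (y c) * algebraMap K (qdCent K b) (i _) = _
      rw [← map_mul, map_add, mul_add]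
    rw [h1]
    apply Subtype.ext
    have h3 := qf76_R_R b (e a) (e a')
    rw [← Algebra.algebraMap_eq_smul_one] at h3
    exact h3
  have hanti : ∀ a a' : Fin n × Option (Fin n), a.1 ≠ a'.1 → R a * R a' = - (R a' * R a) := by
    intro a a' haa
    have h := hR a a'
    rw [Finset.sum_eq_zero] at h
    · exact eq_neg_of_add_eq_zero_left h
    · intro c _
      rw [qk5_cross f c a a' haa, qk5_cross f c a' a haa.symm]
      simp
  have hrow := qb_rowcomm R hanti
  have hrow' : Qd273RowComm (fun i j => qf76_R b (e (i, none)) * qf76_R b (e (i, some j))) := by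
    intro i i' j j' hne
    have := hrow i i' j j' hne
    exact congrArg Subtype.val this
  have hΔ : qd273_det (fun i j => R (i, none) * R (i, some j)) hrow ≠ 0 := by
    intro h0
    have h1 := qb_det_map (qdCent K b).val.toRingHom (fun i j => R (i, none) * R (i, some j)) hrow hrow'
    rw [h0, map_zero] at h1
    exact qb_det_ne b e e.injective hrow' h1.symm
  refine ⟨qdCent K b, inferInstance, inferInstance, R, Y, hY, hR, qd273_cramer _ hrow hΔ, fun c₀ => ?_⟩
  obtain ⟨γ, hγ'⟩ := hγ c₀
  refine ⟨fun i d => algebraMap K (qdCent K b) (γ i d), fun i k hk => ?_⟩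
  have h := congrArg (algebraMap K (qdCent K b)) (hγ' i k hk)
  rw [map_sum, map_mul] at h
  rw [← h]
  refine Finset.sum_congr rfl fun d _ => ?_
  split_ifs
  · rw [map_mul, map_mul]
  · rw [map_zero]

/-- POST K5: the data exist (the assembly of `qc_box`, keeping the generators; `qk_gamma`). -/
theorem qk_data {F : Type} [Field F] [CharZero F] {n : ℕ} (g : Fin n → MvPolynomial (Fin n) F)
    (hg : ∀ k, (g k).IsHomogeneous 2)
    (hreg : RingTheory.Sequence.IsRegular (MvPolynomial (Fin n) F) (List.ofFn g)) : QkData F g := by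
  classical
  rcases Nat.eq_zero_or_pos n with rfl | hn
  · exact ⟨F, inferInstance, inferInstance, fun _ => 0, fun _ => 0, fun _ _ => Commute.all _ _,
      fun a => a.1.elim0, ⟨fun i => i.elim0, fun i => i.elim0⟩, fun _ => ⟨fun i => i.elim0, fun i => i.elim0⟩⟩
  obtain ⟨pk0⟩ := qc_pack_big g hg hreg
  obtain ⟨N, ⟨e⟩⟩ : ∃ N, Nonempty (Fin n × Option (Fin n) ≃ Fin N) :=
    ⟨_, ⟨Fintype.equivFin _⟩⟩
  have hN : 0 < N := by
    have := (e (⟨0, hn⟩, none)).2
    omega
  let B := qcRe e (qcBig g)
  let pk : QcPack B := pk0.reindex e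
  let b : Fin N → Fin N → FractionRing (MvPolynomial (Fin N) F) :=
    fun a c => algebraMap (MvPolynomial (Fin N) F) (FractionRing (MvPolynomial (Fin N) F)) (qcM B a c)
  have H : ∀ ρ : Module.End (FractionRing (MvPolynomial (Fin N) F))
      (Qf76Lam (FractionRing (MvPolynomial (Fin N) F)) N),
      (∀ a, Commute ρ (qf76_L b a)) → ρ ≠ 0 → Function.Injective ρ :=
    fun ρ hρ h0 => qd_inj_K hN B pk ρ hρ h0
  refine qk5_abs g
    ((algebraMap (MvPolynomial (Fin N) F) (FractionRing (MvPolynomial (Fin N) F))).comp C) b e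
    (fun c => algebraMap (MvPolynomial (Fin N) F) (FractionRing (MvPolynomial (Fin N) F)) (X (e c)))
    (fun a a' => ?_) (qd_isDomain b H) (fun c₀ => qk_gamma e c₀)
  change algebraMap _ _ (qcM B (e a) (e a')) = _
  unfold qcM
  rw [map_sum, ← Equiv.sum_comp e]
  refine Finset.sum_congr rfl fun c _ => ?_
  rw [map_mul]
  simp [B, qcRe]
-- END K5

/-- the ideal `I + 𝔪^N` -/
def qkCut {F : Type} [Field F] {n : ℕ} (I : Ideal (MvPolynomial (Fin n) F)) (N : ℕ) :
    Ideal (MvPolynomial (Fin n) F) :=
  I ⊔ Ideal.span ((homogeneousSubmodule (Fin n) F N : Submodule F (MvPolynomial (Fin n) F)) :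
    Set (MvPolynomial (Fin n) F))

/-- **the box of `I + 𝔪^N`** for `c ≤ n` quadrics -/
theorem qk_box (F : Type) [Field F] [CharZero F] (n c : ℕ) (hc : c ≤ n)
    (I : Ideal (MvPolynomial (Fin n) F))
    (f : Fin c → MvPolynomial (Fin n) F) (hfdeg : ∀ i, f i ∈ homogeneousSubmodule (Fin n) F 2)
    (hfI : ∀ i, f i ∈ I) (hreg : RingTheory.Sequence.IsRegular (MvPolynomial (Fin n) F) (List.ofFn f))
    (N : ℕ) : Eg2Box F n (bt66_ext (fun _ : Fin c => 2) N) (qkCut I N) := by
  obtain ⟨g, hgf, hgdeg, hgreg⟩ := bt66_extend F n c hc (fun _ => 2) (fun _ => by norm_num) f hfdeg hreg 2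
    (by norm_num)
  have hg : ∀ k, (g k).IsHomogeneous 2 := by
    intro k
    have h := hgdeg k
    rw [mem_homogeneousSubmodule] at h
    have h2 : bt66_ext (n := n) (fun _ : Fin c => 2) 2 k = 2 := by
      unfold bt66_ext
      split_ifs <;> rfl
    rwa [h2] at h
  refine qk_box_of_data two_ne_zero g hg (qk_data g hg hgreg) c N (qkCut I N) (fun k hk => ?_)
    (fun α hα => ?_)
  · have h1 : g k = f ⟨k.val, hk⟩ := by
      rw [← hgf ⟨k.val, hk⟩]
      congr 1
    rw [h1]
    exact Ideal.mem_sup_left (hfI _)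
  · refine Ideal.mem_sup_right (Ideal.subset_span ?_)
    rw [SetLike.mem_coe, mem_homogeneousSubmodule]
    have := isHomogeneous_monomial (R := F) (1 : F) (d := α) (n := N) (by
      rw [Finsupp.degree_eq_sum]; exact hα)
    exact this

section egh
open Claims.C0450

open Classical in
/-- contract A for `c ≤ n` quadrics (the truncation proof of `egh26_coreA_of_artinian_step`, with the box of `I + 𝔪^N`) -/
theorem qk_coreA (F : Type) [Field F] [CharZero F] (n c : ℕ) (hc : c ≤ n)
    (I : Ideal (MvPolynomial (Fin n) F)) (hI : IsHomogeneousIdeal I)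
    (f : Fin c → MvPolynomial (Fin n) F) (hfdeg : ∀ i, f i ∈ homogeneousSubmodule (Fin n) F 2)
    (hfI : ∀ i, f i ∈ I)
    (hreg : RingTheory.Sequence.IsRegular (MvPolynomial (Fin n) F) (List.ofFn f)) :
    EgCoreA hc (fun _ : Fin c => 2) I := by
  have key : ∀ N₀ : ℕ, ∃ (N : ℕ) (I' : Ideal (MvPolynomial (Fin n) F)), N₀ ≤ N ∧
      (∀ d, d < N → degPart I' d = degPart I d) ∧
      (∀ m ∈ egh26_lppSet (le_refl n) (egh26_ext (fun _ : Fin c => 2) N) I', ∀ i,
        Function.update m i (m i + 1) ∈ egh26_lppSet (le_refl n) (egh26_ext (fun _ : Fin c => 2) N) I') ∧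
      (∀ d, Module.finrank F (degPart I' d) = ((Finset.Nat.antidiagonalTuple n d).filter
        (· ∈ egh26_lppSet (le_refl n) (egh26_ext (fun _ : Fin c => 2) N) I')).card) := by
    intro N₀
    obtain ⟨hI', hdeg⟩ := egh26_add_forms I hI (N₀ + 2)
      ((homogeneousSubmodule (Fin n) F (N₀ + 2) : Submodule F (MvPolynomial (Fin n) F)) :
        Set (MvPolynomial (Fin n) F)) (fun q hq => hq)
    have hm' := egh26_ext_mono (n := n) (fun _ : Fin c => 2) (N₀ + 2) monotone_const (fun _ => by omega)
    have ha1 : ∀ i, 1 ≤ egh26_ext (n := n) (fun _ : Fin c => 2) (N₀ + 2) i := fun i => by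
      have := egh26_ext_two_le (n := n) (fun _ : Fin c => 2) (N₀ + 2) (fun _ => le_rfl) (by omega) i
      omega
    obtain ⟨_, ⟨J, hJ⟩, h3⟩ := eg_roof (le_refl n) (egh26_ext (fun _ : Fin c => 2) (N₀ + 2)) (qkCut I (N₀ + 2))
      (hub278_CL n n (le_refl n) _ hm')
      (art266_core F n _ ha1 _ hI' (qk_box F n c hc I f hfdeg hfI hreg (N₀ + 2)))
    refine ⟨N₀ + 2, qkCut I (N₀ + 2), by omega, hdeg, ?_, ?_⟩
    · rw [egh26_lppMonomials] at hJ
      exact egh26_up_of_ideal _ J hJ
    · intro d
      rw [h3 d, egh26_lppMonomials, eg_finrank_span]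
  refine ⟨egh26_lppSet hc (fun _ : Fin c => 2) I, ?_, fun m hm => Or.inl hm, ?_⟩
  · intro m hm i
    obtain ⟨N, I', hN, hdeg, hup, _⟩ := key (∑ j, m j + 2)
    have hfr : ∀ d, d < N → Module.finrank F (degPart I' d) = Module.finrank F (degPart I d) :=
      fun d hd => by rw [hdeg d hd]
    have h1 := (egh26_lppSet_trunc hc (fun _ : Fin c => 2) N I I' hfr m (by omega)).mpr hm
    have h2 := hup m h1 i
    exact (egh26_lppSet_trunc hc (fun _ : Fin c => 2) N I I' hfr _ (by rw [eg_sum_update]; omega)).mp h2
  · intro d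
    obtain ⟨N, I', hN, hdeg, _, hcard⟩ := key (d + 1)
    have hfr : ∀ d, d < N → Module.finrank F (degPart I' d) = Module.finrank F (degPart I d) :=
      fun d hd => by rw [hdeg d hd]
    rw [← hdeg d (by omega), hcard d]
    congr 1
    apply Finset.filter_congr
    intro m hm
    rw [Finset.Nat.mem_antidiagonalTuple] at hm
    exact egh26_lppSet_trunc hc (fun _ : Fin c => 2) N I I' hfr m (by omega)

/-- **EGH for `c ≤ n` quadrics in `n` variables**: the frozen words of S0522 with `a = fun _ => 2`, characteristic zero. -/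
theorem hub278_S0522_quadrics_cut (F : Type) [Field F] [CharZero F] (n c : ℕ) (hc : c ≤ n)
    (I : Ideal (MvPolynomial (Fin n) F)) (hI : IsHomogeneousIdeal I)
    (f : Fin c → MvPolynomial (Fin n) F) (hfdeg : ∀ i, f i ∈ homogeneousSubmodule (Fin n) F 2)
    (hfI : ∀ i, f i ∈ I) (hreg : RingTheory.Sequence.IsRegular (MvPolynomial (Fin n) F) (List.ofFn f)) :
    (∀ d : ℕ, 0 ≤ qDim hc (fun _ => 2) I d ∧ qDim hc (fun _ => 2) I d ≤ (nonPowerMonomials hc (fun _ => 2) d).card) ∧
      (∃ J : Ideal (MvPolynomial (Fin n) F),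
        J.restrictScalars F = Submodule.span F (lppMonomials hc (fun _ => 2) I)) ∧
      ∀ d : ℕ, Module.finrank F (degPart I d) =
        Module.finrank F (Submodule.span F (lppMonomials hc (fun _ => 2) I) ⊓
          homogeneousSubmodule (Fin n) F d : Submodule F (MvPolynomial (Fin n) F)) :=
  eg_roof hc (fun _ => 2) I (hub278_CL n c hc _ monotone_const) (qk_coreA F n c hc I hI f hfdeg hfI hreg)

end egh

section betti
open Claims.C0451

/-- the Betti bound for `c ≤ n` quadrics over an algebraically closed field (the truncation proof of `bt66_S0523_of_wall`) -/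
theorem qk_S0523_closed (E : Type) [Field E] [CharZero E] [IsAlgClosed E] (n c : ℕ) (hc : c ≤ n)
    (I : Ideal (MvPolynomial (Fin n) E)) (hI : IsHomogeneousIdeal I)
    (f : Fin c → MvPolynomial (Fin n) E) (hfdeg : ∀ i, f i ∈ homogeneousSubmodule (Fin n) E 2)
    (hfI : ∀ i, f i ∈ I) (hreg : RingTheory.Sequence.IsRegular (MvPolynomial (Fin n) E) (List.ofFn f)) :
    ∀ p j : ℕ, gradedBetti I p j ≤ gradedBetti (bt66_ideal E (bt66_lppSet hc (fun _ => 2) I)) p j := by
  intro p j
  obtain ⟨hI', hdeg⟩ := bt66_add_forms I hI (j + 2)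
    ((homogeneousSubmodule (Fin n) E (j + 2) : Submodule E (MvPolynomial (Fin n) E)) :
      Set (MvPolynomial (Fin n) E)) (fun q hq => hq)
  have ha' : ∀ i : Fin n, 2 ≤ bt66_ext (fun _ : Fin c => 2) (j + 2) i := by
    intro i
    unfold bt66_ext
    split_ifs with h
    · exact le_rfl
    · omega
  have hmono' : Monotone (bt66_ext (n := n) (fun _ : Fin c => 2) (j + 2)) := by
    intro i k hik
    unfold bt66_ext
    have hik' : i.val ≤ k.val := hik
    split_ifs with h1 h2 h2
    · exact le_rfl
    · show 2 ≤ j + 2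
      omega
    · omega
    · exact le_rfl
  have hmain := hub278_S0523_of_box E n (bt66_ext (fun _ : Fin c => 2) (j + 2)) ha' hmono' (qkCut I (j + 2)) hI'
    (qk_box E n c hc I f hfdeg hfI hreg (j + 2)) p j
  rw [bt66_span_lpp] at hmain
  have h1 : gradedBetti (qkCut I (j + 2)) p j = gradedBetti I p j :=
    bt66_betti_trunc (qkCut I (j + 2)) I hI' hI p j (fun d hd => hdeg d (by omega))
  have h2 : gradedBetti (bt66_ideal E (bt66_lppSet (le_refl n) (bt66_ext (fun _ : Fin c => 2) (j + 2))
      (qkCut I (j + 2)))) p j = gradedBetti (bt66_ideal E (bt66_lppSet hc (fun _ => 2) I)) p j :=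
    bt66_betti_trunc _ _ (bt66_ideal_homog E _) (bt66_ideal_homog E _) p j (fun d hd =>
      bt66_degPart_ideal_trunc E _ _ (j + 2)
        (fun m hm => bt66_lppSet_trunc hc (fun _ => 2) (j + 2) I (qkCut I (j + 2)) hdeg m hm) d (by omega))
  rw [h1, h2] at hmain
  exact hmain

/-- **the lex-plus-powers Betti bound for `c ≤ n` quadrics in `n` variables**: the frozen words of S0523 with `a = fun _ => 2`,
every field of characteristic zero. -/
theorem hub278_S0523_quadrics_cut (F : Type) [Field F] [CharZero F] (n c : ℕ) (hc : c ≤ n)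
    (I : Ideal (MvPolynomial (Fin n) F)) (hI : IsHomogeneousIdeal I)
    (f : Fin c → MvPolynomial (Fin n) F) (hfdeg : ∀ i, f i ∈ homogeneousSubmodule (Fin n) F 2)
    (hfI : ∀ i, f i ∈ I) (hreg : RingTheory.Sequence.IsRegular (MvPolynomial (Fin n) F) (List.ofFn f)) :
    ∀ p j : ℕ, gradedBetti I p j ≤ gradedBetti (Ideal.span (lppMonomials hc (fun _ => 2) I)) p j := by
  intro p j
  let E := AlgebraicClosure F
  let φ : F →+* E := algebraMap F E
  have : CharZero E := charZero_of_injective_algebraMap (algebraMap F E).injective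
  have hmain := qk_S0523_closed E n c hc (I.map (MvPolynomial.map φ)) (bt66_homog_map φ I hI)
    (fun i => MvPolynomial.map φ (f i))
    (fun i => by
      have := hfdeg i
      rw [mem_homogeneousSubmodule] at this ⊢
      exact this.map φ)
    (fun i => Ideal.mem_map_of_mem _ (hfI i)) (bt66_regular_map φ f hreg) p j
  have hset : bt66_lppSet hc (fun _ => 2) (I.map (MvPolynomial.map φ)) =
      bt66_lppSet hc (fun _ => 2) I :=
    bt66_lppSet_congr _ _ _ _ (fun d => bt66_finrank_map φ I hI d)
  rw [bt66_span_lpp]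
  rw [bt66_betti_map φ I hI, hset, ← bt66_ideal_map φ,
    bt66_betti_map φ _ (bt66_ideal_homog F _)] at hmain
  exact hmain

end betti

/-! ## The two frozen statements, VERBATIM, with ONE more hypothesis: `h2 : ∀ i, a i = 2` -/

section verbatim522
open Claims Claims.C0450

/-- **S0522 verbatim + `∀ i, a i = 2`.** -/
theorem qk_S0522_of_all_two (F : Type) [Field F] [CharZero F] (n c : ℕ) (_hc1 : 1 ≤ c) (hc : c ≤ n)
    (a : Fin c → ℕ) (_ha : ∀ i, 2 ≤ a i) (_hmono : Monotone a)
    (I : Ideal (MvPolynomial (Fin n) F)) (hI : IsHomogeneousIdeal I)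
    (f : Fin c → MvPolynomial (Fin n) F) (hfdeg : ∀ i, f i ∈ homogeneousSubmodule (Fin n) F (a i))
    (hfI : ∀ i, f i ∈ I) (hreg : RingTheory.Sequence.IsRegular (MvPolynomial (Fin n) F) (List.ofFn f))
    (h2 : ∀ i, a i = 2) :
    (∀ d : ℕ, 0 ≤ qDim hc a I d ∧ qDim hc a I d ≤ (nonPowerMonomials hc a d).card) ∧
      (∃ J : Ideal (MvPolynomial (Fin n) F),
        J.restrictScalars F = Submodule.span F (lppMonomials hc a I)) ∧
      ∀ d : ℕ, Module.finrank F (degPart I d) =
        Module.finrank F (Submodule.span F (lppMonomials hc a I) ⊓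
          homogeneousSubmodule (Fin n) F d : Submodule F (MvPolynomial (Fin n) F)) := by
  obtain rfl : a = fun _ => 2 := funext h2
  exact hub278_S0522_quadrics_cut F n c hc I hI f hfdeg hfI hreg

end verbatim522

section verbatim523
open Claims Claims.C0451

/-- **S0523 verbatim + `∀ i, a i = 2`.** -/
theorem qk_S0523_of_all_two (F : Type) [Field F] [CharZero F] (n c : ℕ) (_hc1 : 1 ≤ c) (hc : c ≤ n)
    (a : Fin c → ℕ) (_ha : ∀ i, 2 ≤ a i) (_hmono : Monotone a)
    (I : Ideal (MvPolynomial (Fin n) F)) (hI : IsHomogeneousIdeal I)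
    (f : Fin c → MvPolynomial (Fin n) F) (hfdeg : ∀ i, f i ∈ homogeneousSubmodule (Fin n) F (a i))
    (hfI : ∀ i, f i ∈ I) (hreg : RingTheory.Sequence.IsRegular (MvPolynomial (Fin n) F) (List.ofFn f))
    (h2 : ∀ i, a i = 2) :
    ∀ p j : ℕ, gradedBetti I p j ≤ gradedBetti (Ideal.span (lppMonomials hc a I)) p j := by
  obtain rfl : a = fun _ => 2 := funext h2
  exact hub278_S0523_quadrics_cut F n c hc I hI f hfdeg hfI hreg

end verbatim523

/-! ## The original form of the conjecture of Eisenbud, Green and Harris: the Hilbert function is an `f`-vector -/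

section fvector
open Claims Claims.C0450

/-- the exponent vector of a squarefree monomial -/
def qkInd {n : ℕ} (T : Finset (Fin n)) : Fin n → ℕ := fun i => if i ∈ T then 1 else 0

theorem qk_ind_injective {n : ℕ} : Function.Injective (qkInd (n := n)) := by
  intro T U h
  ext i
  have := congrFun h i
  by_cases h1 : i ∈ T <;> by_cases h2 : i ∈ U <;> simp_all [qkInd]

theorem qk_ind_sum {n : ℕ} (T : Finset (Fin n)) : ∑ i, qkInd T i = T.card := by
  simp [qkInd, Finset.sum_ite_mem]

theorem qk_ind_up {n : ℕ} (M : Set (Fin n → ℕ)) (h1 : ∀ m ∈ M, ∀ i, Function.update m i (m i + 1) ∈ M)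
    (U : Finset (Fin n)) (hU : qkInd U ∈ M) (S : Finset (Fin n)) : qkInd (U ∪ S) ∈ M := by
  classical
  induction S using Finset.induction_on with
  | empty => simpa using hU
  | insert a S _ ih =>
    by_cases ha : a ∈ U ∪ S
    · have : U ∪ insert a S = U ∪ S := by
        rw [Finset.union_insert, Finset.insert_eq_of_mem ha]
      rw [this]; exact ih
    · have h := h1 _ ih a
      have e : Function.update (qkInd (U ∪ S)) a (qkInd (U ∪ S) a + 1) = qkInd (U ∪ insert a S) := by
        funext i
        by_cases hi : i = a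
        · subst hi
          simp [qkInd, ha]
        · rw [Function.update_of_ne hi]
          simp [qkInd, hi]
      rwa [e] at h

open Classical in
/-- **EGH for quadrics, in the words of Eisenbud, Green and Harris**: if a homogeneous ideal `I` of `F[x_1..x_n]` (characteristic zero) contains a regular
sequence of `n` quadrics, then the Hilbert function of `F[x]/I` is the `f`-vector of a simplicial complex `Δ` on `n` vertices:
`#{T ∈ Δ : |T| = d} + dim I_d = dim F[x]_d` for every `d`. -/
theorem qk_fvector (F : Type) [Field F] [CharZero F] (n : ℕ)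
    (I : Ideal (MvPolynomial (Fin n) F)) (hI : IsHomogeneousIdeal I)
    (f : Fin n → MvPolynomial (Fin n) F) (hfdeg : ∀ i, f i ∈ homogeneousSubmodule (Fin n) F 2)
    (hfI : ∀ i, f i ∈ I) (hreg : RingTheory.Sequence.IsRegular (MvPolynomial (Fin n) F) (List.ofFn f)) :
    ∃ Δ : Finset (Finset (Fin n)), (∀ T ∈ Δ, ∀ U, U ⊆ T → U ∈ Δ) ∧
      ∀ d : ℕ, (Δ.filter fun T => T.card = d).card + Module.finrank F (degPart I d) =
        Module.finrank F (homogeneousSubmodule (Fin n) F d) := by
  obtain ⟨M, h1, h2, h3⟩ := qk_coreA F n n le_rfl I hI f hfdeg hfI hreg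
  refine ⟨Finset.univ.filter fun T => qkInd T ∉ M, ?_, fun d => ?_⟩
  · intro T hT U hUT
    simp only [Finset.mem_filter, Finset.mem_univ, true_and] at hT ⊢
    intro hU
    apply hT
    have := qk_ind_up M h1 U hU T
    rwa [Finset.union_eq_right.2 hUT] at this
  · rw [h3 d, r278h_finrank_homog d,
      ← Finset.card_filter_add_card_filter_not (s := Finset.Nat.antidiagonalTuple n d) (fun m => m ∈ M), add_comm]
    congr 1
    rw [← Finset.card_image_of_injective _ qk_ind_injective]
    congr 1
    ext m
    simp only [Finset.mem_image, Finset.mem_filter, Finset.mem_univ, true_and,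
      Finset.Nat.mem_antidiagonalTuple]
    constructor
    · rintro ⟨T, ⟨hT, hc⟩, rfl⟩
      exact ⟨by rw [qk_ind_sum, hc], hT⟩
    · rintro ⟨hs, hm⟩
      have hle : ∀ i, m i ≤ 1 := by
        intro i
        by_contra hcon
        apply hm
        apply h2
        simp only [inPowers, decide_eq_true_eq]
        exact ⟨i, by simpa using (by omega : 2 ≤ m i)⟩
      have e : qkInd (Finset.univ.filter fun i => m i = 1) = m := by
        funext i
        have := hle i
        by_cases h : m i = 1
        · simp [qkInd, h]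
        · simp only [qkInd, Finset.mem_filter, Finset.mem_univ, true_and, h, if_false]
          omega
      refine ⟨Finset.univ.filter fun i => m i = 1, ⟨by rw [e]; exact hm, ?_⟩, e⟩
      rw [← qk_ind_sum, e, hs]

end fvector

section multicomplex
open Claims Claims.C0450

theorem qk_up_add {n : ℕ} (M : Set (Fin n → ℕ)) (h1 : ∀ m ∈ M, ∀ i, Function.update m i (m i + 1) ∈ M)
    (m : Fin n → ℕ) (hm : m ∈ M) (i : Fin n) (k : ℕ) : Function.update m i (m i + k) ∈ M := by
  induction k with
  | zero => simpa using hm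
  | succ k ih =>
    have h := h1 _ ih i
    simpa [Function.update_idem, add_assoc] using h

theorem qk_up_le {n : ℕ} (M : Set (Fin n → ℕ)) (h1 : ∀ m ∈ M, ∀ i, Function.update m i (m i + 1) ∈ M)
    (m m' : Fin n → ℕ) (hm : m ∈ M) (hle : ∀ i, m i ≤ m' i) : m' ∈ M := by
  classical
  have key : ∀ S : Finset (Fin n), (fun i => if i ∈ S then m' i else m i) ∈ M := by
    intro S
    induction S using Finset.induction_on with
    | empty => simpa using hm
    | insert a S ha ih =>
      have h := qk_up_add M h1 _ ih a (m' a - m a)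
      have e : Function.update (fun i => if i ∈ S then m' i else m i) a
          ((fun i => if i ∈ S then m' i else m i) a + (m' a - m a)) =
          fun i => if i ∈ insert a S then m' i else m i := by
        funext i
        by_cases hi : i = a
        · subst hi
          have := hle i
          simp [ha]
          omega
        · rw [Function.update_of_ne hi]
          simp [hi]
      rwa [e] at h
  simpa using key Finset.univ

open Classical in
/-- **EGH for `c ≤ n` quadrics, multicomplex form**: the Hilbert function of `F[x]/I` is that of a set of monomials closed under divisors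
in which the first `c` variables occur at most once. -/
theorem qk_multicomplex (F : Type) [Field F] [CharZero F] (n c : ℕ) (hc : c ≤ n)
    (I : Ideal (MvPolynomial (Fin n) F)) (hI : IsHomogeneousIdeal I)
    (f : Fin c → MvPolynomial (Fin n) F) (hfdeg : ∀ i, f i ∈ homogeneousSubmodule (Fin n) F 2)
    (hfI : ∀ i, f i ∈ I) (hreg : RingTheory.Sequence.IsRegular (MvPolynomial (Fin n) F) (List.ofFn f)) :
    ∃ O : Set (Fin n → ℕ), (∀ m ∈ O, ∀ m' : Fin n → ℕ, (∀ i, m' i ≤ m i) → m' ∈ O) ∧
      (∀ m ∈ O, ∀ i : Fin c, m (Fin.castLE hc i) ≤ 1) ∧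
      ∀ d : ℕ, ((Finset.Nat.antidiagonalTuple n d).filter (· ∈ O)).card + Module.finrank F (degPart I d) =
        Module.finrank F (homogeneousSubmodule (Fin n) F d) := by
  obtain ⟨M, h1, h2, h3⟩ := qk_coreA F n c hc I hI f hfdeg hfI hreg
  refine ⟨Mᶜ, fun m hm m' hle hm' => hm (qk_up_le M h1 m' m hm' hle), fun m hm i => ?_, fun d => ?_⟩
  · by_contra hcon
    apply hm
    apply h2
    simp only [inPowers, decide_eq_true_eq]
    exact ⟨i, by omega⟩
  · rw [h3 d, r278h_finrank_homog d,
      ← Finset.card_filter_add_card_filter_not (s := Finset.Nat.antidiagonalTuple n d) (fun m => m ∈ M), add_comm]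
    congr 2
    ext m
    simp only [Finset.mem_filter, Set.mem_compl_iff]

end multicomplex

end Claimed.Agent.R278
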