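-- KEEP
/-
R278 / TBasis246 (pen 246, prefix `tb246_`): leaf TB of `Mono66.lean`:
commuting linear forms that are a left basis of `D[x]_1` give a left `D`-linear equivalence
`θ : D[x] ≃ model` with `θ (w t_i) = shift_i (θ w)`, degrees kept.  `θ` is the inverse of `eg2Psi` of `Sec2Box.lean`.
-/
import Claimed.Agent.R278.MonoVoc66

set_option autoImplicit false

open MvPolynomial

namespace Claimed.Agent.R278

section

variable {D : Type} [DivisionRing D] {n : ℕ}

theorem tb246_pi_add (d : ℕ) (x y : Eg2N D n) :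
    eg2Pi D n d (x + y) = eg2Pi D n d x + eg2Pi D n d y := by
  ext α
  simp only [eg2Pi_coeff, AddMonoidAlgebra.coeff_add, Finsupp.add_apply]
  split_ifs <;> simp

theorem tb246_pi_zero (d : ℕ) : eg2Pi D n d (0 : Eg2N D n) = 0 := by
  ext α; simp [eg2Pi_coeff]

theorem tb246_pi_of_deg {d e : ℕ} {y : Eg2N D n} (hy : y ∈ eg2Deg D n e) :
    eg2Pi D n d y = if e = d then y else 0 := by
  ext α
  rw [eg2Pi_coeff]
  by_cases h0 : y.coeff α = 0
  · split_ifs <;> simp [h0]
  · have := hy α h0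
    rw [this]
    split_ifs <;> simp

theorem tb246_pi_mem (d : ℕ) (y : Eg2N D n) : eg2Pi D n d y ∈ eg2Deg D n d := by
  intro α hα
  rw [eg2Pi_coeff] at hα
  by_contra h
  rw [if_neg h] at hα
  exact hα rfl

variable (T : Bt66Forms D n)

theorem tb246_pi_psi (d : ℕ) (f : Eg2N D n) :
    eg2Pi D n d (eg2Psi (fun i => eg2Lin (T.τ i)) T.comm f)
      = eg2Psi (fun i => eg2Lin (T.τ i)) T.comm (eg2Pi D n d f) := by
  induction f using AddMonoidAlgebra.induction_linear with
  | zero => simp [tb246_pi_zero]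
  | add f g hf hg => rw [map_add, tb246_pi_add, tb246_pi_add, map_add, hf, hg]
  | single α c =>
    have h1 : AddMonoidAlgebra.single α c ∈ eg2Deg D n (∑ i, α i) := eg2d_single α c rfl
    have h2 := eg2Psi_deg (fun i => eg2Lin (T.τ i)) T.comm (fun i => eg2d_lin (T.τ i)) h1
    rw [tb246_pi_of_deg h1, tb246_pi_of_deg h2]
    split_ifs <;> simp

theorem tb246_psi_inj : Function.Injective (eg2Psi (fun i => eg2Lin (T.τ i)) T.comm) := by
  refine (injective_iff_map_eq_zero _).2 fun f hf => ?_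
  ext α
  have h1 : eg2Psi (fun i => eg2Lin (T.τ i)) T.comm (eg2Pi D n (∑ i, α i) f) = 0 := by
    rw [← tb246_pi_psi, hf, tb246_pi_zero]
  have h2 := eg2Psi_inj T.τ T.σ T.inv T.comm _ (tb246_pi_mem _ f) h1
  have h3 := congrArg (fun x : Eg2N D n => x.coeff α) h2
  simpa [eg2Pi_coeff] using h3

theorem tb246_psi_surj : Function.Surjective (eg2Psi (fun i => eg2Lin (T.τ i)) T.comm) := by
  intro y
  induction y using AddMonoidAlgebra.induction_linear with
  | zero => exact ⟨0, map_zero _⟩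
  | add f g hf hg =>
    obtain ⟨a, rfl⟩ := hf
    obtain ⟨b, rfl⟩ := hg
    exact ⟨a + b, map_add _ _ _⟩
  | single α c =>
    obtain ⟨x, -, hx⟩ := eg2Psi_surj T.τ T.σ T.inv T.comm _ (eg2d_single α c rfl)
    exact ⟨x, hx⟩

/-- `eg2Psi` as an equivalence -/
noncomputable def tb246_psiE : Eg2N D n ≃ₗ[D] Eg2N D n :=
  LinearEquiv.ofBijective (eg2Psi (fun i => eg2Lin (T.τ i)) T.comm)
    ⟨tb246_psi_inj T, tb246_psi_surj T⟩

theorem tb246_psiE_apply (f : Eg2N D n) :
    tb246_psiE T f = eg2Psi (fun i => eg2Lin (T.τ i)) T.comm f := rfl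

/-- coefficients, exponents as functions -/
noncomputable def tb246_kap (D : Type) [DivisionRing D] (n : ℕ) :
    Eg2N D n ≃ₗ[D] ((Fin n → ℕ) →₀ D) :=
  (AddMonoidAlgebra.coeffLinearEquiv D).trans (Finsupp.domLCongr Finsupp.equivFunOnFinite)

theorem tb246_kap_single (α : Fin n →₀ ℕ) (c : D) :
    tb246_kap D n (AddMonoidAlgebra.single α c) = Finsupp.single (⇑α) c := by
  show (Finsupp.domLCongr Finsupp.equivFunOnFinite :
    ((Fin n →₀ ℕ) →₀ D) ≃ₗ[D] ((Fin n → ℕ) →₀ D)) (Finsupp.single α c) = _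
  rw [Finsupp.domLCongr_single]
  rfl

theorem tb246_kap_apply (f : Eg2N D n) (α : Fin n →₀ ℕ) :
    tb246_kap D n f (⇑α) = f.coeff α := by
  induction f using AddMonoidAlgebra.induction_linear with
  | zero => simp
  | add f g hf hg => rw [map_add, Finsupp.add_apply, hf, hg]; rfl
  | single β c =>
    classical
    rw [tb246_kap_single, AddMonoidAlgebra.coeff_single, Finsupp.single_apply, Finsupp.single_apply]
    simp only [DFunLike.coe_fn_eq]

theorem tb246_kap_mul_X (f : Eg2N D n) (i : Fin n) :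
    tb246_kap D n (f * AddMonoidAlgebra.single (Finsupp.single i 1) 1)
      = bt66_shD D Set.univ i (tb246_kap D n f) := by
  induction f using AddMonoidAlgebra.induction_linear with
  | zero => simp
  | add f g hf hg => rw [add_mul, map_add, map_add, map_add, hf, hg]
  | single α c =>
    rw [AddMonoidAlgebra.single_mul_single, mul_one, tb246_kap_single, tb246_kap_single,
      bt66_shD_single, if_pos ⟨Set.mem_univ _, Set.mem_univ _⟩]
    congr 1
    funext k
    simp [Finsupp.single_apply, Pi.single_apply, eq_comm]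

theorem tb246_kap_deg (e : ℕ) (f : Eg2N D n) :
    tb246_kap D n f ∈ bt66_pcD D Set.univ e ↔ f ∈ eg2Deg D n e := by
  unfold bt66_pcD
  rw [Finsupp.mem_supported']
  constructor
  · intro h α hα
    by_contra hne
    apply hα
    rw [← tb246_kap_apply]
    exact h _ (fun hmem => hne hmem.2)
  · intro h u hu
    by_contra hne
    apply hu
    refine ⟨Set.mem_univ _, ?_⟩
    have h1 : u = ⇑(Finsupp.equivFunOnFinite.symm u) := by simp
    rw [h1, tb246_kap_apply] at hne
    have := h _ hne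
    simpa using this

theorem tb246_symm_deg {e : ℕ} {w : Eg2N D n} (hw : w ∈ eg2Deg D n e) :
    (tb246_psiE T).symm w ∈ eg2Deg D n e := by
  obtain ⟨x, hx, hxw⟩ := eg2Psi_surj T.τ T.σ T.inv T.comm e hw
  have : (tb246_psiE T).symm w = x := by
    rw [LinearEquiv.symm_apply_eq, tb246_psiE_apply]
    exact hxw.symm
  rw [this]
  exact hx

/-- **Leaf TB** (statement of `bt66_tbasis`, verbatim). -/
theorem tb246_tbasis (D : Type) [DivisionRing D] (n : ℕ) (T : Bt66Forms D n) :
    ∃ θ : Eg2N D n ≃ₗ[D] ((Fin n → ℕ) →₀ D),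
      θ 1 = Finsupp.single 0 1 ∧
      (∀ i w, θ (w * eg2Lin (T.τ i)) = bt66_shD D Set.univ i (θ w)) ∧
      ∀ e, (eg2Deg D n e).map (θ : Eg2N D n →ₗ[D] ((Fin n → ℕ) →₀ D)) = bt66_pcD D Set.univ e := by
  refine ⟨(tb246_psiE T).symm.trans (tb246_kap D n), ?_, ?_, ?_⟩
  · have h1 : (tb246_psiE T).symm 1 = 1 := by
      rw [LinearEquiv.symm_apply_eq, tb246_psiE_apply, AddMonoidAlgebra.one_def, eg2Psi_single,
        eg2T_zero, one_smul]
      rfl
    rw [LinearEquiv.trans_apply, h1, AddMonoidAlgebra.one_def, tb246_kap_single]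
    rfl
  · intro i w
    rw [LinearEquiv.trans_apply, LinearEquiv.trans_apply, ← tb246_kap_mul_X]
    congr 1
    rw [LinearEquiv.symm_apply_eq, tb246_psiE_apply, eg2Psi_mul_X, ← tb246_psiE_apply,
      LinearEquiv.apply_symm_apply]
  · intro e
    ext g
    constructor
    · rintro ⟨w, hw, rfl⟩
      exact (tb246_kap_deg e _).2 (tb246_symm_deg T hw)
    · intro hg
      have h1 : (tb246_kap D n).symm g ∈ eg2Deg D n e := by
        rw [← tb246_kap_deg, LinearEquiv.apply_symm_apply]
        exact hg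
      refine ⟨tb246_psiE T ((tb246_kap D n).symm g), ?_, ?_⟩
      · exact eg2Psi_deg _ T.comm (fun i => eg2d_lin (T.τ i)) h1
      · show (tb246_kap D n) ((tb246_psiE T).symm (tb246_psiE T ((tb246_kap D n).symm g))) = g
        rw [LinearEquiv.symm_apply_apply, LinearEquiv.apply_symm_apply]

end

end Claimed.Agent.R278
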