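-- KEEP
/-
Row 278 (S0523), leaf TR `bt66_transfer` of `R278/Mono66` (Lemma 3.1 of the Betti paper):
the INSTANCE of the Manin transfer `tr136_rank_transfer` (seat 136) on `Q = D[x] / D·I`.
Pen helper26 (second rope), prefix `tri26_`.
-/
import Claimed.Agent.R278.Transfer136
import Claimed.Agent.R278.MonoVoc66

set_option autoImplicit false

open MvPolynomial Claims.C0451

namespace Claimed.Agent.R278

section inst

variable {F : Type} [Field F] (D : Type) [DivisionRing D] [Algebra F D] {n : ℕ}
  (I : Ideal (MvPolynomial (Fin n) F))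

/-- the constant `d` of `D[x]` -/
noncomputable def tri26_c (n : ℕ) (d : D) : Eg2N D n := AddMonoidAlgebra.single 0 d

theorem tri26_ext {f g : Module.End D (Bt66Q D I)}
    (h : ∀ w : Eg2N D n, f ((eg2Ext D I).mkQ w) = g ((eg2Ext D I).mkQ w)) : f = g := by
  refine LinearMap.ext fun q => ?_
  obtain ⟨w, rfl⟩ := (eg2Ext D I).mkQ_surjective q
  exact h w

theorem tri26_rmul_mul (s t : Eg2N D n) :
    bt66_rmul D I t * bt66_rmul D I s = bt66_rmul D I (s * t) := by
  refine tri26_ext D I fun w => ?_
  rw [Module.End.mul_apply, bt66_rmul_mk, bt66_rmul_mk, bt66_rmul_mk, mul_assoc]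

theorem tri26_rmul_add (s t : Eg2N D n) :
    bt66_rmul D I (s + t) = bt66_rmul D I s + bt66_rmul D I t := by
  refine tri26_ext D I fun w => ?_
  rw [LinearMap.add_apply, bt66_rmul_mk, bt66_rmul_mk, bt66_rmul_mk, mul_add, map_add]

theorem tri26_rmul_zero : bt66_rmul D I (0 : Eg2N D n) = 0 := by
  refine tri26_ext D I fun w => ?_
  rw [bt66_rmul_mk, mul_zero, map_zero, LinearMap.zero_apply]

theorem tri26_rmul_one : bt66_rmul D I (1 : Eg2N D n) = 1 := by
  refine tri26_ext D I fun w => ?_
  rw [bt66_rmul_mk, mul_one, Module.End.one_apply]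

theorem tri26_rmul_sum {ι : Type} (s : Finset ι) (t : ι → Eg2N D n) :
    bt66_rmul D I (∑ i ∈ s, t i) = ∑ i ∈ s, bt66_rmul D I (t i) := by
  classical
  induction s using Finset.induction_on with
  | empty => simpa using tri26_rmul_zero D I
  | insert a s ha ih => rw [Finset.sum_insert ha, Finset.sum_insert ha, tri26_rmul_add, ih]

theorem tri26_c_mul (a b : D) : tri26_c D n a * tri26_c D n b = tri26_c D n (a * b) := by
  unfold tri26_c
  rw [AddMonoidAlgebra.single_mul_single, zero_add]

theorem tri26_c_add (a b : D) : tri26_c D n a + tri26_c D n b = tri26_c D n (a + b) := by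
  unfold tri26_c
  rw [AddMonoidAlgebra.single_add]

theorem tri26_c_var (a : D) (j : Fin n) :
    tri26_c D n a * bt66_var D n j = AddMonoidAlgebra.single (Finsupp.single j 1) a := by
  unfold tri26_c bt66_var
  rw [AddMonoidAlgebra.single_mul_single, zero_add, mul_one]

theorem tri26_var_c (a : D) (j : Fin n) :
    bt66_var D n j * tri26_c D n a = AddMonoidAlgebra.single (Finsupp.single j 1) a := by
  unfold tri26_c bt66_var
  rw [AddMonoidAlgebra.single_mul_single, add_zero, one_mul]

theorem tri26_var_var (j k : Fin n) :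
    bt66_var D n j * bt66_var D n k = bt66_var D n k * bt66_var D n j :=
  (eg2d_central _ _).eq

theorem tri26_lin (τ : Fin n → D) :
    eg2Lin τ = ∑ j, tri26_c D n (τ j) * bt66_var D n j := by
  unfold eg2Lin
  exact Finset.sum_congr rfl fun j _ => (tri26_c_var D (τ j) j).symm

/-- the product of two linear forms -/
theorem tri26_lin_mul (τ τ' : Fin n → D) :
    eg2Lin τ * eg2Lin τ' = ∑ j, ∑ l,
      AddMonoidAlgebra.single (Finsupp.single j 1 + Finsupp.single l 1) (τ j * τ' l) := by
  unfold eg2Lin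
  rw [Finset.sum_mul_sum]
  exact Finset.sum_congr rfl fun j _ => Finset.sum_congr rfl fun l _ =>
    AddMonoidAlgebra.single_mul_single _ _ _ _

theorem tri26_pair_eq (j l j' l' : Fin n) :
    (Finsupp.single j' 1 + Finsupp.single l' 1 : Fin n →₀ ℕ) =
      Finsupp.single j 1 + Finsupp.single l 1 ↔ (j' = j ∧ l' = l) ∨ (j' = l ∧ l' = j) := by
  constructor
  · intro h
    have h1 := DFunLike.congr_fun h j'
    simp only [Finsupp.add_apply, Finsupp.single_apply, if_true] at h1
    by_cases hj : j = j'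
    · left
      subst hj
      refine ⟨rfl, ?_⟩
      have h2 := add_left_cancel h
      exact Finsupp.single_left_injective one_ne_zero h2
    · right
      by_cases hl : l = j'
      · subst hl
        refine ⟨rfl, ?_⟩
        rw [add_comm (Finsupp.single j 1)] at h
        have h2 := add_left_cancel h
        exact Finsupp.single_left_injective one_ne_zero h2
      · exfalso
        rw [if_neg hj, if_neg hl] at h1
        omega
  · rintro (⟨rfl, rfl⟩ | ⟨rfl, rfl⟩)
    · rfl
    · exact add_comm _ _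

theorem tri26_coeff_lin_mul (τ τ' : Fin n → D) (j l : Fin n) :
    eg2Co D (Finsupp.single j 1 + Finsupp.single l 1) (eg2Lin τ * eg2Lin τ') =
      if j = l then τ j * τ' j else τ j * τ' l + τ l * τ' j := by
  classical
  rw [tri26_lin_mul, ← Finset.sum_product', map_sum]
  have h1 : ∀ p : Fin n × Fin n, eg2Co D (Finsupp.single j 1 + Finsupp.single l 1)
      (AddMonoidAlgebra.single (Finsupp.single p.1 1 + Finsupp.single p.2 1) (τ p.1 * τ' p.2)) =
      if p ∈ ({(j, l), (l, j)} : Finset (Fin n × Fin n)) then τ p.1 * τ' p.2 else 0 := by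
    intro p
    have h2 : p ∈ ({(j, l), (l, j)} : Finset (Fin n × Fin n)) ↔
        (Finsupp.single p.1 1 + Finsupp.single p.2 1 : Fin n →₀ ℕ) =
          Finsupp.single j 1 + Finsupp.single l 1 := by
      rw [tri26_pair_eq, Finset.mem_insert, Finset.mem_singleton, Prod.ext_iff, Prod.ext_iff]
    show (AddMonoidAlgebra.single (Finsupp.single p.1 1 + Finsupp.single p.2 1)
      (τ p.1 * τ' p.2) : Eg2N D n).coeff _ = _
    rw [AddMonoidAlgebra.coeff_single, Finsupp.single_apply]
    simp only [h2]
  rw [Finset.sum_congr rfl fun p _ => h1 p, Finset.sum_ite_mem, Finset.univ_product_univ,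
    Finset.univ_inter]
  split_ifs with h
  · subst h; simp
  · rw [Finset.sum_pair (by
      intro h2
      exact h (Prod.ext_iff.mp h2).1)]

theorem tri26_manin (T : Bt66Forms D n) (i k j l : Fin n) :
    T.τ i j * T.τ k l + T.τ i l * T.τ k j = T.τ k j * T.τ i l + T.τ k l * T.τ i j := by
  have h := congrArg (eg2Co D (Finsupp.single j 1 + Finsupp.single l 1)) (T.comm i k).eq
  rw [tri26_coeff_lin_mul, tri26_coeff_lin_mul] at h
  split_ifs at h with hjl
  · subst hjl
    rw [h]
  · rw [h]

theorem tri26_manin' (T : Bt66Forms D n) (i k j : Fin n) :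
    T.τ i j * T.τ k j = T.τ k j * T.τ i j := by
  have h := congrArg (eg2Co D (Finsupp.single j 1 + Finsupp.single j 1)) (T.comm i k).eq
  rw [tri26_coeff_lin_mul, tri26_coeff_lin_mul, if_pos rfl, if_pos rfl] at h
  exact h

theorem tri26_right_inv (T : Bt66Forms D n) (i m : Fin n) :
    ∑ l, T.τ i l * T.σ l m = if i = m then 1 else 0 := by
  have h1 : (Matrix.of T.σ) * (Matrix.of T.τ) = 1 := by
    ext i k
    rw [Matrix.mul_apply, Matrix.one_apply]
    exact T.inv i k
  have h2 : (Matrix.of T.τ) * (Matrix.of T.σ) = 1 := mul_eq_one_comm.mp h1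
  have h3 := congrFun (congrFun h2 i) m
  rw [Matrix.mul_apply, Matrix.one_apply] at h3
  exact h3

theorem tri26_Qpc_finite (e : ℕ) : Module.Finite D (bt66_Qpc D I e) := by
  have := eg2d_finite (D := D) (n := n) e
  unfold bt66_Qpc
  exact Module.Finite.map _ _

theorem tri26_rmul_mem {t : Eg2N D n} {d : ℕ} (ht : t ∈ eg2Deg D n d) (e : ℕ)
    (b : Bt66Q D I) (hb : b ∈ bt66_Qpc D I e) : bt66_rmul D I t b ∈ bt66_Qpc D I (e + d) := by
  obtain ⟨w, hw, rfl⟩ := hb
  rw [bt66_rmul_mk]
  exact ⟨w * t, eg2d_mul hw ht, rfl⟩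

theorem tri26_rmul_comm {s t : Eg2N D n} (h : s * t = t * s) (b : Bt66Q D I) :
    bt66_rmul D I s (bt66_rmul D I t b) = bt66_rmul D I t (bt66_rmul D I s b) := by
  rw [← Module.End.mul_apply, ← Module.End.mul_apply, tri26_rmul_mul, tri26_rmul_mul, h]

theorem tri26_T_eq (T : Bt66Forms D n) :
    (fun i => ∑ j, bt66_rmul D I (bt66_var D n j) * bt66_rmul D I (tri26_c D n (T.τ i j))) =
      fun k => bt66_rmul D I (eg2Lin (T.τ k)) := by
  funext i
  rw [tri26_lin, tri26_rmul_sum]
  exact Finset.sum_congr rfl fun j _ => tri26_rmul_mul D I _ _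

/-- the Koszul ranks of the forms and of the variables on `Q` agree -/
theorem tri26_rank (T : Bt66Forms D n) (p j : ℕ) :
    r278m_rank (fun k => bt66_rmul D I (eg2Lin (T.τ k))) (bt66_Qpc D I) p j =
      r278m_rank (fun k => bt66_rmul D I (bt66_var D n k)) (bt66_Qpc D I) p j := by
  rw [← tri26_T_eq]
  refine tr136_rank_transfer (fun k => bt66_rmul D I (bt66_var D n k))
    (fun i j => bt66_rmul D I (tri26_c D n (T.τ i j)))
    (fun l m => bt66_rmul D I (tri26_c D n (T.σ l m))) ?_ ?_ ?_ ?_ (bt66_Qpc D I)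
    (tri26_Qpc_finite D I) ?_ p j
  · intro i j k
    rw [tri26_rmul_mul, tri26_rmul_mul, tri26_var_c, tri26_c_var]
  · intro i k j l
    simp only [tri26_rmul_mul, ← tri26_rmul_add, tri26_c_mul, tri26_c_add]
    congr 2
    have := tri26_manin D T i k j l
    rw [add_comm (T.τ k l * T.τ i j), add_comm (T.τ i l * T.τ k j)]
    exact this.symm
  · intro i k j
    simp only [tri26_rmul_mul, tri26_c_mul]
    rw [tri26_manin' D T i k j]
  · intro i m
    simp only [tri26_rmul_mul, tri26_c_mul, ← tri26_rmul_sum]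
    have h1 : ∑ l, tri26_c D n (T.τ i l * T.σ l m) = tri26_c D n (∑ l, T.τ i l * T.σ l m) := by
      unfold tri26_c
      exact (map_sum (AddMonoidAlgebra.singleAddHom (0 : Fin n →₀ ℕ)) _ _).symm
    rw [h1, tri26_right_inv]
    split_ifs
    · exact tri26_rmul_one D I
    · have : tri26_c D n (0 : D) = 0 := by unfold tri26_c; simp
      rw [this]; exact tri26_rmul_zero D I
  · intro i j e b hb
    have := tri26_rmul_mem D I (t := tri26_c D n (T.τ i j)) (d := 0)
      (eg2d_single _ _ (by simp)) e b hb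
    simpa using this

/-- **LEAF TR of `Mono66`, verbatim.** -/
theorem tri26_transfer (T : Bt66Forms D n) (p j : ℕ) :
    r278m_betti (fun k => bt66_rmul D I (eg2Lin (T.τ k))) (bt66_Qpc D I) p j =
      r278m_betti (fun k => bt66_rmul D I (bt66_var D n k)) (bt66_Qpc D I) p j := by
  have h1 := r278m_betti_add_ranks (fun k => bt66_rmul D I (eg2Lin (T.τ k)))
    (fun k l b => tri26_rmul_comm D I (T.comm k l).eq b)
    (P := bt66_Qpc D I) (fun k e b hb => tri26_rmul_mem D I (eg2d_lin _) e b hb)
    (tri26_Qpc_finite D I) p j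
  have h2 := r278m_betti_add_ranks (fun k => bt66_rmul D I (bt66_var D n k))
    (fun k l b => tri26_rmul_comm D I (tri26_var_var D k l) b)
    (P := bt66_Qpc D I)
    (fun k e b hb => tri26_rmul_mem D I (eg2d_single _ _ (by simp [Finsupp.single_apply])) e b hb)
    (tri26_Qpc_finite D I) p j
  rw [tri26_rank, tri26_rank] at h1
  omega

end inst

end Claimed.Agent.R278
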